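import Mathlib
import Vale.Agent.P018.Base

set_option linter.all false

section

/-! # P018: auxiliary definitions. -/

namespace Vale.Agent.P018

open Polynomial

open Classical in
/-- `tail f k X` is the number of `1 ≤ n ≤ X` for which `p^k ∣ f(n)` for some prime `p > X`. -/
noncomputable def tail (f : ℤ[X]) (k X : ℕ) : ℕ :=
  ((Finset.Icc 1 X).filter (fun n : ℕ => ∃ p : ℕ, p.Prime ∧ X < p ∧ (p : ℤ) ^ k ∣ f.eval (n : ℤ))).card

/-- evaluation of a rational polynomial in two variables at an integer point. -/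
noncomputable def evQ (z : ℤ × ℤ) : MvPolynomial (Fin 2) ℚ →+* ℚ :=
  MvPolynomial.eval ![(z.1 : ℚ), (z.2 : ℚ)]

/-- evaluation of an integer polynomial in two variables at an integer point. -/
noncomputable def evZ (z : ℤ × ℤ) : MvPolynomial (Fin 2) ℤ →+* ℤ :=
  MvPolynomial.eval ![z.1, z.2]

/-- `q(x, 0)` as a polynomial in one variable. -/
noncomputable def res0 : MvPolynomial (Fin 2) ℚ →ₐ[ℚ] ℚ[X] :=
  MvPolynomial.aeval ![(X : ℚ[X]), 0]

theorem evQ_map (z : ℤ × ℤ) (Q : MvPolynomial (Fin 2) ℤ) :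
    evQ z (MvPolynomial.map (Int.castRingHom ℚ) Q) = (evZ z Q : ℚ) := by
  unfold evQ evZ
  rw [MvPolynomial.eval_map]
  have : ((MvPolynomial.eval ![z.1, z.2]) Q : ℚ) = Int.castRingHom ℚ (MvPolynomial.eval ![z.1, z.2] Q) := rfl
  rw [this, MvPolynomial.eval, MvPolynomial.coe_eval₂Hom, MvPolynomial.eval₂_comp_left]
  congr 1
  funext i
  fin_cases i <;> simp

end Vale.Agent.P018
end

section

namespace Vale.Agent.P018

open Polynomial

open Classical in
/-- pairs `(n, p)` with `n ≤ X`, `P < p ≤ 2 P` prime and `p^k ∣ f(n)`. -/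
noncomputable def pairs (f : ℤ[X]) (k X P : ℕ) : Finset (ℕ × ℕ) :=
  ((Finset.Icc 1 X) ×ˢ (Finset.Ioc P (2 * P))).filter
    (fun z => z.2.Prime ∧ (z.2 : ℤ) ^ k ∣ f.eval (z.1 : ℤ))

end Vale.Agent.P018
end

section

/-! # P018, K-method: definitions.

`G` is a monic integer polynomial of degree `d` with roots `θ 0, …, θ (d-1)` in the ring of
integers of a number field `L`; the small elements are `ell (θ i) y = ∑ j, y j * (θ i)^j`. -/

namespace Vale.Agent.P018.K

open Polynomial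

/-- the element `∑ j, y j * θ ^ j`. -/
def ell {R : Type*} [CommRing R] {d : ℕ} (θ : R) (y : Fin d → ℤ) : R :=
  ∑ j, (y j : R) * θ ^ (j : ℕ)

/-- `need k e = ⌈-e/k⌉` for negative `e`, and `0` for `e ≥ 0`. -/
def need (k : ℕ) (e : ℤ) : ℕ := ((-e).toNat + (k - 1)) / k

/-- the sum of the `need k (e i)`. -/
def needs (k : ℕ) {r : ℕ} (e : Fin r → ℤ) : ℕ := ∑ i, need k (e i)

/-- the function `n^(t - needs) * ∏ γ_i^(need) π_i^(e_i + k need)`. -/
def fn {R : Type*} [CommRing R] {r : ℕ} (k : ℕ) (n : R) (z γ : Fin r → R) (t : ℕ)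
    (e : Fin r → ℤ) : R :=
  n ^ (t - needs k e) * ∏ i, γ i ^ need k (e i) * z i ^ (e i + k * need k (e i)).toNat

/-- the integral in the criterion. -/
noncomputable def Jint (r : ℕ) (m w k : ℝ) : ℝ :=
  ∑ j ∈ Finset.Icc 1 r,
    (r.choose j : ℝ) / ((j - 1).factorial * (r - j + 1).factorial * w ^ (r - j)) *
      ∫ u in (0 : ℝ)..k, u ^ (j - 1) * (max (w * u - m) 0) ^ (r - j + 1)

end Vale.Agent.P018.K
end

section

/-! # P018, module A: the sieve -/

namespace Vale.Agent.P018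

open Polynomial Filter Topology Asymptotics

/-! ### bounded number of roots modulo prime powers -/

theorem sv_normal (a : ℚ[X]) : ∃ (A : ℤ[X]) (b : ℤ), b ≠ 0 ∧
    A.map (Int.castRingHom ℚ) = C (b : ℚ) * a := by
  obtain ⟨b, hb, h⟩ := IsLocalization.integerNormalization_spec (nonZeroDivisors ℤ) a
  refine ⟨IsLocalization.integerNormalization (nonZeroDivisors ℤ) a, b,
    nonZeroDivisors.ne_zero hb, ?_⟩
  have h1 : (algebraMap ℤ ℚ) = Int.castRingHom ℚ := rfl
  rw [h1] at h
  rw [h, zsmul_eq_mul]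
  congr 1

theorem sv_bezout (f : ℤ[X]) (hirr : Irreducible (f.map (Int.castRingHom ℚ))) :
    ∃ (u v : ℤ[X]) (R : ℤ), R ≠ 0 ∧ u * f + v * derivative f = C R := by
  obtain ⟨a, b, hab⟩ := hirr.separable
  obtain ⟨A, s, hs, hA⟩ := sv_normal a
  obtain ⟨B, t, ht, hB⟩ := sv_normal b
  refine ⟨C t * A, C s * B, s * t, mul_ne_zero hs ht, ?_⟩
  have hinj : Function.Injective (Polynomial.map (Int.castRingHom ℚ)) :=
    Polynomial.map_injective _ (Int.cast_injective)
  apply hinj
  rw [Polynomial.derivative_map] at hab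
  simp only [Polynomial.map_add, Polynomial.map_mul, Polynomial.map_C, hA, hB]
  simp only [eq_intCast, Int.cast_mul, C_mul]
  calc _ = C (s : ℚ) * C (t : ℚ) * (a * map (Int.castRingHom ℚ) f
        + b * map (Int.castRingHom ℚ) (derivative f)) := by ring
    _ = _ := by rw [hab, mul_one]

theorem sv_roots_mod_p (f : ℤ[X]) (p : ℕ) (hp : p.Prime) (hlc : ¬ (p : ℤ) ∣ f.leadingCoeff) :
    rho f p ≤ f.natDegree := by
  have : Fact p.Prime := ⟨hp⟩
  set g : (ZMod p)[X] := f.map (Int.castRingHom (ZMod p)) with hg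
  have hlc' : (Int.castRingHom (ZMod p)) f.leadingCoeff ≠ 0 := by
    intro h
    apply hlc
    rw [eq_intCast] at h
    exact (ZMod.intCast_zmod_eq_zero_iff_dvd _ p).mp h
  have hg0 : g ≠ 0 := by
    intro h
    apply hlc'
    have : g.coeff f.natDegree = 0 := by rw [h]; simp
    rw [hg, coeff_map] at this
    exact this
  have hdeg : g.natDegree ≤ f.natDegree := natDegree_map_le
  have hsub : ((Finset.range p).filter (fun a : ℕ => (p : ℤ) ∣ f.eval (a : ℤ))).image
      (fun a : ℕ => (a : ZMod p)) ⊆ g.roots.toFinset := by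
    intro x hx
    obtain ⟨a, ha, rfl⟩ := Finset.mem_image.mp hx
    rw [Multiset.mem_toFinset, mem_roots hg0, IsRoot.def, hg]
    have h1 := (Finset.mem_filter.mp ha).2
    have h2 := (ZMod.intCast_zmod_eq_zero_iff_dvd _ p).mpr h1
    have h3 : eval ((Int.castRingHom (ZMod p)) (a : ℤ)) (map (Int.castRingHom (ZMod p)) f) =
        (Int.castRingHom (ZMod p)) (eval (a : ℤ) f) := eval_map_apply _ _
    simp only [eq_intCast, Int.cast_natCast] at h3
    rw [h3]
    exact h2
  have hinj : Set.InjOn (fun a : ℕ => (a : ZMod p))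
      ((Finset.range p).filter (fun a : ℕ => (p : ℤ) ∣ f.eval (a : ℤ)) : Finset ℕ) := by
    intro a ha b hb hab
    have ha' := Finset.mem_range.mp (Finset.mem_filter.mp (Finset.mem_coe.mp ha)).1
    have hb' := Finset.mem_range.mp (Finset.mem_filter.mp (Finset.mem_coe.mp hb)).1
    have h := (ZMod.natCast_eq_natCast_iff' a b p).mp hab
    rwa [Nat.mod_eq_of_lt ha', Nat.mod_eq_of_lt hb'] at h
  calc rho f p = (((Finset.range p).filter (fun a : ℕ => (p : ℤ) ∣ f.eval (a : ℤ))).image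
      (fun a : ℕ => (a : ZMod p))).card := (Finset.card_image_of_injOn hinj).symm
    _ ≤ g.roots.toFinset.card := Finset.card_le_card hsub
    _ ≤ g.roots.card := Multiset.toFinset_card_le _
    _ ≤ g.natDegree := card_roots' g
    _ ≤ f.natDegree := hdeg

theorem sv_rho_pow_le (f : ℤ[X]) (k p : ℕ) (hp : p.Prime) (hk : 1 ≤ k) (u v : ℤ[X]) (R : ℤ)
    (hR : u * f + v * derivative f = C R) (hpR : ¬ (p : ℤ) ∣ R) : rho f (p ^ k) ≤ rho f p := by
  unfold rho
  have hp0 : 0 < p := hp.pos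
  have hpp : Prime (p : ℤ) := Nat.prime_iff_prime_int.mp hp
  refine Finset.card_le_card_of_injOn (fun a => a % p) ?_ ?_
  · intro a ha
    have ha2 := (Finset.mem_filter.mp (Finset.mem_coe.mp ha)).2
    refine Finset.mem_coe.mpr (Finset.mem_filter.mpr ⟨Finset.mem_range.mpr (Nat.mod_lt _ hp0), ?_⟩)
    have h1 : (p : ℤ) ∣ f.eval (a : ℤ) := by
      refine dvd_trans ?_ ha2
      push_cast
      exact dvd_pow_self _ (by omega)
    have h2 : ((a : ℤ) - ((a % p : ℕ) : ℤ)) ∣ f.eval (a : ℤ) - f.eval ((a % p : ℕ) : ℤ) :=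
      sub_dvd_eval_sub _ _ f
    have h3 : (p : ℤ) ∣ (a : ℤ) - ((a % p : ℕ) : ℤ) := by
      push_cast
      exact Int.dvd_self_sub_emod
    have h4 := h3.trans h2
    have := dvd_sub h1 h4
    simpa using this
  · intro a ha b hb hab
    have ha2 := (Finset.mem_filter.mp (Finset.mem_coe.mp ha)).2
    have hb2 := (Finset.mem_filter.mp (Finset.mem_coe.mp hb)).2
    have ha1 := Finset.mem_range.mp (Finset.mem_filter.mp (Finset.mem_coe.mp ha)).1
    have hb1 := Finset.mem_range.mp (Finset.mem_filter.mp (Finset.mem_coe.mp hb)).1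
    have hab' : a % p = b % p := hab
    -- p divides b - a
    have hpd : (p : ℤ) ∣ (b : ℤ) - a := by
      have : (a : ℤ) ≡ b [ZMOD p] := by exact_mod_cast hab'
      exact this.dvd
    obtain ⟨c, hc⟩ := f.binomExpansion (a : ℤ) ((b : ℤ) - a)
    rw [add_sub_cancel] at hc
    have hfa : (p : ℤ) ∣ f.eval (a : ℤ) := by
      refine dvd_trans ?_ ha2
      push_cast
      exact dvd_pow_self _ (by omega)
    have hder : ¬ (p : ℤ) ∣ (derivative f).eval (a : ℤ) := by
      intro h
      apply hpR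
      have h1 : (u * f + v * derivative f).eval (a : ℤ) = R := by rw [hR]; simp
      rw [← h1, eval_add, eval_mul, eval_mul]
      exact dvd_add (Dvd.dvd.mul_left hfa _) (Dvd.dvd.mul_left h _)
    have hfac : f.eval (b : ℤ) - f.eval (a : ℤ) =
        ((b : ℤ) - a) * ((derivative f).eval (a : ℤ) + c * ((b : ℤ) - a)) := by
      rw [hc]
      ring
    have hnd : ¬ (p : ℤ) ∣ ((derivative f).eval (a : ℤ) + c * ((b : ℤ) - a)) := by
      intro h
      apply hder
      have := dvd_sub h (Dvd.dvd.mul_left hpd c)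
      simpa using this
    have hpk : ((p : ℤ)) ^ k ∣ ((b : ℤ) - a) := by
      have h1 : ((p : ℤ)) ^ k ∣ ((b : ℤ) - a) * ((derivative f).eval (a : ℤ) + c * ((b : ℤ) - a)) := by
        rw [← hfac]
        push_cast at ha2 hb2
        exact dvd_sub hb2 ha2
      exact (IsCoprime.pow_left ((Prime.coprime_iff_not_dvd hpp).mpr hnd)).dvd_of_dvd_mul_right h1
    have h5 : (a : ℤ) ≡ b [ZMOD ((p ^ k : ℕ) : ℤ)] := by
      apply (Int.modEq_iff_dvd).mpr
      push_cast
      exact hpk
    have h6 : a ≡ b [MOD p ^ k] := (Int.natCast_modEq_iff).mp h5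
    have h7 : a % p ^ k = b % p ^ k := h6
    rwa [Nat.mod_eq_of_lt ha1, Nat.mod_eq_of_lt hb1] at h7

theorem sv_rho_bound (f : ℤ[X]) (k : ℕ) (hk : 1 ≤ k)
    (hirr : Irreducible (f.map (Int.castRingHom ℚ))) :
    ∃ D : ℕ, ∀ p : ℕ, p.Prime → rho f (p ^ k) ≤ D := by
  obtain ⟨u, v, R, hR0, hR⟩ := sv_bezout f hirr
  have hf0 : f ≠ 0 := by
    rintro rfl
    simp at hirr
  have hlc0 : f.leadingCoeff ≠ 0 := leadingCoeff_ne_zero.mpr hf0
  set T := max R.natAbs f.leadingCoeff.natAbs with hT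
  refine ⟨f.natDegree + T ^ k, fun p hp => ?_⟩
  by_cases hpT : p ≤ T
  · have h1 : rho f (p ^ k) ≤ p ^ k := by
      unfold rho
      refine (Finset.card_filter_le _ _).trans ?_
      rw [Finset.card_range]
    have h2 : p ^ k ≤ T ^ k := Nat.pow_le_pow_left hpT k
    omega
  · push Not at hpT
    have h1 : ¬ (p : ℤ) ∣ R := by
      intro h
      have h2 : p ∣ R.natAbs := Int.natCast_dvd.mp h
      have h3 := Nat.le_of_dvd (Int.natAbs_pos.mpr hR0) h2
      have := le_max_left R.natAbs f.leadingCoeff.natAbs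
      omega
    have h1' : ¬ (p : ℤ) ∣ f.leadingCoeff := by
      intro h
      have h2 : p ∣ f.leadingCoeff.natAbs := Int.natCast_dvd.mp h
      have h3 := Nat.le_of_dvd (Int.natAbs_pos.mpr hlc0) h2
      have := le_max_right R.natAbs f.leadingCoeff.natAbs
      omega
    have h2 := sv_rho_pow_le f k p hp hk u v R hR h1
    have h3 := sv_roots_mod_p f p hp h1'
    omega

/-! ### the density as a limit -/

/-- the local factor as a function on all naturals -/
noncomputable def svLf (f : ℤ[X]) (k n : ℕ) : ℝ :=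
  if n.Prime then 1 - (rho f (n ^ k) : ℝ) / (n : ℝ) ^ k else 1

theorem svLf_pos (f : ℤ[X]) (k : ℕ) (hloc : ∀ p : ℕ, p.Prime → rho f (p ^ k) < p ^ k) (n : ℕ) :
    0 < svLf f k n := by
  unfold svLf
  split_ifs with h
  · have h1 : (rho f (n ^ k) : ℝ) < (n : ℝ) ^ k := by exact_mod_cast hloc n h
    have h2 : (0 : ℝ) < (n : ℝ) ^ k := by
      have : 0 < n ^ k := pow_pos h.pos k
      exact_mod_cast this
    have : (rho f (n ^ k) : ℝ) / (n : ℝ) ^ k < 1 := (div_lt_one h2).mpr h1
    linarith only [this]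
  · exact one_pos

theorem sv_density (f : ℤ[X]) (k : ℕ) (hk : 2 ≤ k) (D : ℕ)
    (hD : ∀ p : ℕ, p.Prime → rho f (p ^ k) ≤ D)
    (hloc : ∀ p : ℕ, p.Prime → rho f (p ^ k) < p ^ k) :
    0 < density f k ∧
      Tendsto (fun z : ℕ => ∏ n ∈ Finset.range z, svLf f k n) atTop (𝓝 (density f k)) := by
  have hpos := svLf_pos f k hloc
  have hsum : Summable (fun n : ℕ => svLf f k n - 1) := by
    have h1 : Summable (fun n : ℕ => (D : ℝ) * (1 / (n : ℝ) ^ 2)) :=
      (Real.summable_one_div_nat_pow.mpr (by norm_num)).mul_left _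
    refine Summable.of_norm_bounded h1 fun n => ?_
    unfold svLf
    split_ifs with h
    · have h2 : (1 : ℝ) ≤ n := by exact_mod_cast h.one_lt.le
      have h3 : (n : ℝ) ^ 2 ≤ (n : ℝ) ^ k := pow_le_pow_right₀ h2 hk
      have h4 : (rho f (n ^ k) : ℝ) ≤ D := by exact_mod_cast hD n h
      have h5 : (0 : ℝ) ≤ (rho f (n ^ k) : ℝ) / (n : ℝ) ^ k := by positivity
      rw [Real.norm_eq_abs, show (1 : ℝ) - (rho f (n ^ k) : ℝ) / (n : ℝ) ^ k - 1 =
        -((rho f (n ^ k) : ℝ) / (n : ℝ) ^ k) by ring, abs_neg, abs_of_nonneg h5, mul_one_div]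
      gcongr
    · simp
      (clear * -; positivity)
  have hlog : Summable (fun n : ℕ => Real.log (svLf f k n)) := by
    have := Real.summable_log_one_add_of_summable hsum
    refine this.congr fun n => ?_
    congr 1
    ring
  have hprod := Real.hasProd_of_hasSum_log hpos hlog.hasSum
  have hd : density f k = ∏' n : ℕ, svLf f k n := by
    unfold density
    have h1 := tprod_subtype {p : ℕ | p.Prime}
      (fun p : ℕ => (1 - (rho f (p ^ k) : ℝ) / (p : ℝ) ^ k))
    have h2 : (∏' n : ℕ, svLf f k n) =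
        ∏' n : ℕ, ({p : ℕ | p.Prime}).mulIndicator
          (fun p : ℕ => (1 - (rho f (p ^ k) : ℝ) / (p : ℝ) ^ k)) n := by
      congr 1
      funext n
      unfold svLf
      by_cases h : n.Prime
      · rw [if_pos h, Set.mulIndicator_of_mem (by exact h)]
      · rw [if_neg h, Set.mulIndicator_of_notMem (by exact h)]
    rw [h2, ← h1]
    rfl
  rw [hd, hprod.tprod_eq]
  exact ⟨Real.exp_pos _, hprod.tendsto_prod_nat⟩

/-! ### periodic functions -/

theorem sv_sum_mul (G : ℕ → ℝ) (M : ℕ) (hper : ∀ u, G (u + M) = G u) (q r : ℕ) :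
    ∑ n ∈ Finset.range (M * q + r), G n = q * ∑ n ∈ Finset.range M, G n
      + ∑ n ∈ Finset.range r, G n := by
  induction q with
  | zero => simp
  | succ q ih =>
    have h1 : M * (q + 1) + r = M + (M * q + r) := by ring
    rw [h1, Finset.sum_range_add]
    have h2 : ∀ n ∈ Finset.range (M * q + r), G (M + n) = G n := fun n _ => by
      rw [add_comm, hper]
    rw [Finset.sum_congr rfl h2, ih]
    push_cast
    ring

theorem sv_periodic_bound (G : ℕ → ℝ) (M : ℕ) (hM : 0 < M) (hper : ∀ u, G (u + M) = G u)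
    (h0 : ∀ u, 0 ≤ G u) (h1 : ∀ u, G u ≤ 1) (X : ℕ) :
    |∑ n ∈ Finset.Icc 1 X, G n - X * ((∑ n ∈ Finset.range M, G n) / M)| ≤ M + 2 := by
  set S := ∑ n ∈ Finset.range M, G n with hS
  have hM' : (0 : ℝ) < M := by exact_mod_cast hM
  have hS0 : 0 ≤ S := Finset.sum_nonneg fun _ _ => h0 _
  have hSM : S ≤ M := by
    calc S ≤ ∑ n ∈ Finset.range M, (1 : ℝ) := Finset.sum_le_sum fun _ _ => h1 _
      _ = M := by simp
  have hIcc : ∑ n ∈ Finset.Icc 1 X, G n = ∑ n ∈ Finset.range (X + 1), G n - G 0 := by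
    have h : Finset.range (X + 1) = insert 0 (Finset.Icc 1 X) := by
      ext n
      simp only [Finset.mem_range, Finset.mem_insert, Finset.mem_Icc]
      omega
    rw [h, Finset.sum_insert (by simp)]
    ring
  set q := (X + 1) / M with hq
  set r := (X + 1) % M with hr
  have hqr : X + 1 = M * q + r := (Nat.div_add_mod (X + 1) M).symm
  have hrM : r < M := Nat.mod_lt _ hM
  have hsum : ∑ n ∈ Finset.range (X + 1), G n = q * S + ∑ n ∈ Finset.range r, G n := by
    rw [hqr]
    exact sv_sum_mul G M hper q r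
  set T := ∑ n ∈ Finset.range r, G n with hT
  have hT0 : 0 ≤ T := Finset.sum_nonneg fun _ _ => h0 _
  have hTr : T ≤ r := by
    calc T ≤ ∑ n ∈ Finset.range r, (1 : ℝ) := Finset.sum_le_sum fun _ _ => h1 _
      _ = r := by simp
  have hqr' : (X : ℝ) + 1 = M * q + r := by exact_mod_cast hqr
  have hr' : (r : ℝ) ≤ M := by exact_mod_cast hrM.le
  have hr0 : (0 : ℝ) ≤ r := Nat.cast_nonneg r
  have hX : (X : ℝ) * (S / M) = q * S + (r - 1) * (S / M) := by
    have : (X : ℝ) = M * q + r - 1 := by linarith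
    rw [this]
    field_simp
    ring
  have hSM1 : S / M ≤ 1 := (div_le_one hM').mpr hSM
  have hSM0 : 0 ≤ S / M := by (clear * - hS0 hM; positivity)
  rw [hIcc, hsum, hX]
  have h00 := h0 0
  have h01 := h1 0
  rw [abs_le]
  constructor
  · nlinarith
  · nlinarith

theorem sv_periodic_upper (G : ℕ → ℝ) (M : ℕ) (hM : 0 < M) (hper : ∀ u, G (u + M) = G u)
    (h0 : ∀ u, 0 ≤ G u) (X : ℕ) :
    ∑ n ∈ Finset.Icc 1 X, G n ≤ ((X : ℝ) / M + 1) * ∑ n ∈ Finset.range M, G n := by
  have hsub : Finset.Icc 1 X ⊆ Finset.range (M * (X / M + 1) + 0) := by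
    intro n hn
    rw [Finset.mem_Icc] at hn
    rw [Finset.mem_range]
    have := Nat.lt_mul_div_succ X hM
    omega
  have hS0 : 0 ≤ ∑ n ∈ Finset.range M, G n := Finset.sum_nonneg fun _ _ => h0 _
  calc ∑ n ∈ Finset.Icc 1 X, G n ≤ ∑ n ∈ Finset.range (M * (X / M + 1) + 0), G n :=
        Finset.sum_le_sum_of_subset_of_nonneg hsub fun n _ _ => h0 n
    _ = ((X / M + 1 : ℕ) : ℝ) * ∑ n ∈ Finset.range M, G n := by
        rw [sv_sum_mul G M hper]
        simp
    _ ≤ ((X : ℝ) / M + 1) * ∑ n ∈ Finset.range M, G n := by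
        refine mul_le_mul_of_nonneg_right ?_ hS0
        push_cast
        have : ((X / M : ℕ) : ℝ) ≤ (X : ℝ) / M := Nat.cast_div_le
        linarith

/-- two-variable CRT for sums. -/
theorem sv_sum_range_mul_coprime {m n : ℕ} (hm : 0 < m) (hn : 0 < n) (h : Nat.Coprime m n)
    (F : ℕ → ℕ → ℝ) :
    ∑ u ∈ Finset.range (m * n), F (u % m) (u % n) =
      ∑ v ∈ Finset.range m, ∑ w ∈ Finset.range n, F v w := by
  rw [← Finset.sum_product']
  refine Finset.sum_nbij (fun u => (u % m, u % n)) ?_ ?_ ?_ ?_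
  · intro u _
    simp only [Finset.mem_product, Finset.mem_range]
    exact ⟨Nat.mod_lt _ hm, Nat.mod_lt _ hn⟩
  · intro u hu v hv huv
    simp only [Finset.coe_range, Set.mem_Iio] at hu hv
    simp only [Prod.mk.injEq] at huv
    have h1 : u ≡ v [MOD m * n] :=
      (Nat.modEq_and_modEq_iff_modEq_mul h).1 ⟨huv.1, huv.2⟩
    have h2 : u % (m * n) = v % (m * n) := h1
    rwa [Nat.mod_eq_of_lt hu, Nat.mod_eq_of_lt hv] at h2
  · rintro ⟨a, b⟩ hab
    simp only [Finset.coe_product, Finset.coe_range, Set.mem_prod, Set.mem_Iio] at hab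
    refine ⟨(Nat.chineseRemainder h a b : ℕ), ?_, ?_⟩
    · simp only [Finset.coe_range, Set.mem_Iio]
      exact Nat.chineseRemainder_lt_mul h a b hm.ne' hn.ne'
    · have hp := (Nat.chineseRemainder h a b).2
      simp only [Prod.mk.injEq]
      constructor
      · have : (Nat.chineseRemainder h a b : ℕ) % m = a % m := hp.1
        rw [this, Nat.mod_eq_of_lt hab.1]
      · have : (Nat.chineseRemainder h a b : ℕ) % n = b % n := hp.2
        rw [this, Nat.mod_eq_of_lt hab.2]
  · intro u _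
    rfl

theorem sv_dvd_mod (f : ℤ[X]) (q u : ℕ) :
    ((q : ℤ) ∣ f.eval ((u % q : ℕ) : ℤ)) ↔ ((q : ℤ) ∣ f.eval (u : ℤ)) := by
  have h2 : ((u : ℤ) - ((u % q : ℕ) : ℤ)) ∣ f.eval (u : ℤ) - f.eval ((u % q : ℕ) : ℤ) :=
    sub_dvd_eval_sub _ _ f
  have h3 : (q : ℤ) ∣ (u : ℤ) - ((u % q : ℕ) : ℤ) := by
    push_cast
    exact Int.dvd_self_sub_emod
  have h4 := h3.trans h2
  constructor
  · intro h
    have := dvd_add h4 h
    simpa using this
  · intro h
    have := dvd_sub h h4
    simpa using this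

/-- indicator of `q` not dividing `f(n)` -/
noncomputable def svI (f : ℤ[X]) (q n : ℕ) : ℝ := if (q : ℤ) ∣ f.eval (n : ℤ) then 0 else 1

theorem svI_mod (f : ℤ[X]) (q u : ℕ) : svI f q (u % q) = svI f q u := by
  unfold svI
  simp only [sv_dvd_mod]

theorem svI_mod_of_dvd (f : ℤ[X]) {q M : ℕ} (h : q ∣ M) (u : ℕ) : svI f q (u % M) = svI f q u := by
  rw [← svI_mod f q (u % M), Nat.mod_mod_of_dvd _ h, svI_mod]

theorem svI_sum (f : ℤ[X]) (q : ℕ) :
    ∑ u ∈ Finset.range q, svI f q u = (q : ℝ) - rho f q := by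
  have h1 : ∀ u ∈ Finset.range q, svI f q u = 1 - (if (q : ℤ) ∣ f.eval (u : ℤ) then (1 : ℝ) else 0) := by
    intro u _
    unfold svI
    split_ifs <;> simp
  rw [Finset.sum_congr rfl h1, Finset.sum_sub_distrib, Finset.sum_boole]
  simp [rho]

theorem sv_prod_sum (f : ℤ[X]) (k : ℕ) (P : Finset ℕ) (hP : ∀ p ∈ P, p.Prime) :
    ∑ u ∈ Finset.range (∏ p ∈ P, p ^ k), ∏ p ∈ P, svI f (p ^ k) u =
      ∏ p ∈ P, ((p : ℝ) ^ k - rho f (p ^ k)) := by
  induction P using Finset.induction_on with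
  | empty => simp
  | insert p P hp ih =>
    have hpp := hP p (Finset.mem_insert_self p P)
    have hP' : ∀ q ∈ P, q.Prime := fun q hq => hP q (Finset.mem_insert_of_mem hq)
    have ih' := ih hP'
    rw [Finset.prod_insert hp, Finset.prod_insert hp]
    set M := ∏ q ∈ P, q ^ k with hM
    have hMpos : 0 < M := Finset.prod_pos fun q hq => pow_pos (hP' q hq).pos k
    have hcop : Nat.Coprime (p ^ k) M := by
      rw [hM]
      apply Nat.Coprime.prod_right
      intro q hq
      apply Nat.Coprime.pow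
      rw [Nat.coprime_primes hpp (hP' q hq)]
      rintro rfl
      exact hp hq
    have h1 : ∀ u ∈ Finset.range (p ^ k * M), ∏ q ∈ insert p P, svI f (q ^ k) u =
        svI f (p ^ k) (u % (p ^ k)) * ∏ q ∈ P, svI f (q ^ k) (u % M) := by
      intro u _
      rw [Finset.prod_insert hp, svI_mod]
      congr 1
      refine Finset.prod_congr rfl fun q hq => ?_
      rw [svI_mod_of_dvd f (Finset.dvd_prod_of_mem (fun q => q ^ k) hq)]
    rw [Finset.sum_congr rfl h1, sv_sum_range_mul_coprime (pow_pos hpp.pos k) hMpos hcop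
      (fun v w => svI f (p ^ k) v * ∏ q ∈ P, svI f (q ^ k) w), ← Finset.sum_mul_sum, ih', svI_sum]
    push_cast
    rfl

/-! ### the partial sieve -/

/-- indicator that no `k`-th power of a prime below `z` divides `f(n)` -/
noncomputable def svG (f : ℤ[X]) (k z n : ℕ) : ℝ :=
  ∏ p ∈ (Finset.range z).filter Nat.Prime, svI f (p ^ k) n

theorem svI_nonneg (f : ℤ[X]) (q n : ℕ) : 0 ≤ svI f q n := by
  unfold svI
  split_ifs <;> norm_num

theorem svI_le_one (f : ℤ[X]) (q n : ℕ) : svI f q n ≤ 1 := by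
  unfold svI
  split_ifs <;> norm_num

theorem svG_nonneg (f : ℤ[X]) (k z n : ℕ) : 0 ≤ svG f k z n :=
  Finset.prod_nonneg fun _ _ => svI_nonneg f _ n

theorem svG_le_one (f : ℤ[X]) (k z n : ℕ) : svG f k z n ≤ 1 :=
  Finset.prod_le_one (fun _ _ => svI_nonneg f _ n) fun _ _ => svI_le_one f _ n

theorem sv_partial (f : ℤ[X]) (k z : ℕ) :
    Tendsto (fun X : ℕ => (∑ n ∈ Finset.Icc 1 X, svG f k z n) / X) atTop
      (𝓝 (∏ n ∈ Finset.range z, svLf f k n)) := by
  set P := (Finset.range z).filter Nat.Prime with hP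
  have hPp : ∀ p ∈ P, p.Prime := fun p hp => (Finset.mem_filter.mp hp).2
  set M := ∏ p ∈ P, p ^ k with hM
  have hMpos : 0 < M := Finset.prod_pos fun q hq => pow_pos (hPp q hq).pos k
  have hM' : (0 : ℝ) < M := by exact_mod_cast hMpos
  have hper : ∀ u, svG f k z (u + M) = svG f k z u := by
    intro u
    unfold svG
    refine Finset.prod_congr rfl fun p hp => ?_
    have hd : p ^ k ∣ M := Finset.dvd_prod_of_mem (fun q => q ^ k) hp
    rw [← svI_mod_of_dvd f hd (u + M), Nat.add_mod_right, svI_mod_of_dvd f hd]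
  have hlim : (∑ n ∈ Finset.range M, svG f k z n) / M = ∏ n ∈ Finset.range z, svLf f k n := by
    have h1 : ∑ n ∈ Finset.range M, svG f k z n = ∏ p ∈ P, ((p : ℝ) ^ k - rho f (p ^ k)) :=
      sv_prod_sum f k P hPp
    have h2 : (M : ℝ) = ∏ p ∈ P, (p : ℝ) ^ k := by rw [hM]; push_cast; rfl
    rw [h1, h2, ← Finset.prod_div_distrib, hP, Finset.prod_filter]
    refine Finset.prod_congr rfl fun n _ => ?_
    unfold svLf
    split_ifs with h
    · have hn : (n : ℝ) ^ k ≠ 0 := pow_ne_zero _ (by exact_mod_cast h.pos.ne')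
      rw [sub_div, div_self hn]
    · rfl
  rw [← hlim]
  have hb := sv_periodic_bound (svG f k z) M hMpos hper (svG_nonneg f k z) (svG_le_one f k z)
  set A := (∑ n ∈ Finset.range M, svG f k z n) / M with hA
  have h0 : Tendsto (fun X : ℕ => ((M : ℝ) + 2) / X) atTop (𝓝 0) :=
    tendsto_const_div_atTop_nhds_zero_nat _
  rw [tendsto_iff_norm_sub_tendsto_zero]
  refine squeeze_zero' (Eventually.of_forall fun _ => norm_nonneg _) ?_ h0
  filter_upwards [eventually_ge_atTop 1] with X hX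
  have hX0 : (0 : ℝ) < X := by exact_mod_cast hX
  have : (∑ n ∈ Finset.Icc 1 X, svG f k z n) / X - A =
      (∑ n ∈ Finset.Icc 1 X, svG f k z n - X * A) / X := by
    field_simp
  rw [this, Real.norm_eq_abs, abs_div, abs_of_pos hX0]
  exact div_le_div_of_nonneg_right (hb X) hX0.le

theorem sv_count_dvd_le (f : ℤ[X]) (q : ℕ) (hq : 0 < q) (X : ℕ) :
    (((Finset.Icc 1 X).filter (fun n : ℕ => (q : ℤ) ∣ f.eval (n : ℤ))).card : ℝ)
      ≤ ((X : ℝ) / q + 1) * rho f q := by
  set G : ℕ → ℝ := fun n => if (q : ℤ) ∣ f.eval (n : ℤ) then 1 else 0 with hG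
  have hper : ∀ u, G (u + q) = G u := by
    intro u
    have h1 := sv_dvd_mod f q (u + q)
    have h2 := sv_dvd_mod f q u
    rw [Nat.add_mod_right] at h1
    simp only [hG]
    exact if_congr (h1.symm.trans h2) rfl rfl
  have h := sv_periodic_upper G q hq hper (fun u => by simp only [hG]; split_ifs <;> norm_num) X
  rw [hG, Finset.sum_boole, Finset.sum_boole] at h
  exact h

theorem sv_primeCounting : Tendsto (fun X : ℕ => (Nat.primeCounting X : ℝ) / X) atTop (𝓝 0) := by
  have h1 : Tendsto (fun X : ℕ => (Real.log 4 + 1) / Real.log X) atTop (𝓝 0) :=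
    Tendsto.const_div_atTop (Real.tendsto_log_atTop.comp tendsto_natCast_atTop_atTop) _
  refine squeeze_zero' (Eventually.of_forall fun _ => by positivity) ?_ h1
  have h2 := tendsto_natCast_atTop_atTop.eventually
    (Chebyshev.eventually_primeCounting_le (ε := 1) one_pos)
  filter_upwards [h2, eventually_ge_atTop 2] with X hX hX2
  rw [Nat.floor_natCast] at hX
  have hX0 : (0 : ℝ) < X := by positivity
  rw [div_le_iff₀ hX0]
  refine hX.trans (le_of_eq ?_)
  ring

theorem sv_diff (f : ℤ[X]) (k : ℕ) (hk : 2 ≤ k) (D : ℕ)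
    (hD : ∀ p : ℕ, p.Prime → rho f (p ^ k) ≤ D) (z : ℕ) (hz : 1 ≤ z) (X : ℕ) :
    |(countPF f k X : ℝ) - ∑ n ∈ Finset.Icc 1 X, svG f k z n| ≤
      D * (2 / z) * X + D * Nat.primeCounting X + tail f k X := by
  classical
  -- the sum counts the integers surviving the primes below z
  set S := (Finset.Icc 1 X).filter (fun n : ℕ => ∀ p < z, p.Prime → ¬ ((p : ℤ) ^ k ∣ f.eval (n : ℤ)))
    with hS
  have hGS : ∑ n ∈ Finset.Icc 1 X, svG f k z n = (S.card : ℝ) := by
    rw [hS, Finset.card_filter]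
    push_cast
    refine Finset.sum_congr rfl fun n _ => ?_
    unfold svG
    split_ifs with h
    · refine Finset.prod_eq_one fun p hp => ?_
      rw [Finset.mem_filter, Finset.mem_range] at hp
      have := h p hp.1 hp.2
      unfold svI
      push_cast
      rw [if_neg this]
    · push Not at h
      obtain ⟨p, hpz, hpp, hpd⟩ := h
      refine Finset.prod_eq_zero (i := p) ?_ ?_
      · rw [Finset.mem_filter, Finset.mem_range]
        exact ⟨hpz, hpp⟩
      · unfold svI
        push_cast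
        rw [if_pos hpd]
  have hsub : (Finset.Icc 1 X).filter (fun n : ℕ => PowerFree k (f.eval (n : ℤ))) ⊆ S := by
    intro n hn
    rw [Finset.mem_filter] at hn
    rw [hS, Finset.mem_filter]
    exact ⟨hn.1, fun p _ hp => hn.2 p hp⟩
  have hcount : countPF f k X =
      ((Finset.Icc 1 X).filter (fun n : ℕ => PowerFree k (f.eval (n : ℤ)))).card := by
    unfold countPF
    congr
  have hdiff : S \ (Finset.Icc 1 X).filter (fun n : ℕ => PowerFree k (f.eval (n : ℤ))) ⊆
      (((Finset.Ioo (z - 1) (X + 1)).filter Nat.Prime).biUnion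
        (fun p => (Finset.Icc 1 X).filter (fun n : ℕ => ((p ^ k : ℕ) : ℤ) ∣ f.eval (n : ℤ)))) ∪
      ((Finset.Icc 1 X).filter
        (fun n : ℕ => ∃ p : ℕ, p.Prime ∧ X < p ∧ (p : ℤ) ^ k ∣ f.eval (n : ℤ))) := by
    intro n hn
    rw [Finset.mem_sdiff, hS, Finset.mem_filter] at hn
    obtain ⟨⟨hnI, hnz⟩, hnot⟩ := hn
    have h1 : ¬ PowerFree k (f.eval (n : ℤ)) := fun h => hnot (Finset.mem_filter.mpr ⟨hnI, h⟩)
    unfold PowerFree at h1
    push Not at h1
    obtain ⟨p, hpp, hpd⟩ := h1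
    have hzp : z ≤ p := by
      by_contra hlt
      exact hnz p (by omega) hpp hpd
    rw [Finset.mem_union]
    by_cases hpX : p ≤ X
    · left
      rw [Finset.mem_biUnion]
      refine ⟨p, ?_, ?_⟩
      · rw [Finset.mem_filter, Finset.mem_Ioo]
        exact ⟨by omega, hpp⟩
      · rw [Finset.mem_filter]
        refine ⟨hnI, ?_⟩
        push_cast
        exact hpd
    · right
      rw [Finset.mem_filter]
      exact ⟨hnI, p, hpp, by omega, hpd⟩
  have htailc : tail f k X = ((Finset.Icc 1 X).filter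
        (fun n : ℕ => ∃ p : ℕ, p.Prime ∧ X < p ∧ (p : ℤ) ^ k ∣ f.eval (n : ℤ))).card := by
    unfold tail
    congr
  have hcard1 : S.card ≤ countPF f k X +
      (∑ p ∈ (Finset.Ioo (z - 1) (X + 1)).filter Nat.Prime,
        ((Finset.Icc 1 X).filter (fun n : ℕ => ((p ^ k : ℕ) : ℤ) ∣ f.eval (n : ℤ))).card)
      + tail f k X := by
    have h1 := Finset.card_sdiff_add_card_eq_card hsub
    have h2 := (Finset.card_le_card hdiff).trans (Finset.card_union_le _ _)
    have h3 := Finset.card_biUnion_le (s := (Finset.Ioo (z - 1) (X + 1)).filter Nat.Prime)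
      (t := fun p => (Finset.Icc 1 X).filter (fun n : ℕ => ((p ^ k : ℕ) : ℤ) ∣ f.eval (n : ℤ)))
    rw [← htailc] at h2
    rw [← hcount] at h1
    omega
  have hcard2 : countPF f k X ≤ S.card := by
    rw [hcount]
    exact Finset.card_le_card hsub
  have hD0 : (0 : ℝ) ≤ D := Nat.cast_nonneg D
  have hmid : (∑ p ∈ (Finset.Ioo (z - 1) (X + 1)).filter Nat.Prime,
        (((Finset.Icc 1 X).filter (fun n : ℕ => ((p ^ k : ℕ) : ℤ) ∣ f.eval (n : ℤ))).card : ℝ)) ≤
      D * (2 / z) * X + D * Nat.primeCounting X := by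
    have h1 : ∀ p ∈ (Finset.Ioo (z - 1) (X + 1)).filter Nat.Prime,
        (((Finset.Icc 1 X).filter (fun n : ℕ => ((p ^ k : ℕ) : ℤ) ∣ f.eval (n : ℤ))).card : ℝ) ≤
          D * X * ((p : ℝ) ^ 2)⁻¹ + D := by
      intro p hp
      rw [Finset.mem_filter] at hp
      have hpp := hp.2
      have hp1 : (1 : ℝ) ≤ p := by exact_mod_cast hpp.one_lt.le
      have h2 := sv_count_dvd_le f (p ^ k) (pow_pos hpp.pos k) X
      have h3 : (rho f (p ^ k) : ℝ) ≤ D := by exact_mod_cast hD p hpp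
      have h4 : (p : ℝ) ^ 2 ≤ (p : ℝ) ^ k := pow_le_pow_right₀ hp1 hk
      calc _ ≤ ((X : ℝ) / ((p ^ k : ℕ) : ℝ) + 1) * rho f (p ^ k) := h2
        _ ≤ ((X : ℝ) / (p : ℝ) ^ 2 + 1) * D := by
            push_cast
            gcongr
        _ = D * X * ((p : ℝ) ^ 2)⁻¹ + D := by ring
    refine (Finset.sum_le_sum h1).trans ?_
    rw [Finset.sum_add_distrib, ← Finset.mul_sum, Finset.sum_const, nsmul_eq_mul]
    have h5 : ∑ p ∈ (Finset.Ioo (z - 1) (X + 1)).filter Nat.Prime, ((p : ℝ) ^ 2)⁻¹ ≤ 2 / z := by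
      have h6 := sum_Ioo_inv_sq_le (α := ℝ) (z - 1) (X + 1)
      have h7 : (((z - 1 : ℕ) : ℝ) + 1) = z := by
        rw [Nat.cast_sub hz]
        push_cast
        ring
      rw [h7] at h6
      refine le_trans ?_ h6
      exact Finset.sum_le_sum_of_subset_of_nonneg (Finset.filter_subset _ _)
        fun p _ _ => by (clear * -; positivity)
    have h8 : (((Finset.Ioo (z - 1) (X + 1)).filter Nat.Prime).card : ℝ) ≤ Nat.primeCounting X := by
      rw [Nat.primeCounting, Nat.primeCounting', Nat.count_eq_card_filter_range]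
      have : (Finset.Ioo (z - 1) (X + 1)).filter Nat.Prime ⊆
          (Finset.range (X + 1)).filter Nat.Prime := by
        intro p hp
        rw [Finset.mem_filter, Finset.mem_Ioo] at hp
        rw [Finset.mem_filter, Finset.mem_range]
        exact ⟨hp.1.2, hp.2⟩
      exact_mod_cast Finset.card_le_card this
    calc _ ≤ D * X * (2 / z) + Nat.primeCounting X * (D : ℝ) := by gcongr
      _ = _ := by ring
  have hcard1' : (S.card : ℝ) ≤ countPF f k X +
      (∑ p ∈ (Finset.Ioo (z - 1) (X + 1)).filter Nat.Prime,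
        (((Finset.Icc 1 X).filter (fun n : ℕ => ((p ^ k : ℕ) : ℤ) ∣ f.eval (n : ℤ))).card : ℝ))
      + tail f k X := by exact_mod_cast hcard1
  have hcard2' : (countPF f k X : ℝ) ≤ S.card := by exact_mod_cast hcard2
  rw [hGS, abs_le]
  have hz0 : (0 : ℝ) < z := by exact_mod_cast hz
  constructor
  · linarith only [hcard1', hmid]
  · have : 0 ≤ D * (2 / z) * X + D * Nat.primeCounting X + (tail f k X : ℝ) := by (clear * - hz; positivity)
    linarith only [this, hcard2']

/-- Module A: the sieve. -/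
theorem sieve_main (f : ℤ[X]) (k : ℕ) (hk : 2 ≤ k)
    (hirr : Irreducible (f.map (Int.castRingHom ℚ)))
    (hloc : ∀ p : ℕ, p.Prime → rho f (p ^ k) < p ^ k)
    (htail : Tendsto (fun X : ℕ => (tail f k X : ℝ) / X) atTop (𝓝 0)) :
    0 < density f k ∧
    (fun X : ℕ => (countPF f k X : ℝ) - density f k * X) =o[atTop] (fun X : ℕ => (X : ℝ)) := by
  obtain ⟨D, hD⟩ := sv_rho_bound f k (by omega) hirr
  obtain ⟨hpos, hlim⟩ := sv_density f k hk D hD hloc
  refine ⟨hpos, ?_⟩
  rw [isLittleO_iff]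
  intro c hc
  -- choose z
  have hz1 : Tendsto (fun z : ℕ => (D : ℝ) * (2 / z)) atTop (𝓝 0) := by
    have := (tendsto_const_div_atTop_nhds_zero_nat (2 : ℝ)).const_mul (D : ℝ)
    simpa using this
  have hz2 : ∀ᶠ z : ℕ in atTop, (D : ℝ) * (2 / z) < c / 5 := hz1.eventually (gt_mem_nhds (by positivity))
  have hz3 : ∀ᶠ z : ℕ in atTop, |∏ n ∈ Finset.range z, svLf f k n - density f k| < c / 5 := by
    have := (Metric.tendsto_nhds.mp hlim) (c / 5) (by positivity)
    simpa [Real.dist_eq] using this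
  obtain ⟨z, hza, hzb, hz⟩ := (hz2.and (hz3.and (eventually_ge_atTop 1))).exists
  have h1 : ∀ᶠ X : ℕ in atTop, |(∑ n ∈ Finset.Icc 1 X, svG f k z n) / X
      - ∏ n ∈ Finset.range z, svLf f k n| < c / 5 := by
    have := (Metric.tendsto_nhds.mp (sv_partial f k z)) (c / 5) (by positivity)
    simpa [Real.dist_eq] using this
  have h2 : ∀ᶠ X : ℕ in atTop, (D : ℝ) * (Nat.primeCounting X / X) < c / 5 := by
    have := sv_primeCounting.const_mul (D : ℝ)
    rw [mul_zero] at this
    exact this.eventually (gt_mem_nhds (by positivity))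
  have h3 : ∀ᶠ X : ℕ in atTop, (tail f k X : ℝ) / X < c / 5 :=
    htail.eventually (gt_mem_nhds (by positivity))
  filter_upwards [h1, h2, h3, eventually_ge_atTop 1] with X hX1 hX2 hX3 hX
  have hX0 : (0 : ℝ) < X := by exact_mod_cast hX
  have hd := sv_diff f k hk D hD z hz X
  rw [Real.norm_eq_abs, Real.norm_eq_abs, abs_of_pos hX0]
  set s1 := ∑ n ∈ Finset.Icc 1 X, svG f k z n with hs1
  set p1 := ∏ n ∈ Finset.range z, svLf f k n with hp1
  have e1 : |s1 - p1 * X| ≤ c / 5 * X := by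
    have : s1 - p1 * X = (s1 / X - p1) * X := by
      field_simp
    rw [this, abs_mul, abs_of_pos hX0]
    exact mul_le_mul_of_nonneg_right hX1.le hX0.le
  have e2 : |p1 * X - density f k * X| ≤ c / 5 * X := by
    rw [← sub_mul, abs_mul, abs_of_pos hX0]
    exact mul_le_mul_of_nonneg_right hzb.le hX0.le
  have e3 : (D : ℝ) * Nat.primeCounting X ≤ c / 5 * X := by
    have : (D : ℝ) * Nat.primeCounting X = (D : ℝ) * (Nat.primeCounting X / X) * X := by
      field_simp
    rw [this]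
    exact mul_le_mul_of_nonneg_right hX2.le hX0.le
  have e4 : (tail f k X : ℝ) ≤ c / 5 * X := ((div_lt_iff₀ hX0).mp hX3).le
  have e5 : D * (2 / z) * X ≤ c / 5 * X := mul_le_mul_of_nonneg_right hza.le hX0.le
  calc |(countPF f k X : ℝ) - density f k * X|
      = |((countPF f k X : ℝ) - s1) + (s1 - p1 * X) + (p1 * X - density f k * X)| := by
        congr 1
        ring
    _ ≤ |(countPF f k X : ℝ) - s1| + |s1 - p1 * X| + |p1 * X - density f k * X| := abs_add_three _ _ _
    _ ≤ (D * (2 / z) * X + D * Nat.primeCounting X + tail f k X) + c / 5 * X + c / 5 * X := by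
        gcongr
    _ ≤ c * X := by linarith only [e5, e4, e3]

end Vale.Agent.P018
end

section

/-! # P018, K-method, module K2: the small element and the factorisation
`c^k (n - θ_i) = π_i^k γ_i`. -/

namespace Vale.Agent.P018.K

open Polynomial NumberField

/-! ### The polynomial with coefficients `y` -/

/-- the polynomial with coefficients `y` -/
noncomputable def smPoly {d : ℕ} (y : Fin d → ℤ) : ℤ[X] := ∑ j, C (y j) * X ^ (j : ℕ)

theorem sm_eval {R : Type*} [CommRing R] {d : ℕ} (y : Fin d → ℤ) (t : R) :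
    ((smPoly y).map (algebraMap ℤ R)).eval t = ell t y := by
  unfold smPoly ell
  simp [Polynomial.map_sum, Polynomial.eval_finsetSum]

theorem sm_coeff {d : ℕ} (y : Fin d → ℤ) (j : Fin d) : (smPoly y).coeff j = y j := by
  unfold smPoly
  rw [Polynomial.finsetSum_coeff, Finset.sum_eq_single j]
  · simp
  · intro b _ hb
    rw [Polynomial.coeff_C_mul, Polynomial.coeff_X_pow, if_neg, mul_zero]
    intro h
    exact hb (Fin.ext h.symm)
  · simp

theorem sm_degree {d : ℕ} (y : Fin d → ℤ) : (smPoly y).degree < d := by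
  unfold smPoly
  exact Polynomial.degree_sum_fin_lt _

theorem sm_ne_zero {d : ℕ} {y : Fin d → ℤ} (hy : y ≠ 0) : smPoly y ≠ 0 := by
  intro h
  refine hy (funext fun j => ?_)
  rw [← sm_coeff y j, h]
  simp

theorem sm_ell_int {R : Type*} [CommRing R] {d : ℕ} (y : Fin d → ℤ) (n : ℤ) :
    ell (n : R) y = ((ell n y : ℤ) : R) := by
  unfold ell
  push_cast
  rfl

/-! ### Pigeonhole -/

theorem sm_root {d : ℕ} (hd : d ≠ 0) {p : ℕ} (hp : 0 < p) :
    ∃ M : ℕ, M ^ d ≤ p ∧ p < (M + 1) ^ d := by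
  classical
  have hex : ∃ N : ℕ, p < N ^ d := ⟨p + 1, by
    calc p < p + 1 := Nat.lt_succ_self p
      _ = (p + 1) ^ 1 := (pow_one _).symm
      _ ≤ (p + 1) ^ d := Nat.pow_le_pow_right (Nat.succ_pos p) (Nat.one_le_iff_ne_zero.2 hd)⟩
  have h1 := Nat.find_spec hex
  have h0 : Nat.find hex ≠ 0 := by
    intro h
    rw [h, zero_pow hd] at h1
    omega
  refine ⟨Nat.find hex - 1, ?_, ?_⟩
  · have := Nat.find_min hex (m := Nat.find hex - 1) (by omega)
    omega
  · rwa [Nat.sub_add_cancel (Nat.one_le_iff_ne_zero.2 h0)]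

theorem sm_pigeon {d : ℕ} (hd : d ≠ 0) {p : ℕ} (hp : 0 < p) (n : ℤ) :
    ∃ (y : Fin d → ℤ) (M : ℕ), M ^ d ≤ p ∧ y ≠ 0 ∧ (∀ j, |y j| ≤ M) ∧ (p : ℤ) ∣ ell n y := by
  obtain ⟨M, hM1, hM2⟩ := sm_root hd hp
  have : NeZero p := ⟨hp.ne'⟩
  let f : (Fin d → Fin (M + 1)) → ZMod p := fun a => ∑ j, ((a j : ℕ) : ZMod p) * (n : ZMod p) ^ (j : ℕ)
  have hcard : Fintype.card (ZMod p) < Fintype.card (Fin d → Fin (M + 1)) := by
    rw [ZMod.card, Fintype.card_fun, Fintype.card_fin, Fintype.card_fin]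
    exact hM2
  obtain ⟨a, b, hab, hf⟩ := Fintype.exists_ne_map_eq_of_card_lt f hcard
  refine ⟨fun j => ((a j : ℕ) : ℤ) - ((b j : ℕ) : ℤ), M, hM1, ?_, ?_, ?_⟩
  · intro h
    refine hab (funext fun j => Fin.ext ?_)
    have := congrFun h j
    simp only [Pi.zero_apply] at this
    omega
  · intro j
    have h1 := (a j).2
    have h2 := (b j).2
    simp only [abs_le]
    constructor <;> omega
  · rw [← ZMod.intCast_zmod_eq_zero_iff_dvd]
    have : f a - f b = 0 := sub_eq_zero.2 hf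
    rw [← this]
    unfold ell
    simp only [f]
    push_cast
    rw [← Finset.sum_sub_distrib]
    refine Finset.sum_congr rfl fun j _ => ?_
    ring

/-! ### The resultant -/

theorem sm_resultant {R : Type*} [CommRing R] [IsDomain R] {d : ℕ} {G : ℤ[X]}
    (hGd : G.natDegree = d) (θ : Fin d → R)
    (hθ : G.map (algebraMap ℤ R) = ∏ i, (X - C (θ i))) (h : ℤ[X]) :
    ((resultant G h G.natDegree h.natDegree : ℤ) : R) =
      ∏ i, (h.map (algebraMap ℤ R)).eval (θ i) := by
  have h1 := resultant_map_map G h G.natDegree h.natDegree (algebraMap ℤ R)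
  have h2 : (∏ i, (X - C (θ i))).natDegree = G.natDegree := by
    rw [Polynomial.natDegree_prod_of_monic _ _ fun i _ => monic_X_sub_C _]
    simp [hGd]
  have h3 := resultant_prod_left Finset.univ (fun i => X - C (θ i)) (h.map (algebraMap ℤ R))
    h.natDegree (by simp) natDegree_map_le
  rw [h2, ← hθ, h1] at h3
  rw [eq_intCast] at h3
  rw [h3]
  refine Finset.prod_congr rfl fun i _ => ?_
  rw [natDegree_X_sub_C, resultant_X_sub_C_left _ _ _ natDegree_map_le]

theorem sm_resultant_ne {d : ℕ} {G : ℤ[X]} (hGd : G.natDegree = d)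
    (hGi : Irreducible (G.map (Int.castRingHom ℚ))) {h : ℤ[X]} (h0 : h ≠ 0) (hh : h.degree < d) :
    resultant G h G.natDegree h.natDegree ≠ 0 := by
  intro hr
  have hinj : Function.Injective (Int.castRingHom ℚ) := Int.cast_injective
  have h1 := resultant_map_map G h G.natDegree h.natDegree (Int.castRingHom ℚ)
  rw [hr, map_zero] at h1
  have h2 : (G.map (Int.castRingHom ℚ)).natDegree = G.natDegree := natDegree_map_eq_of_injective hinj G
  have h3 : (h.map (Int.castRingHom ℚ)).natDegree = h.natDegree := natDegree_map_eq_of_injective hinj h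
  have hcop : IsCoprime (G.map (Int.castRingHom ℚ)) (h.map (Int.castRingHom ℚ)) := by
    rw [hGi.coprime_iff_not_dvd]
    intro hdvd
    have h4 : h.map (Int.castRingHom ℚ) ≠ 0 := (Polynomial.map_ne_zero_iff hinj).2 h0
    have h5 := Polynomial.natDegree_le_of_dvd hdvd h4
    rw [h2, h3, hGd] at h5
    rw [Polynomial.degree_eq_natDegree h0] at hh
    have h6 : h.natDegree < d := by exact_mod_cast hh
    omega
  have h4 := resultant_ne_zero _ _ hcop
  rw [h2, h3] at h4
  exact h4 h1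

/-! ### Divisibility -/

theorem sm_dvd_int (L : Type) [Field L] [NumberField L] {p : ℕ} (hp : p.Prime) {N : ℤ}
    (h : ((p : ℤ) : 𝓞 L) ∣ ((N : ℤ) : 𝓞 L)) : (p : ℤ) ∣ N := by
  obtain ⟨x, hx⟩ := h
  have h1 := congrArg (Algebra.norm ℤ) hx
  rw [map_mul] at h1
  have h2 : ∀ a : ℤ, Algebra.norm ℤ ((a : ℤ) : 𝓞 L) = a ^ Module.finrank ℤ (𝓞 L) := by
    intro a
    have := Algebra.norm_algebraMap (R := ℤ) (S := 𝓞 L) a
    simpa using this
  rw [h2, h2] at h1
  have h3 : Module.finrank ℤ (𝓞 L) ≠ 0 := Module.finrank_pos.ne'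
  have h4 : (p : ℤ) ∣ N ^ Module.finrank ℤ (𝓞 L) := by
    rw [h1]
    exact Dvd.dvd.mul_right (dvd_pow_self _ h3) _
  exact (Nat.prime_iff_prime_int.1 hp).dvd_of_dvd_pow h4

/-- the local computation -/
theorem sm_local {R : Type*} [CommRing R] {π c t P g h : R} {k : ℕ} (h1 : π ∣ c * t)
    (h2 : π ∣ c * P) (h3 : P ^ k ∣ t * (g - h * t)) (hg : ∃ x y, x * g + y * P ^ k = 1) :
    π ^ k ∣ c ^ k * t := by
  let I : Ideal R :=
    { carrier := {b | π ^ k ∣ c ^ k * b}
      add_mem' := fun {a b} ha hb => by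
        simp only [Set.mem_ofPred_eq] at *
        rw [mul_add]
        exact dvd_add ha hb
      zero_mem' := by simp
      smul_mem' := fun r a ha => by
        simp only [Set.mem_ofPred_eq, smul_eq_mul] at *
        rw [mul_left_comm]
        exact Dvd.dvd.mul_left ha r }
  have hI : ∀ b, b ∈ I ↔ π ^ k ∣ c ^ k * b := fun b => Iff.rfl
  have hP : Ideal.Quotient.mk I (P ^ k) = 0 := by
    rw [Ideal.Quotient.eq_zero_iff_mem, hI, ← mul_pow]
    exact pow_dvd_pow_of_dvd h2 k
  have ht : Ideal.Quotient.mk I (t ^ k) = 0 := by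
    rw [Ideal.Quotient.eq_zero_iff_mem, hI, ← mul_pow]
    exact pow_dvd_pow_of_dvd h1 k
  obtain ⟨x, y, hxy⟩ := hg
  have hu : IsUnit (Ideal.Quotient.mk I g) := by
    have h4 := congrArg (Ideal.Quotient.mk I) hxy
    rw [map_add, map_mul, map_mul, hP, mul_zero, add_zero, map_one, mul_comm] at h4
    exact IsUnit.of_mul_eq_one _ h4
  have hn : IsNilpotent (-(Ideal.Quotient.mk I (h * t))) := by
    refine IsNilpotent.neg ⟨k, ?_⟩
    rw [← map_pow, mul_pow, map_mul, ht, mul_zero]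
  have hu2 : IsUnit (Ideal.Quotient.mk I (g - h * t)) := by
    rw [map_sub, sub_eq_add_neg]
    exact IsNilpotent.isUnit_add_left_of_commute hn hu (Commute.all _ _)
  have h5 : Ideal.Quotient.mk I (t * (g - h * t)) = 0 := by
    obtain ⟨z, hz⟩ := h3
    rw [hz, map_mul, hP, zero_mul]
  rw [map_mul] at h5
  have h6 : Ideal.Quotient.mk I t = 0 := by
    obtain ⟨w, hw⟩ := hu2
    rw [← hw] at h5
    exact (Units.mul_left_eq_zero w).1 h5
  rwa [Ideal.Quotient.eq_zero_iff_mem, hI] at h6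

/-- `π_i` divides `c τ_i` and `c p`. -/
theorem sm_prod {R : Type*} [CommRing R] [IsDomain R] {d : ℕ} {P c : R} (hP : P ≠ 0)
    {π t s : Fin d → R} (h1 : ∀ i, P ∣ π i - t i * s i) (h2 : P ∣ ∏ i, t i)
    (h3 : ∏ i, π i = P * c) (i : Fin d) : π i ∣ c * t i ∧ π i ∣ c * P := by
  classical
  constructor
  · have h4 : P ∣ t i * ∏ j ∈ Finset.univ.erase i, π j := by
      rw [← Ideal.Quotient.eq_zero_iff_dvd] at h2 ⊢
      have h5 : ∀ j, Ideal.Quotient.mk (Ideal.span {P}) (π j) =
          Ideal.Quotient.mk (Ideal.span {P}) (t j * s j) := by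
        intro j
        rw [← sub_eq_zero, ← map_sub, Ideal.Quotient.eq_zero_iff_dvd]
        exact h1 j
      rw [map_mul, map_prod]
      simp only [h5, map_mul, Finset.prod_mul_distrib]
      rw [← mul_assoc, Finset.mul_prod_erase _ (fun j => Ideal.Quotient.mk (Ideal.span {P}) (t j))
        (Finset.mem_univ i), ← map_prod, h2, zero_mul]
    obtain ⟨δ, hδ⟩ := h4
    refine ⟨δ, mul_left_cancel₀ hP ?_⟩
    have h6 := Finset.mul_prod_erase Finset.univ π (Finset.mem_univ i)
    rw [h3] at h6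
    calc P * (c * t i) = t i * (P * c) := by ring
      _ = π i * (t i * ∏ j ∈ Finset.univ.erase i, π j) := by rw [← h6]; ring
      _ = P * (π i * δ) := by rw [hδ]; ring
  · rw [mul_comm, ← h3]
    exact Finset.dvd_prod_of_mem π (Finset.mem_univ i)

/-! ### The size -/

theorem sm_size (L : Type) [Field L] [NumberField L] (σ : L →+* ℂ) {d : ℕ} (θ : Fin d → 𝓞 L)
    {p : ℕ} (hp : 0 < p) {M : ℕ} (hM : M ^ d ≤ p) {y : Fin d → ℤ} (hy : ∀ j, |y j| ≤ M) {c : ℤ}
    (hc : ∏ i, ell (θ i) y = (((p : ℤ) * c : ℤ) : 𝓞 L)) :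
    ((|c| : ℤ) : ℝ) ≤ ∏ i, ∑ j : Fin d, ‖σ (θ i)‖ ^ (j : ℕ) := by
  have h1 : ∀ i, ‖σ ((ell (θ i) y : 𝓞 L) : L)‖ ≤ M * ∑ j : Fin d, ‖σ (θ i)‖ ^ (j : ℕ) := by
    intro i
    have h2 : σ ((ell (θ i) y : 𝓞 L) : L) = ∑ j : Fin d, (y j : ℂ) * σ (θ i) ^ (j : ℕ) := by
      unfold ell
      simp
    rw [h2, Finset.mul_sum]
    refine (norm_sum_le _ _).trans (Finset.sum_le_sum fun j _ => ?_)
    rw [norm_mul, norm_pow]
    gcongr
    rw [Complex.norm_intCast]
    exact_mod_cast hy j
  have h2 : ‖σ ((∏ i, ell (θ i) y : 𝓞 L) : L)‖ = (p : ℝ) * ((|c| : ℤ) : ℝ) := by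
    rw [hc]
    simp
  have h3 : ‖σ ((∏ i, ell (θ i) y : 𝓞 L) : L)‖ = ∏ i, ‖σ ((ell (θ i) y : 𝓞 L) : L)‖ := by
    have h4 : ∀ x : 𝓞 L, σ (x : L) = (σ.comp (algebraMap (𝓞 L) L)) x := fun _ => rfl
    simp only [h4]
    rw [map_prod, norm_prod]
  rw [h3] at h2
  have h4 : ∏ i, ‖σ ((ell (θ i) y : 𝓞 L) : L)‖ ≤
      ∏ i, ((M : ℝ) * ∑ j : Fin d, ‖σ (θ i)‖ ^ (j : ℕ)) :=
    Finset.prod_le_prod (fun i _ => norm_nonneg _) fun i _ => h1 i
  rw [h2, Finset.prod_mul_distrib, Finset.prod_const, Finset.card_univ, Fintype.card_fin] at h4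
  have h5 : (0 : ℝ) < p := by exact_mod_cast hp
  have h6 : ((M : ℝ)) ^ d ≤ p := by exact_mod_cast hM
  have h7 : (0 : ℝ) ≤ ∏ i, ∑ j : Fin d, ‖σ (θ i)‖ ^ (j : ℕ) :=
    Finset.prod_nonneg fun i _ => Finset.sum_nonneg fun j _ => by (clear * -; positivity)
  refine le_of_mul_le_mul_left (h4.trans ?_) h5
  gcongr

/-- product of the values at the roots is an integer divisible by `p`, not zero, and small. -/
theorem exists_small (L : Type) [Field L] [NumberField L] {d : ℕ} (hd : 2 ≤ d) (G : ℤ[X])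
    (hG : G.Monic) (hGd : G.natDegree = d) (hGi : Irreducible (G.map (Int.castRingHom ℚ)))
    (θ : Fin d → 𝓞 L) (hθ : G.map (algebraMap ℤ (𝓞 L)) = ∏ i, (X - C (θ i))) (k : ℕ)
    (hk : 1 ≤ k) :
    ∃ C : ℕ, 1 ≤ C ∧ ∀ (p : ℕ) (n : ℤ), p.Prime → C < p → (p : ℤ) ^ k ∣ G.eval n →
      ∃ (y : Fin d → ℤ) (c : ℤ) (γ : Fin d → 𝓞 L), y ≠ 0 ∧ (∀ j, |y j| ^ d ≤ p) ∧ c ≠ 0 ∧
        |c| ≤ C ∧ (∏ i, ell (θ i) y = (((p : ℤ) * c : ℤ) : 𝓞 L)) ∧
        ∀ i, (c : 𝓞 L) ^ k * ((n : 𝓞 L) - θ i) = ell (θ i) y ^ k * γ i := by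
  obtain ⟨σ⟩ : Nonempty (L →+* ℂ) := inferInstance
  obtain ⟨u, v, D, hD0, hD⟩ := sv_bezout G hGi
  refine ⟨⌈∏ i, ∑ j : Fin d, ‖σ (θ i)‖ ^ (j : ℕ)⌉₊ + D.natAbs + 1, by omega, ?_⟩
  intro p n hp hCp hpG
  obtain ⟨y, M, hM, hy0, hyM, hyn⟩ := sm_pigeon (d := d) (by omega) hp.pos n
  -- the product
  have hres := sm_resultant hGd θ hθ (smPoly y)
  simp only [sm_eval] at hres
  have hres0 := sm_resultant_ne hGd hGi (sm_ne_zero hy0) (sm_degree y)
  -- the elements `s i`
  have hs : ∀ i, ∃ s, ((p : ℤ) : 𝓞 L) ∣ ell (θ i) y - ((n : 𝓞 L) - θ i) * s := by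
    intro i
    have h1 : (θ i - (n : 𝓞 L)) ∣ ell (θ i) y - ell (n : 𝓞 L) y := by
      rw [← sm_eval, ← sm_eval]
      exact Polynomial.sub_dvd_eval_sub _ _ _
    obtain ⟨s, hs⟩ := h1
    refine ⟨-s, ?_⟩
    have h2 : ell (θ i) y - ((n : 𝓞 L) - θ i) * -s = ell (n : 𝓞 L) y := by
      linear_combination hs
    rw [h2, sm_ell_int]
    obtain ⟨w, hw⟩ := hyn
    rw [hw, Int.cast_mul]
    exact dvd_mul_right _ _
  choose s hs using hs
  have hGn : ∏ i, ((n : 𝓞 L) - θ i) = ((G.eval n : ℤ) : 𝓞 L) := by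
    have h1 := congrArg (Polynomial.eval (n : 𝓞 L)) hθ
    rw [Polynomial.eval_prod] at h1
    simp only [eval_sub, eval_X, eval_C] at h1
    rw [← h1]
    simp
  have hpGn : ((p : ℤ) : 𝓞 L) ∣ ∏ i, ((n : 𝓞 L) - θ i) := by
    rw [hGn]
    obtain ⟨w, hw⟩ := (dvd_pow_self (p : ℤ) (by omega : k ≠ 0)).trans hpG
    rw [hw, Int.cast_mul]
    exact dvd_mul_right _ _
  have hp0 : ((p : ℤ) : 𝓞 L) ≠ 0 := by
    rw [Int.cast_ne_zero]
    exact_mod_cast hp.ne_zero
  -- `p` divides the product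
  have hpN : ((p : ℤ) : 𝓞 L) ∣ ∏ i, ell (θ i) y := by
    rw [← Ideal.Quotient.eq_zero_iff_dvd] at hpGn ⊢
    have h5 : ∀ j, Ideal.Quotient.mk (Ideal.span {((p : ℤ) : 𝓞 L)}) (ell (θ j) y) =
        Ideal.Quotient.mk (Ideal.span {((p : ℤ) : 𝓞 L)}) (((n : 𝓞 L) - θ j) * s j) := by
      intro j
      rw [← sub_eq_zero, ← map_sub, Ideal.Quotient.eq_zero_iff_dvd]
      exact hs j
    rw [map_prod, Finset.prod_congr rfl fun j _ => h5 j, ← map_prod, Finset.prod_mul_distrib,
      map_mul, hpGn, zero_mul]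
  rw [← hres] at hpN
  obtain ⟨c, hc⟩ := sm_dvd_int L hp hpN
  have hprod : ∏ i, ell (θ i) y = (((p : ℤ) * c : ℤ) : 𝓞 L) := by rw [← hres, hc]
  have hc0 : c ≠ 0 := by
    rintro rfl
    exact hres0 (by rw [hc, mul_zero])
  -- the size
  have hsize := sm_size L σ θ hp.pos hM hyM hprod
  have hcC : |c| ≤ ((⌈∏ i, ∑ j : Fin d, ‖σ (θ i)‖ ^ (j : ℕ)⌉₊ + D.natAbs + 1 : ℕ) : ℤ) := by
    have h1 : ((|c| : ℤ) : ℝ) ≤ (⌈∏ i, ∑ j : Fin d, ‖σ (θ i)‖ ^ (j : ℕ)⌉₊ : ℝ) :=
      hsize.trans (Nat.le_ceil _)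
    have h2 : |c| ≤ ((⌈∏ i, ∑ j : Fin d, ‖σ (θ i)‖ ^ (j : ℕ)⌉₊ : ℕ) : ℤ) := by exact_mod_cast h1
    push_cast
    have h3 := abs_nonneg D
    omega
  -- coprimality
  have hg : ¬ (p : ℤ) ∣ (derivative G).eval n := by
    intro hdvd
    have h1 := congrArg (Polynomial.eval n) hD
    rw [eval_add, eval_mul, eval_mul, eval_C] at h1
    have h2 : (p : ℤ) ∣ G.eval n := (dvd_pow_self (p : ℤ) (by omega : k ≠ 0)).trans hpG
    have h3 : (p : ℤ) ∣ D := by
      rw [← h1]
      exact dvd_add (Dvd.dvd.mul_left h2 _) (Dvd.dvd.mul_left hdvd _)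
    have h4 := Int.natAbs_dvd_natAbs.2 h3
    rw [Int.natAbs_natCast] at h4
    have h5 := Nat.le_of_dvd (Int.natAbs_pos.2 hD0) h4
    omega
  have hcop : IsCoprime ((derivative G).eval n) ((p : ℤ) ^ k) := by
    refine IsCoprime.pow_right (IsCoprime.symm ?_)
    exact (Nat.prime_iff_prime_int.1 hp).irreducible.coprime_iff_not_dvd.2 hg
  have hfac : ∀ i, ∃ γ, (c : 𝓞 L) ^ k * ((n : 𝓞 L) - θ i) = ell (θ i) y ^ k * γ := by
    intro i
    have hprod' : ∏ i, ell (θ i) y = ((p : ℤ) : 𝓞 L) * (c : 𝓞 L) := by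
      rw [hprod, Int.cast_mul]
    obtain ⟨h1, h2⟩ := sm_prod hp0 hs hpGn hprod' i
    obtain ⟨q, hq⟩ := Polynomial.binomExpansion (G.map (algebraMap ℤ (𝓞 L))) (n : 𝓞 L)
      (θ i - (n : 𝓞 L))
    have h3 : (G.map (algebraMap ℤ (𝓞 L))).eval (θ i) = 0 := by
      rw [hθ, Polynomial.eval_prod]
      exact Finset.prod_eq_zero (Finset.mem_univ i) (by simp)
    have h4 : (G.map (algebraMap ℤ (𝓞 L))).eval (n : 𝓞 L) = ((G.eval n : ℤ) : 𝓞 L) := by
      simp
    have h5 : (derivative (G.map (algebraMap ℤ (𝓞 L)))).eval (n : 𝓞 L) =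
        (((derivative G).eval n : ℤ) : 𝓞 L) := by
      rw [derivative_map]
      simp
    rw [add_sub_cancel, h3, h4, h5] at hq
    have h6 : ((p : ℤ) : 𝓞 L) ^ k ∣ ((n : 𝓞 L) - θ i) *
        ((((derivative G).eval n : ℤ) : 𝓞 L) - q * ((n : 𝓞 L) - θ i)) := by
      have h7 : ((n : 𝓞 L) - θ i) * ((((derivative G).eval n : ℤ) : 𝓞 L) -
          q * ((n : 𝓞 L) - θ i)) = ((G.eval n : ℤ) : 𝓞 L) := by
        linear_combination hq
      rw [h7]
      obtain ⟨w, hw⟩ := hpG
      rw [hw, Int.cast_mul, Int.cast_pow]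
      exact dvd_mul_right _ _
    obtain ⟨a, b, hab⟩ := hcop
    have h8 : ∃ x y : 𝓞 L, x * (((derivative G).eval n : ℤ) : 𝓞 L) +
        y * ((p : ℤ) : 𝓞 L) ^ k = 1 := by
      refine ⟨a, b, ?_⟩
      exact_mod_cast congrArg (Int.cast : ℤ → 𝓞 L) hab
    exact sm_local h1 h2 h6 h8
  choose γ hγ using hfac
  refine ⟨y, c, γ, hy0, fun j => ?_, hc0, hcC, hprod, hγ⟩
  calc |y j| ^ d ≤ (M : ℤ) ^ d := pow_le_pow_left₀ (abs_nonneg _) (hyM j) d
    _ ≤ p := by exact_mod_cast hM

end Vale.Agent.P018.K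
end

section

/-! # P018, K-method, module K6: counting points when every `r` of the linear forms satisfy
a polynomial relation together with `n`. -/

namespace Vale.Agent.P018.K

open Polynomial Finset

section cnt

/-- weight of an exponent -/
def cnt_om {d : ℕ} (B : ℕ) (a : Fin d → ℕ) : ℕ := ∑ i, a i * B ^ (i : ℕ)

theorem cnt_om_add {d : ℕ} (B : ℕ) (a b : Fin d → ℕ) :
    cnt_om B (a + b) = cnt_om B a + cnt_om B b := by
  simp [cnt_om, add_mul, Finset.sum_add_distrib]

theorem cnt_om_inj (B : ℕ) : ∀ {d : ℕ} (a b : Fin d → ℕ), (∀ i, a i < B) → (∀ i, b i < B) →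
    cnt_om B a = cnt_om B b → a = b := by
  intro d
  induction d with
  | zero =>
    intro a b _ _ _
    exact funext fun i => i.elim0
  | succ d ih =>
    intro a b ha hb h
    have e : ∀ c : Fin (d + 1) → ℕ, cnt_om B c = c 0 + B * cnt_om B (fun i => c i.succ) := by
      intro c
      unfold cnt_om
      rw [Fin.sum_univ_succ, Finset.mul_sum]
      simp only [Fin.val_zero, pow_zero, mul_one, Fin.val_succ, pow_succ]
      congr 1
      exact Finset.sum_congr rfl fun i _ => by ring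
    rw [e a, e b] at h
    have hB : 0 < B := lt_of_le_of_lt (Nat.zero_le _) (ha 0)
    have h0 : a 0 = b 0 := by
      have h1 : (a 0 + B * cnt_om B (fun i => a i.succ)) % B =
          (b 0 + B * cnt_om B (fun i => b i.succ)) % B := by rw [h]
      rw [Nat.add_mul_mod_self_left, Nat.add_mul_mod_self_left, Nat.mod_eq_of_lt (ha 0),
        Nat.mod_eq_of_lt (hb 0)] at h1
      exact h1
    rw [h0] at h
    have h1 := Nat.eq_of_mul_eq_mul_left hB (Nat.add_left_cancel h)
    have h2 := ih _ _ (fun i => ha i.succ) (fun i => hb i.succ) h1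
    funext i
    exact Fin.cases h0 (fun j => congrFun h2 j) i

theorem cnt_le_om {d : ℕ} {B : ℕ} (hB : 1 ≤ B) (a : Fin d → ℕ) (i : Fin d) :
    a i ≤ cnt_om B a :=
  calc a i ≤ a i * B ^ (i : ℕ) := Nat.le_mul_of_pos_right _ (by positivity)
    _ ≤ _ := Finset.single_le_sum (f := fun i : Fin d => a i * B ^ (i : ℕ))
      (fun _ _ => Nat.zero_le _) (mem_univ i)

theorem cnt_om_le {d : ℕ} {B : ℕ} (hB : 1 ≤ B) (a : Fin d → ℕ) :
    cnt_om B a ≤ B ^ d * ∑ i, a i := by
  unfold cnt_om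
  rw [Finset.mul_sum]
  refine Finset.sum_le_sum fun i _ => ?_
  rw [mul_comm]
  exact Nat.mul_le_mul_right _ (Nat.pow_le_pow_right hB i.2.le)

variable {d : ℕ} {L : Type} [Field L] {ι : Type}

/-- monomials as functions -/
def cnt_mon (x : Fin d → ι → L) (a : Fin d → ℕ) : ι → L := fun q => ∏ i, x i q ^ a i

theorem cnt_mon_add (x : Fin d → ι → L) (a b : Fin d → ℕ) (q : ι) :
    cnt_mon x (a + b) q = cnt_mon x a q * cnt_mon x b q := by
  simp [cnt_mon, pow_add, Finset.prod_mul_distrib]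

/-- the span of the functions `n ^ j x ^ m`, with `j ≤ b`, `m ∈ M`, weight at most `o` -/
def cnt_W (n : ι → L) (x : Fin d → ι → L) (M : Set (Fin d → ℕ)) (B b o : ℕ) :
    Submodule L (ι → L) :=
  Submodule.span L {v | ∃ j m, j ≤ b ∧ m ∈ M ∧ cnt_om B m ≤ o ∧
    v = fun q => n q ^ j * cnt_mon x m q}

theorem cnt_W_mono (n : ι → L) (x : Fin d → ι → L) (M : Set (Fin d → ℕ)) (B : ℕ) {b b' o o' : ℕ}
    (hb : b ≤ b') (ho : o ≤ o') : cnt_W n x M B b o ≤ cnt_W n x M B b' o' := by
  refine Submodule.span_mono ?_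
  rintro _ ⟨j, m, hj, hm, hmo, rfl⟩
  exact ⟨j, m, hj.trans hb, hm, hmo.trans ho, rfl⟩

theorem cnt_W_mul {n : ι → L} {x : Fin d → ι → L} {M : Set (Fin d → ℕ)} {B b o k : ℕ} {f : L[X]}
    (hf : f.natDegree ≤ k) {v : ι → L} (hv : v ∈ cnt_W n x M B b o) :
    (fun q => f.eval (n q) * v q) ∈ cnt_W n x M B (b + k) o := by
  refine Submodule.span_induction
    (p := fun v _ => (fun q => f.eval (n q) * v q) ∈ cnt_W n x M B (b + k) o) ?_ ?_ ?_ ?_ hv
  · rintro _ ⟨j, m, hj, hm, ho, rfl⟩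
    have e : (fun q => f.eval (n q) * (n q ^ j * cnt_mon x m q)) =
        ∑ i ∈ range (k + 1), f.coeff i • (fun q => n q ^ (i + j) * cnt_mon x m q) := by
      funext q
      rw [Finset.sum_apply, eval_eq_sum_range' (Nat.lt_succ_of_le hf), Finset.sum_mul]
      refine Finset.sum_congr rfl fun i _ => ?_
      rw [Pi.smul_apply, smul_eq_mul, pow_add]
      ring
    rw [e]
    refine Submodule.sum_mem _ fun i hi => Submodule.smul_mem _ _ (Submodule.subset_span
      ⟨i + j, m, ?_, hm, ho, rfl⟩)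
    have := Finset.mem_range.1 hi
    omega
  · have e : (fun q : ι => f.eval (n q) * (0 : ι → L) q) = 0 := by
      funext q
      simp
    rw [e]
    exact Submodule.zero_mem _
  · intro u v _ _ hu hv
    have e : (fun q : ι => f.eval (n q) * (u + v) q) =
        (fun q => f.eval (n q) * u q) + fun q => f.eval (n q) * v q := by
      funext q
      simp [mul_add]
    rw [e]
    exact Submodule.add_mem _ hu hv
  · intro c u _ hu
    have e : (fun q : ι => f.eval (n q) * (c • u) q) = c • fun q => f.eval (n q) * u q := by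
      funext q
      simp only [Pi.smul_apply, smul_eq_mul]
      ring
    rw [e]
    exact Submodule.smul_mem _ _ hu

theorem cnt_claim {J α : Type} [Fintype J] [DecidableEq J] (n : ι → L) (x : Fin d → ι → L)
    (B D : ℕ) (c : J → Fin d → ℕ) (g : J → L[X]) (E : J → Finset α) (ex : J → α → Fin d → ℕ)
    (f : J → α → L[X]) (hg : ∀ j, (g j).natDegree ≤ D)
    (hf : ∀ j, ∀ e ∈ E j, (f j e).natDegree ≤ D)
    (hw : ∀ j, ∀ e ∈ E j, cnt_om B (ex j e) < cnt_om B (c j))
    (hrel : ∀ j q, (g j).eval (n q) * cnt_mon x (c j) q =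
      ∑ e ∈ E j, (f j e).eval (n q) * cnt_mon x (ex j e) q) :
    ∀ (N : ℕ) (a : Fin d → ℕ), cnt_om B a = N →
      (fun q => (∏ j, g j).eval (n q) ^ (N + 1) * cnt_mon x a q) ∈
        cnt_W n x {m | ∀ j, ¬ c j ≤ m} B ((Fintype.card J * D + D) * (N + 1)) N := by
  have hsub : ∀ T : Finset J, (∏ j ∈ T, g j).natDegree ≤ Fintype.card J * D := by
    intro T
    refine (natDegree_prod_le _ _).trans ((Finset.sum_le_card_nsmul _ _ D fun j _ => hg j).trans ?_)
    rw [smul_eq_mul]
    exact Nat.mul_le_mul_right _ (Finset.card_le_univ T)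
  intro N
  induction N using Nat.strong_induction_on with
  | _ N ih =>
    intro a hN
    by_cases hM : ∀ j, ¬ c j ≤ a
    · have h1 : (fun q => cnt_mon x a q) ∈ cnt_W n x {m | ∀ j, ¬ c j ≤ m} B 0 N :=
        Submodule.subset_span ⟨0, a, le_rfl, hM, hN.le, by funext q; simp⟩
      have h2 := cnt_W_mul (f := (∏ j, g j) ^ (N + 1)) (k := (N + 1) * (Fintype.card J * D))
        ((natDegree_pow_le).trans (Nat.mul_le_mul_left _ (hsub univ))) h1
      simp only [eval_pow] at h2
      refine cnt_W_mono n x _ B ?_ le_rfl h2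
      nlinarith
    · push Not at hM
      obtain ⟨j, hj⟩ := hM
      obtain ⟨b, rfl⟩ : ∃ b, a = c j + b := ⟨a - c j, (add_tsub_cancel_of_le hj).symm⟩
      rw [cnt_om_add] at hN
      have hG : ∏ i, g i = (∏ i ∈ univ.erase j, g i) * g j :=
        (Finset.prod_erase_mul _ _ (mem_univ j)).symm
      have hlt : ∀ e ∈ E j, cnt_om B (ex j e + b) < N := by
        intro e he
        rw [cnt_om_add]
        have := hw j e he
        omega
      have e1 : (fun q => (∏ i, g i).eval (n q) ^ (N + 1) * cnt_mon x (c j + b) q) =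
          ∑ e ∈ E j, fun q => ((∏ i ∈ univ.erase j, g i) * f j e *
            (∏ i, g i) ^ (N - (cnt_om B (ex j e + b) + 1))).eval (n q) *
              ((∏ i, g i).eval (n q) ^ (cnt_om B (ex j e + b) + 1) *
                cnt_mon x (ex j e + b) q) := by
        funext q
        rw [Finset.sum_apply]
        have e2 : (∏ i, g i).eval (n q) ^ (N + 1) * cnt_mon x (c j + b) q =
            (∏ i, g i).eval (n q) ^ N * (∏ i ∈ univ.erase j, g i).eval (n q) *
              ((g j).eval (n q) * cnt_mon x (c j) q) * cnt_mon x b q := by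
          rw [cnt_mon_add, pow_succ]
          conv_lhs => rw [show ∀ z : L, (∏ i, g i).eval (n q) ^ N * (∏ i, g i).eval (n q) * z =
            (∏ i, g i).eval (n q) ^ N * ((∏ i, g i).eval (n q) * z) from fun z => by ring]
          conv_lhs => enter [2]; rw [hG]
          rw [eval_mul]
          ring
        rw [e2, hrel, Finset.mul_sum, Finset.sum_mul]
        refine Finset.sum_congr rfl fun e he => ?_
        rw [eval_mul, eval_mul, eval_pow, cnt_mon_add]
        have e3 : (∏ i, g i).eval (n q) ^ N =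
            (∏ i, g i).eval (n q) ^ (N - (cnt_om B (ex j e + b) + 1)) *
              (∏ i, g i).eval (n q) ^ (cnt_om B (ex j e + b) + 1) := by
          rw [← pow_add]
          congr 1
          have := hlt e he
          omega
        rw [e3]
        ring
      rw [e1]
      refine Submodule.sum_mem _ fun e he => ?_
      have h1 := ih _ (hlt e he) (ex j e + b) rfl
      have h2 := cnt_W_mul (f := (∏ i ∈ univ.erase j, g i) * f j e *
            (∏ i, g i) ^ (N - (cnt_om B (ex j e + b) + 1)))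
        (k := Fintype.card J * D + D +
          (N - (cnt_om B (ex j e + b) + 1)) * (Fintype.card J * D)) (by
          refine natDegree_mul_le.trans (Nat.add_le_add ?_ ?_)
          · exact natDegree_mul_le.trans (Nat.add_le_add (hsub _) (hf j e he))
          · exact natDegree_pow_le.trans (Nat.mul_le_mul_left _ (hsub _))) h1
      refine cnt_W_mono n x _ B ?_ (hlt e he).le h2
      obtain ⟨t, ht⟩ : ∃ t, N = cnt_om B (ex j e + b) + 1 + t :=
        ⟨N - (cnt_om B (ex j e + b) + 1), by have := hlt e he; omega⟩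
      have e4 : N - (cnt_om B (ex j e + b) + 1) = t := by omega
      rw [e4, ht]
      nlinarith [Nat.zero_le (D * t)]

/-- the number of exponents which are not divisible by leading ones -/
theorem cnt_M_card {D r o : ℕ} (hr : 1 ≤ r) (T : Finset (Fin d → ℕ))
    (hT : ∀ m ∈ T, (univ.filter fun i => D ≤ m i).card < r ∧ ∀ i, m i ≤ o) :
    T.card ≤ 2 ^ d * (D + 1) ^ d * (o + 1) ^ (r - 1) := by
  classical
  let R : Finset (Fin d) → Finset (Fin d → ℕ) := fun U =>
    Fintype.piFinset fun i => if i ∈ U then range (o + 1) else range (D + 1)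
  have h1 : T ⊆ ((univ : Finset (Finset (Fin d))).filter fun U => U.card ≤ r - 1).biUnion R := by
    intro m hm
    obtain ⟨h2, h3⟩ := hT m hm
    rw [Finset.mem_biUnion]
    refine ⟨univ.filter fun i => D ≤ m i, ?_, ?_⟩
    · rw [Finset.mem_filter]
      exact ⟨mem_univ _, by omega⟩
    · rw [Fintype.mem_piFinset]
      intro i
      by_cases hi : D ≤ m i
      · rw [if_pos (by simpa using hi)]
        rw [Finset.mem_range]
        have := h3 i
        omega
      · rw [if_neg (by simpa using hi)]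
        rw [Finset.mem_range]
        omega
  have h2 : ∀ U ∈ (univ : Finset (Finset (Fin d))).filter fun U => U.card ≤ r - 1,
      (R U).card ≤ (D + 1) ^ d * (o + 1) ^ (r - 1) := by
    intro U hU
    rw [Finset.mem_filter] at hU
    rw [Fintype.card_piFinset]
    have e : ∀ i, (if i ∈ U then range (o + 1) else range (D + 1)).card ≤
        (if i ∈ U then (o + 1) else 1) * (D + 1) := by
      intro i
      split_ifs
      · rw [Finset.card_range]
        exact Nat.le_mul_of_pos_right _ (by omega)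
      · rw [Finset.card_range, one_mul]
    refine (Finset.prod_le_prod' fun i _ => e i).trans ?_
    rw [Finset.prod_mul_distrib, Finset.prod_const, Finset.card_univ, Fintype.card_fin,
      Finset.prod_ite_mem, Finset.univ_inter, Finset.prod_const, mul_comm]
    exact Nat.mul_le_mul_left _ (Nat.pow_le_pow_right (by omega) hU.2)
  refine (Finset.card_le_card h1).trans ((Finset.card_biUnion_le_card_mul _ _ _ h2).trans ?_)
  rw [mul_assoc]
  refine Nat.mul_le_mul_right _ ((Finset.card_filter_le _ _).trans ?_)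
  rw [Finset.card_univ, Fintype.card_finset, Fintype.card_fin]

theorem cnt_W_finrank [Fintype ι] (n : ι → L) (x : Fin d → ι → L) (M : Set (Fin d → ℕ))
    {B b o K : ℕ} (hB : 1 ≤ B)
    (hK : ∀ T : Finset (Fin d → ℕ), (∀ m ∈ T, m ∈ M ∧ cnt_om B m ≤ o) → T.card ≤ K) :
    Module.finrank L (cnt_W n x M B b o) ≤ (b + 1) * K := by
  classical
  let T : Finset (Fin d → ℕ) :=
    (Fintype.piFinset fun _ : Fin d => range (o + 1)).filter fun m => m ∈ M ∧ cnt_om B m ≤ o
  have hT := hK T (fun m hm => (Finset.mem_filter.1 hm).2)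
  let Z : Finset (ι → L) := (range (b + 1) ×ˢ T).image fun u q => n q ^ u.1 * cnt_mon x u.2 q
  have h1 : cnt_W n x M B b o ≤ Submodule.span L (Z : Set (ι → L)) := by
    refine Submodule.span_mono ?_
    rintro _ ⟨j, m, hj, hm, hmo, rfl⟩
    rw [Finset.mem_coe, Finset.mem_image]
    refine ⟨(j, m), ?_, rfl⟩
    rw [Finset.mem_product, Finset.mem_range]
    refine ⟨by omega, Finset.mem_filter.2 ⟨?_, hm, hmo⟩⟩
    rw [Fintype.mem_piFinset]
    intro i
    rw [Finset.mem_range]
    have := cnt_le_om hB m i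
    show m i < o + 1
    omega
  calc Module.finrank L (cnt_W n x M B b o)
      ≤ Module.finrank L (Submodule.span L (Z : Set (ι → L))) := Submodule.finrank_mono h1
    _ ≤ Z.card := finrank_span_finset_le_card Z
    _ ≤ (range (b + 1) ×ˢ T).card := Finset.card_image_le
    _ = (b + 1) * T.card := by rw [Finset.card_product, Finset.card_range]
    _ ≤ (b + 1) * K := Nat.mul_le_mul_left _ hT

/-- the span of the monomials of degree at most `N` -/
def cnt_P (x : Fin d → ι → L) (N : ℕ) : Submodule L (ι → L) :=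
  Submodule.span L {v | ∃ a : Fin d → ℕ, ∑ i, a i ≤ N ∧ v = cnt_mon x a}

theorem cnt_P_mono (x : Fin d → ι → L) {N N' : ℕ} (h : N ≤ N') : cnt_P x N ≤ cnt_P x N' := by
  refine Submodule.span_mono ?_
  rintro _ ⟨a, ha, rfl⟩
  exact ⟨a, ha.trans h, rfl⟩

theorem cnt_P_one (x : Fin d → ι → L) : (1 : ι → L) ∈ cnt_P x 0 := by
  refine Submodule.subset_span ⟨0, by simp, ?_⟩
  funext q
  simp [cnt_mon]

theorem cnt_P_var (x : Fin d → ι → L) (i : Fin d) : x i ∈ cnt_P x 1 := by
  refine Submodule.subset_span ⟨Pi.single i 1, ?_, ?_⟩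
  · rw [Finset.sum_pi_single']
    simp
  · funext q
    unfold cnt_mon
    rw [Finset.prod_eq_single i]
    · simp
    · intro j _ hj
      rw [Pi.single_eq_of_ne hj, pow_zero]
    · intro h
      exact absurd (mem_univ i) h

theorem cnt_P_mul (x : Fin d → ι → L) {N N' : ℕ} {u v : ι → L} (hu : u ∈ cnt_P x N)
    (hv : v ∈ cnt_P x N') : u * v ∈ cnt_P x (N + N') := by
  have h := Submodule.mul_mem_mul hu hv
  unfold cnt_P at h
  rw [Submodule.span_mul_span] at h
  refine Submodule.span_mono ?_ h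
  rintro _ ⟨_, ⟨a, ha, rfl⟩, _, ⟨b, hb, rfl⟩, rfl⟩
  refine ⟨a + b, ?_, ?_⟩
  · simp only [Pi.add_apply, Finset.sum_add_distrib]
    omega
  · funext q
    show cnt_mon x a q * cnt_mon x b q = _
    rw [cnt_mon_add]

/-- extension of an exponent along `I` -/
def cnt_ext {r : ℕ} (I : Fin r → Fin d) (a : Fin r →₀ ℕ) : Fin d → ℕ :=
  fun j => ∑ i, if I i = j then a i else 0

theorem cnt_ext_apply {r : ℕ} {I : Fin r → Fin d} (hI : Function.Injective I) (a : Fin r →₀ ℕ)
    (i : Fin r) : cnt_ext I a (I i) = a i := by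
  unfold cnt_ext
  rw [Finset.sum_eq_single i]
  · simp
  · intro j _ hj
    rw [if_neg]
    exact fun h => hj (hI h)
  · intro h
    exact absurd (mem_univ i) h

theorem cnt_ext_le {r : ℕ} (I : Fin r → Fin d) (a : Fin r →₀ ℕ) (j : Fin d) :
    cnt_ext I a j ≤ a.degree := by
  unfold cnt_ext
  rw [Finsupp.degree_eq_sum]
  refine Finset.sum_le_sum fun i _ => ?_
  split_ifs
  · exact le_rfl
  · exact Nat.zero_le _

theorem cnt_ext_mon {r : ℕ} (I : Fin r → Fin d) (a : Fin r →₀ ℕ) (x : Fin d → ι → L) (q : ι) :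
    cnt_mon x (cnt_ext I a) q = ∏ i, x (I i) q ^ a i := by
  unfold cnt_mon cnt_ext
  have h1 : ∀ j : Fin d, x j q ^ (∑ i, if I i = j then a i else 0) =
      ∏ i, x j q ^ (if I i = j then a i else 0) := fun j =>
    (Finset.prod_pow_eq_pow_sum _ _ _).symm
  rw [Finset.prod_congr rfl fun j _ => h1 j, Finset.prod_comm]
  refine Finset.prod_congr rfl fun i _ => ?_
  rw [Finset.prod_eq_single (I i)]
  · simp
  · intro j _ hj
    rw [if_neg (Ne.symm hj), pow_zero]
  · intro h
    exact absurd (mem_univ _) h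

/-- the relations of the K-method, with a leading exponent -/
theorem cnt_leading {r D : ℕ} {I : Fin r → Fin d} (hI : Function.Injective I)
    {F : MvPolynomial (Fin r) L[X]} (hF : F ≠ 0) (hD : ∀ a ∈ F.support, a.degree ≤ D) :
    ∃ c ∈ F.support, ∀ a ∈ F.support.erase c,
      cnt_om (D + 1) (cnt_ext I a) < cnt_om (D + 1) (cnt_ext I c) := by
  obtain ⟨c, hc, hmax⟩ := Finset.exists_max_image F.support
    (fun a => cnt_om (D + 1) (cnt_ext I a)) (MvPolynomial.support_nonempty.2 hF)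
  refine ⟨c, hc, fun a ha => ?_⟩
  have ha2 := Finset.mem_of_mem_erase ha
  refine lt_of_le_of_ne (hmax a ha2) ?_
  intro h
  apply Finset.ne_of_mem_erase ha
  have h1 := cnt_om_inj (D + 1) (cnt_ext I a) (cnt_ext I c)
    (fun j => Nat.lt_succ_of_le ((cnt_ext_le I a j).trans (hD a ha2)))
    (fun j => Nat.lt_succ_of_le ((cnt_ext_le I c j).trans (hD c hc))) h
  ext i
  rw [← cnt_ext_apply hI a i, h1, cnt_ext_apply hI c i]

end cnt

end Vale.Agent.P018.K
end

section

/-! # P018, K-method, module K8: the family of functions, from the integral criterion. -/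

namespace Vale.Agent.P018.K

open Polynomial

theorem family_pow_sub_le (x y : ℝ) (hy : 0 ≤ y) (hxy : y ≤ x) (n : ℕ) :
    x ^ (n + 1) - y ^ (n + 1) ≤ (n + 1) * (x - y) * x ^ n := by
  induction n with
  | zero => simp
  | succ n ih =>
    have h1 : y ^ (n + 1) ≤ x ^ (n + 1) := pow_le_pow_left₀ hy hxy _
    have h2 : x * (x ^ (n + 1) - y ^ (n + 1)) ≤ x * ((n + 1) * (x - y) * x ^ n) :=
      mul_le_mul_of_nonneg_left ih (hy.trans hxy)
    have h3 : y ^ (n + 1) * (x - y) ≤ x ^ (n + 1) * (x - y) :=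
      mul_le_mul_of_nonneg_right h1 (sub_nonneg.2 hxy)
    have e1 : x ^ (n + 1 + 1) - y ^ (n + 1 + 1) =
        x * (x ^ (n + 1) - y ^ (n + 1)) + y ^ (n + 1) * (x - y) := by ring
    have e2 : (((n + 1 : ℕ) : ℝ) + 1) * (x - y) * x ^ (n + 1) =
        x * ((n + 1) * (x - y) * x ^ n) + x ^ (n + 1) * (x - y) := by push_cast; ring
    rw [e1, e2]
    linarith only [h3, h2]

theorem family_le_pow_sub (x y : ℝ) (hy : 0 ≤ y) (hxy : y ≤ x) (n : ℕ) :
    (n + 1) * (x - y) * y ^ n ≤ x ^ (n + 1) - y ^ (n + 1) := by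
  induction n with
  | zero => simp
  | succ n ih =>
    have h1 : y ^ (n + 1) ≤ x ^ (n + 1) := pow_le_pow_left₀ hy hxy _
    have h2 : y * ((n + 1) * (x - y) * y ^ n) ≤ y * (x ^ (n + 1) - y ^ (n + 1)) :=
      mul_le_mul_of_nonneg_left ih hy
    have h3 : y ^ (n + 1) * (x - y) ≤ x ^ (n + 1) * (x - y) :=
      mul_le_mul_of_nonneg_right h1 (sub_nonneg.2 hxy)
    have e1 : x ^ (n + 1 + 1) - y ^ (n + 1 + 1) =
        y * (x ^ (n + 1) - y ^ (n + 1)) + x ^ (n + 1) * (x - y) := by ring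
    have e2 : (((n + 1 : ℕ) : ℝ) + 1) * (x - y) * y ^ (n + 1) =
        y * ((n + 1) * (x - y) * y ^ n) + y ^ (n + 1) * (x - y) := by push_cast; ring
    rw [e1, e2]
    linarith only [h3, h2]

/-- the upper bound for the lattice sums -/
noncomputable def family_g (r : ℕ) (b Y : ℝ) : ℝ :=
  (Y + r * b) ^ (r + 1) / ((r + 1).factorial * b ^ r)

theorem family_g_nonneg (r : ℕ) (b Y : ℝ) (hb : 0 < b) (hY : 0 ≤ Y + r * b) :
    0 ≤ family_g r b Y := by
  unfold family_g; positivity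

theorem family_g_step (r : ℕ) (b Y : ℝ) (hb : 0 < b) (hY : 0 ≤ Y) :
    family_g r b Y ≤ family_g (r + 1) b Y - family_g (r + 1) b (Y - b) := by
  have hy : 0 ≤ Y + r * b := by positivity
  have h := family_le_pow_sub (Y + (r + 1) * b) (Y + r * b) hy (by linarith) (r + 1)
  unfold family_g
  rw [← sub_div]
  have e1 : Y + ((r + 1 : ℕ) : ℝ) * b = Y + (r + 1) * b := by push_cast; ring
  have e2 : Y - b + ((r + 1 : ℕ) : ℝ) * b = Y + r * b := by push_cast; ring
  rw [e1, e2]
  have hf : ((r + 1 + 1).factorial : ℝ) = (r + 2) * (r + 1).factorial := by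
    rw [Nat.factorial_succ (r + 1)]; push_cast; ring
  rw [hf, div_le_div_iff₀ (by positivity) (by positivity)]
  have e3 : (Y + r * b) ^ (r + 1) * ((r + 2) * ((r + 1).factorial : ℝ) * b ^ (r + 1)) =
      ((((r + 1 : ℕ) : ℝ) + 1) * (Y + (r + 1) * b - (Y + r * b)) * (Y + r * b) ^ (r + 1)) *
        (((r + 1).factorial : ℝ) * b ^ r) := by
    push_cast; ring
  rw [e3]
  exact mul_le_mul_of_nonneg_right h (by positivity)

theorem family_g_sum (r : ℕ) (b : ℝ) (hb : 0 < b) (N : ℕ) : ∀ Y : ℝ, b * N ≤ Y →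
    ∑ c ∈ Finset.range (N + 1), family_g r b (Y - b * c) ≤ family_g (r + 1) b Y := by
  induction N with
  | zero =>
    intro Y hY
    have hY' : 0 ≤ Y := by simpa using hY
    have h1 := family_g_step r b Y hb hY'
    have h2 := family_g_nonneg (r + 1) b (Y - b) hb (by push_cast; linarith only [mul_nonneg (Nat.cast_nonneg (α := ℝ) r) hb.le, hY'])
    simp only [zero_add, Finset.range_one, Finset.sum_singleton, Nat.cast_zero, mul_zero, sub_zero]
    linarith
  | succ N ih =>
    intro Y hY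
    have hN : 0 ≤ b * N := by positivity
    push_cast at hY
    have hY' : 0 ≤ Y := by linarith only [hY, hN, hb]
    have h1 := family_g_step r b Y hb hY'
    have h2 := ih (Y - b) (by linarith)
    rw [Finset.sum_range_succ']
    have e : ∀ c : ℕ, Y - b - b * c = Y - b * ((c + 1 : ℕ) : ℝ) := fun c => by push_cast; ring
    simp only [e] at h2
    simp only [Nat.cast_zero, mul_zero, sub_zero]
    linarith

/-- upper bound for lattice sums -/
theorem upper_sum (r : ℕ) (b Y : ℝ) (hb : 0 < b) (hY : 0 ≤ Y) (A : Finset (Fin r → ℕ)) :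
    ∑ α ∈ A, (Y - b * ∑ i, (α i : ℝ)) ≤ (Y + r * b) ^ (r + 1) / ((r + 1).factorial * b ^ r) := by
  induction r generalizing Y with
  | zero =>
    have hA : A.card ≤ 1 := by
      have := Finset.card_le_univ A
      simpa using this
    simp only [Finset.univ_eq_empty, Finset.sum_empty, mul_zero, sub_zero, Finset.sum_const,
      nsmul_eq_mul, Nat.cast_zero, zero_mul, add_zero, zero_add, pow_one, pow_zero, mul_one,
      Nat.factorial_one, Nat.cast_one, div_one]
    have hA' : (A.card : ℝ) ≤ 1 := by exact_mod_cast hA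
    linarith only [mul_nonneg (sub_nonneg.2 hY) (sub_nonneg.2 hA')]
  | succ r ih =>
    change _ ≤ family_g (r + 1) b Y
    set N := ⌊Y / b⌋₊ with hN
    have hNY : b * N ≤ Y := by
      have := Nat.floor_le (div_nonneg hY hb.le)
      rw [← hN, le_div_iff₀ hb] at this
      linarith only [this]
    refine le_trans ?_ (family_g_sum r b hb N Y hNY)
    set I := A.image (fun α => α 0) with hI
    have h1 : ∑ α ∈ A, (Y - b * ∑ i, (α i : ℝ)) =
        ∑ c ∈ I, ∑ α ∈ A.filter (fun α => α 0 = c), (Y - b * ∑ i, (α i : ℝ)) :=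
      (Finset.sum_fiberwise_of_maps_to (fun α hα => Finset.mem_image_of_mem _ hα) _).symm
    rw [h1]
    have h2 : ∀ c ∈ I, ∑ α ∈ A.filter (fun α => α 0 = c), (Y - b * ∑ i, (α i : ℝ)) ≤
        if c ∈ Finset.range (N + 1) then family_g r b (Y - b * c) else 0 := by
      intro c _
      have e : ∑ α ∈ A.filter (fun α => α 0 = c), (Y - b * ∑ i, (α i : ℝ)) =
          ∑ β ∈ (A.filter (fun α => α 0 = c)).image Fin.tail,
            ((Y - b * c) - b * ∑ i, (β i : ℝ)) := by
        rw [Finset.sum_image]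
        · refine Finset.sum_congr rfl fun α hα => ?_
          have hc : α 0 = c := (Finset.mem_filter.1 hα).2
          rw [Fin.sum_univ_succ, hc]
          simp only [Fin.tail]
          ring
        · intro α hα β hβ hab
          have hc : α 0 = c := (Finset.mem_filter.1 (Finset.mem_coe.1 hα)).2
          have hc' : β 0 = c := (Finset.mem_filter.1 (Finset.mem_coe.1 hβ)).2
          rw [← Fin.cons_self_tail α, ← Fin.cons_self_tail β, hab, hc, hc']
      rw [e]
      split_ifs with hc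
      · have hcN : (c : ℝ) ≤ N := by
          have := Finset.mem_range.1 hc
          exact_mod_cast Nat.lt_succ_iff.1 this
        refine ih (Y - b * c) ?_ _
        linarith only [mul_nonneg (le_of_lt (sub_pos.2 hb)) (sub_nonneg.2 hcN), hNY]
      · refine Finset.sum_nonpos fun β _ => ?_
        have hcN : Y / b < c := by
          rw [Finset.mem_range, not_lt] at hc
          exact (Nat.floor_lt (div_nonneg hY hb.le)).1 (by omega)
        rw [div_lt_iff₀ hb] at hcN
        have : 0 ≤ b * ∑ i, (β i : ℝ) := by (clear * - hb; positivity)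
        linarith only [this, hcN]
    refine (Finset.sum_le_sum h2).trans ?_
    have h3 : ∀ c : ℕ, 0 ≤ if c ∈ Finset.range (N + 1) then family_g r b (Y - b * c) else 0 := by
      intro c
      split_ifs with hc
      · have hcN : (c : ℝ) ≤ N := by
          have := Finset.mem_range.1 hc
          exact_mod_cast Nat.lt_succ_iff.1 this
        refine family_g_nonneg r b _ hb ?_
        have : (0 : ℝ) ≤ r * b := by positivity
        linarith [mul_nonneg (le_of_lt (sub_pos.2 hb)) (sub_nonneg.2 this), mul_nonneg (le_of_lt (sub_pos.2 hb)) (sub_nonneg.2 hcN), hNY]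
      · exact le_rfl
    calc ∑ c ∈ I, (if c ∈ Finset.range (N + 1) then family_g r b (Y - b * c) else 0)
        ≤ ∑ c ∈ I ∪ Finset.range (N + 1),
            (if c ∈ Finset.range (N + 1) then family_g r b (Y - b * c) else 0) :=
          Finset.sum_le_sum_of_subset_of_nonneg Finset.subset_union_left fun c _ _ => h3 c
      _ = ∑ c ∈ Finset.range (N + 1),
            (if c ∈ Finset.range (N + 1) then family_g r b (Y - b * c) else 0) := by
          refine (Finset.sum_subset Finset.subset_union_right fun c _ hc => ?_).symm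
          rw [if_neg hc]
      _ = ∑ c ∈ Finset.range (N + 1), family_g r b (Y - b * c) :=
          Finset.sum_congr rfl fun c hc => by rw [if_pos hc]

/-- telescoping, lower bound -/
theorem family_low_tel (w : ℝ) (hw : 0 < w) (M N : ℕ) : ∀ Y : ℝ, w * N ≤ Y → Y < w * (N + 1) →
    Y ^ (M + 1) ≤ (M + 1) * w * ∑ n ∈ Finset.range (N + 1), (Y - w * n) ^ M := by
  induction N with
  | zero =>
    intro Y h1 h2
    simp only [Nat.cast_zero, mul_zero, zero_add, mul_one] at h1 h2
    simp only [zero_add, Finset.range_one, Finset.sum_singleton, Nat.cast_zero, mul_zero, sub_zero]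
    have hM : 0 ≤ (M : ℝ) * w * Y ^ M := by positivity
    have hY : Y ^ M * Y ≤ Y ^ M * w := mul_le_mul_of_nonneg_left h2.le (by positivity)
    rw [pow_succ]
    linarith only [hY, hM]
  | succ N ih =>
    intro Y h1 h2
    push_cast at h1 h2
    have hN : 0 ≤ w * N := by positivity
    have h3 := ih (Y - w) (by linarith) (by linarith)
    have h4 := family_pow_sub_le Y (Y - w) (by linarith) (by linarith) M
    rw [Finset.sum_range_succ']
    have e : ∀ c : ℕ, Y - w - w * c = Y - w * ((c + 1 : ℕ) : ℝ) := fun c => by push_cast; ring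
    simp only [e] at h3
    simp only [Nat.cast_zero, mul_zero, sub_zero]
    rw [mul_add]
    have e5 : (M + 1) * (Y - (Y - w)) * Y ^ M = (M + 1) * w * Y ^ M := by ring
    rw [e5] at h4
    linarith

/-- lower bound for lattice sums -/
theorem family_lower_sum {ι : Type*} [DecidableEq ι] [Fintype ι] (w : ℝ) (hw : 0 < w)
    (S : Finset ι) : ∀ Y : ℝ, 0 ≤ Y →
    ∃ A : Finset (ι → ℕ), (∀ c ∈ A, ∀ i ∉ S, c i = 0) ∧
      Y ^ (S.card + 1) / ((S.card + 1).factorial * w ^ S.card) ≤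
        ∑ c ∈ A, (Y - w * ∑ i, (c i : ℝ)) := by
  induction S using Finset.induction_on with
  | empty =>
    intro Y hY
    refine ⟨{0}, ?_, ?_⟩
    · intro c hc i _
      rw [Finset.mem_singleton] at hc
      rw [hc]; rfl
    · simp
  | insert a S ha ih =>
    intro Y hY
    have hex : ∀ n : ℕ, ∃ A : Finset (ι → ℕ), 0 ≤ Y - w * n → ((∀ c ∈ A, ∀ i ∉ S, c i = 0) ∧
      (Y - w * n) ^ (S.card + 1) / ((S.card + 1).factorial * w ^ S.card) ≤
        ∑ c ∈ A, ((Y - w * n) - w * ∑ i, (c i : ℝ))) := by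
      intro n
      by_cases h : 0 ≤ Y - w * n
      · obtain ⟨A, hA⟩ := ih _ h
        exact ⟨A, fun _ => hA⟩
      · exact ⟨∅, fun h' => (h h').elim⟩
    choose A hA using hex
    set N := ⌊Y / w⌋₊ with hN
    have hNY : w * N ≤ Y := by
      have := Nat.floor_le (div_nonneg hY hw.le)
      rw [← hN, le_div_iff₀ hw] at this
      linarith only [this]
    have hNY' : Y < w * (N + 1) := by
      have := Nat.lt_floor_add_one (Y / w)
      rw [← hN, div_lt_iff₀ hw] at this
      linarith only [this]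
    have hn : ∀ n ∈ Finset.range (N + 1), 0 ≤ Y - w * n := by
      intro n hn
      have : (n : ℝ) ≤ N := by exact_mod_cast Nat.lt_succ_iff.1 (Finset.mem_range.1 hn)
      linarith only [mul_nonneg (le_of_lt (sub_pos.2 hNY')) (sub_nonneg.2 this), mul_nonneg (sub_nonneg.2 hNY) (sub_nonneg.2 this), hNY]
    set I : Finset (Σ _ : ℕ, (ι → ℕ)) := (Finset.range (N + 1)).sigma A with hI
    set Φ : (Σ _ : ℕ, (ι → ℕ)) → (ι → ℕ) := fun x => Function.update x.2 a x.1 with hΦ
    have hinj : Set.InjOn Φ I := by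
      rintro ⟨n, c⟩ h1 ⟨n', c'⟩ h2 h
      rw [Finset.mem_coe, hI, Finset.mem_sigma] at h1 h2
      have hc : c a = 0 := (hA n (hn n h1.1)).1 c h1.2 a ha
      have hc' : c' a = 0 := (hA n' (hn n' h2.1)).1 c' h2.2 a ha
      have e1 : n = n' := by
        have := congrFun h a
        simpa [hΦ] using this
      have e2 : c = c' := by
        funext i
        by_cases hi : i = a
        · rw [hi, hc, hc']
        · have := congrFun h i
          simpa [hΦ, hi] using this
      rw [e1, e2]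
    refine ⟨I.image Φ, ?_, ?_⟩
    · intro c hc i hi
      rw [Finset.mem_image] at hc
      obtain ⟨⟨n, c'⟩, hx, rfl⟩ := hc
      rw [hI, Finset.mem_sigma] at hx
      rw [Finset.mem_insert, not_or] at hi
      simp only [hΦ, Function.update_of_ne hi.1]
      exact (hA n (hn n hx.1)).1 c' hx.2 i hi.2
    · rw [Finset.sum_image hinj, hI, Finset.sum_sigma, Finset.card_insert_of_notMem ha]
      have h1 : ∀ n ∈ Finset.range (N + 1),
          (Y - w * n) ^ (S.card + 1) / ((S.card + 1).factorial * w ^ S.card) ≤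
          ∑ c ∈ A n, (Y - w * ∑ i, ((Φ ⟨n, c⟩ i : ℕ) : ℝ)) := by
        intro n hn'
        refine (hA n (hn n hn')).2.trans_eq (Finset.sum_congr rfl fun c hc => ?_)
        have hc0 : c a = 0 := (hA n (hn n hn')).1 c hc a ha
        have e : ∑ i, ((Φ ⟨n, c⟩ i : ℕ) : ℝ) = n + ∑ i, (c i : ℝ) := by
          rw [← Finset.add_sum_erase _ _ (Finset.mem_univ a),
            ← Finset.add_sum_erase _ (fun i => (c i : ℝ)) (Finset.mem_univ a), hc0]
          simp only [hΦ, Function.update_self, Nat.cast_zero, zero_add]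
          congr 1
          refine Finset.sum_congr rfl fun i hi => ?_
          rw [Function.update_of_ne (Finset.ne_of_mem_erase hi)]
        rw [e]; ring
      refine le_trans ?_ (Finset.sum_le_sum h1)
      rw [← Finset.sum_div]
      have h2 := family_low_tel w hw (S.card + 1) N Y hNY hNY'
      have hf : ((S.card + 1 + 1).factorial : ℝ) = (S.card + 2) * (S.card + 1).factorial := by
        rw [Nat.factorial_succ (S.card + 1)]; push_cast; ring
      rw [hf, div_le_div_iff₀ (by (clear * - hw; positivity)) (by positivity)]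
      have h3 := mul_le_mul_of_nonneg_right h2
        (show (0 : ℝ) ≤ (S.card + 1).factorial * w ^ S.card by positivity)
      refine h3.trans_eq ?_
      push_cast
      ring

theorem family_lower_sum' {ι : Type*} [DecidableEq ι] [Fintype ι] (w : ℝ) (hw : 0 < w)
    (S : Finset ι) (Y : ℝ) :
    ∃ A : Finset (ι → ℕ), (∀ c ∈ A, ∀ i ∉ S, c i = 0) ∧
      (max Y 0) ^ (S.card + 1) / ((S.card + 1).factorial * w ^ S.card) ≤
        ∑ c ∈ A, (Y - w * ∑ i, (c i : ℝ)) := by
  rcases le_total 0 Y with h | h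
  · rw [max_eq_left h]
    exact family_lower_sum w hw S Y h
  · refine ⟨∅, by simp, ?_⟩
    rw [max_eq_right h]
    simp

theorem family_card {ι : Type*} [DecidableEq ι] (J : Finset ι) (hJ : J.Nonempty) (n : ℕ) :
    ((n : ℝ) + 1) ^ (J.card - 1) ≤ (J.card - 1).factorial * (Finset.piAntidiag J n).card := by
  have h1 : (Finset.piAntidiag J n).card = (J.card + n - 1).choose n := by
    rw [← Finset.card_finsuppAntidiag_nat_eq_choose, Finset.finsuppAntidiag, Finset.card_map,
      Finset.card_attach]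
  have hj : 1 ≤ J.card := hJ.card_pos
  obtain ⟨j, hj⟩ : ∃ j, J.card = j + 1 := ⟨J.card - 1, by omega⟩
  rw [h1, hj]
  have h2 := Nat.pow_succ_le_ascFactorial (n + 1) j
  rw [Nat.ascFactorial_eq_factorial_mul_choose] at h2
  have h3 : (j + 1 + n - 1).choose n = (n + j).choose j := by
    rw [show j + 1 + n - 1 = n + j by omega]
    exact Nat.choose_symm_add.symm ▸ rfl
  rw [h3, Nat.add_sub_cancel]
  exact_mod_cast h2

/-- the function of the integral -/
noncomputable def family_f (j q : ℕ) (w M x : ℝ) : ℝ := x ^ (j - 1) * (max (w * x - M) 0) ^ q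

theorem family_f_nonneg (j q : ℕ) (w M : ℝ) {x : ℝ} (hx : 0 ≤ x) : 0 ≤ family_f j q w M x := by
  unfold family_f; positivity

theorem family_f_cont (j q : ℕ) (w M : ℝ) : Continuous (family_f j q w M) := by
  unfold family_f; fun_prop

theorem family_f_mono (j q : ℕ) (w M : ℝ) (hw : 0 < w) {x y : ℝ} (hx : 0 ≤ x) (hxy : x ≤ y) :
    family_f j q w M x ≤ family_f j q w M y := by
  unfold family_f
  have h1 : x ^ (j - 1) ≤ y ^ (j - 1) := pow_le_pow_left₀ hx hxy _
  have h2 : max (w * x - M) 0 ≤ max (w * y - M) 0 :=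
    max_le_max_right _ (by linarith only [mul_nonneg (le_of_lt (sub_pos.2 hw)) (sub_nonneg.2 hxy)])
  have h3 : (max (w * x - M) 0) ^ q ≤ (max (w * y - M) 0) ^ q :=
    pow_le_pow_left₀ (le_max_right _ _) h2 _
  exact mul_le_mul h1 h3 (by positivity) (pow_nonneg (hx.trans hxy) _)

theorem family_f_scale (j q : ℕ) (w m t κ : ℝ) (ht : 0 < t) :
    ∫ x in (0 : ℝ)..(t * κ), family_f j q w (m * t) x =
      t ^ (j - 1 + q + 1) * ∫ u in (0 : ℝ)..κ, family_f j q w m u := by
  have h := intervalIntegral.integral_comp_mul_left (a := 0) (b := κ)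
    (family_f j q w (m * t)) ht.ne'
  rw [mul_zero, smul_eq_mul] at h
  have h2 : ∀ u, family_f j q w (m * t) (t * u) = t ^ (j - 1 + q) * family_f j q w m u := by
    intro u
    unfold family_f
    have e : max (w * (t * u) - m * t) 0 = t * max (w * u - m) 0 := by
      rw [mul_max_of_nonneg _ _ ht.le, mul_zero]
      congr 1; ring
    rw [e, mul_pow, mul_pow, pow_add]; ring
  simp only [h2, intervalIntegral.integral_const_mul] at h
  have h3 : ∫ x in (0 : ℝ)..(t * κ), family_f j q w (m * t) x =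
      t * (t ^ (j - 1 + q) * ∫ u in (0 : ℝ)..κ, family_f j q w m u) := by
    rw [h, mul_inv_cancel_left₀ ht.ne']
  rw [h3]; ring

theorem family_f_sum (j q : ℕ) (w M : ℝ) (hw : 0 < w) (D : ℕ) {κ : ℝ} (h0 : 0 ≤ κ)
    (hκ : κ ≤ D + 1) :
    ∫ x in (0 : ℝ)..κ, family_f j q w M x ≤
      ∑ n ∈ Finset.range (D + 1), family_f j q w M ((n : ℝ) + 1) := by
  have h1 : ∫ x in (0 : ℝ)..κ, family_f j q w M x ≤
      ∫ x in (0 : ℝ)..(0 + ((D + 1 : ℕ) : ℝ)), family_f j q w M x := by
    refine intervalIntegral.integral_mono_interval le_rfl h0 (by push_cast; linarith) ?_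
      ((family_f_cont j q w M).intervalIntegrable _ _)
    refine (MeasureTheory.ae_restrict_iff' measurableSet_Ioc).2 (Filter.Eventually.of_forall ?_)
    intro x hx
    exact family_f_nonneg j q w M hx.1.le
  refine h1.trans ?_
  have h2 := MonotoneOn.integral_le_sum (f := family_f j q w M) (x₀ := 0) (a := D + 1)
    (fun x hx y _ hxy => family_f_mono j q w M hw hx.1 hxy)
  refine h2.trans_eq (Finset.sum_congr rfl fun n _ => ?_)
  push_cast
  rw [zero_add]

/-- the constants of the integral criterion -/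
noncomputable def family_C (r j : ℕ) (w : ℝ) : ℝ :=
  ((j - 1).factorial * (r - j + 1).factorial * w ^ (r - j))⁻¹

theorem family_Jint (r : ℕ) (m w κ : ℝ) : Jint r m w κ =
    ∑ J ∈ (Finset.univ : Finset (Finset (Fin r))).filter Finset.Nonempty,
      family_C r J.card w * ∫ u in (0 : ℝ)..κ, family_f J.card (r - J.card + 1) w m u := by
  set G : ℕ → ℝ := fun j => if j = 0 then 0 else
    family_C r j w * ∫ u in (0 : ℝ)..κ, family_f j (r - j + 1) w m u with hG
  have h1 : ∑ J ∈ (Finset.univ : Finset (Finset (Fin r))).filter Finset.Nonempty,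
      family_C r J.card w * ∫ u in (0 : ℝ)..κ, family_f J.card (r - J.card + 1) w m u =
      ∑ J ∈ (Finset.univ : Finset (Fin r)).powerset, G J.card := by
    rw [Finset.sum_filter, Finset.powerset_univ]
    refine Finset.sum_congr rfl fun J _ => ?_
    by_cases hJ : J.Nonempty
    · rw [if_pos hJ, hG]
      simp only
      rw [if_neg hJ.card_pos.ne']
    · rw [if_neg hJ, hG]
      simp only
      rw [Finset.not_nonempty_iff_eq_empty.1 hJ, Finset.card_empty, if_pos rfl]
  rw [h1, Finset.sum_powerset_apply_card G, Finset.card_univ, Fintype.card_fin]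
  have h2 : Finset.range (r + 1) = insert 0 (Finset.Icc 1 r) := by
    ext j
    simp only [Finset.mem_range, Finset.mem_insert, Finset.mem_Icc]
    omega
  rw [h2, Finset.sum_insert (by simp)]
  unfold Jint
  have h3 : r.choose 0 • G 0 = 0 := by simp [hG]
  rw [h3, zero_add]
  refine Finset.sum_congr rfl fun j hj => ?_
  have hj0 : j ≠ 0 := by
    have := (Finset.mem_Icc.1 hj).1
    omega
  simp only [hG, if_neg hj0, nsmul_eq_mul, family_C, family_f]
  rw [div_eq_mul_inv, mul_assoc]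

/-- the vector with negative entries `-(p+1)` on `J` and `c` off `J` -/
def family_e {r : ℕ} (J : Finset (Fin r)) (p c : Fin r → ℕ) (i : Fin r) : ℤ :=
  if i ∈ J then -((p i : ℤ) + 1) else (c i : ℤ)

theorem family_e_needs {r : ℕ} (k : ℕ) (hk : 1 ≤ k) (J : Finset (Fin r)) (p c : Fin r → ℕ)
    (t : ℕ) (hJ : J.card ≤ t) (hp : ∑ i ∈ J, p i ≤ k * (t - J.card)) :
    needs k (family_e J p c) ≤ t := by
  have h1 : ∀ i, need k (family_e J p c i) = if i ∈ J then p i / k + 1 else 0 := by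
    intro i
    unfold need family_e
    split_ifs with h
    · have e : (-(-((p i : ℤ) + 1))).toNat = p i + 1 := by omega
      rw [e, show p i + 1 + (k - 1) = p i + k by omega, Nat.add_div_right _ (by omega)]
    · have e : (-((c i : ℕ) : ℤ)).toNat = 0 := by omega
      rw [e, zero_add, Nat.div_eq_of_lt (by omega)]
  unfold needs
  simp only [h1]
  rw [Finset.sum_ite_mem, Finset.univ_inter, Finset.sum_add_distrib, Finset.sum_const,
    smul_eq_mul, mul_one]
  have h2 : k * ∑ i ∈ J, p i / k ≤ k * (t - J.card) := by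
    refine le_trans ?_ hp
    rw [Finset.mul_sum]
    exact Finset.sum_le_sum fun i _ => Nat.mul_div_le _ _
  have h3 : ∑ i ∈ J, p i / k ≤ t - J.card := Nat.le_of_mul_le_mul_left h2 (by omega)
  omega

theorem family_e_sum {r : ℕ} (J : Finset (Fin r)) (p c : Fin r → ℕ)
    (hc : ∀ i ∉ Jᶜ, c i = 0) :
    ∑ i, ((family_e J p c i : ℤ) : ℝ) = -((∑ i ∈ J, (p i : ℝ)) + J.card) + ∑ i, (c i : ℝ) := by
  have h1 : ∀ i, ((family_e J p c i : ℤ) : ℝ) =
      -(if i ∈ J then ((p i : ℝ) + 1) else 0) + (c i : ℝ) := by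
    intro i
    unfold family_e
    by_cases h : i ∈ J
    · have : c i = 0 := hc i (by simp [h])
      rw [if_pos h, if_pos h, this]
      push_cast; ring
    · rw [if_neg h, if_neg h]
      push_cast; ring
  simp only [h1]
  rw [Finset.sum_add_distrib, Finset.sum_neg_distrib, Finset.sum_ite_mem, Finset.univ_inter,
    Finset.sum_add_distrib, Finset.sum_const, nsmul_eq_mul, mul_one]

theorem family_e_inj {r : ℕ} {J J' : Finset (Fin r)} {p c p' c' : Fin r → ℕ}
    (hp : ∀ i ∉ J, p i = 0) (hp' : ∀ i ∉ J', p' i = 0) (hc : ∀ i ∉ Jᶜ, c i = 0)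
    (hc' : ∀ i ∉ J'ᶜ, c' i = 0) (h : family_e J p c = family_e J' p' c') :
    J = J' ∧ p = p' ∧ c = c' := by
  have hJ : J = J' := by
    ext i
    have := congrFun h i
    unfold family_e at this
    constructor
    · intro hi
      by_contra hi'
      rw [if_pos hi, if_neg hi'] at this
      omega
    · intro hi'
      by_contra hi
      rw [if_neg hi, if_pos hi'] at this
      omega
  subst hJ
  refine ⟨rfl, ?_, ?_⟩
  · funext i
    have := congrFun h i
    unfold family_e at this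
    by_cases hi : i ∈ J
    · rw [if_pos hi, if_pos hi] at this
      omega
    · rw [hp i hi, hp' i hi]
  · funext i
    have := congrFun h i
    unfold family_e at this
    by_cases hi : i ∈ J
    · rw [hc i (by simp [hi]), hc' i (by simp [hi])]
    · rw [if_neg hi, if_neg hi] at this
      omega

/-- the functions of degree `t` -/
theorem family_level (k r : ℕ) (hk : 1 ≤ k) (w m : ℝ) (hw : 0 < w) (t : ℕ)
    (ht : r ≤ t) (ht0 : 0 < t) :
    ∃ B : Finset (Fin r → ℤ), (∀ e ∈ B, needs k e ≤ t) ∧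
      (t : ℝ) ^ (r + 1) * Jint r m w (k * (1 - r / t)) ≤
        ∑ e ∈ B, (-(m * (t : ℝ)) - w * ∑ i, (e i : ℝ)) := by
  have hex : ∀ (J : Finset (Fin r)) (n : ℕ), ∃ A : Finset (Fin r → ℕ),
      (∀ c ∈ A, ∀ i ∉ Jᶜ, c i = 0) ∧
      (max (w * (n + J.card) - m * t) 0) ^ (Jᶜ.card + 1) /
        ((Jᶜ.card + 1).factorial * w ^ Jᶜ.card) ≤
        ∑ c ∈ A, ((w * (n + J.card) - m * t) - w * ∑ i, (c i : ℝ)) :=
    fun J n => family_lower_sum' w hw Jᶜ _
  choose A hA1 hA2 using hex
  set I : Finset (Σ _ : Finset (Fin r), Σ _ : ℕ, Σ _ : Fin r → ℕ, (Fin r → ℕ)) :=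
    ((Finset.univ : Finset (Finset (Fin r))).filter Finset.Nonempty).sigma fun J =>
      (Finset.range (k * (t - J.card) + 1)).sigma fun n =>
        (Finset.piAntidiag J n).sigma fun _ => A J n with hI
  set Φ : (Σ _ : Finset (Fin r), Σ _ : ℕ, Σ _ : Fin r → ℕ, (Fin r → ℕ)) → (Fin r → ℤ) :=
    fun x => family_e x.1 x.2.2.1 x.2.2.2 with hΦ
  have hmem : ∀ x ∈ I, x.1.Nonempty ∧ x.2.1 ≤ k * (t - x.1.card) ∧
      ∑ i ∈ x.1, x.2.2.1 i = x.2.1 ∧ (∀ i ∉ x.1, x.2.2.1 i = 0) ∧
      x.2.2.2 ∈ A x.1 x.2.1 := by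
    intro x hx
    rw [hI, Finset.mem_sigma, Finset.mem_sigma, Finset.mem_sigma, Finset.mem_filter,
      Finset.mem_range, Finset.mem_piAntidiag] at hx
    obtain ⟨⟨-, h1⟩, h2, ⟨h3, h4⟩, h5⟩ := hx
    refine ⟨h1, by omega, h3, fun i hi => ?_, h5⟩
    by_contra h
    exact hi (h4 i h)
  have hinj : Set.InjOn Φ I := by
    rintro ⟨J, n, p, c⟩ h1 ⟨J', n', p', c'⟩ h2 h
    obtain ⟨-, -, a3, a4, a5⟩ := hmem _ h1
    obtain ⟨-, -, b3, b4, b5⟩ := hmem _ h2
    simp only at a3 a4 a5 b3 b4 b5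
    obtain ⟨e1, e2, e3⟩ := family_e_inj a4 b4 (hA1 _ _ _ a5) (hA1 _ _ _ b5) h
    subst e1 e2 e3
    have e4 : n = n' := a3.symm.trans b3
    rw [e4]
  refine ⟨I.image Φ, ?_, ?_⟩
  · intro e he
    rw [Finset.mem_image] at he
    obtain ⟨x, hx, rfl⟩ := he
    obtain ⟨h1, h2, h3, -, -⟩ := hmem x hx
    refine family_e_needs k hk _ _ _ t ?_ (by rw [h3]; exact h2)
    have := Finset.card_le_univ x.1
    rw [Fintype.card_fin] at this
    omega
  · rw [Finset.sum_image hinj, hI, Finset.sum_sigma, family_Jint, Finset.mul_sum]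
    refine Finset.sum_le_sum fun J hJ => ?_
    have hJn : J.Nonempty := (Finset.mem_filter.1 hJ).2
    have hJ1 : 1 ≤ J.card := hJn.card_pos
    have hJr : J.card ≤ r := by
      have := Finset.card_le_univ J
      rwa [Fintype.card_fin] at this
    have hJc : Jᶜ.card = r - J.card := by rw [Finset.card_compl, Fintype.card_fin]
    have htR : (0 : ℝ) < t := by exact_mod_cast ht0
    rw [Finset.sum_sigma]
    have hC0 : 0 ≤ family_C r J.card w := by unfold family_C; positivity
    -- the inner sums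
    have h1 : ∀ n ∈ Finset.range (k * (t - J.card) + 1),
        family_C r J.card w * family_f J.card (r - J.card + 1) w (m * t) ((n : ℝ) + 1) ≤
        ∑ x ∈ (Finset.piAntidiag J n).sigma fun _ => A J n,
          (-(m * (t : ℝ)) - w * ∑ i, ((Φ ⟨J, n, x⟩ i : ℤ) : ℝ)) := by
      intro n _
      rw [Finset.sum_sigma]
      have h2 : ∀ p ∈ Finset.piAntidiag J n,
          (max (w * (n + J.card) - m * t) 0) ^ (Jᶜ.card + 1) /
            ((Jᶜ.card + 1).factorial * w ^ Jᶜ.card) ≤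
          ∑ c ∈ A J n, (-(m * (t : ℝ)) - w * ∑ i, ((Φ ⟨J, n, p, c⟩ i : ℤ) : ℝ)) := by
        intro p hp
        rw [Finset.mem_piAntidiag] at hp
        refine (hA2 J n).trans_eq (Finset.sum_congr rfl fun c hc => ?_)
        have e : ∑ i, ((Φ ⟨J, n, p, c⟩ i : ℤ) : ℝ) =
            -((∑ i ∈ J, (p i : ℝ)) + J.card) + ∑ i, (c i : ℝ) :=
          family_e_sum J p c (hA1 J n c hc)
        have e2 : ∑ i ∈ J, (p i : ℝ) = n := by exact_mod_cast hp.1
        rw [e, e2]; ring
      refine le_trans ?_ (Finset.sum_le_sum h2)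
      rw [Finset.sum_const, nsmul_eq_mul, hJc]
      have h3 := family_card J hJn n
      have h4 : (max (w * (n + 1) - m * t) 0) ^ (r - J.card + 1) ≤
          (max (w * (n + J.card) - m * t) 0) ^ (r - J.card + 1) := by
        refine pow_le_pow_left₀ (le_max_right _ _) (max_le_max_right _ ?_) _
        have : (1 : ℝ) ≤ J.card := by exact_mod_cast hJ1
        linarith only [mul_nonneg (le_of_lt (sub_pos.2 hw)) (sub_nonneg.2 this)]
      unfold family_C family_f
      have h5 : ((n : ℝ) + 1) ^ (J.card - 1) * (max (w * (n + 1) - m * t) 0) ^ (r - J.card + 1) ≤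
          ((J.card - 1).factorial * (Finset.piAntidiag J n).card) *
            (max (w * (n + J.card) - m * t) 0) ^ (r - J.card + 1) :=
        mul_le_mul h3 h4 (by (clear * -; positivity)) (by (clear * -; positivity))
      rw [inv_mul_le_iff₀ (by positivity)]
      refine h5.trans_eq ?_
      field_simp
    refine le_trans ?_ (Finset.sum_le_sum h1)
    rw [← Finset.mul_sum]
    have h6 : (k : ℝ) * (1 - r / t) * t ≤ ((k * (t - J.card) : ℕ) : ℝ) + 1 := by
      have e1 : (k : ℝ) * (1 - r / t) * t = k * (t - r) := by field_simp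
      have e2 : ((k * (t - J.card) : ℕ) : ℝ) = k * (t - J.card) := by
        rw [Nat.cast_mul, Nat.cast_sub (by omega)]
      rw [e1, e2]
      have e3 : (J.card : ℝ) ≤ r := by exact_mod_cast hJr
      have e4 : (0 : ℝ) ≤ k := Nat.cast_nonneg k
      (by_contra nlg; linarith only [nlg, mul_nonneg (sub_nonneg.2 e3) (sub_nonneg.2 e4), mul_nonneg (mul_self_nonneg (1 : ℝ)) (le_of_lt (sub_pos.2 (not_le.1 nlg)))])
    have h7 : 0 ≤ (k : ℝ) * (1 - r / t) := by
      refine mul_nonneg (Nat.cast_nonneg k) (sub_nonneg.2 ?_)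
      rw [div_le_one htR]
      exact_mod_cast ht
    have h8 := family_f_sum J.card (r - J.card + 1) w (m * t) hw (k * (t - J.card))
      (κ := t * ((k : ℝ) * (1 - r / t))) (by (clear * - ht0 h7; positivity)) (by rw [mul_comm]; exact h6)
    rw [family_f_scale _ _ _ _ _ _ htR] at h8
    have e : J.card - 1 + (r - J.card + 1) + 1 = r + 1 := by omega
    rw [e] at h8
    calc (t : ℝ) ^ (r + 1) * (family_C r J.card w *
          ∫ u in (0 : ℝ)..(k * (1 - r / t)), family_f J.card (r - J.card + 1) w m u)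
        = family_C r J.card w * ((t : ℝ) ^ (r + 1) *
          ∫ u in (0 : ℝ)..(k * (1 - r / t)), family_f J.card (r - J.card + 1) w m u) := by ring
      _ ≤ _ := mul_le_mul_of_nonneg_left h8 hC0

theorem family_Jint_cont (r : ℕ) (m w : ℝ) : Continuous fun x => Jint r m w x := by
  unfold Jint
  refine continuous_finsetSum _ fun j _ => Continuous.mul continuous_const ?_
  refine intervalIntegral.continuous_primitive (fun a b => ?_) 0
  have : Continuous fun u : ℝ => u ^ (j - 1) * (max (w * u - m) 0) ^ (r - j + 1) := by fun_prop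
  exact this.intervalIntegrable a b

theorem exists_family (k r : ℕ) (hk : 1 ≤ k) (hr : 1 ≤ r) (w b m : ℝ) (hw : 0 < w) (hb : 0 < b)
    (hm0 : 0 ≤ m) (hm1 : m < 1)
    (h : (1 - m) ^ (r + 1) / ((r + 1).factorial * b ^ r) < Jint r m w k) :
    ∃ (T : ℕ) (B : Finset (ℕ × (Fin r → ℤ))) (V : ℝ),
      (∀ p ∈ B, p.1 ≤ T ∧ needs k p.2 ≤ p.1) ∧
      (∀ T' : Finset (ℕ × (Fin r → ℕ)), (∀ τ ∈ T', τ.1 ≤ T) →
        ∑ τ ∈ T', (-(m * (τ.1 : ℝ)) + τ.1 - b * ∑ i, (τ.2 i : ℝ)) ≤ V) ∧
      V < ∑ p ∈ B, (-(m * (p.1 : ℝ)) - w * ∑ i, (p.2 i : ℝ)) := by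
  have hex : ∀ t : ℕ, ∃ B : Finset (Fin r → ℤ), (∀ e ∈ B, needs k e ≤ t) ∧ (r ≤ t → 0 < t →
      (t : ℝ) ^ (r + 1) * Jint r m w (k * (1 - r / t)) ≤
        ∑ e ∈ B, (-(m * (t : ℝ)) - w * ∑ i, (e i : ℝ))) := by
    intro t
    by_cases ht : r ≤ t ∧ 0 < t
    · obtain ⟨B, h1, h2⟩ := family_level k r hk w m hw t ht.1 ht.2
      exact ⟨B, h1, fun _ _ => h2⟩
    · exact ⟨∅, by simp, fun h1 h2 => (ht ⟨h1, h2⟩).elim⟩
  choose Bt hB1 hB2 using hex
  set D : ℕ → ℝ := fun t => (∑ e ∈ Bt t, (-(m * (t : ℝ)) - w * ∑ i, (e i : ℝ))) -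
    family_g r b ((1 - m) * t) with hD
  set c0 : ℝ := (1 - m) ^ (r + 1) / ((r + 1).factorial * b ^ r) with hc0
  set δ : ℝ := (Jint r m w k - c0) / 2 with hδ
  have hδ0 : 0 < δ := by rw [hδ]; linarith only [h]
  -- the limit
  have hlim : Filter.Tendsto (fun t : ℕ => Jint r m w (k * (1 - r / t)) -
      ((1 - m) + (r * b) / t) ^ (r + 1) / ((r + 1).factorial * b ^ r)) Filter.atTop
      (nhds (Jint r m w k - c0)) := by
    refine Filter.Tendsto.sub ?_ ?_
    · have h1 : Filter.Tendsto (fun t : ℕ => (k : ℝ) * (1 - (r : ℝ) / t)) Filter.atTop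
          (nhds ((k : ℝ) * (1 - 0))) :=
        (tendsto_const_nhds.sub (tendsto_const_div_atTop_nhds_zero_nat (r : ℝ))).const_mul _
      rw [sub_zero, mul_one] at h1
      exact ((family_Jint_cont r m w).tendsto _).comp h1
    · have h1 : Filter.Tendsto (fun t : ℕ => (1 - m) + (r * b) / (t : ℝ)) Filter.atTop
          (nhds ((1 - m) + 0)) :=
        tendsto_const_nhds.add (tendsto_const_div_atTop_nhds_zero_nat (r * b : ℝ))
      rw [add_zero] at h1
      exact (h1.pow (r + 1)).div_const _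
  have hev : ∀ᶠ t : ℕ in Filter.atTop, δ ≤ D t := by
    have h1 : ∀ᶠ t : ℕ in Filter.atTop, δ < Jint r m w (k * (1 - r / t)) -
      ((1 - m) + (r * b) / t) ^ (r + 1) / ((r + 1).factorial * b ^ r) :=
      hlim.eventually (lt_mem_nhds (by rw [hδ]; linarith only [hδ0, hδ]))
    filter_upwards [h1, Filter.eventually_ge_atTop r, Filter.eventually_ge_atTop 1]
      with t ht1 ht2 ht3
    have htR : (1 : ℝ) ≤ t := by exact_mod_cast ht3
    have ht0 : (0 : ℝ) < t := by linarith only [htR]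
    have h2 := hB2 t ht2 ht3
    have h3 : family_g r b ((1 - m) * t) = (t : ℝ) ^ (r + 1) *
        (((1 - m) + (r * b) / t) ^ (r + 1) / ((r + 1).factorial * b ^ r)) := by
      unfold family_g
      have e : (1 - m) * t + r * b = t * ((1 - m) + (r * b) / t) := by field_simp
      rw [e, mul_pow, mul_div_assoc]
    have h4 : (1 : ℝ) ≤ (t : ℝ) ^ (r + 1) := one_le_pow₀ htR
    have h5 : δ * 1 ≤ (Jint r m w (k * (1 - r / t)) -
      ((1 - m) + (r * b) / t) ^ (r + 1) / ((r + 1).factorial * b ^ r)) * (t : ℝ) ^ (r + 1) :=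
      mul_le_mul ht1.le h4 zero_le_one (hδ0.le.trans ht1.le)
    change δ ≤ (∑ e ∈ Bt t, (-(m * (t : ℝ)) - w * ∑ i, (e i : ℝ))) - family_g r b ((1 - m) * t)
    rw [h3]
    linarith only [h5, h2]
  obtain ⟨t0, ht0⟩ := Filter.eventually_atTop.1 hev
  obtain ⟨N, hN⟩ := exists_nat_gt (-(∑ t ∈ Finset.range t0, D t) / δ)
  rw [div_lt_iff₀ hδ0] at hN
  set T := t0 + N with hT
  have hsum : 0 < ∑ t ∈ Finset.range (T + 1), D t := by
    have e : T + 1 = t0 + (N + 1) := by rw [hT]; ring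
    rw [e, Finset.sum_range_add]
    have h1 : ((N + 1 : ℕ) : ℝ) * δ ≤ ∑ i ∈ Finset.range (N + 1), D (t0 + i) := by
      have := Finset.card_nsmul_le_sum (Finset.range (N + 1)) (fun i => D (t0 + i)) δ
        (fun i _ => ht0 _ (by omega))
      rwa [Finset.card_range, nsmul_eq_mul] at this
    push_cast at h1
    linarith
  refine ⟨T, (Finset.range (T + 1)).biUnion fun t => (Bt t).image fun e => (t, e),
    ∑ t ∈ Finset.range (T + 1), family_g r b ((1 - m) * t), ?_, ?_, ?_⟩
  · intro p hp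
    rw [Finset.mem_biUnion] at hp
    obtain ⟨t, ht, hp⟩ := hp
    rw [Finset.mem_image] at hp
    obtain ⟨e, he, rfl⟩ := hp
    exact ⟨Nat.lt_succ_iff.1 (Finset.mem_range.1 ht), hB1 t e he⟩
  · intro T' hT'
    have h1 := Finset.sum_finset_product T' (Finset.range (T + 1))
      (fun t => (T'.filter fun τ => τ.1 = t).image Prod.snd)
      (by
        rintro ⟨t, α⟩
        simp only [Finset.mem_range, Finset.mem_image, Finset.mem_filter, Prod.exists]
        constructor
        · intro hp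
          exact ⟨Nat.lt_succ_iff.2 (hT' _ hp), t, α, ⟨hp, rfl⟩, rfl⟩
        · rintro ⟨-, t', α', ⟨hp, rfl⟩, rfl⟩
          exact hp)
      (f := fun τ : ℕ × (Fin r → ℕ) => (-(m * (τ.1 : ℝ)) + τ.1 - b * ∑ i, (τ.2 i : ℝ)))
    rw [h1]
    refine Finset.sum_le_sum fun t _ => ?_
    have h2 := upper_sum r b ((1 - m) * t) hb (mul_nonneg (by linarith) (Nat.cast_nonneg t))
      ((T'.filter fun τ => τ.1 = t).image Prod.snd)
    refine le_trans (le_of_eq (Finset.sum_congr rfl fun α _ => ?_)) h2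
    ring
  · have h1 := Finset.sum_finset_product
      ((Finset.range (T + 1)).biUnion fun t => (Bt t).image fun e => (t, e))
      (Finset.range (T + 1)) Bt
      (by
        rintro ⟨t, e⟩
        simp only [Finset.mem_biUnion, Finset.mem_image, Prod.mk.injEq]
        constructor
        · rintro ⟨t', ht', e', he', rfl, rfl⟩
          exact ⟨ht', he'⟩
        · rintro ⟨ht, he⟩
          exact ⟨t, ht, e, he, rfl, rfl⟩)
      (f := fun p : ℕ × (Fin r → ℤ) => (-(m * (p.1 : ℝ)) - w * ∑ i, (p.2 i : ℝ)))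
    rw [h1, ← sub_pos, ← Finset.sum_sub_distrib]
    exact hsum

end Vale.Agent.P018.K
end

section

/-! # P018, Module E: curves on which `f` does not divide `q(x,0)` carry few solutions;
Module G: the tail for `k ≥ deg f`. -/

namespace Vale.Agent.P018

open Polynomial Finset

/-- a polynomial has at most `deg f` roots modulo `p` in `[0,p)`, if `p` exceeds the absolute value
of the leading coefficient. -/
theorem card_roots_mod_le (f : ℤ[X]) (hf : f ≠ 0) {p : ℕ} (hp : p.Prime)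
    (h : f.leadingCoeff.natAbs < p) (S : Finset ℤ)
    (hS : ∀ n ∈ S, 0 ≤ n ∧ n < p ∧ (p : ℤ) ∣ f.eval n) : S.card ≤ f.natDegree := by
  have : Fact p.Prime := ⟨hp⟩
  set g := f.map (Int.castRingHom (ZMod p)) with hg
  have hg0 : g ≠ 0 := by
    intro h0
    have h1 : g.coeff f.natDegree = 0 := by rw [h0]; simp
    rw [hg, coeff_map] at h1
    have h2 : ((f.leadingCoeff : ℤ) : ZMod p) = 0 := by simpa using h1
    rw [ZMod.intCast_zmod_eq_zero_iff_dvd] at h2
    have h3 := Int.natAbs_dvd_natAbs.2 h2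
    have h4 : 0 < f.leadingCoeff.natAbs := Int.natAbs_pos.2 (leadingCoeff_ne_zero.2 hf)
    have h5 := Nat.le_of_dvd h4 h3
    simp at h5
    omega
  calc S.card ≤ g.roots.toFinset.card := by
        refine card_le_card_of_injOn (fun n : ℤ => (n : ZMod p)) ?_ ?_
        · intro n hn
          obtain ⟨-, -, h3⟩ := hS n hn
          simp only [Multiset.mem_toFinset, mem_coe]
          rw [mem_roots hg0, IsRoot.def, hg, eval_map]
          have : eval₂ (Int.castRingHom (ZMod p)) ((n : ℤ) : ZMod p) f = ((f.eval n : ℤ) : ZMod p) := by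
            rw [show ((n : ℤ) : ZMod p) = Int.castRingHom (ZMod p) n from rfl, eval₂_at_apply]
            rfl
          rw [this]
          exact (ZMod.intCast_zmod_eq_zero_iff_dvd _ _).2 h3
        · intro n hn m hm hnm
          obtain ⟨h1, h2, -⟩ := hS n hn
          obtain ⟨h3, h4, -⟩ := hS m hm
          have h5 := (ZMod.intCast_eq_intCast_iff_dvd_sub _ _ _).1 hnm
          obtain ⟨k, hk⟩ := h5
          have h6 : |m - n| < p := by
            rw [abs_lt]; constructor <;> linarith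
          have h7 : k = 0 := by
            by_contra hk0
            have h8 : 1 ≤ |k| := Int.one_le_abs hk0
            have h9 : |m - n| = p * |k| := by
              rw [hk, abs_mul, abs_of_nonneg (by (clear * -; positivity) : (0 : ℤ) ≤ p)]
            nlinarith [abs_nonneg k, (by (clear * -; positivity) : (0 : ℤ) ≤ p)]
          rw [h7, mul_zero] at hk
          linarith
    _ ≤ Multiset.card g.roots := g.roots.toFinset_card_le
    _ ≤ g.natDegree := card_roots' g
    _ ≤ f.natDegree := natDegree_map_le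

/-- `Q(x,0)` over `ℤ`. -/
noncomputable def res0Z : MvPolynomial (Fin 2) ℤ →ₐ[ℤ] ℤ[X] :=
  MvPolynomial.aeval ![(X : ℤ[X]), 0]

theorem res0Z_map (Q : MvPolynomial (Fin 2) ℤ) :
    (res0Z Q).map (Int.castRingHom ℚ) = res0 (MvPolynomial.map (Int.castRingHom ℚ) Q) := by
  have h : (Polynomial.mapRingHom (Int.castRingHom ℚ)).comp (res0Z : MvPolynomial (Fin 2) ℤ →+* ℤ[X]) =
      (res0 : MvPolynomial (Fin 2) ℚ →+* ℚ[X]).comp (MvPolynomial.map (Int.castRingHom ℚ)) := by
    apply MvPolynomial.ringHom_ext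
    · intro r
      simp [res0Z, res0]
    · intro i
      fin_cases i <;> simp [res0Z, res0]
  exact congrArg (fun φ => φ Q) h

theorem res0Z_eval (Q : MvPolynomial (Fin 2) ℤ) (n : ℤ) :
    (res0Z Q).eval n = evZ (n, 0) Q := by
  have h : (Polynomial.evalRingHom n).comp (res0Z : MvPolynomial (Fin 2) ℤ →+* ℤ[X]) = evZ (n, 0) := by
    apply MvPolynomial.ringHom_ext
    · intro r
      simp [res0Z, evZ]
    · intro i
      fin_cases i <;> simp [res0Z, evZ]
  exact congrArg (fun φ => φ Q) h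

theorem evZ_sub_dvd (Q : MvPolynomial (Fin 2) ℤ) (n p : ℤ) :
    p ∣ evZ (n, p) Q - evZ (n, 0) Q := by
  rw [← Ideal.mem_span_singleton, ← Ideal.Quotient.eq]
  have h : (Ideal.Quotient.mk (Ideal.span {p})).comp (evZ (n, p)) =
      (Ideal.Quotient.mk (Ideal.span {p})).comp (evZ (n, 0)) := by
    apply MvPolynomial.ringHom_ext
    · intro r
      simp [evZ]
    · intro i
      fin_cases i
      · simp [evZ]
      · simp only [evZ, RingHom.comp_apply, MvPolynomial.eval_X]
        simp only [Fin.mk_one, Matrix.cons_val_one, Matrix.cons_val_zero, map_zero]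
        rw [Ideal.Quotient.eq_zero_iff_mem, Ideal.mem_span_singleton]
  exact congrArg (fun φ => φ Q) h

theorem res0Z_coeff (Q : MvPolynomial (Fin 2) ℤ) (i : ℕ) :
    (res0Z Q).coeff i = Q.coeff (Finsupp.single 0 i) := by
  induction Q using MvPolynomial.induction_on' with
  | monomial u a =>
    have h1 : res0Z (MvPolynomial.monomial u a) = C a * (X ^ (u 0) * 0 ^ (u 1)) := by
      unfold res0Z
      rw [MvPolynomial.aeval_monomial, Finsupp.prod_fintype _ _ (fun i => pow_zero _)]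
      simp [Fin.prod_univ_two]
    rw [h1, MvPolynomial.coeff_monomial]
    by_cases h2 : u 1 = 0
    · rw [h2, pow_zero, mul_one, coeff_C_mul, coeff_X_pow]
      by_cases h3 : i = u 0
      · rw [if_pos h3, if_pos, mul_one]
        ext j
        fin_cases j
        · simp [h3]
        · simp [h2]
      · rw [if_neg h3, if_neg, mul_zero]
        intro h4
        apply h3
        rw [h4]
        simp
    · rw [zero_pow h2, mul_zero, mul_zero, coeff_zero, if_neg]
      intro h4
      apply h2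
      rw [h4]
      simp
  | add p q hp hq =>
    rw [map_add, coeff_add, hp, hq, MvPolynomial.coeff_add]

/-- bound for a resultant. -/
theorem resultant_abs_le (f g : ℤ[X]) (B : ℤ) (hB0 : 0 ≤ B) (hf : ∀ i, |f.coeff i| ≤ B)
    (hg : ∀ i, |g.coeff i| ≤ B) (m n : ℕ) :
    |resultant f g m n| ≤ ((m + n).factorial : ℤ) * B ^ (m + n) := by
  have h := Matrix.det_le (A := sylvester f g m n) (abv := AbsoluteValue.abs) (x := B) (by
    intro i j
    rw [AbsoluteValue.abs_apply]
    induction j using Fin.addCases with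
    | left j =>
      simp only [sylvester, Matrix.of_apply, Fin.addCases_left]
      split_ifs
      · exact hg _
      · simpa using hB0
    | right j =>
      simp only [sylvester, Matrix.of_apply, Fin.addCases_right]
      split_ifs
      · exact hf _
      · simpa using hB0)
  simpa [resultant] using h

theorem small_curve_of (f : ℤ[X]) (hirr : Irreducible (f.map (Int.castRingHom ℚ))) (Δ : ℕ)
    (hc : ∃ K : ℕ, ∀ X : ℕ, 2 ≤ X → ∀ q : MvPolynomial (Fin 2) ℚ,
      Irreducible q → q.totalDegree ≤ Δ → ∀ Z : Finset (ℤ × ℤ),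
      (∀ z ∈ Z, |z.1| ≤ X ∧ |z.2| ≤ X) → (∀ z ∈ Z, evQ z q = 0) → Δ * Δ < Z.card →
      ∃ (Q : MvPolynomial (Fin 2) ℤ) (c : ℚ), c ≠ 0 ∧
        MvPolynomial.map (Int.castRingHom ℚ) Q = MvPolynomial.C c * q ∧
        ∀ m, |Q.coeff m| ≤ (X : ℤ) ^ K) :
    ∃ K P0 : ℕ, ∀ P : ℕ, P0 ≤ P → ∀ q : MvPolynomial (Fin 2) ℚ,
    Irreducible q → q.totalDegree ≤ Δ → ¬ (f.map (Int.castRingHom ℚ) ∣ res0 q) →
    ∀ Z : Finset (ℤ × ℤ),
    (∀ z ∈ Z, 0 < z.1 ∧ z.1 < z.2 ∧ (P : ℤ) < z.2 ∧ z.2 ≤ 2 * P ∧ Prime z.2 ∧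
      z.2 ∣ f.eval z.1) → (∀ z ∈ Z, evQ z q = 0) → Z.card ≤ K := by
  classical
  obtain ⟨K0, hK0⟩ := hc
  have hinj : Function.Injective (Int.castRingHom ℚ) := Int.cast_injective
  have hf0 : f ≠ 0 := by
    rintro rfl
    simp at hirr
  have hd : f.natDegree ≠ 0 := by
    have h1 := hirr.natDegree_pos
    rw [natDegree_map_eq_of_injective hinj] at h1
    omega
  set d := f.natDegree with hddef
  set H : ℕ := ∑ i ∈ range (d + 1), (f.coeff i).natAbs with hH
  have hHle : ∀ i, (f.coeff i).natAbs ≤ H := by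
    intro i
    by_cases hi : i ≤ d
    · exact single_le_sum (f := fun i => (f.coeff i).natAbs) (fun _ _ => Nat.zero_le _)
        (mem_range.2 (by omega))
    · rw [coeff_eq_zero_of_natDegree_lt (by omega)]
      simp
  set K1 : ℕ := 1 + 2 * (K0 + 1) * (d + Δ) with hK1
  refine ⟨max (Δ * Δ) (d * K1), max 2 (max H (d + Δ).factorial),
    fun P hP q hq hqΔ hndvd Z hZ hZq => ?_⟩
  have hP2 : 2 ≤ P := le_trans (le_max_left _ _) hP
  have hPH : H ≤ P := le_trans ((le_max_left _ _).trans (le_max_right _ _)) hP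
  have hPfac : (d + Δ).factorial ≤ P := le_trans ((le_max_right _ _).trans (le_max_right _ _)) hP
  by_cases hcard : Z.card ≤ Δ * Δ
  · exact le_max_of_le_left hcard
  refine le_max_of_le_right ?_
  obtain ⟨Q, c, hc0, hQ, hQc⟩ := hK0 (2 * P) (by omega) q hq hqΔ Z (by
    intro z hz
    obtain ⟨h1, h2, h3, h4, -, -⟩ := hZ z hz
    push_cast
    rw [abs_le, abs_le]
    refine ⟨⟨by linarith only [h1, hP2], by linarith only [h4, h2]⟩, ⟨by linarith only [h3, hP2], by linarith only [h4]⟩⟩) hZq (by omega)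
  have hQz : ∀ z ∈ Z, evZ z Q = 0 := by
    intro z hz
    have h1 := evQ_map z Q
    rw [hQ, map_mul, hZq z hz, mul_zero] at h1
    exact_mod_cast h1.symm
  set c0 := res0Z Q with hc0def
  have hc0map : c0.map (Int.castRingHom ℚ) = C c * res0 q := by
    rw [hc0def, res0Z_map, hQ, map_mul]
    congr 1
    simp [res0]
  have hcop : IsCoprime (f.map (Int.castRingHom ℚ)) (c0.map (Int.castRingHom ℚ)) := by
    rcases EuclideanDomain.dvd_or_coprime (f.map (Int.castRingHom ℚ)) (c0.map (Int.castRingHom ℚ)) hirr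
      with h | h
    · exfalso
      apply hndvd
      rw [hc0map] at h
      have hu : IsUnit (C c : ℚ[X]) := isUnit_C.2 (isUnit_iff_ne_zero.2 hc0)
      exact (hu.dvd_mul_left).1 h
    · exact h
  have hRne : resultant f c0 f.natDegree c0.natDegree ≠ 0 := by
    have h := resultant_ne_zero _ _ hcop
    rw [natDegree_map_eq_of_injective hinj, natDegree_map_eq_of_injective hinj,
      resultant_map_map] at h
    exact fun h0 => h (by rw [h0, map_zero])
  obtain ⟨u, v, -, -, huv⟩ := exists_mul_add_mul_eq_C_resultant f c0 le_rfl le_rfl (Or.inl hd)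
  set R := resultant f c0 f.natDegree c0.natDegree with hR
  have hdvd : ∀ z ∈ Z, z.2 ∣ R := by
    intro z hz
    obtain ⟨h1, h2, h3, h4, h5, h6⟩ := hZ z hz
    have h7 : z.2 ∣ c0.eval z.1 := by
      have h8 := evZ_sub_dvd Q z.1 z.2
      have h9 : evZ (z.1, z.2) Q = 0 := hQz z hz
      rw [h9, zero_sub, dvd_neg, ← res0Z_eval] at h8
      exact h8
    have h8 := congrArg (fun g => g.eval z.1) huv
    simp only [eval_add, eval_mul, eval_C] at h8
    rw [← h8]
    exact dvd_add (h6.mul_right _) (h7.mul_right _)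
  -- degree and size of `R`
  have he : c0.natDegree ≤ Δ := by
    have h1 : (c0.map (Int.castRingHom ℚ)).natDegree ≤ Δ := by
      rw [hc0map]
      refine natDegree_C_mul_le _ _ |>.trans ?_
      have h := MvPolynomial.aeval_natDegree_le q hqΔ ![(X : ℚ[X]), 0] (n := 1) (by
        intro i
        fin_cases i <;> simp)
      simpa [res0] using h
    rwa [natDegree_map_eq_of_injective hinj] at h1
  have hP1 : (1 : ℤ) ≤ P := by exact_mod_cast (by omega : 1 ≤ P)
  have hP2' : (2 : ℤ) ≤ P := by exact_mod_cast hP2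
  set B : ℤ := (2 * P : ℤ) ^ (K0 + 1) with hB
  have hB1 : 1 ≤ B := one_le_pow₀ (by linarith only [hP2'])
  have hRle : |R| ≤ (P : ℤ) ^ K1 := by
    have h1 := resultant_abs_le f c0 B (by linarith only [hB1]) (by
      intro i
      have h2 := hHle i
      have h3 : |f.coeff i| ≤ (P : ℤ) := by
        rw [Int.abs_eq_natAbs]
        exact_mod_cast h2.trans hPH
      calc |f.coeff i| ≤ (P : ℤ) := h3
        _ ≤ (2 * P : ℤ) ^ 1 := by rw [pow_one]; linarith only [hP2']
        _ ≤ B := pow_le_pow_right₀ (by linarith only [hP2']) (by omega)) (by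
      intro i
      rw [hc0def, res0Z_coeff]
      have h2 := hQc (Finsupp.single 0 i)
      push_cast at h2
      exact h2.trans (pow_le_pow_right₀ (by linarith only [hP2']) (by omega))) f.natDegree c0.natDegree
    have h2 : ((d + c0.natDegree).factorial : ℤ) ≤ P := by
      have h3 : (d + c0.natDegree).factorial ≤ (d + Δ).factorial := Nat.factorial_le (by omega)
      exact_mod_cast h3.trans hPfac
    calc |R| ≤ ((d + c0.natDegree).factorial : ℤ) * B ^ (d + c0.natDegree) := h1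
      _ ≤ P * B ^ (d + Δ) := by
          refine mul_le_mul h2 (pow_le_pow_right₀ hB1 (by omega)) (by positivity) (by (clear * - hP2; positivity))
      _ ≤ P * ((P : ℤ) ^ (2 * (K0 + 1))) ^ (d + Δ) := by
          refine mul_le_mul_of_nonneg_left (pow_le_pow_left₀ (by linarith only [hB1]) ?_ _) (by (clear * - hP2; positivity))
          rw [hB, pow_mul]
          exact pow_le_pow_left₀ (by positivity) (by nlinarith) _
      _ = (P : ℤ) ^ K1 := by
          rw [← pow_mul, hK1, pow_add, pow_one]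
  have hRle' : R.natAbs ≤ P ^ K1 := by
    rw [Int.abs_eq_natAbs] at hRle
    exact_mod_cast hRle
  have hRpos : 0 < R.natAbs := Int.natAbs_pos.2 hRne
  -- the set of primes
  set S := Z.image (fun z => z.2.natAbs) with hS
  have hSprime : ∀ p ∈ S, p.Prime := by
    intro p hp
    obtain ⟨z, hz, rfl⟩ := mem_image.1 hp
    exact Int.prime_iff_natAbs_prime.1 (hZ z hz).2.2.2.2.1
  have hSdvd : ∏ p ∈ S, p ∣ R.natAbs := by
    refine Finset.prod_primes_dvd _ (fun p hp => (hSprime p hp).prime) ?_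
    intro p hp
    obtain ⟨z, hz, rfl⟩ := mem_image.1 hp
    exact Int.natAbs_dvd_natAbs.2 (hdvd z hz)
  have hSP : ∀ p ∈ S, P < p := by
    intro p hp
    obtain ⟨z, hz, rfl⟩ := mem_image.1 hp
    have := (hZ z hz).2.2.1
    zify
    exact lt_of_lt_of_le this (le_abs_self _)
  have hScard : S.card ≤ K1 := by
    have h1 : P ^ S.card ≤ ∏ p ∈ S, p := by
      rw [← prod_const]
      exact prod_le_prod' fun p hp => (hSP p hp).le
    have h2 := (h1.trans (Nat.le_of_dvd hRpos hSdvd)).trans hRle'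
    exact (Nat.pow_le_pow_iff_right (by omega)).1 h2
  have hfib : ∀ b ∈ S, (Z.filter fun z => z.2.natAbs = b).card ≤ d := by
    intro b hb
    have hinjOn : Set.InjOn Prod.fst ((Z.filter fun z => z.2.natAbs = b : Finset (ℤ × ℤ)) : Set (ℤ × ℤ)) := by
      intro z hz w hw hzw
      simp only [coe_filter, Set.mem_ofPred_eq] at hz hw
      have h1 := (hZ z hz.1)
      have h2 := (hZ w hw.1)
      have h3 : z.2.natAbs = w.2.natAbs := hz.2.trans hw.2.symm
      have h4 : 0 < z.2 := by linarith only [h1.2.1, h1.1]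
      have h5 : 0 < w.2 := by linarith only [h2.2.1, h2.1]
      exact Prod.ext hzw (by omega)
    rw [← card_image_of_injOn hinjOn]
    refine card_roots_mod_le f hf0 (hSprime b hb) ?_ _ ?_
    · refine lt_of_le_of_lt ((hHle _).trans hPH) (hSP b hb)
    · intro n hn
      obtain ⟨z, hz, rfl⟩ := mem_image.1 hn
      rw [mem_filter] at hz
      obtain ⟨h1, h2, h3, h4, h5, h6⟩ := hZ z hz.1
      have h7 : (b : ℤ) = z.2 := by
        rw [← hz.2]
        exact Int.natAbs_of_nonneg (by linarith only [h3, hP2'])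
      rw [h7]
      exact ⟨h1.le, h2, h6⟩
  calc Z.card ≤ d * S.card := card_le_mul_card_image Z d hfib
    _ ≤ d * K1 := Nat.mul_le_mul_left _ hScard

end Vale.Agent.P018
end

section

/-! Auxiliary estimates for `pairs_bound`. -/

namespace Vale.Agent.P018

open Finset Polynomial

theorem sum_rpow_neg_le (β : ℝ) (hβ0 : 0 ≤ β) (hβ1 : β < 1) (Q : ℕ) :
    ∑ q ∈ Icc 1 Q, (q : ℝ) ^ (-β) ≤ (Q : ℝ) ^ (1 - β) / (1 - β) := by
  have ht : 0 < 1 - β := by linarith
  induction Q with
  | zero =>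
    simp only [Nat.cast_zero]
    rw [Real.zero_rpow ht.ne']
    simp
  | succ n ih =>
    rw [Finset.sum_Icc_succ_top (by omega)]
    have hn : (0 : ℝ) < (n : ℝ) + 1 := by positivity
    have h1 : (n : ℝ) ^ (1 - β) ≤ ((n : ℝ) + 1) ^ (1 - β) - (1 - β) * ((n : ℝ) + 1) ^ (-β) := by
      have h2 := _root_.rpow_one_add_le_one_add_mul_self (s := -(1 / ((n : ℝ) + 1)))
        (by
          rw [neg_le_neg_iff, div_le_one hn]
          have : (0 : ℝ) ≤ n := by positivity
          linarith only [this]) (p := 1 - β) ht.le (by linarith only [hβ0])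
      have h3 : (1 : ℝ) + -(1 / ((n : ℝ) + 1)) = n / ((n : ℝ) + 1) := by
        field_simp
        ring
      rw [h3, Real.div_rpow (by positivity) hn.le, div_le_iff₀ (by positivity)] at h2
      have h4 : ((n : ℝ) + 1) ^ (1 - β) = ((n : ℝ) + 1) ^ (-β) * ((n : ℝ) + 1) := by
        rw [← Real.rpow_add_one hn.ne']
        congr 1
        ring
      calc (n : ℝ) ^ (1 - β) ≤ (1 + (1 - β) * -(1 / ((n : ℝ) + 1))) * ((n : ℝ) + 1) ^ (1 - β) := h2
        _ = ((n : ℝ) + 1) ^ (1 - β) - (1 - β) * ((n : ℝ) + 1) ^ (-β) := by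
            rw [h4]
            field_simp
            ring
    push_cast
    have h5 : ((n : ℝ) + 1) ^ (-β) ≤ (((n : ℝ) + 1) ^ (1 - β) - (n : ℝ) ^ (1 - β)) / (1 - β) := by
      rw [le_div_iff₀ ht]
      linarith only [h1]
    calc ∑ q ∈ Icc 1 n, (q : ℝ) ^ (-β) + ((n : ℝ) + 1) ^ (-β)
        ≤ (n : ℝ) ^ (1 - β) / (1 - β) +
          (((n : ℝ) + 1) ^ (1 - β) - (n : ℝ) ^ (1 - β)) / (1 - β) := add_le_add ih h5
      _ = ((n : ℝ) + 1) ^ (1 - β) / (1 - β) := by ring

theorem card_le_mul_of_fiber {α γ : Type*} [DecidableEq γ] (S : Finset α) (T : Finset γ)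
    (g : α → γ) (hg : ∀ x ∈ S, g x ∈ T) (B : ℝ)
    (hB : ∀ t ∈ T, ((S.filter fun x => g x = t).card : ℝ) ≤ B) :
    (S.card : ℝ) ≤ T.card * B := by
  rw [Finset.card_eq_sum_card_fiberwise hg]
  push_cast
  calc ∑ t ∈ T, ((S.filter fun x => g x = t).card : ℝ) ≤ ∑ _t ∈ T, B := Finset.sum_le_sum hB
    _ = T.card * B := by simp

/-- Bezout with small coefficient. -/
theorem exists_unimodular (a : ℤ) (q : ℕ) (hq : 0 < q) (h : Int.gcd a q = 1) :
    ∃ b r : ℤ, a * r - b * q = 1 ∧ 0 ≤ r ∧ r ≤ q := by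
  have hb := Int.gcd_eq_gcd_ab a q
  rw [h] at hb
  push_cast at hb
  set r0 := Int.gcdA a q
  set b0 := Int.gcdB a q
  have hq' : (0 : ℤ) < q := by exact_mod_cast hq
  refine ⟨-b0 - a * (r0 / q), r0 % q, ?_, Int.emod_nonneg _ hq'.ne', (Int.emod_lt_of_pos _ hq').le⟩
  have h1 : r0 % (q : ℤ) = r0 - q * (r0 / q) := Int.emod_def _ _
  rw [h1]
  linear_combination -hb

/-- Few primes for a given `n`. -/
theorem pa_card_primes_le (k d : ℕ) (N : ℤ) (hN : N ≠ 0) (X : ℕ) (A : ℝ) (hX : A < X)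
    (hX1 : 1 ≤ X) (hk : 1 ≤ k)
    (hNA : |(N : ℝ)| ≤ A * (X : ℝ) ^ d) (S : Finset ℕ)
    (hS : ∀ p ∈ S, p.Prime ∧ X < p ∧ (p : ℤ) ^ k ∣ N) : S.card ≤ d := by
  by_contra hcon
  push Not at hcon
  have hprod : (∏ p ∈ S, (p : ℤ) ^ k) ∣ N := by
    apply Finset.prod_dvd_of_coprime
    · intro p hp q hq hpq
      have h1 := (Nat.coprime_primes (hS p hp).1 (hS q hq).1).mpr hpq
      have h2 : IsCoprime (p : ℤ) (q : ℤ) := Nat.isCoprime_iff_coprime.mpr h1
      exact h2.pow
    · intro p hp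
      exact (hS p hp).2.2
  have hle : (∏ p ∈ S, (p : ℤ) ^ k) ≤ |N| := by
    have := Int.le_of_dvd (abs_pos.mpr hN) ((dvd_abs _ _).mpr hprod)
    exact this
  have hXr : (1 : ℝ) ≤ X := by exact_mod_cast hX1
  have h3 : (X : ℝ) ^ (d + 1) ≤ ((∏ p ∈ S, (p : ℤ) ^ k : ℤ) : ℝ) := by
    push_cast
    calc (X : ℝ) ^ (d + 1) ≤ (X : ℝ) ^ S.card := pow_le_pow_right₀ hXr hcon
      _ = ∏ _p ∈ S, (X : ℝ) := by simp
      _ ≤ ∏ p ∈ S, (p : ℝ) ^ k := by
          refine Finset.prod_le_prod (fun _ _ => by positivity) fun p hp => ?_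
          have h4 : (X : ℝ) ≤ p := by exact_mod_cast (hS p hp).2.1.le
          calc (X : ℝ) ≤ p := h4
            _ = (p : ℝ) ^ 1 := (pow_one _).symm
            _ ≤ (p : ℝ) ^ k := pow_le_pow_right₀ (by linarith only [h4, hXr]) hk
  have h5 : ((∏ p ∈ S, (p : ℤ) ^ k : ℤ) : ℝ) ≤ |(N : ℝ)| := by exact_mod_cast hle
  have h6 : (X : ℝ) ^ (d + 1) ≤ A * (X : ℝ) ^ d := h3.trans (h5.trans hNA)
  rw [pow_succ, mul_comm] at h6
  have h7 : (X : ℝ) ≤ A := le_of_mul_le_mul_right h6 (by positivity)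
  linarith only [h7, hX]

theorem pa_abs_eval_le (f : ℤ[X]) (n X : ℕ) (hn : n ≤ X) (hX : 1 ≤ X) :
    |((f.eval (n : ℤ) : ℤ) : ℝ)| ≤
      (∑ i ∈ range (f.natDegree + 1), |(f.coeff i : ℝ)|) * (X : ℝ) ^ f.natDegree := by
  rw [Polynomial.eval_eq_sum_range]
  push_cast
  refine (Finset.abs_sum_le_sum_abs _ _).trans ?_
  rw [Finset.sum_mul]
  refine Finset.sum_le_sum fun i hi => ?_
  rw [abs_mul]
  refine mul_le_mul_of_nonneg_left ?_ (abs_nonneg _)
  rw [abs_pow, abs_of_nonneg (by positivity : (0 : ℝ) ≤ (n : ℝ))]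
  have h1 : (n : ℝ) ≤ X := by exact_mod_cast hn
  have h2 : (1 : ℝ) ≤ X := by exact_mod_cast hX
  calc (n : ℝ) ^ i ≤ (X : ℝ) ^ i := pow_le_pow_left₀ (by positivity) h1 _
    _ ≤ (X : ℝ) ^ f.natDegree := pow_le_pow_right₀ h2 (by
        rw [Finset.mem_range] at hi
        omega)

theorem pa_eval_ne_zero (f : ℤ[X]) (hirr : Irreducible (f.map (Int.castRingHom ℚ)))
    (hd : 2 ≤ f.natDegree) (n : ℤ) : f.eval n ≠ 0 := by
  intro h0
  have h1 : (f.map (Int.castRingHom ℚ)).IsRoot (n : ℚ) := by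
    rw [Polynomial.IsRoot.def, Polynomial.eval_intCast_map, Int.cast_id, h0]
    simp
  have h2 := Polynomial.degree_eq_one_of_irreducible_of_root hirr h1
  have h3 : (f.map (Int.castRingHom ℚ)).natDegree = 1 := Polynomial.natDegree_eq_of_degree_eq_some h2
  rw [Polynomial.natDegree_map_eq_of_injective (Int.cast_injective (α := ℚ))] at h3
  omega

end Vale.Agent.P018
end

section

/-! # P018: a Bezout-type bound by linear algebra, and height control. -/

namespace Vale.Agent.P018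
open MvPolynomial

theorem two_mul_sum_succ (n : ℕ) : (∑ i ∈ Finset.range (n + 1), (i + 1)) * 2 =
    (n + 1) * (n + 2) := by
  induction n with
  | zero => simp
  | succ n ih =>
    rw [Finset.sum_range_succ, add_mul, ih]
    ring

/-- the index set of monomials of degree at most `n` in two variables. -/
noncomputable def triEquiv (n : ℕ) : {m : Fin 2 →₀ ℕ | (m.sum fun _ e => e) ≤ n} ≃
      ↥((Finset.range (n + 1)).sigma (fun i => Finset.range (n + 1 - i))) where
  toFun := fun m => ⟨⟨m.1 0, m.1 1⟩, by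
        have := m.2
        simp only [Set.mem_ofPred_eq] at this
        rw [Finsupp.sum_fintype _ _ (fun _ => rfl), Fin.sum_univ_two] at this
        simp only [Finset.mem_sigma, Finset.mem_range]
        omega⟩
  invFun := fun p => ⟨Finsupp.equivFunOnFinite.symm ![p.1.1, p.1.2], by
        have := p.2
        simp only [Finset.mem_sigma, Finset.mem_range] at this
        simp only [Set.mem_ofPred_eq]
        rw [Finsupp.sum_fintype _ _ (fun _ => rfl), Fin.sum_univ_two]
        simp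
        omega⟩
  left_inv := fun m => by
        apply Subtype.ext
        ext i
        fin_cases i <;> simp
  right_inv := fun p => by
        apply Subtype.ext
        simp

theorem card_tri (n : ℕ) : Nat.card {m : Fin 2 →₀ ℕ | (m.sum fun _ e => e) ≤ n} * 2 =
    (n + 1) * (n + 2) := by
  rw [Nat.card_congr (triEquiv n), Nat.card_eq_fintype_card, Fintype.card_coe, Finset.card_sigma]
  simp only [Finset.card_range]
  have h : ∑ i ∈ Finset.range (n + 1), (n + 1 - i) = ∑ i ∈ Finset.range (n + 1), (i + 1) := by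
    rw [← Finset.sum_range_reflect]
    apply Finset.sum_congr rfl
    intro i hi
    rw [Finset.mem_range] at hi
    omega
  rw [h, two_mul_sum_succ]

/-- polynomials of degree at most `n`. -/
noncomputable abbrev VV (n : ℕ) : Submodule ℚ (MvPolynomial (Fin 2) ℚ) :=
  restrictTotalDegree (Fin 2) ℚ n

theorem finrank_VV (n : ℕ) : Module.finrank ℚ (VV n) * 2 = (n + 1) * (n + 2) := by
  rw [← card_tri]
  congr 1
  exact Module.finrank_eq_nat_card_basis (basisRestrictSupport ℚ _)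

/-- evaluation at the points of `Z` as a linear map. -/
noncomputable def evL (Z : Finset (ℤ × ℤ)) : MvPolynomial (Fin 2) ℚ →ₗ[ℚ] (Z → ℚ) where
  toFun := fun P z => evQ z.1 P
  map_add' := fun P Q => by
    funext z
    simp
  map_smul' := fun c P => by
    funext z
    simp [evQ, smul_eval]

@[simp] theorem evL_apply (Z : Finset (ℤ × ℤ)) (P : MvPolynomial (Fin 2) ℚ) (z : Z) :
    evL Z P z = evQ z.1 P := rfl

/-- a linear form vanishing at `w` but not at `z`. -/
noncomputable def sepForm (z w : ℤ × ℤ) : MvPolynomial (Fin 2) ℚ :=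
  if z.1 = w.1 then X 1 - C (w.2 : ℚ) else X 0 - C (w.1 : ℚ)

theorem totalDegree_X_sub_C_le (i : Fin 2) (a : ℚ) :
    (X i - C a : MvPolynomial (Fin 2) ℚ).totalDegree ≤ 1 := by
  refine (totalDegree_sub _ _).trans ?_
  simp

theorem sepForm_degree (z w : ℤ × ℤ) : (sepForm z w).totalDegree ≤ 1 := by
  unfold sepForm
  split_ifs
  · exact totalDegree_X_sub_C_le _ _
  · exact totalDegree_X_sub_C_le _ _

theorem sepForm_self (z w : ℤ × ℤ) : evQ w (sepForm z w) = 0 := by
  unfold sepForm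
  split_ifs <;> simp [evQ]

theorem sepForm_ne {z w : ℤ × ℤ} (h : z ≠ w) : evQ z (sepForm z w) ≠ 0 := by
  unfold sepForm
  split_ifs with h1
  · have h2 : z.2 ≠ w.2 := fun h2 => h (Prod.ext h1 h2)
    simp only [evQ, map_sub, eval_X, eval_C, Matrix.cons_val_one, Matrix.cons_val_zero]
    rw [sub_ne_zero]
    exact_mod_cast h2
  · simp only [evQ, map_sub, eval_X, eval_C, Matrix.cons_val_zero]
    rw [sub_ne_zero]
    exact_mod_cast h1

theorem evL_surj (Z : Finset (ℤ × ℤ)) (n : ℕ) (hn : Z.card ≤ n) :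
    (VV n).map (evL Z) = ⊤ := by
  classical
  rw [eq_top_iff, ← (Pi.basisFun ℚ Z).span_eq, Submodule.span_le]
  rintro _ ⟨z, rfl⟩
  set P : MvPolynomial (Fin 2) ℚ := ∏ w ∈ Z.erase z.1, sepForm z.1 w with hP
  have hPdeg : P ∈ VV n := by
    rw [mem_restrictTotalDegree]
    refine (totalDegree_finsetProd _ _).trans ?_
    refine (Finset.sum_le_sum (fun w _ => sepForm_degree z.1 w)).trans ?_
    simp only [Finset.sum_const, smul_eq_mul, mul_one]
    exact (Finset.card_erase_le).trans hn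
  have hz : evQ z.1 P ≠ 0 := by
    rw [hP, map_prod, Finset.prod_ne_zero_iff]
    intro w hw
    exact sepForm_ne (Finset.ne_of_mem_erase hw).symm
  have hw : ∀ w : Z, w ≠ z → evQ w.1 P = 0 := by
    intro w hw
    rw [hP, map_prod]
    refine Finset.prod_eq_zero (i := w.1) ?_ (sepForm_self _ _)
    exact Finset.mem_erase.2 ⟨fun h => hw (Subtype.ext h), w.2⟩
  refine ⟨(evQ z.1 P)⁻¹ • P, (VV n).smul_mem _ hPdeg, ?_⟩
  rw [map_smul]
  funext w
  simp only [Pi.smul_apply, evL_apply, smul_eq_mul, Pi.basisFun_apply]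
  by_cases h : w = z
  · subst h
    rw [inv_mul_cancel₀ hz]
    simp
  · rw [hw w h, mul_zero, Pi.single_eq_of_ne h]

/-- multiplication by `q` as a linear map. -/
noncomputable abbrev mulq (q : MvPolynomial (Fin 2) ℚ) :
    MvPolynomial (Fin 2) ℚ →ₗ[ℚ] MvPolynomial (Fin 2) ℚ := LinearMap.mulLeft ℚ q

theorem finrank_map_mulq {q : MvPolynomial (Fin 2) ℚ} (hq : q ≠ 0) (n : ℕ) :
    Module.finrank ℚ ((VV n).map (mulq q)) = Module.finrank ℚ (VV n) := by
  have hinj : Function.Injective (mulq q) := by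
    intro u v huv
    exact mul_left_cancel₀ hq huv
  exact (LinearEquiv.finrank_eq (Submodule.equivMapOfInjective (mulq q) hinj (VV n))).symm

theorem map_mulq_le {q : MvPolynomial (Fin 2) ℚ} {n m : ℕ} (h : q.totalDegree + m ≤ n) :
    (VV m).map (mulq q) ≤ VV n := by
  rintro _ ⟨u, hu, rfl⟩
  have hu' := (mem_restrictTotalDegree _ _ _).1 hu
  rw [mem_restrictTotalDegree]
  have := totalDegree_mul q u
  show (q * u).totalDegree ≤ n
  omega

/-- Module C: Bezout-type bound. -/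
theorem bezout_bound {q G : MvPolynomial (Fin 2) ℚ} (hq : Irreducible q) (hG : ¬ q ∣ G)
    (Z : Finset (ℤ × ℤ)) (h1 : ∀ z ∈ Z, evQ z q = 0) (h2 : ∀ z ∈ Z, evQ z G = 0) :
    Z.card ≤ q.totalDegree * G.totalDegree := by
  have hq0 : q ≠ 0 := hq.ne_zero
  have hG0 : G ≠ 0 := fun h => hG (h ▸ dvd_zero q)
  have hqp : Prime q := hq.prime
  set a := q.totalDegree with ha
  set b := G.totalDegree with hb
  set c := Z.card with hc
  set n := a + b + c with hn
  set L := (evL Z).domRestrict (VV n) with hL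
  have hrange : LinearMap.range L = ⊤ := by
    rw [hL, LinearMap.range_domRestrict, evL_surj Z n (by omega)]
  have hrn := LinearMap.finrank_range_add_finrank_ker L
  rw [hrange, finrank_top, Module.finrank_fintype_fun_eq_card, Fintype.card_coe] at hrn
  set Qn := (VV (b + c)).map (mulq q) with hQn
  set Gn := (VV (a + c)).map (mulq G) with hGn
  have hle : Qn ⊔ Gn ≤ (LinearMap.ker L).map (VV n).subtype := by
    rw [sup_le_iff]
    constructor
    · intro u hu
      have huV : u ∈ VV n := map_mulq_le (by omega) hu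
      refine ⟨⟨u, huV⟩, ?_, rfl⟩
      obtain ⟨v, _, rfl⟩ := hu
      rw [SetLike.mem_coe, LinearMap.mem_ker]
      funext z
      show evQ z.1 (q * v) = 0
      rw [map_mul, h1 z.1 z.2, zero_mul]
    · intro u hu
      have huV : u ∈ VV n := map_mulq_le (by omega) hu
      refine ⟨⟨u, huV⟩, ?_, rfl⟩
      obtain ⟨v, _, rfl⟩ := hu
      rw [SetLike.mem_coe, LinearMap.mem_ker]
      funext z
      show evQ z.1 (G * v) = 0
      rw [map_mul, h2 z.1 z.2, zero_mul]
  have hfr : Module.finrank ℚ ((LinearMap.ker L).map (VV n).subtype) =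
      Module.finrank ℚ (LinearMap.ker L) := Submodule.finrank_map_subtype_eq _ _
  have hle' := Submodule.finrank_mono hle
  rw [hfr] at hle'
  have hinf : Qn ⊓ Gn ≤ (VV c).map (mulq (q * G)) := by
    rintro u ⟨⟨v, hv, rfl⟩, ⟨w, hw, hvw⟩⟩
    have hvw' : G * w = q * v := hvw
    have hdvd : q ∣ G * w := ⟨v, hvw'⟩
    rcases hqp.dvd_or_dvd hdvd with h | h
    · exact absurd h hG
    · obtain ⟨t, rfl⟩ := h
      have hv' : v = G * t := by
        apply mul_left_cancel₀ hq0
        rw [← hvw']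
        ring
      refine ⟨t, ?_, ?_⟩
      · rw [SetLike.mem_coe, mem_restrictTotalDegree]
        rw [SetLike.mem_coe, mem_restrictTotalDegree] at hw
        rcases eq_or_ne t 0 with rfl | ht
        · simp
        · rw [totalDegree_mul_of_isDomain hq0 ht] at hw
          omega
      · show q * G * t = q * v
        rw [hv']
        ring
  have hinf' := Submodule.finrank_mono hinf
  rw [finrank_map_mulq (mul_ne_zero hq0 hG0)] at hinf'
  have hsum := Submodule.finrank_sup_add_finrank_inf_eq Qn Gn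
  rw [hQn, hGn, finrank_map_mulq hq0, finrank_map_mulq hG0, ← hQn, ← hGn] at hsum
  have d1 := finrank_VV n
  have d2 := finrank_VV (b + c)
  have d3 := finrank_VV (a + c)
  have d4 := finrank_VV c
  nlinarith [d1, d2, d3, d4]

theorem evL_surj_of_sep (V : Submodule ℚ (MvPolynomial (Fin 2) ℚ)) (Z : Finset (ℤ × ℤ))
    (h : ∀ z ∈ Z, ∃ P ∈ V, evQ z P ≠ 0 ∧ ∀ w ∈ Z, w ≠ z → evQ w P = 0) :
    V.map (evL Z) = ⊤ := by
  classical
  rw [eq_top_iff, ← (Pi.basisFun ℚ Z).span_eq, Submodule.span_le]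
  rintro _ ⟨z, rfl⟩
  obtain ⟨P, hP, hz, hw⟩ := h z.1 z.2
  refine ⟨(evQ z.1 P)⁻¹ • P, V.smul_mem _ hP, ?_⟩
  rw [map_smul]
  funext w
  simp only [Pi.smul_apply, evL_apply, smul_eq_mul, Pi.basisFun_apply]
  by_cases h : w = z
  · subst h
    rw [inv_mul_cancel₀ hz]
    simp
  · rw [hw w.1 w.2 (fun h' => h (Subtype.ext h')), mul_zero, Pi.single_eq_of_ne h]

/-- a small subset of `Z` imposing the same conditions on polynomials of degree at most `a`. -/
theorem exists_small_subset (a : ℕ) (Z : Finset (ℤ × ℤ)) (hZ : Z.Nonempty)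
    (q : MvPolynomial (Fin 2) ℚ) (hq0 : q ≠ 0) (hqa : q.totalDegree ≤ a)
    (hq : ∀ z ∈ Z, evQ z q = 0) :
    ∃ Z' ⊆ Z, Z'.Nonempty ∧ Z'.card < Module.finrank ℚ (VV a) ∧
      ∀ P ∈ VV a, (∀ z ∈ Z', evQ z P = 0) → ∀ z ∈ Z, evQ z P = 0 := by
  classical
  obtain ⟨Z', hZ'S, hmin⟩ := Finset.exists_min_image
    (Z.powerset.filter fun Y => ∀ P ∈ VV a, (∀ z ∈ Y, evQ z P = 0) → ∀ z ∈ Z, evQ z P = 0)
    Finset.card ⟨Z, by simp⟩
  rw [Finset.mem_filter, Finset.mem_powerset] at hZ'S
  obtain ⟨hZ'Z, hprop⟩ := hZ'S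
  have hne : Z'.Nonempty := by
    rw [Finset.nonempty_iff_ne_empty]
    rintro rfl
    obtain ⟨z, hz⟩ := hZ
    have := hprop 1 (by rw [mem_restrictTotalDegree]; simp) (by simp) z hz
    simp at this
  refine ⟨Z', hZ'Z, hne, ?_, hprop⟩
  have hsurj := evL_surj_of_sep (VV a) Z' (by
    intro z hz
    by_contra hcon
    have hcard : (Z'.erase z).card < Z'.card := Finset.card_erase_lt_of_mem hz
    have hbad : ¬ (∀ P ∈ VV a, (∀ w ∈ Z'.erase z, evQ w P = 0) → ∀ w ∈ Z, evQ w P = 0) := by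
      intro hgood
      have := hmin (Z'.erase z) (by
        rw [Finset.mem_filter, Finset.mem_powerset]
        exact ⟨(Finset.erase_subset _ _).trans hZ'Z, hgood⟩)
      omega
    apply hbad
    intro P hP hPe w hw
    by_cases hzP : evQ z P = 0
    · refine hprop P hP (fun v hv => ?_) w hw
      by_cases hvz : v = z
      · rw [hvz]; exact hzP
      · exact hPe v (Finset.mem_erase.2 ⟨hvz, hv⟩)
    · exact absurd ⟨P, hP, hzP, fun v hv hvz => hPe v (Finset.mem_erase.2 ⟨hvz, hv⟩)⟩ hcon)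
  set L := (evL Z').domRestrict (VV a) with hL
  have hrange : LinearMap.range L = ⊤ := by
    rw [hL, LinearMap.range_domRestrict, hsurj]
  have hrn := LinearMap.finrank_range_add_finrank_ker L
  rw [hrange, finrank_top, Module.finrank_fintype_fun_eq_card, Fintype.card_coe] at hrn
  have hker : 0 < Module.finrank ℚ (LinearMap.ker L) := by
    refine (Module.finrank_pos_iff_exists_ne_zero (R := ℚ) (M := LinearMap.ker L)).2 ?_
    refine ⟨⟨⟨q, (mem_restrictTotalDegree _ _ _).2 hqa⟩, ?_⟩, ?_⟩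
    · rw [LinearMap.mem_ker]
      funext z
      exact hq z.1 (hZ'Z z.2)
    · intro h
      apply hq0
      have := congrArg (fun x => x.1.1) h
      simpa using this
  omega

/-- the exponent set of monomials of degree at most `a`. -/
abbrev Idx (a : ℕ) : Type := {m : Fin 2 →₀ ℕ | (m.sum fun _ e => e) ≤ a}

noncomputable instance (a : ℕ) : Fintype (Idx a) := Fintype.ofEquiv _ (triEquiv a).symm

/-- the integer polynomial with given coefficients. -/
noncomputable def polyOf {a : ℕ} (t : Idx a → ℤ) : MvPolynomial (Fin 2) ℤ :=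
  ∑ m : Idx a, monomial m.1 (t m)

theorem coeff_polyOf {a : ℕ} (t : Idx a → ℤ) (m : Fin 2 →₀ ℕ) :
    (polyOf t).coeff m = if h : (m.sum fun _ e => e) ≤ a then t ⟨m, h⟩ else 0 := by
  classical
  unfold polyOf
  rw [coeff_sum]
  simp only [coeff_monomial]
  split_ifs with h
  · rw [Finset.sum_eq_single ⟨m, h⟩]
    · simp
    · intro b _ hb
      rw [if_neg]
      intro hbm
      exact hb (Subtype.ext hbm)
    · simp
  · apply Finset.sum_eq_zero
    intro b _
    rw [if_neg]
    rintro rfl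
    exact h b.2

theorem evZ_polyOf {a : ℕ} (t : Idx a → ℤ) (z : ℤ × ℤ) :
    evZ z (polyOf t) = ∑ m : Idx a, (z.1 ^ m.1 0 * z.2 ^ m.1 1) * t m := by
  unfold polyOf evZ
  rw [map_sum]
  apply Finset.sum_congr rfl
  intro m _
  rw [eval_monomial, Finsupp.prod_fintype _ _ (fun _ => pow_zero _), Fin.prod_univ_two]
  simp
  ring

theorem totalDegree_polyOf {a : ℕ} (t : Idx a → ℤ) : (polyOf t).totalDegree ≤ a := by
  unfold polyOf
  refine totalDegree_finsetSum_le ?_
  intro m _
  exact (totalDegree_monomial_le _ _).trans m.2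

open Matrix in
attribute [local instance] Matrix.seminormedAddCommGroup in
/-- Siegel's lemma in the form we need. -/
theorem siegel_points (a X : ℕ) (hX : 2 ≤ X) (Z : Finset (ℤ × ℤ)) (hZ : Z.Nonempty)
    (hZN : Z.card < Fintype.card (Idx a))
    (hbox : ∀ z ∈ Z, |z.1| ≤ X ∧ |z.2| ≤ X) :
    ∃ t : Idx a → ℤ, t ≠ 0 ∧ (∀ z ∈ Z, evZ z (polyOf t) = 0) ∧
      ∀ m, |t m| ≤ (X : ℤ) ^ ((Fintype.card (Idx a) + a) * Fintype.card (Idx a)) := by
  classical
  set N := Fintype.card (Idx a) with hN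
  let A : Matrix Z (Idx a) ℤ := fun z m => z.1.1 ^ m.1 0 * z.1.2 ^ m.1 1
  have hcardZ : Fintype.card Z = Z.card := Fintype.card_coe Z
  obtain ⟨t, ht0, htA, htn⟩ := Int.Matrix.exists_ne_zero_int_vec_norm_le A
    (by rw [hcardZ]; exact hZN) (by rw [hcardZ]; exact hZ.card_pos)
  refine ⟨t, ht0, ?_, ?_⟩
  · intro z hz
    rw [evZ_polyOf]
    exact congrFun htA ⟨z, hz⟩
  · intro m
    have hX1 : (1 : ℝ) ≤ X := by exact_mod_cast (by omega : 1 ≤ X)
    have hAnorm : ‖A‖ ≤ (X : ℝ) ^ a := by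
      rw [Matrix.norm_le_iff (by positivity)]
      intro z m
      rw [Int.norm_eq_abs]
      have hb := hbox z.1 z.2
      have h1 : |z.1.1 ^ m.1 0 * z.1.2 ^ m.1 1| ≤ (X : ℤ) ^ a := by
        rw [abs_mul, abs_pow, abs_pow]
        have hm := m.2
        simp only [Set.mem_ofPred_eq] at hm
        rw [Finsupp.sum_fintype _ _ (fun _ => rfl), Fin.sum_univ_two] at hm
        calc |z.1.1| ^ m.1 0 * |z.1.2| ^ m.1 1 ≤ (X : ℤ) ^ m.1 0 * (X : ℤ) ^ m.1 1 := by
              gcongr
              · exact hb.1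
              · exact hb.2
          _ = (X : ℤ) ^ (m.1 0 + m.1 1) := by rw [pow_add]
          _ ≤ (X : ℤ) ^ a := pow_le_pow_right₀ (by exact_mod_cast (by omega : 1 ≤ X)) hm
      exact_mod_cast h1
    have hmax : max 1 ‖A‖ ≤ (X : ℝ) ^ a := max_le (one_le_pow₀ hX1) hAnorm
    have hNX : (N : ℝ) ≤ (X : ℝ) ^ N := by
      have h1 : N ≤ 2 ^ N := (Nat.lt_two_pow_self).le
      have h2 : 2 ^ N ≤ X ^ N := Nat.pow_le_pow_left hX N
      exact_mod_cast h1.trans h2
    have hbase : (N : ℝ) * max 1 ‖A‖ ≤ (X : ℝ) ^ (N + a) := by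
      rw [pow_add]
      exact mul_le_mul hNX hmax (le_trans zero_le_one (le_max_left _ _)) (by positivity)
    have hN1 : (1 : ℝ) ≤ (N : ℝ) := by
      exact_mod_cast (by omega : 1 ≤ N)
    have hbase1 : (1 : ℝ) ≤ (N : ℝ) * max 1 ‖A‖ :=
      one_le_mul_of_one_le_of_one_le hN1 (le_max_left _ _)
    have hexp : (Fintype.card Z : ℝ) / ((N : ℝ) - Fintype.card Z) ≤ (N : ℝ) := by
      rw [hcardZ]
      have h1 : (1 : ℝ) ≤ (N : ℝ) - Z.card := by
        have : (Z.card : ℝ) + 1 ≤ N := by exact_mod_cast hZN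
        linarith only [this]
      have h2 : (Z.card : ℝ) ≤ N := by exact_mod_cast hZN.le
      calc (Z.card : ℝ) / ((N : ℝ) - Z.card) ≤ (Z.card : ℝ) / 1 := by
            apply div_le_div_of_nonneg_left (by (clear * - hZ; positivity)) one_pos h1
        _ ≤ N := by rw [div_one]; exact h2
    have hfinal : ‖t‖ ≤ (X : ℝ) ^ ((N + a) * N) := by
      refine htn.trans ?_
      calc ((N : ℝ) * max 1 ‖A‖) ^ ((Fintype.card Z : ℝ) / ((N : ℝ) - Fintype.card Z))
          ≤ ((N : ℝ) * max 1 ‖A‖) ^ ((N : ℝ)) := Real.rpow_le_rpow_of_exponent_le hbase1 hexp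
        _ = ((N : ℝ) * max 1 ‖A‖) ^ N := Real.rpow_natCast _ _
        _ ≤ ((X : ℝ) ^ (N + a)) ^ N := by
            gcongr
        _ = (X : ℝ) ^ ((N + a) * N) := by rw [← pow_mul]
    have h3 : ‖t m‖ ≤ (X : ℝ) ^ ((N + a) * N) := (norm_le_pi_norm t m).trans hfinal
    rw [Int.norm_eq_abs] at h3
    exact_mod_cast h3

theorem card_Idx (a : ℕ) : Fintype.card (Idx a) = Module.finrank ℚ (VV a) := by
  have h1 := card_tri a
  have h2 := finrank_VV a
  rw [Nat.card_eq_fintype_card] at h1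
  have : Fintype.card (Idx a) * 2 = Module.finrank ℚ (VV a) * 2 := by
    rw [h2, ← h1]
  omega

/-- Module C': height control. -/
theorem height_control (δ : ℕ) : ∃ K : ℕ, ∀ X : ℕ, 2 ≤ X → ∀ q : MvPolynomial (Fin 2) ℚ,
    Irreducible q → q.totalDegree ≤ δ → ∀ Z : Finset (ℤ × ℤ),
    (∀ z ∈ Z, |z.1| ≤ X ∧ |z.2| ≤ X) → (∀ z ∈ Z, evQ z q = 0) → δ * δ < Z.card →
    ∃ (Q : MvPolynomial (Fin 2) ℤ) (c : ℚ), c ≠ 0 ∧
      MvPolynomial.map (Int.castRingHom ℚ) Q = MvPolynomial.C c * q ∧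
      ∀ m, |Q.coeff m| ≤ (X : ℤ) ^ K := by
  refine ⟨((δ + 1) * (δ + 2) + δ) * ((δ + 1) * (δ + 2)), ?_⟩
  intro X hX q hq hqδ Z hbox hZq hcard
  have hq0 := hq.ne_zero
  set a := q.totalDegree with ha
  have hZne : Z.Nonempty := Finset.card_pos.1 (by omega)
  obtain ⟨Z', hZ'Z, hZ'ne, hZ'card, hZ'prop⟩ := exists_small_subset a Z hZne q hq0 le_rfl hZq
  obtain ⟨t, ht0, htZ, htb⟩ := siegel_points a X hX Z' hZ'ne (by rw [card_Idx]; exact hZ'card)
    (fun z hz => hbox z (hZ'Z hz))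
  set Q := polyOf t with hQ
  set P := MvPolynomial.map (Int.castRingHom ℚ) Q with hP
  have hPdeg : P.totalDegree ≤ a := by
    refine le_trans ?_ (totalDegree_polyOf t)
    rw [← hQ]
    unfold totalDegree
    exact Finset.sup_mono (support_map_subset _ _)
  have hPZ' : ∀ z ∈ Z', evQ z P = 0 := by
    intro z hz
    rw [hP, evQ_map, htZ z hz]
    simp
  have hPZ : ∀ z ∈ Z, evQ z P = 0 :=
    hZ'prop P ((mem_restrictTotalDegree _ _ _).2 hPdeg) hPZ'
  have hP0 : P ≠ 0 := by
    intro h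
    apply ht0
    funext m
    have h1 : P.coeff m.1 = 0 := by rw [h]; simp
    rw [hP, coeff_map, hQ, coeff_polyOf] at h1
    have h2 : (m.1.sum fun _ e => e) ≤ a := m.2
    rw [dif_pos h2] at h1
    simpa using h1
  have hdvd : q ∣ P := by
    by_contra hnd
    have h1 := bezout_bound hq hnd Z hZq hPZ
    have h2 : q.totalDegree * P.totalDegree ≤ δ * δ :=
      Nat.mul_le_mul hqδ (hPdeg.trans hqδ)
    omega
  obtain ⟨r, hr⟩ := hdvd
  have hr0 : r ≠ 0 := by
    rintro rfl
    exact hP0 (by rw [hr, mul_zero])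
  have hrdeg : r.totalDegree = 0 := by
    have := totalDegree_mul_of_isDomain hq0 hr0
    rw [← hr] at this
    omega
  rw [totalDegree_eq_zero_iff_eq_C] at hrdeg
  refine ⟨Q, r.coeff 0, ?_, ?_, ?_⟩
  · intro h
    rw [h] at hrdeg
    exact hr0 (by rw [hrdeg]; simp)
  · rw [← hP, hr, mul_comm]
    congr 1
  · intro m
    have hcoeff : |Q.coeff m| ≤ (X : ℤ) ^ ((Fintype.card (Idx a) + a) * Fintype.card (Idx a)) := by
      rw [hQ, coeff_polyOf]
      split_ifs with h
      · exact htb _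
      · simp
    refine hcoeff.trans ?_
    have hN : Fintype.card (Idx a) ≤ (δ + 1) * (δ + 2) := by
      have h1 := finrank_VV a
      rw [← card_Idx] at h1
      have h2 : (a + 1) * (a + 2) ≤ (δ + 1) * (δ + 2) :=
        Nat.mul_le_mul (by omega) (by omega)
      omega
    refine pow_le_pow_right₀ (by exact_mod_cast (by omega : 1 ≤ X)) ?_
    exact Nat.mul_le_mul (by omega) hN

end Vale.Agent.P018
end

section

/-! Divisibility of determinants of polynomials at congruent points. -/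

namespace Vale.Agent.P018

open Polynomial Finset

theorem newton_expansion_aux (s : ℕ) (x : ℕ → ℤ) (h : ℤ[X]) :
    ∃ (d : ℕ → ℤ) (g : ℤ[X]), h = ∑ k ∈ range s, C (d k) * ∏ m ∈ range k, (X - C (x m)) +
      g * ∏ m ∈ range s, (X - C (x m)) := by
  induction s with
  | zero => exact ⟨fun _ => 0, h, by simp⟩
  | succ s ih =>
    obtain ⟨d, g, hd⟩ := ih
    obtain ⟨g', hg'⟩ := X_sub_C_dvd_sub_C_eval (a := x s) (p := g)
    refine ⟨Function.update d s (g.eval (x s)), g', ?_⟩
    have h1 : ∑ k ∈ range s, C (Function.update d s (g.eval (x s)) k) *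
        ∏ m ∈ range k, (X - C (x m)) = ∑ k ∈ range s, C (d k) * ∏ m ∈ range k, (X - C (x m)) := by
      apply sum_congr rfl
      intro k hk
      rw [Function.update_of_ne (mem_range.mp hk).ne]
    rw [sum_range_succ, h1, Function.update_self, prod_range_succ]
    have h2 : g = C (g.eval (x s)) + (X - C (x s)) * g' := by
      rw [← hg']
      ring
    conv_lhs => rw [hd, h2]
    ring

theorem newton_expansion (s : ℕ) (x : ℕ → ℤ) (h : ℤ[X]) :
    ∃ d : ℕ → ℤ, ∀ i < s, h.eval (x i) = ∑ k ∈ range s, d k * ∏ m ∈ range k, (x i - x m) := by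
  obtain ⟨d, g, hd⟩ := newton_expansion_aux s x h
  refine ⟨d, fun i hi => ?_⟩
  conv_lhs => rw [hd]
  rw [eval_add, eval_mul, eval_prod, prod_eq_zero (mem_range.mpr hi), mul_zero, add_zero,
    eval_finsetSum]
  · apply sum_congr rfl
    intro k _
    simp [eval_prod]
  · simp

theorem det_dvd {s : ℕ} (l : ℤ) (x : ℕ → ℤ) (hx : ∀ i j, l ∣ x i - x j) (h : Fin s → ℤ[X]) :
    l ^ (∑ i ∈ range s, i) ∣ (Matrix.of fun i j : Fin s => (h j).eval (x i)).det := by
  choose d hd using fun j : Fin s => newton_expansion s x (h j)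
  have hmul : (Matrix.of fun i j : Fin s => (h j).eval (x i)) =
      (Matrix.of fun i k : Fin s => ∏ m ∈ range (k : ℕ), (x i - x m)) *
      (Matrix.of fun k j : Fin s => d j k) := by
    ext i j
    rw [Matrix.mul_apply, Matrix.of_apply, hd j i i.2, Finset.sum_range]
    apply sum_congr rfl
    intro k _
    rw [Matrix.of_apply, Matrix.of_apply, mul_comm]
  rw [hmul, Matrix.det_mul]
  apply Dvd.dvd.mul_right
  rw [Matrix.det_of_isLowerTriangular]
  · rw [← prod_pow_eq_pow_sum, prod_range (f := fun i => l ^ i)]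
    apply prod_dvd_prod_of_dvd
    intro i _
    rw [Matrix.of_apply]
    calc l ^ (i : ℕ) = ∏ m ∈ range (i : ℕ), l := by simp
      _ ∣ ∏ m ∈ range (i : ℕ), (x i - x m) := prod_dvd_prod_of_dvd _ _ fun m _ => hx _ _
  · intro i j hij
    rw [Matrix.of_apply]
    apply prod_eq_zero (mem_range.mpr (show (i : ℕ) < j from ?_)) (sub_self _)
    simpa using hij

end Vale.Agent.P018
end

section

/-! Newton iteration with polynomials. -/

namespace Vale.Agent.P018

open Polynomial Finset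

/-- `P x y`, for a polynomial in `y` with coefficients polynomials in `x`. -/
noncomputable def ev2 (P : ℤ[X][X]) (x y : ℤ) : ℤ := (P.map (evalRingHom x)).eval y

theorem ev2_eval (P : ℤ[X][X]) (φ : ℤ[X]) (x : ℤ) : (P.eval φ).eval x = ev2 P x (φ.eval x) := by
  unfold ev2
  rw [eval_map]
  have := hom_eval₂ P (RingHom.id ℤ[X]) (evalRingHom x) φ
  rw [RingHom.comp_id] at this
  exact this

theorem ev2_dvd (P : ℤ[X][X]) {l x0 y0 x y : ℤ} (hx : l ∣ x - x0) (hy : l ∣ y - y0) :
    l ∣ ev2 P x y - ev2 P x0 y0 := by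
  have h1 : l ∣ ev2 P x y - ev2 P x y0 := hy.trans (sub_dvd_eval_sub _ _ _)
  have h2 : ev2 P x y0 - ev2 P x0 y0 = (P.eval (C y0)).eval x - (P.eval (C y0)).eval x0 := by
    rw [ev2_eval, ev2_eval, eval_C, eval_C]
  have h3 : l ∣ ev2 P x y0 - ev2 P x0 y0 := by
    rw [h2]
    exact hx.trans (sub_dvd_eval_sub _ _ _)
  have := dvd_add h1 h3
  rwa [sub_add_sub_cancel] at this

theorem hensel_poly (P : ℤ[X][X]) {l x0 y0 v : ℤ} (hv : l ∣ 1 - v * ev2 (derivative P) x0 y0)
    (j : ℕ) : ∃ φ : ℤ[X], ∀ x y : ℤ, l ∣ x - x0 → l ∣ y - y0 → ev2 P x y = 0 →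
      l ^ (j + 1) ∣ y - φ.eval x := by
  induction j with
  | zero => exact ⟨C y0, fun x y _ hy _ => by simpa using hy⟩
  | succ j ih =>
    obtain ⟨φ, hφ⟩ := ih
    refine ⟨φ - C v * P.eval φ, fun x y hx hy hP => ?_⟩
    have h0 := hφ x y hx hy hP
    obtain ⟨k, hk⟩ := (P.map (evalRingHom x)).binomExpansion y (φ.eval x - y)
    have h1 : ev2 P x (φ.eval x) = ev2 (derivative P) x y * (φ.eval x - y) +
        k * (φ.eval x - y) ^ 2 := by
      have h2 : (P.map (evalRingHom x)).eval y = 0 := hP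
      rw [add_sub_cancel, h2, zero_add] at hk
      rw [ev2, hk, derivative_map]
      rfl
    have h3 : l ∣ 1 - v * ev2 (derivative P) x y - v * k * (φ.eval x - y) := by
      have h4 := ev2_dvd (derivative P) hx hy
      have h5 : l ∣ φ.eval x - y := by
        rw [← dvd_neg, neg_sub]
        exact (dvd_pow_self l (Nat.succ_ne_zero j)).trans h0
      have h6 : 1 - v * ev2 (derivative P) x y - v * k * (φ.eval x - y) =
        (1 - v * ev2 (derivative P) x0 y0) - v * (ev2 (derivative P) x y - ev2 (derivative P) x0 y0)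
          - v * k * (φ.eval x - y) := by ring
      rw [h6]
      exact dvd_sub (dvd_sub hv (h4.mul_left v)) (h5.mul_left _)
    have h7 : y - (φ - C v * P.eval φ).eval x =
        (y - φ.eval x) * (1 - v * ev2 (derivative P) x y - v * k * (φ.eval x - y)) := by
      rw [eval_sub, eval_mul, eval_C, ev2_eval, h1]
      ring
    rw [h7, pow_succ l (j + 1)]
    exact mul_dvd_mul h0 h3

/-- A polynomial in two variables, as a polynomial in `y` over `ℤ[x]`. -/
noncomputable def toBiv : MvPolynomial (Fin 2) ℤ →ₐ[ℤ] ℤ[X][X] :=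
  MvPolynomial.aeval ![C X, X]

theorem ev2_toBiv (Q : MvPolynomial (Fin 2) ℤ) (x y : ℤ) : ev2 (toBiv Q) x y = evZ (x, y) Q := by
  have h : ((evalRingHom y).comp ((mapRingHom (evalRingHom x)).comp
      (toBiv : MvPolynomial (Fin 2) ℤ →+* ℤ[X][X]))) = evZ (x, y) := by
    apply MvPolynomial.ringHom_ext
    · intro r
      simp [evZ]
    · intro i
      fin_cases i <;> simp [toBiv, evZ]
  exact congrArg (fun g => g Q) h

theorem derivative_toBiv (Q : MvPolynomial (Fin 2) ℤ) :
    derivative (toBiv Q) = toBiv (MvPolynomial.pderiv 1 Q) := by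
  induction Q using MvPolynomial.induction_on with
  | C a => simp
  | add p q hp hq => simp [hp, hq]
  | mul_X p i hp =>
    rw [map_mul, derivative_mul, hp, Derivation.leibniz, map_add, smul_eq_mul, smul_eq_mul,
      map_mul, map_mul]
    have h1 : derivative (toBiv (MvPolynomial.X i)) =
        toBiv (MvPolynomial.pderiv 1 (MvPolynomial.X i : MvPolynomial (Fin 2) ℤ)) := by
      fin_cases i
      · simp [toBiv, MvPolynomial.pderiv_X]
      · simp [toBiv, MvPolynomial.pderiv_X]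
    rw [h1]
    ring

end Vale.Agent.P018
end

section

/-! The product defining the density converges. -/

namespace Vale.Agent.P018

open Polynomial

theorem multipliable_density (f : ℤ[X]) (k : ℕ) (hk : 2 ≤ k)
    (hirr : Irreducible (f.map (Int.castRingHom ℚ))) :
    Multipliable (fun p : Nat.Primes => 1 - (rho f ((p : ℕ) ^ k) : ℝ) / ((p : ℕ) : ℝ) ^ k) := by
  obtain ⟨D, hD⟩ := sv_rho_bound f k (by omega) hirr
  have h1 : Summable (fun n : ℕ => (D : ℝ) * (1 / (n : ℝ) ^ 2)) :=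
    (Real.summable_one_div_nat_pow.mpr (by norm_num)).mul_left _
  have h2 : Summable (fun p : Nat.Primes => (D : ℝ) * (1 / ((p : ℕ) : ℝ) ^ 2)) :=
    h1.comp_injective Nat.Primes.coe_nat_injective
  have h3 : Summable (fun p : Nat.Primes => ‖-((rho f ((p : ℕ) ^ k) : ℝ) / ((p : ℕ) : ℝ) ^ k)‖) := by
    refine Summable.of_nonneg_of_le (fun p => norm_nonneg _) (fun p => ?_) h2
    have h4 : (1 : ℝ) ≤ ((p : ℕ) : ℝ) := by exact_mod_cast p.2.one_lt.le
    have h5 : ((p : ℕ) : ℝ) ^ 2 ≤ ((p : ℕ) : ℝ) ^ k := pow_le_pow_right₀ h4 hk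
    have h6 : (rho f ((p : ℕ) ^ k) : ℝ) ≤ D := by exact_mod_cast hD p p.2
    have h7 : (0 : ℝ) ≤ (rho f ((p : ℕ) ^ k) : ℝ) / ((p : ℕ) : ℝ) ^ k := by (clear * - h4; positivity)
    rw [norm_neg, Real.norm_eq_abs, abs_of_nonneg h7, mul_one_div]
    gcongr
  have h4 := multipliable_one_add_of_summable h3
  simpa [sub_eq_add_neg] using h4

end Vale.Agent.P018
end

section

/-! # P018, quartics: definitions for the pair `(d, k) = (4, 2)`. -/

namespace Vale.Agent.P018.Q

open Polynomial NumberField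

/-- homogenisation of degree `D`: `∑ a_i s^i t^(D-i)`. -/
def hom {R : Type*} [CommRing R] (D : ℕ) (A : ℤ[X]) (s t : R) : R :=
  ∑ i ∈ Finset.range (D + 1), (A.coeff i : R) * s ^ i * t ^ (D - i)

/-- the Wronskian `A B' - A' B`. -/
noncomputable def wr (A B : ℤ[X]) : ℤ[X] := A * derivative B - derivative A * B

/-- scalar product of integer vectors. -/
def dot (v w : Fin 4 → ℤ) : ℤ := ∑ i, v i * w i

/-- `(l1, l2)` is a size reduced pair of independent integer vectors. -/
def Red (l1 l2 : Fin 4 → ℤ) : Prop :=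
  l1 ≠ 0 ∧ dot l1 l1 ≤ dot l2 l2 ∧ 2 * |dot l1 l2| ≤ dot l1 l1 ∧
    ∀ a b : ℤ, a • l1 + b • l2 = 0 → a = 0 ∧ b = 0

/-- the data attached to a solution: `c (N - θ_i) = π_i^2 γ_i` with `π_i = ell (θ i) y`,
`γ_i = ell (θ i) z`, and `∏ π_i = p c'`. -/
structure Dat {L : Type} [Field L] [NumberField L] (θ : Fin 4 → 𝓞 L) (C : ℕ) (X T : ℝ)
    (N : ℤ) (p : ℕ) (c : ℤ) (y z : Fin 4 → ℤ) : Prop where
  prime : p.Prime
  lo : T ^ 4 ≤ p
  hi : (p : ℝ) ≤ 2 * T ^ 4
  c0 : c ≠ 0
  cC : |c| ≤ C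
  nrm : ∃ c' : ℤ, c' ≠ 0 ∧ |c'| ≤ C ∧ ∏ i, K.ell (θ i) y = (((p : ℤ) * c' : ℤ) : 𝓞 L)
  eqn : ∀ i, (c : 𝓞 L) * ((N : 𝓞 L) - θ i) = K.ell (θ i) y ^ 2 * K.ell (θ i) z
  hN : |(N : ℝ)| ≤ C * X
  hy : ∀ j, |(y j : ℝ)| ≤ C * T
  hz : ∀ j, |(z j : ℝ)| ≤ C * X / T ^ 2

/-- `Ψ` has degree `≤ j` in the outer variable and its coefficients have degree `≤ m`. -/
def BiDeg {R : Type*} [CommRing R] (j m : ℕ) (Ψ : R[X][X]) : Prop :=
  Ψ.natDegree ≤ j ∧ ∀ i, (Ψ.coeff i).natDegree ≤ m

end Vale.Agent.P018.Q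
end

section

/-! # P018, quartics: definitions for the kappa model. -/

namespace Vale.Agent.P018.Q

open Polynomial NumberField

variable {L : Type} [Field L] [NumberField L]

/-- the linear forms `π_j(σ) = ell (θ j) l1 σ + ell (θ j) l2` are pairwise not proportional. -/
def NonDeg (θ : Fin 4 → 𝓞 L) (l1 l2 : Fin 4 → ℤ) : Prop :=
  ∀ i j, i ≠ j → K.ell (θ i) l1 * K.ell (θ j) l2 ≠ K.ell (θ j) l1 * K.ell (θ i) l2

/-- the polynomial `π_j(σ)`. -/
noncomputable def piPoly (θ : Fin 4 → 𝓞 L) (l1 l2 : Fin 4 → ℤ) (j : Fin 4) : (𝓞 L)[X] :=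
  C (K.ell (θ j) l1) * X + C (K.ell (θ j) l2)

/-- the data of the kappa model: two integer vectors `e_i = (A i, B i)` of polynomials of degree
`d i`, with `B i - θ_j A i = π_j² ∑_m Z i m θ_j^m`, and `A 0 B 1 - A 1 B 0 = c Λ²`,
`Λ = ∏ π_j`. -/
structure KData (θ : Fin 4 → 𝓞 L) (l1 l2 : Fin 4 → ℤ) (d : Fin 2 → ℕ) (A B : Fin 2 → ℤ[X])
    (Z : Fin 2 → Fin 4 → ℤ[X]) (Λ : ℤ[X]) (c : ℤ) : Prop where
  dd : (d 0 = 4 ∧ d 1 = 4) ∨ (d 0 = 3 ∧ d 1 = 5)
  dA : ∀ i, (A i).natDegree ≤ d i
  dB : ∀ i, (B i).natDegree ≤ d i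
  dZ : ∀ i m, (Z i m).natDegree + 2 ≤ d i
  eq : ∀ i j, (B i).map (algebraMap ℤ (𝓞 L)) - C (θ j) * (A i).map (algebraMap ℤ (𝓞 L)) =
    piPoly θ l1 l2 j ^ 2 * ∑ m : Fin 4, (Z i m).map (algebraMap ℤ (𝓞 L)) * C (θ j ^ (m : ℕ))
  hΛ : Λ.map (algebraMap ℤ (𝓞 L)) = ∏ j, piPoly θ l1 l2 j
  c0 : c ≠ 0
  det : A 0 * B 1 - A 1 * B 0 = C c * Λ ^ 2

end Vale.Agent.P018.Q
end

section

/-! # P018, quartics: auxiliary lemmas on the quartic field `ℚ[x] / (G)`. -/

namespace Vale.Agent.P018.Q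

open Polynomial NumberField Module IntermediateField

variable {L : Type} [Field L] [NumberField L]

/-- ring homomorphisms commute with `ell`. -/
theorem map_ell {R S : Type*} [CommRing R] [CommRing S] {F : Type*} [FunLike F R S]
    [RingHomClass F R S] (f : F) {d : ℕ} (θ : R) (y : Fin d → ℤ) :
    f (K.ell θ y) = K.ell (f θ) y := by
  simp only [K.ell, map_sum, map_mul, map_pow, map_intCast]

theorem ell_lin {R : Type*} [CommRing R] {d : ℕ} (θ : R) (s t : ℤ) (l1 l2 : Fin d → ℤ) :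
    K.ell θ (s • l1 + t • l2) = (s : R) * K.ell θ l1 + (t : R) * K.ell θ l2 := by
  simp only [K.ell, Finset.mul_sum, ← Finset.sum_add_distrib]
  refine Finset.sum_congr rfl fun j _ => ?_
  simp only [Pi.add_apply, Pi.smul_apply, smul_eq_mul, Int.cast_add, Int.cast_mul]
  ring

/-- the `θ i` are roots of `G`. -/
theorem eval_theta {G : ℤ[X]} {θ : Fin 4 → 𝓞 L}
    (hGθ : G.map (algebraMap ℤ (𝓞 L)) = ∏ i, (X - C (θ i))) (i : Fin 4) :
    (G.map (Int.castRingHom ℚ)).eval₂ (algebraMap ℚ L) (θ i : L) = 0 := by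
  have h1 : (G.map (algebraMap ℤ (𝓞 L))).eval (θ i) = 0 := by
    rw [hGθ, eval_prod]
    exact Finset.prod_eq_zero (Finset.mem_univ i) (by simp)
  have h2 := congrArg (algebraMap (𝓞 L) L) h1
  rw [map_zero, ← eval₂_at_apply, eval₂_map] at h2
  rw [eval₂_map]
  have h3 : (algebraMap (𝓞 L) L).comp (algebraMap ℤ (𝓞 L)) =
      (algebraMap ℚ L).comp (Int.castRingHom ℚ) := RingHom.ext_int _ _
  rw [h3] at h2
  exact h2

/-- `F = ℚ(α)` is the quartic field of `G`, with the embeddings `σ i : α ↦ θ i`. -/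
structure QF (θ : Fin 4 → 𝓞 L) (F : Type) [Field F] [NumberField F] (α : F)
    (σ : Fin 4 → F →+* L) : Prop where
  fr : finrank ℚ F = 4
  sr : ∀ i, σ i α = (θ i : L)
  li : ∀ y : Fin 4 → ℚ, ∑ j, (y j : F) * α ^ (j : ℕ) = 0 → y = 0
  span : ∀ x : F, ∃ y : Fin 4 → ℚ, x = ∑ j, (y j : F) * α ^ (j : ℕ)

theorem exists_quartic {G : ℤ[X]} (hG : G.Monic) (hGd : G.natDegree = 4)
    (hGi : Irreducible (G.map (Int.castRingHom ℚ))) {θ : Fin 4 → 𝓞 L}
    (hGθ : G.map (algebraMap ℤ (𝓞 L)) = ∏ i, (X - C (θ i))) :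
    ∃ (F : Type) (_ : Field F) (_ : NumberField F) (α : F) (σ : Fin 4 → F →+* L),
      QF θ F α σ := by
  set g : ℚ[X] := G.map (Int.castRingHom ℚ) with hgdef
  have hg : g.natDegree = 4 := by rw [hgdef, hG.natDegree_map, hGd]
  have hfact : Fact (Irreducible g) := ⟨hGi⟩
  have hg0 : g ≠ 0 := hGi.ne_zero
  have hfr : finrank ℚ (AdjoinRoot g) = 4 := by
    have h : @finrank ℚ (AdjoinRoot g) _ _ (AdjoinRoot.instAlgebra g).toModule = 4 := by
      rw [(AdjoinRoot.powerBasis hg0).finrank, AdjoinRoot.powerBasis_dim, hg]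
    exact h
  have hmk : ∀ y : Fin 4 → ℚ, ∑ j, ((y j : ℚ) : AdjoinRoot g) * (AdjoinRoot.root g) ^ (j : ℕ) =
      AdjoinRoot.mk g (∑ j : Fin 4, C (y j) * X ^ (j : ℕ)) := by
    intro y
    rw [map_sum]
    refine Finset.sum_congr rfl fun j _ => ?_
    rw [map_mul, map_pow, AdjoinRoot.mk_X, AdjoinRoot.mk_C]
    congr 1
  refine ⟨AdjoinRoot g, inferInstance, inferInstance, AdjoinRoot.root g,
    fun i => AdjoinRoot.lift (algebraMap ℚ L) (θ i : L) (eval_theta hGθ i), hfr, ?_, ?_, ?_⟩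
  · intro i
    simp
  · intro y hy
    rw [hmk, AdjoinRoot.mk_eq_zero] at hy
    have h2 : (∑ j : Fin 4, C (y j) * X ^ (j : ℕ) : ℚ[X]) = 0 := by
      by_contra hne
      have h3 := natDegree_le_of_dvd hy hne
      have h4 : (∑ j : Fin 4, C (y j) * X ^ (j : ℕ) : ℚ[X]).natDegree ≤ 3 := by
        refine natDegree_sum_le_of_forall_le _ _ fun j _ => ?_
        refine (natDegree_C_mul_X_pow_le _ _).trans ?_
        omega
      omega
    funext k
    have h3 := congrArg (fun P : ℚ[X] => P.coeff k) h2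
    simp only [finsetSum_coeff, coeff_C_mul, coeff_X_pow, coeff_zero] at h3
    rw [Finset.sum_eq_single k] at h3
    · simpa using h3
    · intro b _ hb
      have : (k : ℕ) ≠ b := fun h => hb (Fin.ext h.symm)
      simp [this]
    · simp
  · intro x
    obtain ⟨P, rfl⟩ := AdjoinRoot.mk_surjective x
    have hgm : g.Monic := hG.map _
    refine ⟨fun j => (P %ₘ g).coeff j, ?_⟩
    rw [hmk]
    have h1 : AdjoinRoot.mk g P = AdjoinRoot.mk g (P %ₘ g) := by
      rw [AdjoinRoot.mk_eq_mk]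
      exact ⟨P /ₘ g, by rw [eq_comm, ← sub_eq_iff_eq_add.2 (modByMonic_add_div P g).symm]; ring⟩
    rw [h1]
    congr 1
    have h2 : (P %ₘ g).natDegree < 4 := by
      rw [← hg]; exact natDegree_modByMonic_lt P hgm (by rintro h; rw [h] at hg; simp at hg)
    conv_lhs => rw [as_sum_range_C_mul_X_pow' _ h2]
    rw [Finset.sum_range]

section
variable {θ : Fin 4 → 𝓞 L} {F : Type} [Field F] [NumberField F] {α : F}
    {σ : Fin 4 → F →+* L}

omit [NumberField L] in
theorem QF.map_ell (h : QF θ F α σ) (i : Fin 4) (y : Fin 4 → ℤ) :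
    σ i (K.ell α y) = ((K.ell (θ i) y : 𝓞 L) : L) := by
  rw [Q.map_ell, h.sr]
  exact (Q.map_ell (algebraMap (𝓞 L) L) (θ i) y).symm

omit [NumberField L] in
theorem QF.injective (h : QF θ F α σ) (hθ : Function.Injective θ) : Function.Injective σ := by
  intro i j hij
  apply hθ
  have h1 := DFunLike.congr_fun hij α
  rw [h.sr, h.sr] at h1
  exact RingOfIntegers.coe_injective h1

/-- the norm is the product over the four embeddings. -/
theorem QF.norm_eq (h : QF θ F α σ) (hθ : Function.Injective θ) (x : F) :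
    algebraMap ℚ L (Algebra.norm ℚ x) = ∏ i, σ i x := by
  classical
  apply (algebraMap L (AlgebraicClosure L)).injective
  rw [map_prod, ← IsScalarTower.algebraMap_apply, Algebra.norm_eq_prod_embeddings]
  let τ : Fin 4 → (F →ₐ[ℚ] AlgebraicClosure L) :=
    fun i => (IsScalarTower.toAlgHom ℚ L (AlgebraicClosure L)).comp ((σ i).toRatAlgHom)
  have hτ : Function.Bijective τ := by
    rw [Fintype.bijective_iff_injective_and_card]
    refine ⟨?_, by rw [AlgHom.card, h.fr]; simp⟩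
    intro i j hij
    apply h.injective hθ
    ext y
    have h1 := DFunLike.congr_fun hij y
    exact (algebraMap L (AlgebraicClosure L)).injective h1
  exact (Fintype.prod_bijective τ hτ _ _ (fun i => rfl)).symm

/-- an element on which two embeddings agree has square norm. -/
theorem QF.norm_sq (h : QF θ F α σ) (hθ : Function.Injective θ)
    {i j : Fin 4} (hij : i ≠ j) {x : F} (hx : σ i x = σ j x) :
    ∃ r : ℚ, Algebra.norm ℚ x = r ^ 2 := by
  rw [Algebra.norm_eq_norm_adjoin]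
  have h1 : finrank ℚ ℚ⟮x⟯ * finrank ℚ⟮x⟯ F = 4 := by
    rw [finrank_mul_finrank, h.fr]
  have h2 : finrank ℚ⟮x⟯ F ≠ 1 := by
    intro h1
    have htop : ℚ⟮x⟯ = ⊤ := IntermediateField.finrank_eq_one_iff_eq_top.1 h1
    apply (h.injective hθ).ne hij
    refine RingHom.ext fun y => ?_
    have hy : y ∈ ℚ⟮x⟯ := by rw [htop]; exact IntermediateField.mem_top
    induction hy using IntermediateField.adjoin_induction with
    | mem z hz => 
      rw [Set.mem_singleton_iff] at hz
      rw [hz]; exact hx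
    | algebraMap z => simp
    | add a b _ _ ha hb => rw [map_add, map_add, ha, hb]
    | inv a _ ha => rw [map_inv₀, map_inv₀, ha]
    | mul a b _ _ ha hb => rw [map_mul, map_mul, ha, hb]
  have h3 : finrank ℚ⟮x⟯ F ∣ 4 := Dvd.intro_left _ h1
  have h4 : finrank ℚ⟮x⟯ F ≤ 4 := Nat.le_of_dvd (by norm_num) h3
  have h5 : finrank ℚ⟮x⟯ F = 2 ∨ finrank ℚ⟮x⟯ F = 4 := by
    generalize finrank ℚ⟮x⟯ F = n at *
    interval_cases n <;> omega
  rcases h5 with h5 | h5
  · rw [h5]; exact ⟨_, rfl⟩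
  · rw [h5]
    exact ⟨(Algebra.norm ℚ (AdjoinSimple.gen ℚ x)) ^ 2, pow_mul _ 2 2⟩

omit [NumberField L] in
/-- a nonzero vector gives a nonzero element. -/
theorem QF.ell_ne_zero (h : QF θ F α σ) {l : Fin 4 → ℤ} (hl : l ≠ 0) : K.ell α l ≠ 0 := by
  intro h0
  apply hl
  have h1 := h.li (fun j => (l j : ℚ)) (by simpa [K.ell] using h0)
  funext k
  have h2 := congrFun h1 k
  simpa using h2

end

theorem arith_contra {p : ℕ} (hp : p.Prime) {c' N1 : ℤ} (hc' : c' ≠ 0) (hc'p : |c'| < p)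
    (hN1p : |N1| < p) {r : ℚ} (h : ((p : ℚ) * c') = N1 * r ^ 2) : False := by
  have := Fact.mk hp
  have hp0 : (p : ℚ) ≠ 0 := by exact_mod_cast hp.ne_zero
  have hc0 : (c' : ℚ) ≠ 0 := by exact_mod_cast hc'
  have hlhs : (p : ℚ) * c' ≠ 0 := mul_ne_zero hp0 hc0
  have hN0 : (N1 : ℚ) ≠ 0 := by
    intro h0; rw [h0, zero_mul] at h; exact hlhs h
  have hr0 : r ≠ 0 := by
    rintro rfl; rw [zero_pow two_ne_zero, mul_zero] at h; exact hlhs h
  have hv : ∀ m : ℤ, (m : ℚ) ≠ 0 → |m| < p → padicValRat p (m : ℚ) = 0 := by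
    intro m hm hmp
    rw [padicValRat.of_int]
    have : ¬ (p : ℤ) ∣ m := by
      intro hd
      have := Int.le_of_dvd (abs_pos.2 (by exact_mod_cast hm)) ((dvd_abs _ _).2 hd)
      omega
    rw [padicValInt.eq_zero_of_not_dvd this]
    rfl
  have h1 := congrArg (padicValRat p) h
  rw [padicValRat.mul hp0 hc0, padicValRat.mul hN0 (pow_ne_zero _ hr0), padicValRat.pow,
    hv _ hc0 hc'p, hv _ hN0 hN1p, padicValRat.self hp.one_lt] at h1
  push_cast at h1
  omega

/-- the cross product relation forces a square norm: the two conclusions of `nonDeg_of_dat`. -/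
theorem nonDeg_aux (G : ℤ[X]) (hG : G.Monic) (hGd : G.natDegree = 4)
    (hGi : Irreducible (G.map (Int.castRingHom ℚ))) (θ : Fin 4 → 𝓞 L)
    (hθ : Function.Injective θ) (hGθ : G.map (algebraMap ℤ (𝓞 L)) = ∏ i, (X - C (θ i)))
    {l1 l2 : Fin 4 → ℤ} (hl : ∀ a b : ℤ, a • l1 + b • l2 = 0 → a = 0 ∧ b = 0) {s t c' N1 : ℤ} {p : ℕ}
    (hp : p.Prime) (hc' : c' ≠ 0) (hc'p : |c'| < p) (hN1 : ∏ j, K.ell (θ j) l1 = (N1 : 𝓞 L))
    (hN1p : |N1| < p)
    (hprod : ∏ j, K.ell (θ j) (s • l1 + t • l2) = (((p : ℤ) * c' : ℤ) : 𝓞 L)) :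
    (∀ i j, i ≠ j → K.ell (θ i) l1 * K.ell (θ j) l2 ≠ K.ell (θ j) l1 * K.ell (θ i) l2) ∧
      t ≠ 0 := by
  obtain ⟨F, _, _, α, σ, hF⟩ := exists_quartic hG hGd hGi hGθ
  have hl1 : l1 ≠ 0 := by
    rintro rfl
    have := (hl 1 0 (by simp)).1
    omega
  have hnorm : ∀ y : Fin 4 → ℤ, ∀ n : ℤ, ∏ j, K.ell (θ j) y = (n : 𝓞 L) →
      Algebra.norm ℚ (K.ell α y) = (n : ℚ) := by
    intro y n hn
    apply (algebraMap ℚ L).injective
    rw [hF.norm_eq hθ]
    simp only [hF.map_ell]
    have h1 := congrArg (algebraMap (𝓞 L) L) hn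
    rw [map_prod, map_intCast] at h1
    rw [map_intCast]
    exact h1
  constructor
  · intro i j hij hcross
    have hA0 : K.ell α l1 ≠ 0 := hF.ell_ne_zero hl1
    have hx : σ i (K.ell α (s • l1 + t • l2) / K.ell α l1) =
        σ j (K.ell α (s • l1 + t • l2) / K.ell α l1) := by
      rw [map_div₀, map_div₀, div_eq_div_iff ((_root_.map_ne_zero _).2 hA0)
        ((_root_.map_ne_zero _).2 hA0), hF.map_ell, hF.map_ell, hF.map_ell, hF.map_ell]
      have h1 : K.ell (θ i) (s • l1 + t • l2) * K.ell (θ j) l1 =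
          K.ell (θ j) (s • l1 + t • l2) * K.ell (θ i) l1 := by
        rw [ell_lin, ell_lin]
        linear_combination (-(t : 𝓞 L)) * hcross
      exact_mod_cast congrArg (algebraMap (𝓞 L) L) h1
    obtain ⟨r, hr⟩ := hF.norm_sq hθ hij hx
    have h2 : Algebra.norm ℚ (K.ell α (s • l1 + t • l2)) = r ^ 2 * N1 := by
      rw [← hr, ← hnorm _ _ hN1, ← map_mul, div_mul_cancel₀ _ hA0]
    rw [hnorm _ _ hprod] at h2
    push_cast at h2
    exact arith_contra hp hc' hc'p hN1p (r := r) (by rw [h2, mul_comm])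
  · rintro rfl
    have h1 : (((p : ℤ) * c' : ℤ) : 𝓞 L) = ((s ^ 4 * N1 : ℤ) : 𝓞 L) := by
      rw [← hprod]
      push_cast
      rw [← hN1, ← Fin.prod_const 4 (s : 𝓞 L), ← Finset.prod_mul_distrib]
      refine Finset.prod_congr rfl fun j _ => ?_
      rw [ell_lin, Int.cast_zero, zero_mul, add_zero]
    have h2 : (p : ℤ) * c' = s ^ 4 * N1 := by exact_mod_cast h1
    refine arith_contra hp hc' hc'p hN1p (r := (s : ℚ) ^ 2) ?_
    have h3 : ((p : ℚ) * c') = (s : ℚ) ^ 4 * N1 := by exact_mod_cast h2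
    rw [h3]; ring

end Vale.Agent.P018.Q
end

section

/-! # P018, quartics: a Bezout bound for rational points. -/

namespace Vale.Agent.P018.Q

open Polynomial Finset

/-- the value of `g(κ, σ)`: `κ` is the outer variable. -/
noncomputable def ev (g : ℚ[X][X]) (κ σ : ℚ) : ℚ := (g.map (evalRingHom σ)).eval κ

theorem natDegree_det_le' {n : ℕ} (M : Matrix (Fin n) (Fin n) ℚ[X]) (d : ℕ)
    (h : ∀ i j, (M i j).natDegree ≤ d) : M.det.natDegree ≤ n * d := by
  rw [Matrix.det_apply]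
  refine natDegree_sum_le_of_forall_le _ _ fun σ _ => ?_
  refine (natDegree_smul_le _ _).trans ?_
  refine (natDegree_prod_le _ _).trans ?_
  refine (Finset.sum_le_sum fun i _ => h _ _).trans ?_
  simp

theorem natDegree_resultant_le {g Ψ : ℚ[X][X]} {D : ℕ} {m n : ℕ}
    (h1 : ∀ i, (g.coeff i).natDegree ≤ D) (h2 : ∀ i, (Ψ.coeff i).natDegree ≤ D) :
    (resultant g Ψ m n).natDegree ≤ (m + n) * D := by
  refine natDegree_det_le' _ _ fun i j => ?_
  simp only [sylvester, Matrix.of_apply]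
  refine Fin.addCases (fun j => ?_) (fun j => ?_) j
  · simp only [Fin.addCases_left]
    split_ifs
    · exact h2 _
    · simp
  · simp only [Fin.addCases_right]
    split_ifs
    · exact h1 _
    · simp

theorem C_dvd_of_map_eq_zero {g : ℚ[X][X]} {σ : ℚ} (h : g.map (evalRingHom σ) = 0) :
    C (X - C σ) ∣ g := by
  rw [C_dvd_iff_dvd_coeff]
  intro i
  rw [dvd_iff_isRoot, IsRoot.def]
  have := congrArg (fun p => p.coeff i) h
  simpa using this

theorem resultant_ne_zero_of {g Ψ : ℚ[X][X]} (hg : Irreducible g) (hd : g.natDegree ≠ 0)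
    (h : ¬ g ∣ Ψ) : resultant g Ψ ≠ 0 := by
  have hp : g.IsPrimitive := hg.isPrimitive hd
  let φ := algebraMap ℚ[X] (FractionRing ℚ[X])
  have hφ : Function.Injective φ := IsFractionRing.injective _ _
  have hirr : Irreducible (g.map φ) := hp.irreducible_iff_irreducible_map_fraction_map.1 hg
  have hcop : IsCoprime (g.map φ) (Ψ.map φ) := by
    rcases (hirr.coprime_iff_not_dvd (n := Ψ.map φ)) with ⟨_, h2⟩
    exact h2 fun hdvd => h (hp.dvd_of_fraction_map_dvd_fraction_map hdvd)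
  intro h0
  have h1 : resultant (g.map φ) (Ψ.map φ) = 0 := by
    have := resultant_map_map g Ψ g.natDegree Ψ.natDegree φ
    rw [h0, map_zero] at this
    rwa [natDegree_map_eq_of_injective hφ, natDegree_map_eq_of_injective hφ]
  exact (resultant_eq_zero_iff.1 h1).2 hcop

theorem card_fiber_le {S : Finset (ℚ × ℚ)} {g : ℚ[X][X]} {D : ℕ} (hd : g.natDegree ≤ D)
    (h : ∀ z ∈ S, ev g z.1 z.2 = 0) (σ : ℚ) (h0 : g.map (evalRingHom σ) ≠ 0) :
    (S.filter fun z => z.2 = σ).card ≤ D := by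
  have h1 : (S.filter fun z => z.2 = σ).card =
      ((S.filter fun z => z.2 = σ).image Prod.fst).card := by
    rw [Finset.card_image_of_injOn]
    intro x hx y hy hxy
    simp only [Finset.coe_filter, Set.mem_setOf_eq] at hx hy
    exact Prod.ext hxy (hx.2.trans hy.2.symm)
  rw [h1]
  have h2 : ((S.filter fun z => z.2 = σ).image Prod.fst) ⊆ (g.map (evalRingHom σ)).roots.toFinset := by
    intro κ hκ
    obtain ⟨z, hz, rfl⟩ := Finset.mem_image.1 hκ
    obtain ⟨hz1, rfl⟩ := Finset.mem_filter.1 hz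
    rw [Multiset.mem_toFinset, mem_roots h0]
    exact h z hz1
  refine (Finset.card_le_card h2).trans ?_
  refine (Multiset.toFinset_card_le _).trans ?_
  exact (card_roots' _).trans (natDegree_map_le.trans hd)

/-- Bezout for rational points. -/
theorem bezout2 (D1 D2 : ℕ) : ∃ C : ℕ, ∀ g Ψ : ℚ[X][X], Irreducible g → ¬ g ∣ Ψ →
    BiDeg D1 D1 g → BiDeg D2 D2 Ψ → ∀ S : Finset (ℚ × ℚ),
    (∀ z ∈ S, ev g z.1 z.2 = 0 ∧ ev Ψ z.1 z.2 = 0) → S.card ≤ C := by
  refine ⟨D1 * ((D1 + D2) * (D1 + D2)) + D2 * D1, fun g Ψ hg hdvd hg1 hΨ S hS => ?_⟩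
  by_cases hd : g.natDegree = 0
  · -- `g` does not depend on `κ`
    obtain ⟨g0, rfl⟩ : ∃ g0, g = C g0 := ⟨_, eq_C_of_natDegree_eq_zero hd⟩
    have hg0 : Irreducible g0 := Irreducible.of_map (f := (C : ℚ[X] →+* ℚ[X][X])) hg
    have h1 : (S.image Prod.snd).card ≤ D1 := by
      have : S.image Prod.snd ⊆ g0.roots.toFinset := by
        intro σ hσ
        obtain ⟨z, hz, rfl⟩ := Finset.mem_image.1 hσ
        rw [Multiset.mem_toFinset, mem_roots hg0.ne_zero]
        have := (hS z hz).1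
        simpa [ev] using this
      refine (Finset.card_le_card this).trans ?_
      refine (Multiset.toFinset_card_le _).trans ?_
      refine (card_roots' _).trans ?_
      simpa using hg1.2 0
    have h2 : S.card ≤ D2 * (S.image Prod.snd).card := by
      refine Finset.card_le_mul_card_image S D2 fun σ hσ => ?_
      obtain ⟨z, hz, rfl⟩ := Finset.mem_image.1 hσ
      refine card_fiber_le hΨ.1 (fun z hz => (hS z hz).2) _ fun h0 => hdvd ?_
      have h3 : (X - C z.2) ∣ g0 := by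
        rw [dvd_iff_isRoot]
        have := (hS z hz).1
        simpa [ev] using this
      have h4 : Associated (X - C z.2) g0 :=
        (irreducible_X_sub_C z.2).associated_of_dvd hg0 h3
      exact (map_dvd (C : ℚ[X] →+* ℚ[X][X]) h4.symm.dvd).trans (C_dvd_of_map_eq_zero h0)
    calc S.card ≤ D2 * (S.image Prod.snd).card := h2
      _ ≤ D2 * D1 := Nat.mul_le_mul_left _ h1
      _ ≤ _ := Nat.le_add_left _ _
  · have hp : g.IsPrimitive := hg.isPrimitive hd
    have hr : resultant g Ψ ≠ 0 := resultant_ne_zero_of hg hd hdvd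
    obtain ⟨p, q, -, -, e⟩ := exists_mul_add_mul_eq_C_resultant (m := g.natDegree)
      (n := Ψ.natDegree) g Ψ le_rfl le_rfl (Or.inl hd)
    have h1 : (S.image Prod.snd).card ≤ (D1 + D2) * (D1 + D2) := by
      have : S.image Prod.snd ⊆ (resultant g Ψ).roots.toFinset := by
        intro σ hσ
        obtain ⟨z, hz, rfl⟩ := Finset.mem_image.1 hσ
        rw [Multiset.mem_toFinset, mem_roots hr, IsRoot.def]
        have h3 := congrArg (fun P : ℚ[X][X] => (P.map (evalRingHom z.2)).eval z.1) e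
        have h4 := (hS z hz).1
        have h5 := (hS z hz).2
        unfold ev at h4 h5
        simp only [Polynomial.map_add, Polynomial.map_mul, eval_add, eval_mul, h4, h5, zero_mul,
          add_zero, map_C, eval_C, coe_evalRingHom] at h3
        exact h3.symm
      refine (Finset.card_le_card this).trans ?_
      refine (Multiset.toFinset_card_le _).trans ?_
      refine (card_roots' _).trans ?_
      refine (natDegree_resultant_le (D := D1 + D2) (fun i => (hg1.2 i).trans (Nat.le_add_right _ _))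
        (fun i => (hΨ.2 i).trans (Nat.le_add_left _ _))).trans ?_
      exact Nat.mul_le_mul_right _ (add_le_add hg1.1 hΨ.1)
    have h2 : S.card ≤ D1 * (S.image Prod.snd).card := by
      refine Finset.card_le_mul_card_image S D1 fun σ hσ => ?_
      refine card_fiber_le hg1.1 (fun z hz => (hS z hz).1) _ fun h0 => ?_
      exact not_isUnit_X_sub_C σ (isPrimitive_iff_isUnit_of_C_dvd.1 hp _ (C_dvd_of_map_eq_zero h0))
    calc S.card ≤ D1 * (S.image Prod.snd).card := h2
      _ ≤ D1 * ((D1 + D2) * (D1 + D2)) := Nat.mul_le_mul_left _ h1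
      _ ≤ _ := Nat.le_add_right _ _

end Vale.Agent.P018.Q
end
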