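import Mathlib

set_option linter.all false

section

/-! Determinants of products: expansion over functions, size bound, divisibility. -/

namespace Vale.Agent.P018

open Finset

theorem sum_range_id_le_sum (S : Finset ℕ) : ∑ i ∈ Finset.range S.card, i ≤ ∑ m ∈ S, m := by
  have h := Finset.sum_range_le_sum (s := S.map ⟨fun n : ℕ => (n : ℤ), Nat.cast_injective⟩) (c := 0)
    (by
      intro x hx
      simp only [Finset.mem_map, Function.Embedding.coeFn_mk] at hx
      obtain ⟨a, _, rfl⟩ := hx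
      positivity)
  simp only [Finset.card_map, zero_add, Finset.sum_map, Function.Embedding.coeFn_mk] at h
  have h2 : ((∑ i ∈ Finset.range S.card, i : ℕ) : ℤ) ≤ ((∑ m ∈ S, m : ℕ) : ℤ) := by
    push_cast
    exact h
  exact_mod_cast h2

/-- Expansion of the determinant of `(∑ t, A i t * B t j)` over all functions `J → T`. -/
theorem det_expand {R J T : Type*} [CommRing R] [Fintype J] [DecidableEq J] [Fintype T]
    [DecidableEq T] (A : J → T → R) (B : T → J → R) :
    (Matrix.of fun i j => ∑ t, A i t * B t j).det =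
      ∑ φ : J → T, (∏ j, B (φ j) j) * (Matrix.of fun i j => A i (φ j)).det := by
  rw [← Matrix.det_transpose]
  have h1 : (Matrix.of fun i j => ∑ t, A i t * B t j).transpose =
      (fun j => ∑ t, B t j • (fun i => A i t)) := by
    ext j i
    simp [Finset.sum_apply, mul_comm]
  rw [h1]
  change Matrix.detRowAlternating (fun j => ∑ t, B t j • (fun i => A i t)) = _
  have h2 := (Matrix.detRowAlternating (R := R) (n := J)).toMultilinearMap.map_sum
    (fun j t => B t j • (fun i => A i t))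
  change Matrix.detRowAlternating.toMultilinearMap _ = _
  rw [h2]
  refine Finset.sum_congr rfl fun φ _ => ?_
  rw [MultilinearMap.map_smul_univ]
  rw [smul_eq_mul]
  congr 1
  rw [← Matrix.det_transpose]
  rfl

theorem det_zero_of_not_injective {R J T : Type*} [CommRing R] [Fintype J] [DecidableEq J]
    (A : J → T → R) (φ : J → T) (h : ¬ Function.Injective φ) :
    (Matrix.of fun i j => A i (φ j)).det = 0 := by
  simp only [Function.Injective, not_forall] at h
  obtain ⟨a, b, hab, hne⟩ := h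
  exact Matrix.det_zero_of_column_eq hne (fun i => by simp [hab])

theorem det_bound {J T : Type*} [Fintype J] [DecidableEq J] [Fintype T] [DecidableEq T]
    (A : J → T → ℝ) (B : T → J → ℝ) (α : T → ℝ) (β Γ : ℝ)
    (hA : ∀ i t, |A i t| ≤ α t) (hB : ∀ t j, |B t j| ≤ β) (hΓ0 : 0 ≤ Γ)
    (hΓ : ∀ φ : J → T, Function.Injective φ → ∏ j, α (φ j) ≤ Γ) :
    |(Matrix.of fun i j => ∑ t, A i t * B t j).det| ≤
      (Fintype.card T : ℝ) ^ (Fintype.card J) *
        (β ^ (Fintype.card J) * ((Fintype.card J).factorial * Γ)) := by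
  rw [det_expand]
  refine (Finset.abs_sum_le_sum_abs _ _).trans ?_
  have hcard : (Fintype.card T : ℝ) ^ (Fintype.card J) = (Finset.univ : Finset (J → T)).card := by
    simp [Finset.card_univ]
  rw [hcard, ← nsmul_eq_mul, ← Finset.sum_const]
  refine Finset.sum_le_sum fun φ _ => ?_
  rw [abs_mul]
  have hβ0 : 0 ≤ β ^ (Fintype.card J) := by
    by_cases hJ : Nonempty J
    · obtain ⟨j⟩ := hJ
      exact pow_nonneg ((abs_nonneg _).trans (hB (φ j) j)) _
    · rw [not_nonempty_iff] at hJ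
      simp
  have hprodB : |∏ j, B (φ j) j| ≤ β ^ (Fintype.card J) := by
    rw [Finset.abs_prod]
    calc ∏ j, |B (φ j) j| ≤ ∏ _j : J, β :=
          Finset.prod_le_prod (fun _ _ => abs_nonneg _) (fun j _ => hB _ _)
      _ = β ^ (Fintype.card J) := by simp
  have hdet : |(Matrix.of fun i j => A i (φ j)).det| ≤ (Fintype.card J).factorial * Γ := by
    by_cases hinj : Function.Injective φ
    · rw [Matrix.det_apply]
      refine (Finset.abs_sum_le_sum_abs _ _).trans ?_
      have hperm : ((Fintype.card J).factorial : ℝ) = (Finset.univ : Finset (Equiv.Perm J)).card := by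
        rw [Finset.card_univ, Fintype.card_perm]
      rw [hperm, ← nsmul_eq_mul, ← Finset.sum_const]
      refine Finset.sum_le_sum fun σ _ => ?_
      have h3 : |Equiv.Perm.sign σ • ∏ i, (Matrix.of fun i j => A i (φ j)) (σ i) i| =
          ∏ i, |A (σ i) (φ i)| := by
        rcases Int.units_eq_one_or (Equiv.Perm.sign σ) with h | h
        · simp [h, Finset.abs_prod]
        · simp [h, Finset.abs_prod]
      rw [h3]
      calc ∏ i, |A (σ i) (φ i)| ≤ ∏ i, α (φ i) :=
            Finset.prod_le_prod (fun _ _ => abs_nonneg _) (fun i _ => hA _ _)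
        _ ≤ Γ := hΓ φ hinj
    · rw [det_zero_of_not_injective A φ hinj]
      simpa using mul_nonneg (Nat.cast_nonneg _) hΓ0
  exact mul_le_mul hprodB hdet (abs_nonneg _) hβ0

end Vale.Agent.P018
end

section

/-! Linear algebra: vanishing of all maximal minors gives a kernel vector. -/

namespace Vale.Agent.P018

open Finset

theorem exists_kernel {I J K : Type*} [Field K] [Fintype J] [DecidableEq J] (v : I → J → K)
    (h : ∀ φ : J → I, (Matrix.of fun i j => v (φ i) j).det = 0) :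
    ∃ α : J → K, α ≠ 0 ∧ ∀ i, ∑ j, α j * v i j = 0 := by
  classical
  by_cases htop : Submodule.span K (Set.range v) = ⊤
  · exfalso
    obtain ⟨κ, a, -, hspan, hli⟩ := exists_linearIndependent' K v
    rw [htop] at hspan
    let b : Module.Basis κ K (J → K) := Module.Basis.mk hli hspan.ge
    let e : J ≃ κ := (Pi.basisFun K J).indexEquiv b
    have hli2 : LinearIndependent K (fun i : J => v (a (e i))) := hli.comp e e.injective
    have h3 : IsUnit (Matrix.of fun i j => v (a (e i)) j) := by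
      rw [← Matrix.linearIndependent_rows_iff_isUnit]
      exact hli2
    rw [Matrix.isUnit_iff_isUnit_det] at h3
    exact h3.ne_zero (h (fun i => a (e i)))
  · obtain ⟨g, hg0, hg⟩ := Submodule.exists_le_ker_of_lt_top (Submodule.span K (Set.range v))
      (lt_top_iff_ne_top.mpr htop)
    refine ⟨fun j => g (Pi.single j 1), ?_, ?_⟩
    · intro h0
      apply hg0
      refine (Pi.basisFun K J).ext fun j => ?_
      have := congrFun h0 j
      simpa using this
    · intro i
      have h1 : g (v i) = 0 := hg (Submodule.subset_span ⟨i, rfl⟩)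
      have h2 : v i = ∑ j, v i j • (Pi.single j (1 : K) : J → K) := by
        ext j
        simp [Finset.sum_apply, Pi.single_apply]
      rw [h2, map_sum] at h1
      rw [← h1]
      refine Finset.sum_congr rfl fun j _ => ?_
      rw [map_smul, smul_eq_mul, mul_comm]

end Vale.Agent.P018
end

section

/-! Counting estimates for the determinant method. -/

namespace Vale.Agent.P018

open Finset

theorem sumA (y : ℝ) (N : ℕ) :
    ∑ e ∈ range N, max 0 (y - e) ≤ (max 0 (y + 1)) ^ 2 / 2 := by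
  have key : ∀ e : ℕ, max 0 (y - e) ≤
      (max 0 (y + 1 - e)) ^ 2 / 2 - (max 0 (y + 1 - ((e + 1 : ℕ) : ℝ))) ^ 2 / 2 := by
    intro e
    push_cast
    have h1 : y + 1 - ((e : ℝ) + 1) = y - e := by ring
    rw [h1]
    have h2 : y + 1 - (e : ℝ) = (y - e) + 1 := by ring
    rw [h2]
    generalize y - (e : ℝ) = t
    rcases le_total t 0 with h | h
    · rw [max_eq_left h]
      have : 0 ≤ (max 0 (t + 1)) ^ 2 := sq_nonneg _
      simp only [ne_eq, OfNat.ofNat_ne_zero, not_false_eq_true, zero_pow, zero_div, sub_zero]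
      linarith
    · rw [max_eq_right h, max_eq_right (by linarith)]
      linarith only []
  calc ∑ e ∈ range N, max 0 (y - e)
      ≤ ∑ e ∈ range N, ((max 0 (y + 1 - e)) ^ 2 / 2 -
          (max 0 (y + 1 - ((e + 1 : ℕ) : ℝ))) ^ 2 / 2) := Finset.sum_le_sum fun e _ => key e
    _ = (max 0 (y + 1 - ((0 : ℕ) : ℝ))) ^ 2 / 2 - (max 0 (y + 1 - (N : ℝ))) ^ 2 / 2 := by
        rw [Finset.sum_range_sub' (fun e : ℕ => (max 0 (y + 1 - (e : ℝ))) ^ 2 / 2)]
    _ ≤ (max 0 (y + 1)) ^ 2 / 2 := by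
        have : 0 ≤ (max 0 (y + 1 - (N : ℝ))) ^ 2 := sq_nonneg _
        simp only [Nat.cast_zero, sub_zero]
        linarith only [this]

theorem sumB (Y x : ℝ) (hx : 0 < x) (N : ℕ) :
    ∑ i ∈ range N, (max 0 (Y - x * i)) ^ 2 / 2 ≤ (max 0 (Y + x)) ^ 3 / (6 * x) := by
  have key : ∀ i : ℕ, x * ((max 0 (Y - x * i)) ^ 2 / 2) ≤
      (max 0 (Y + x - x * i)) ^ 3 / 6 - (max 0 (Y + x - x * ((i + 1 : ℕ) : ℝ))) ^ 3 / 6 := by
    intro i
    push_cast
    have h1 : Y + x - x * ((i : ℝ) + 1) = Y - x * i := by ring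
    rw [h1]
    have h2 : Y + x - x * (i : ℝ) = (Y - x * i) + x := by ring
    rw [h2]
    generalize Y - x * (i : ℝ) = t
    rcases le_total t 0 with h | h
    · rw [max_eq_left h]
      have : 0 ≤ (max 0 (t + x)) ^ 3 := pow_nonneg (le_max_left _ _) _
      simp only [ne_eq, OfNat.ofNat_ne_zero, not_false_eq_true, zero_pow, zero_div, sub_zero,
        mul_zero]
      linarith only [this]
    · rw [max_eq_right h, max_eq_right (by linarith)]
      have h3 : 0 ≤ 3 * t * x ^ 2 + x ^ 3 := by positivity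
      linarith only [h3]
  have h3 : x * ∑ i ∈ range N, (max 0 (Y - x * i)) ^ 2 / 2 ≤ (max 0 (Y + x)) ^ 3 / 6 := by
    rw [Finset.mul_sum]
    calc ∑ i ∈ range N, x * ((max 0 (Y - x * i)) ^ 2 / 2)
        ≤ ∑ i ∈ range N, ((max 0 (Y + x - x * i)) ^ 3 / 6 -
            (max 0 (Y + x - x * ((i + 1 : ℕ) : ℝ))) ^ 3 / 6) := Finset.sum_le_sum fun i _ => key i
      _ = (max 0 (Y + x - x * ((0 : ℕ) : ℝ))) ^ 3 / 6 - (max 0 (Y + x - x * (N : ℝ))) ^ 3 / 6 := by
          rw [Finset.sum_range_sub' (fun i : ℕ => (max 0 (Y + x - x * (i : ℝ))) ^ 3 / 6)]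
      _ ≤ (max 0 (Y + x)) ^ 3 / 6 := by
          have : 0 ≤ (max 0 (Y + x - x * (N : ℝ))) ^ 3 := pow_nonneg (le_max_left _ _) _
          simp only [Nat.cast_zero, mul_zero, sub_zero]
          linarith only [this]
  rw [le_div_iff₀ (by positivity)]
  linarith only [h3]

theorem sumC (Y h : ℝ) (hh : 0 < h) (hY : 0 ≤ Y) (N : ℕ) (hN : Y ≤ h * N) :
    Y ^ 2 / (2 * h) ≤ ∑ c ∈ range N, max 0 (Y - h * c) := by
  have key : ∀ c : ℕ, (max 0 (Y - h * c)) ^ 2 / 2 - (max 0 (Y - h * ((c + 1 : ℕ) : ℝ))) ^ 2 / 2 ≤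
      h * max 0 (Y - h * c) := by
    intro c
    push_cast
    have h1 : Y - h * ((c : ℝ) + 1) = (Y - h * c) - h := by ring
    rw [h1]
    generalize Y - h * (c : ℝ) = t
    rcases le_total t 0 with h | h'
    · rw [max_eq_left h, max_eq_left (by linarith)]
      simp
    · rw [max_eq_right h']
      rcases le_total (t - h) 0 with h4 | h4
      · rw [max_eq_left h4]
        linarith only [mul_nonneg (sub_nonneg.2 h') (sub_nonneg.2 h4), mul_nonneg (sub_nonneg.2 h') (sub_nonneg.2 h')]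
      · rw [max_eq_right h4]
        linarith only [mul_pos (sub_pos.2 hh) (sub_pos.2 hh)]
  have h3 : Y ^ 2 / 2 ≤ h * ∑ c ∈ range N, max 0 (Y - h * c) := by
    rw [Finset.mul_sum]
    calc Y ^ 2 / 2 = (max 0 (Y - h * ((0 : ℕ) : ℝ))) ^ 2 / 2 - (max 0 (Y - h * (N : ℝ))) ^ 2 / 2 := by
          rw [max_eq_left (show Y - h * (N : ℝ) ≤ 0 by linarith)]
          simp [max_eq_right hY]
      _ = ∑ c ∈ range N, ((max 0 (Y - h * c)) ^ 2 / 2 -
            (max 0 (Y - h * ((c + 1 : ℕ) : ℝ))) ^ 2 / 2) := by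
          rw [Finset.sum_range_sub' (fun c : ℕ => (max 0 (Y - h * (c : ℝ))) ^ 2 / 2)]
      _ ≤ ∑ c ∈ range N, h * max 0 (Y - h * c) := Finset.sum_le_sum fun c _ => key c
  rw [div_le_iff₀ (by positivity)]
  linarith only [h3]

/-- `Φ` for a finite set of exponents. -/
theorem phi_bound (x z : ℝ) (hx : 0 < x) (hz : 0 ≤ z) (T : Finset (Fin 2 →₀ ℕ)) :
    ∑ t ∈ T, max 0 (z - (x * (t 0 : ℕ) + (t 1 : ℕ))) ≤ (z + 1 + x) ^ 3 / (6 * x) := by
  classical
  obtain ⟨N, hN⟩ : ∃ N : ℕ, ∀ t ∈ T, t 0 < N ∧ t 1 < N := by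
    refine ⟨(T.sup fun t => t 0 + t 1) + 1, fun t ht => ?_⟩
    have h5 : t 0 + t 1 ≤ T.sup fun t : Fin 2 →₀ ℕ => t 0 + t 1 :=
      Finset.le_sup (f := fun t : Fin 2 →₀ ℕ => t 0 + t 1) ht
    omega
  calc ∑ t ∈ T, max 0 (z - (x * (t 0 : ℕ) + (t 1 : ℕ)))
      = ∑ p ∈ T.image (fun t => (t 0, t 1)), max 0 (z - (x * (p.1 : ℕ) + (p.2 : ℕ))) := by
        rw [Finset.sum_image]
        intro a _ b _ hab
        simp only [Prod.mk.injEq] at hab
        ext i
        fin_cases i
        · exact hab.1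
        · exact hab.2
    _ ≤ ∑ p ∈ range N ×ˢ range N, max 0 (z - (x * (p.1 : ℕ) + (p.2 : ℕ))) := by
        apply Finset.sum_le_sum_of_subset_of_nonneg
        · intro p hp
          simp only [mem_image] at hp
          obtain ⟨t, ht, rfl⟩ := hp
          simp only [mem_product, mem_range]
          exact hN t ht
        · intro _ _ _
          exact le_max_left _ _
    _ = ∑ i ∈ range N, ∑ e ∈ range N, max 0 ((z - x * i) - e) := by
        rw [Finset.sum_product]
        refine Finset.sum_congr rfl fun i _ => Finset.sum_congr rfl fun e _ => ?_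
        congr 1
        ring
    _ ≤ ∑ i ∈ range N, (max 0 ((z + 1) - x * i)) ^ 2 / 2 := by
        refine Finset.sum_le_sum fun i _ => ?_
        have := sumA (z - x * i) N
        have h2 : z - x * (i : ℝ) + 1 = z + 1 - x * i := by ring
        rwa [h2] at this
    _ ≤ (max 0 (z + 1 + x)) ^ 3 / (6 * x) := sumB (z + 1) x hx N
    _ = (z + 1 + x) ^ 3 / (6 * x) := by
        rw [max_eq_right (by linarith)]

/-- the index set of monomials `x^a y^b z^c` with `a < d`, `a + b + h c ≤ D`. -/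
def idx (d h D : ℕ) : Finset (ℕ × ℕ × ℕ) :=
  ((range d) ×ˢ ((range (D + 1)) ×ˢ (range (D + 1)))).filter
    (fun t => t.1 + t.2.1 + h * t.2.2 ≤ D)

theorem mem_idx {d h D : ℕ} {t : ℕ × ℕ × ℕ} (hh : 1 ≤ h) :
    t ∈ idx d h D ↔ t.1 < d ∧ t.1 + t.2.1 + h * t.2.2 ≤ D := by
  simp only [idx, mem_filter, mem_product, mem_range]
  constructor
  · rintro ⟨⟨h1, _, _⟩, h2⟩
    exact ⟨h1, h2⟩
  · rintro ⟨h1, h2⟩
    refine ⟨⟨h1, ?_, ?_⟩, h2⟩
    · omega
    · have : t.2.2 ≤ h * t.2.2 := Nat.le_mul_of_pos_left _ hh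
      omega

theorem card_idx_ge (d h D : ℕ) (hh : 1 ≤ h) (hD : d ≤ D) :
    (d : ℝ) * ((D : ℝ) - d) ^ 2 / (2 * h) ≤ ((idx d h D).card : ℝ) := by
  have h1 : ((idx d h D).card : ℝ) =
      ∑ a ∈ range d, ∑ c ∈ range (D + 1), (((range (D + 1)).filter
        (fun b => a + b + h * c ≤ D)).card : ℝ) := by
    have : (idx d h D).card = ∑ a ∈ range d, ∑ c ∈ range (D + 1), ((range (D + 1)).filter
        (fun b => a + b + h * c ≤ D)).card := by
      unfold idx
      rw [Finset.card_filter, Finset.sum_product]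
      refine Finset.sum_congr rfl fun a _ => ?_
      rw [Finset.sum_product_right]
      refine Finset.sum_congr rfl fun c _ => ?_
      rw [Finset.card_filter]
    rw [this]
    push_cast
    rfl
  rw [h1]
  have hd0 : (0 : ℝ) ≤ (D : ℝ) - d := by
    have : (d : ℝ) ≤ D := by exact_mod_cast hD
    linarith only [this]
  have hh' : (0 : ℝ) < h := by exact_mod_cast hh
  have h2 : ∀ a ∈ range d, ((D : ℝ) - d) ^ 2 / (2 * h) ≤
      ∑ c ∈ range (D + 1), (((range (D + 1)).filter (fun b => a + b + h * c ≤ D)).card : ℝ) := by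
    intro a ha
    rw [mem_range] at ha
    refine (sumC ((D : ℝ) - d) h hh' hd0 (D + 1) ?_).trans ?_
    · have : (1 : ℝ) ≤ h := by exact_mod_cast hh
      push_cast
      nlinarith
    · refine Finset.sum_le_sum fun c _ => ?_
      have hsub : range (D - d - h * c) ⊆ (range (D + 1)).filter (fun b => a + b + h * c ≤ D) := by
        intro b hb
        rw [mem_range] at hb
        rw [mem_filter, mem_range]
        constructor
        · omega
        · omega
      have hcard := Finset.card_le_card hsub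
      rw [card_range] at hcard
      refine max_le (by (clear * -; positivity)) ?_
      have h5 : ((D : ℝ) - d) - h * c ≤ ((D - d - h * c : ℕ) : ℝ) := by
        have h6 : ((D : ℤ) - d) - h * c ≤ ((D - d - h * c : ℕ) : ℤ) := by omega
        exact_mod_cast h6
      refine h5.trans ?_
      exact_mod_cast hcard
  calc (d : ℝ) * ((D : ℝ) - d) ^ 2 / (2 * h) = ∑ _a ∈ range d, ((D : ℝ) - d) ^ 2 / (2 * h) := by
        simp [mul_div_assoc]
    _ ≤ _ := Finset.sum_le_sum h2

/-- Choice of `D`. -/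
theorem exists_D (d h : ℕ) (hh : 1 ≤ h) (hd : 1 ≤ d) (x : ℝ) (hx : 9 * (h : ℝ) / (4 * d) < x) :
    ∃ D : ℕ, d ≤ D ∧ 1 ≤ D ∧ ∀ T : Finset (Fin 2 →₀ ℕ),
      ∑ t ∈ T, max 0 ((3 / 2 * (D : ℝ)) - (x * (t 0 : ℕ) + (t 1 : ℕ))) <
        ((idx d h D).card : ℝ) * ((D : ℝ) / 2) := by
  have hh' : (0 : ℝ) < h := by exact_mod_cast hh
  have hd' : (0 : ℝ) < d := by exact_mod_cast hd
  have hx0 : 0 < x := lt_trans (by positivity) hx
  have hkey : ∃ D : ℕ, d ≤ D ∧ 1 ≤ D ∧ (3 / 2 * (D : ℝ) + 1 + x) ^ 3 / (6 * x) <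
      (d : ℝ) * ((D : ℝ) - d) ^ 2 / (2 * h) * (D / 2) := by
    have hlim1 : Filter.Tendsto (fun D : ℕ => (3 / 2 + (1 + x) * ((D : ℝ))⁻¹) ^ 3 / (6 * x))
        Filter.atTop (nhds ((3 / 2 + (1 + x) * 0) ^ 3 / (6 * x))) := by
      refine Filter.Tendsto.div_const (Filter.Tendsto.pow (Filter.Tendsto.add tendsto_const_nhds
        (Filter.Tendsto.const_mul _ ?_)) 3) _
      exact tendsto_inv_atTop_nhds_zero_nat
    have hlim2 : Filter.Tendsto (fun D : ℕ => (d : ℝ) * (1 - d * ((D : ℝ))⁻¹) ^ 2 / (4 * h))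
        Filter.atTop (nhds ((d : ℝ) * (1 - d * 0) ^ 2 / (4 * h))) := by
      refine Filter.Tendsto.div_const (Filter.Tendsto.const_mul _ (Filter.Tendsto.pow
        (Filter.Tendsto.sub tendsto_const_nhds (Filter.Tendsto.const_mul _ ?_)) 2)) _
      exact tendsto_inv_atTop_nhds_zero_nat
    have hlt : (3 / 2 + (1 + x) * 0) ^ 3 / (6 * x) < (d : ℝ) * (1 - d * 0) ^ 2 / (4 * h) := by
      rw [div_lt_div_iff₀ (by positivity) (by positivity)]
      rw [div_lt_iff₀ (by positivity)] at hx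
      linarith only [hx]
    have hev := (hlim1.eventually_lt hlim2 hlt).and (Filter.eventually_ge_atTop (max d 1))
    obtain ⟨D, hD1, hD2⟩ := hev.exists
    have hD3 : d ≤ D := le_trans (le_max_left _ _) hD2
    have hD4 : 1 ≤ D := le_trans (le_max_right _ _) hD2
    have hD0 : (0 : ℝ) < D := by exact_mod_cast hD4
    refine ⟨D, hD3, hD4, ?_⟩
    have h1 : (3 / 2 * (D : ℝ) + 1 + x) ^ 3 / (6 * x) =
        (D : ℝ) ^ 3 * ((3 / 2 + (1 + x) * ((D : ℝ))⁻¹) ^ 3 / (6 * x)) := by
      field_simp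
      ring
    have h2 : (d : ℝ) * ((D : ℝ) - d) ^ 2 / (2 * h) * (D / 2) =
        (D : ℝ) ^ 3 * ((d : ℝ) * (1 - d * ((D : ℝ))⁻¹) ^ 2 / (4 * h)) := by
      field_simp
      ring
    rw [h1, h2]
    exact mul_lt_mul_of_pos_left hD1 (by positivity)
  obtain ⟨D, hD1, hD2, hD3⟩ := hkey
  refine ⟨D, hD1, hD2, fun T => ?_⟩
  refine (phi_bound x _ hx0 (by positivity) T).trans_lt ?_
  refine hD3.trans_le ?_
  exact mul_le_mul_of_nonneg_right (card_idx_ge d h D hh hD1) (by positivity)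

end Vale.Agent.P018
end

section

/-! Expansion of the monomials in the local coordinates `u - u0`, `w`. -/

namespace Vale.Agent.P018

open Finset

/-- bivariate polynomials in `v = u - u0` and `w` with coefficients polynomial in `u0`. -/
abbrev BP := MvPolynomial (Fin 2) (Polynomial ℝ)

noncomputable def Fh (f : Polynomial ℤ) : BP :=
  ∑ t ∈ range (f.natDegree + 1), MvPolynomial.C (Polynomial.C (f.coeff t : ℝ)) *
    (MvPolynomial.C Polynomial.X + MvPolynomial.X 0) ^ t * (MvPolynomial.X 1) ^ (f.natDegree - t)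

noncomputable def Gh (f : Polynomial ℤ) (h D : ℕ) (t : ℕ × ℕ × ℕ) : BP :=
  (MvPolynomial.X 1) ^ (D - (t.1 + t.2.1 + h * t.2.2)) *
    (MvPolynomial.C Polynomial.X + MvPolynomial.X 0) ^ t.1 * (Fh f) ^ t.2.2

noncomputable def evBP (u0 v w : ℝ) : BP →+* ℝ :=
  MvPolynomial.eval₂Hom (Polynomial.evalRingHom u0) ![v, w]

theorem evBP_Fh (f : Polynomial ℤ) (u0 v w : ℝ) :
    evBP u0 v w (Fh f) = ∑ t ∈ range (f.natDegree + 1), (f.coeff t : ℝ) * (u0 + v) ^ t *
      w ^ (f.natDegree - t) := by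
  simp only [evBP, Fh, map_sum, map_mul, map_pow, map_add, MvPolynomial.coe_eval₂Hom,
    MvPolynomial.eval₂_C, MvPolynomial.eval₂_X, Polynomial.coe_evalRingHom, Polynomial.eval_C,
    Polynomial.eval_X, Matrix.cons_val_zero, Matrix.cons_val_one]

theorem evBP_Gh (f : Polynomial ℤ) (h D : ℕ) (t : ℕ × ℕ × ℕ) (u0 v w : ℝ) :
    evBP u0 v w (Gh f h D t) = w ^ (D - (t.1 + t.2.1 + h * t.2.2)) * (u0 + v) ^ t.1 *
      (∑ t ∈ range (f.natDegree + 1), (f.coeff t : ℝ) * (u0 + v) ^ t *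
      w ^ (f.natDegree - t)) ^ t.2.2 := by
  rw [← evBP_Fh]
  simp [evBP, Gh]

/-- The basic identity: `n^a p^b m^c = p^D G(n/p, 1/p)` when `p^k m = f(n)`. -/
theorem mono_eq (f : Polynomial ℤ) (k h D : ℕ) (hk : k + h = f.natDegree) (t : ℕ × ℕ × ℕ)
    (ht : t.1 + t.2.1 + h * t.2.2 ≤ D) (n p m : ℤ) (hp : p ≠ 0) (hm : p ^ k * m = f.eval n)
    (u0 : ℝ) :
    ((n : ℝ) ^ t.1 * (p : ℝ) ^ t.2.1 * (m : ℝ) ^ t.2.2) =
      (p : ℝ) ^ D * evBP u0 ((n : ℝ) / p - u0) (1 / p) (Gh f h D t) := by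
  have hp' : (p : ℝ) ≠ 0 := by exact_mod_cast hp
  rw [evBP_Gh]
  have h1 : u0 + ((n : ℝ) / p - u0) = (n : ℝ) / p := by ring
  rw [h1]
  have h2 : (∑ t ∈ range (f.natDegree + 1), (f.coeff t : ℝ) * ((n : ℝ) / p) ^ t *
      (1 / (p : ℝ)) ^ (f.natDegree - t)) = (m : ℝ) / (p : ℝ) ^ h := by
    have h3 : ((f.eval n : ℤ) : ℝ) = ∑ t ∈ range (f.natDegree + 1), (f.coeff t : ℝ) * (n : ℝ) ^ t := by
      rw [Polynomial.eval_eq_sum_range]
      push_cast
      rfl
    have h4 : (p : ℝ) ^ k * m = ∑ t ∈ range (f.natDegree + 1), (f.coeff t : ℝ) * (n : ℝ) ^ t := by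
      rw [← h3, ← hm]
      push_cast
      rfl
    rw [eq_div_iff (pow_ne_zero _ hp')]
    have h5 : ∀ t ∈ range (f.natDegree + 1), (f.coeff t : ℝ) * ((n : ℝ) / p) ^ t *
      (1 / (p : ℝ)) ^ (f.natDegree - t) = ((f.coeff t : ℝ) * (n : ℝ) ^ t) / (p : ℝ) ^ f.natDegree := by
      intro t ht
      rw [mem_range] at ht
      have h6 : (p : ℝ) ^ f.natDegree = (p : ℝ) ^ t * (p : ℝ) ^ (f.natDegree - t) := by
        rw [← pow_add]
        congr 1
        omega
      rw [h6, div_pow, div_pow, one_pow]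
      field_simp
    rw [Finset.sum_congr rfl h5, ← Finset.sum_div, ← h4, ← hk, pow_add]
    field_simp
  rw [h2]
  have h7 : (p : ℝ) ^ D = (p : ℝ) ^ (D - (t.1 + t.2.1 + h * t.2.2)) * ((p : ℝ) ^ t.1 *
      (p : ℝ) ^ t.2.1 * ((p : ℝ) ^ h) ^ t.2.2) := by
    rw [← pow_mul, ← pow_add, ← pow_add, ← pow_add]
    congr 1
    omega
  rw [h7, div_pow, div_pow, div_pow, one_pow]
  field_simp

theorem taylor_rep {J : Type*} [Fintype J] (G : J → BP) :
    ∃ (T : Finset (Fin 2 →₀ ℕ)) (β : ℝ), 0 ≤ β ∧ ∀ u0 : ℝ, 0 ≤ u0 → u0 ≤ 2 →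
      (∀ t j, |(MvPolynomial.coeff t (G j)).eval u0| * (if t ∈ T then 1 else 0) ≤ β) ∧
      ∀ v w : ℝ, ∀ j, evBP u0 v w (G j) =
        ∑ t ∈ T, (v ^ (t 0) * w ^ (t 1)) * (MvPolynomial.coeff t (G j)).eval u0 := by
  classical
  let T : Finset (Fin 2 →₀ ℕ) := Finset.univ.biUnion fun j => (G j).support
  have hb : ∀ (t : Fin 2 →₀ ℕ) (j : J), ∃ β : ℝ, 0 ≤ β ∧ ∀ u0 : ℝ, 0 ≤ u0 → u0 ≤ 2 →
      |(MvPolynomial.coeff t (G j)).eval u0| ≤ β := by
    intro t j
    obtain ⟨β, hβ⟩ := (isCompact_Icc (a := (0 : ℝ)) (b := 2)).exists_bound_of_continuousOn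
      ((MvPolynomial.coeff t (G j)).continuous.continuousOn)
    refine ⟨|β|, abs_nonneg _, fun u0 h0 h2 => ?_⟩
    exact (hβ u0 ⟨h0, h2⟩).trans (le_abs_self _)
  choose β hβ0 hβ using hb
  refine ⟨T, ∑ t ∈ T, ∑ j, β t j, Finset.sum_nonneg fun t _ => Finset.sum_nonneg fun j _ => hβ0 t j,
    fun u0 h0 h2 => ⟨fun t j => ?_, fun v w j => ?_⟩⟩
  · split_ifs with ht
    · rw [mul_one]
      refine (hβ t j u0 h0 h2).trans ?_
      refine (Finset.single_le_sum (f := fun j => β t j) (fun j _ => hβ0 t j) (mem_univ j)).trans ?_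
      exact Finset.single_le_sum (f := fun t => ∑ j, β t j)
        (fun t _ => Finset.sum_nonneg fun j _ => hβ0 t j) ht
    · rw [mul_zero]
      exact Finset.sum_nonneg fun t _ => Finset.sum_nonneg fun j _ => hβ0 t j
  · unfold evBP
    rw [MvPolynomial.coe_eval₂Hom, MvPolynomial.eval₂_eq']
    have hsub : (G j).support ⊆ T := by
      intro t ht
      exact Finset.mem_biUnion.mpr ⟨j, mem_univ j, ht⟩
    rw [Finset.sum_subset hsub]
    · refine Finset.sum_congr rfl fun t _ => ?_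
      simp [Fin.prod_univ_two]
      ring
    · intro t _ ht
      rw [MvPolynomial.notMem_support_iff] at ht
      rw [ht]
      simp

end Vale.Agent.P018
end

section

/-! All maximal minors vanish on a patch. -/

namespace Vale.Agent.P018

open Finset

theorem prod_alpha_le {J : Type*} [Fintype J] (T : Finset (Fin 2 →₀ ℕ)) (x P z : ℝ) (hP : 1 ≤ P)
    (φ : J → T) (hφ : Function.Injective φ) :
    ∏ j, P ^ (-(x * ((φ j : Fin 2 →₀ ℕ) 0 : ℕ) + ((φ j : Fin 2 →₀ ℕ) 1 : ℕ))) ≤
      P ^ (-((Fintype.card J : ℝ) * z -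
        ∑ t ∈ T, max 0 (z - (x * (t 0 : ℕ) + (t 1 : ℕ))))) := by
  classical
  have hP0 : 0 < P := by linarith
  rw [← Real.rpow_sum_of_pos hP0]
  apply Real.rpow_le_rpow_of_exponent_le hP
  rw [Finset.sum_neg_distrib, neg_le_neg_iff]
  have h1 : ∑ j, max 0 (z - (x * ((φ j : Fin 2 →₀ ℕ) 0 : ℕ) + ((φ j : Fin 2 →₀ ℕ) 1 : ℕ))) ≤
      ∑ t ∈ T, max 0 (z - (x * (t 0 : ℕ) + (t 1 : ℕ))) := by
    have hinj : Function.Injective (fun j => ((φ j : T) : Fin 2 →₀ ℕ)) :=
      fun a b hab => hφ (Subtype.ext hab)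
    calc ∑ j, max 0 (z - (x * ((φ j : Fin 2 →₀ ℕ) 0 : ℕ) + ((φ j : Fin 2 →₀ ℕ) 1 : ℕ)))
        = ∑ t ∈ univ.image (fun j => ((φ j : T) : Fin 2 →₀ ℕ)),
            max 0 (z - (x * (t 0 : ℕ) + (t 1 : ℕ))) := by
          rw [Finset.sum_image (fun a _ b _ hab => hinj hab)]
      _ ≤ ∑ t ∈ T, max 0 (z - (x * (t 0 : ℕ) + (t 1 : ℕ))) := by
          apply Finset.sum_le_sum_of_subset_of_nonneg
          · intro t ht
            simp only [mem_image, mem_univ, true_and] at ht
            obtain ⟨j, rfl⟩ := ht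
            exact (φ j).2
          · intro _ _ _
            exact le_max_left _ _
  have h2 : (Fintype.card J : ℝ) * z ≤ ∑ j, ((x * ((φ j : Fin 2 →₀ ℕ) 0 : ℕ) +
      ((φ j : Fin 2 →₀ ℕ) 1 : ℕ)) +
      max 0 (z - (x * ((φ j : Fin 2 →₀ ℕ) 0 : ℕ) + ((φ j : Fin 2 →₀ ℕ) 1 : ℕ)))) := by
    have : (Fintype.card J : ℝ) * z = ∑ _j : J, z := by
      simp [Finset.sum_const, Finset.card_univ]
    rw [this]
    refine Finset.sum_le_sum fun j _ => ?_
    have := le_max_right (0 : ℝ) (z - (x * ((φ j : Fin 2 →₀ ℕ) 0 : ℕ) +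
      ((φ j : Fin 2 →₀ ℕ) 1 : ℕ)))
    linarith
  rw [Finset.sum_add_distrib] at h2
  linarith

theorem patch_minor (f : Polynomial ℤ) (k h : ℕ) (hh : 1 ≤ h) (hkh : k + h = f.natDegree)
    (x : ℝ) (hx : 9 * (h : ℝ) / (4 * f.natDegree) < x) :
    ∃ D P0 : ℕ, 1 ≤ P0 ∧ ∀ P : ℕ, P0 ≤ P → ∀ u0 : ℝ, 0 ≤ u0 → u0 ≤ 2 →
      ∀ n p m : (idx f.natDegree h D) → ℤ,
      (∀ i, (P : ℤ) < p i ∧ p i ≤ 2 * P ∧ |(n i : ℝ) / p i - u0| ≤ (P : ℝ) ^ (-x) ∧
        (p i) ^ k * m i = f.eval (n i)) →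
      (Matrix.of fun i (j : idx f.natDegree h D) =>
        (n i) ^ (j : ℕ × ℕ × ℕ).1 * (p i) ^ (j : ℕ × ℕ × ℕ).2.1 * (m i) ^ (j : ℕ × ℕ × ℕ).2.2).det
        = 0 := by
  classical
  have hd : 1 ≤ f.natDegree := by omega
  obtain ⟨D, hD1, hD2, hD3⟩ := exists_D f.natDegree h hh hd x hx
  have hx0 : 0 < x := by
    refine lt_of_le_of_lt ?_ hx
    positivity
  obtain ⟨T, β, hβ0, hT⟩ := taylor_rep (fun j : idx f.natDegree h D => Gh f h D (j : ℕ × ℕ × ℕ))
  set s : ℕ := (idx f.natDegree h D).card with hs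
  have hcardJ : Fintype.card (idx f.natDegree h D) = s := Fintype.card_coe _
  set Φ : ℝ := ∑ t ∈ T, max 0 ((3 / 2 * (D : ℝ)) - (x * (t 0 : ℕ) + (t 1 : ℕ))) with hΦ
  have hgap : 0 < (s : ℝ) * ((D : ℝ) / 2) - Φ := by
    have := hD3 T
    linarith only [this]
  set γ : ℝ := (s : ℝ) * ((D : ℝ) / 2) - Φ with hγ
  set K : ℝ := (2 : ℝ) ^ (D * s) * ((Fintype.card T : ℝ) ^ s * (β ^ s * (s.factorial : ℝ))) with hK
  have hlim : Filter.Tendsto (fun P : ℕ => K * (P : ℝ) ^ (-γ)) Filter.atTop (nhds (K * 0)) := by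
    refine Filter.Tendsto.const_mul _ ?_
    exact (tendsto_rpow_neg_atTop hgap).comp tendsto_natCast_atTop_atTop
  rw [mul_zero] at hlim
  obtain ⟨P0, hP0⟩ := Filter.eventually_atTop.mp (hlim.eventually (gt_mem_nhds one_pos))
  refine ⟨D, max P0 1, le_max_right _ _, ?_⟩
  intro P hP u0 hu0 hu2 n p m hz
  have hP1 : 1 ≤ P := le_trans (le_max_right _ _) hP
  have hP1' : (1 : ℝ) ≤ P := by exact_mod_cast hP1
  have hPpos : (0 : ℝ) < P := by linarith only [hP1']
  have hsmall : K * (P : ℝ) ^ (-γ) < 1 := hP0 P (le_trans (le_max_left _ _) hP)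
  obtain ⟨hT1, hT2⟩ := hT u0 hu0 hu2
  set M : Matrix (idx f.natDegree h D) (idx f.natDegree h D) ℤ :=
    Matrix.of fun i (j : idx f.natDegree h D) =>
        (n i) ^ (j : ℕ × ℕ × ℕ).1 * (p i) ^ (j : ℕ × ℕ × ℕ).2.1 * (m i) ^ (j : ℕ × ℕ × ℕ).2.2
    with hM
  have hcast : ((M.det : ℤ) : ℝ) = (M.map (Int.castRingHom ℝ)).det := by
    have h9 := RingHom.map_det (Int.castRingHom ℝ) M
    rw [RingHom.mapMatrix_apply] at h9
    exact h9
  let A : (idx f.natDegree h D) → T → ℝ := fun i t =>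
    ((n i : ℝ) / p i - u0) ^ ((t : Fin 2 →₀ ℕ) 0) * (1 / (p i : ℝ)) ^ ((t : Fin 2 →₀ ℕ) 1)
  let B : T → (idx f.natDegree h D) → ℝ := fun t j =>
    (MvPolynomial.coeff (t : Fin 2 →₀ ℕ) (Gh f h D (j : ℕ × ℕ × ℕ))).eval u0
  have hfac : M.map (Int.castRingHom ℝ) = Matrix.of fun i j => (fun i => ((p i : ℝ)) ^ D) i *
      (Matrix.of fun i j => ∑ t, A i t * B t j) i j := by
    ext i j
    have hj := (mem_idx hh).mp j.2
    have hpi : p i ≠ 0 := by
      have := (hz i).1
      have h0 : (0 : ℤ) ≤ P := by (clear * - hP1; positivity)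
      omega
    simp only [hM, Matrix.map_apply, Matrix.of_apply, eq_intCast, Int.cast_mul, Int.cast_pow]
    rw [mono_eq f k h D hkh (j : ℕ × ℕ × ℕ) hj.2 (n i) (p i) (m i) hpi (hz i).2.2.2 u0]
    rw [hT2]
    congr 1
    rw [← Finset.sum_coe_sort T]
  have hdetM : |((M.det : ℤ) : ℝ)| < 1 := by
    rw [hcast, hfac, Matrix.det_mul_column, abs_mul]
    have h1 : |∏ i, (p i : ℝ) ^ D| ≤ (2 * (P : ℝ)) ^ (D * s) := by
      rw [Finset.abs_prod]
      calc ∏ i, |(p i : ℝ) ^ D| ≤ ∏ _i : (idx f.natDegree h D), (2 * (P : ℝ)) ^ D := by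
            refine Finset.prod_le_prod (fun _ _ => abs_nonneg _) fun i _ => ?_
            rw [abs_pow]
            refine pow_le_pow_left₀ (abs_nonneg _) ?_ _
            have h2 : (p i : ℝ) ≤ 2 * P := by exact_mod_cast (hz i).2.1
            have h3 : (P : ℝ) < p i := by exact_mod_cast (hz i).1
            rw [abs_of_pos (by linarith only [h3, h2])]
            exact h2
        _ = (2 * (P : ℝ)) ^ (D * s) := by
            rw [Finset.prod_const, ← pow_mul, Finset.card_univ, hcardJ]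
    have h2 := det_bound A B
      (fun t => (P : ℝ) ^ (-(x * ((t : Fin 2 →₀ ℕ) 0 : ℕ) + ((t : Fin 2 →₀ ℕ) 1 : ℕ)))) β
      ((P : ℝ) ^ (-((Fintype.card (idx f.natDegree h D) : ℝ) * (3 / 2 * (D : ℝ)) - Φ)))
      ?_ ?_ (by (clear * - hP1; positivity)) ?_
    · rw [hcardJ] at h2
      calc |∏ i, (p i : ℝ) ^ D| * |(Matrix.of fun i j => ∑ t, A i t * B t j).det|
          ≤ (2 * (P : ℝ)) ^ (D * s) * ((Fintype.card T : ℝ) ^ s * (β ^ s * ((s.factorial : ℝ) *
              (P : ℝ) ^ (-((s : ℝ) * (3 / 2 * (D : ℝ)) - Φ))))) :=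
            mul_le_mul h1 h2 (abs_nonneg _) (by (clear * - hP1; positivity))
        _ = K * (P : ℝ) ^ (-γ) := by
            have h4 : (P : ℝ) ^ (-γ) = (P : ℝ) ^ (D * s) *
                (P : ℝ) ^ (-((s : ℝ) * (3 / 2 * (D : ℝ)) - Φ)) := by
              rw [← Real.rpow_natCast, ← Real.rpow_add hPpos]
              congr 1
              rw [hγ]
              push_cast
              ring
            rw [h4, hK, mul_pow]
            ring
        _ < 1 := hsmall
    · intro i t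
      simp only [A]
      rw [abs_mul, abs_pow, abs_pow]
      have hpi : (P : ℝ) < p i := by exact_mod_cast (hz i).1
      have hpi0 : (0 : ℝ) < p i := by linarith only [hpi, hPpos]
      have e1 : |(n i : ℝ) / p i - u0| ≤ (P : ℝ) ^ (-x) := (hz i).2.2.1
      have e2 : |1 / (p i : ℝ)| ≤ (P : ℝ) ^ (-1 : ℝ) := by
        rw [abs_of_pos (by (clear * - hpi0; positivity)), Real.rpow_neg_one, one_div]
        exact inv_anti₀ hPpos hpi.le
      calc |(n i : ℝ) / p i - u0| ^ ((t : Fin 2 →₀ ℕ) 0) * |1 / (p i : ℝ)| ^ ((t : Fin 2 →₀ ℕ) 1)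
          ≤ ((P : ℝ) ^ (-x)) ^ ((t : Fin 2 →₀ ℕ) 0) *
              ((P : ℝ) ^ (-1 : ℝ)) ^ ((t : Fin 2 →₀ ℕ) 1) :=
            mul_le_mul (pow_le_pow_left₀ (abs_nonneg _) e1 _)
              (pow_le_pow_left₀ (abs_nonneg _) e2 _) (by (clear * - hpi0; positivity)) (by (clear * - hP1; positivity))
        _ = (P : ℝ) ^ (-(x * ((t : Fin 2 →₀ ℕ) 0 : ℕ) + ((t : Fin 2 →₀ ℕ) 1 : ℕ))) := by
            rw [← Real.rpow_natCast, ← Real.rpow_natCast, ← Real.rpow_mul hPpos.le,
              ← Real.rpow_mul hPpos.le, ← Real.rpow_add hPpos]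
            congr 1
            ring
    · intro t j
      have := hT1 (t : Fin 2 →₀ ℕ) j
      simp only [t.2, if_true, mul_one] at this
      exact this
    · intro φ hφ
      exact prod_alpha_le T x P (3 / 2 * (D : ℝ)) hP1' φ hφ
  have hint : |M.det| < 1 := by exact_mod_cast hdetM
  exact Int.abs_lt_one_iff.mp hint

end Vale.Agent.P018
end

section

/-! Counting estimates for the determinant method with rescaled columns. -/

namespace Vale.Agent.P018

open Finset

theorem sum_id_real (n : ℕ) : ∑ c ∈ range (n + 1), (c : ℝ) = (n : ℝ) * (n + 1) / 2 := by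
  induction n with
  | zero => simp
  | succ n ih =>
    rw [Finset.sum_range_succ, ih]
    push_cast
    ring

theorem sum_sq_real (n : ℕ) : ∑ c ∈ range (n + 1), (c : ℝ) ^ 2 =
    (n : ℝ) * (n + 1) * (2 * n + 1) / 6 := by
  induction n with
  | zero => simp
  | succ n ih =>
    rw [Finset.sum_range_succ, ih]
    push_cast
    ring

theorem sum_mul_sub_real (n : ℕ) : ∑ c ∈ range (n + 1), (c : ℝ) * ((n : ℝ) - c) =
    ((n : ℝ) ^ 3 - n) / 6 := by
  have h1 : ∀ c ∈ range (n + 1), (c : ℝ) * ((n : ℝ) - c) = (n : ℝ) * c - (c : ℝ) ^ 2 := by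
    intro c _
    ring
  rw [Finset.sum_congr rfl h1, Finset.sum_sub_distrib, ← Finset.mul_sum, sum_id_real, sum_sq_real]
  ring

/-- lower bound for the sum of `k c - b` over the index set. -/
theorem sum_idx_ge (d h k M : ℕ) (hh : 1 ≤ h) (hM : d ≤ M) :
    (d : ℝ) * ((k : ℝ) * h * (((M : ℝ) - d) ^ 3 - ((M : ℝ) - d)) / 6 -
      ((h : ℝ) ^ 2 * (M * (M + 1) * (2 * M + 1)) / 12 + h * (M * (M + 1)) / 4)) ≤
    ∑ t ∈ idx d h (h * M), ((k : ℝ) * (t.2.2 : ℝ) - (t.2.1 : ℝ)) := by
  have h1 : ∑ t ∈ idx d h (h * M), ((k : ℝ) * (t.2.2 : ℝ) - (t.2.1 : ℝ)) =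
      ∑ a ∈ range d, ∑ c ∈ range (h * M + 1), ∑ b ∈ (range (h * M + 1)).filter
        (fun b => a + b + h * c ≤ h * M), ((k : ℝ) * (c : ℝ) - (b : ℝ)) := by
    unfold idx
    rw [Finset.sum_filter, Finset.sum_product]
    refine Finset.sum_congr rfl fun a _ => ?_
    rw [Finset.sum_product_right]
    refine Finset.sum_congr rfl fun c _ => ?_
    rw [Finset.sum_filter]
  rw [h1]
  have h2 : ∀ a ∈ range d, ((k : ℝ) * h * (((M : ℝ) - d) ^ 3 - ((M : ℝ) - d)) / 6 -
      ((h : ℝ) ^ 2 * (M * (M + 1) * (2 * M + 1)) / 12 + h * (M * (M + 1)) / 4)) ≤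
      ∑ c ∈ range (h * M + 1), ∑ b ∈ (range (h * M + 1)).filter
        (fun b => a + b + h * c ≤ h * M), ((k : ℝ) * (c : ℝ) - (b : ℝ)) := by
    intro a ha
    rw [mem_range] at ha
    -- split the sum
    have h3 : ∀ c ∈ range (h * M + 1),
        (if c < M - d + 1 then (k : ℝ) * h * ((c : ℝ) * (((M - d : ℕ) : ℝ) - c)) else 0) -
        (if c < M + 1 then ((h : ℝ) ^ 2 * ((M : ℝ) - c) ^ 2 + h * ((M : ℝ) - c)) / 2 else 0) ≤
        ∑ b ∈ (range (h * M + 1)).filter
          (fun b => a + b + h * c ≤ h * M), ((k : ℝ) * (c : ℝ) - (b : ℝ)) := by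
      intro c _
      rw [Finset.sum_sub_distrib]
      apply sub_le_sub
      · rw [Finset.sum_const, nsmul_eq_mul]
        split_ifs with hc
        · have hsub : range (h * (M - d - c)) ⊆ (range (h * M + 1)).filter
              (fun b => a + b + h * c ≤ h * M) := by
            intro b hb
            rw [mem_range] at hb
            rw [mem_filter, mem_range]
            have e1 : h * (M - d - c) + h * d + h * c = h * M := by
              rw [← mul_add, ← mul_add]
              congr 1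
              omega
            have e2 : d ≤ h * d := Nat.le_mul_of_pos_left _ hh
            constructor <;> omega
          have hcard := Finset.card_le_card hsub
          rw [card_range] at hcard
          have hcard' : ((h * (M - d - c) : ℕ) : ℝ) ≤ (((range (h * M + 1)).filter
              (fun b => a + b + h * c ≤ h * M)).card : ℝ) := by exact_mod_cast hcard
          have e3 : ((h * (M - d - c) : ℕ) : ℝ) = (h : ℝ) * (((M - d : ℕ) : ℝ) - c) := by
            push_cast [Nat.cast_sub (show c ≤ M - d by omega)]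
            rfl
          rw [e3] at hcard'
          calc (k : ℝ) * h * ((c : ℝ) * (((M - d : ℕ) : ℝ) - c))
              = ((h : ℝ) * (((M - d : ℕ) : ℝ) - c)) * ((k : ℝ) * c) := by ring
            _ ≤ _ := mul_le_mul_of_nonneg_right hcard' (by (clear * -; positivity))
        · (clear * -; positivity)
      · split_ifs with hc
        · have hsub : (range (h * M + 1)).filter (fun b => a + b + h * c ≤ h * M) ⊆
              range (h * (M - c) + 1) := by
            intro b hb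
            rw [mem_filter, mem_range] at hb
            rw [mem_range]
            have e1 : h * (M - c) + h * c = h * M := by
              rw [← mul_add]
              congr 1
              omega
            omega
          calc ∑ b ∈ (range (h * M + 1)).filter (fun b => a + b + h * c ≤ h * M), (b : ℝ)
              ≤ ∑ b ∈ range (h * (M - c) + 1), (b : ℝ) :=
                Finset.sum_le_sum_of_subset_of_nonneg hsub (fun _ _ _ => by (clear * -; positivity))
            _ = ((h : ℝ) ^ 2 * ((M : ℝ) - c) ^ 2 + h * ((M : ℝ) - c)) / 2 := by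
                rw [sum_id_real]
                push_cast [Nat.cast_sub (show c ≤ M by omega)]
                ring
        · apply le_of_eq
          apply Finset.sum_eq_zero
          intro b hb
          exfalso
          rw [mem_filter] at hb
          have : h * (M + 1) ≤ h * c := Nat.mul_le_mul_left _ (by omega)
          have h5 : h * (M + 1) = h * M + h := by ring
          omega
    refine le_trans ?_ (Finset.sum_le_sum h3)
    rw [Finset.sum_sub_distrib]
    apply sub_le_sub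
    · rw [← Finset.sum_filter]
      have hf : (range (h * M + 1)).filter (fun c => c < M - d + 1) = range (M - d + 1) := by
        ext c
        rw [mem_filter, mem_range, mem_range]
        have : M ≤ h * M := Nat.le_mul_of_pos_left _ hh
        constructor
        · exact fun h => h.2
        · intro h
          constructor <;> omega
      rw [hf, ← Finset.mul_sum, sum_mul_sub_real, Nat.cast_sub hM]
      apply le_of_eq
      ring
    · rw [← Finset.sum_filter]
      have hf : (range (h * M + 1)).filter (fun c => c < M + 1) = range (M + 1) := by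
        ext c
        rw [mem_filter, mem_range, mem_range]
        have : M ≤ h * M := Nat.le_mul_of_pos_left _ hh
        constructor
        · exact fun h => h.2
        · intro h
          constructor <;> omega
      rw [hf]
      have e4 : ∑ c ∈ range (M + 1), ((h : ℝ) ^ 2 * ((M : ℝ) - c) ^ 2 + h * ((M : ℝ) - c)) / 2 =
          ∑ c ∈ range (M + 1), ((h : ℝ) ^ 2 * (c : ℝ) ^ 2 + h * (c : ℝ)) / 2 := by
        rw [← Finset.sum_range_reflect]
        refine Finset.sum_congr rfl fun c hc => ?_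
        rw [mem_range] at hc
        have : ((M + 1 - 1 - c : ℕ) : ℝ) = (M : ℝ) - c := by
          rw [Nat.add_sub_cancel, Nat.cast_sub (by omega)]
        rw [this]
        ring
      rw [e4, ← Finset.sum_div, Finset.sum_add_distrib, ← Finset.mul_sum, ← Finset.mul_sum,
        sum_id_real, sum_sq_real]
      apply le_of_eq
      ring
  calc (d : ℝ) * ((k : ℝ) * h * (((M : ℝ) - d) ^ 3 - ((M : ℝ) - d)) / 6 -
      ((h : ℝ) ^ 2 * (M * (M + 1) * (2 * M + 1)) / 12 + h * (M * (M + 1)) / 4))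
      = ∑ _a ∈ range d, ((k : ℝ) * h * (((M : ℝ) - d) ^ 3 - ((M : ℝ) - d)) / 6 -
      ((h : ℝ) ^ 2 * (M * (M + 1) * (2 * M + 1)) / 12 + h * (M * (M + 1)) / 4)) := by
        rw [Finset.sum_const, card_range, nsmul_eq_mul]
    _ ≤ _ := Finset.sum_le_sum h2

/-- Choice of `D` at both ends of the range. -/
theorem exists_D2 (d h k : ℕ) (hh : 1 ≤ h) (hk : 1 ≤ k) (hkh : k + h = d) (x0 x1 : ℝ)
    (hx0 : 9 * (h : ℝ) / (4 * d) < x0)
    (hx1 : 9 * (h : ℝ) / (4 * d) * (((k : ℝ) + d) / (3 * k)) ^ 2 < x1) :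
    ∃ D : ℕ, 1 ≤ D ∧ ∀ T : Finset (Fin 2 →₀ ℕ),
      (∑ t ∈ T, max 0 ((3 / 2 * (D : ℝ)) - (x0 * (t 0 : ℕ) + (t 1 : ℕ))) <
        ((idx d h D).card : ℝ) * ((D : ℝ) / 2)) ∧
      (∑ t ∈ T, max 0 ((3 / 2 * (D : ℝ) * (((k : ℝ) + d) / (3 * k))) -
          (x1 * (t 0 : ℕ) + (t 1 : ℕ))) <
        ((h : ℝ) / k) * ∑ t ∈ idx d h D, ((k : ℝ) * (t.2.2 : ℝ) - (t.2.1 : ℝ)) +
        ((idx d h D).card : ℝ) * (D * (3 / 2 * (((k : ℝ) + d) / (3 * k)) - 1))) := by
  have hh' : (0 : ℝ) < h := by exact_mod_cast hh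
  have hk' : (0 : ℝ) < k := by exact_mod_cast hk
  have hd : 1 ≤ d := by omega
  have hd' : (0 : ℝ) < d := by exact_mod_cast hd
  have hkd : (k : ℝ) + h = d := by exact_mod_cast hkh
  have hx0p : 0 < x0 := lt_trans (by positivity) hx0
  have hx1p : 0 < x1 := lt_trans (by positivity) hx1
  generalize hρ : ((k : ℝ) + d) / (3 * k) = ρ at hx1
  have hρ0 : 0 < ρ := by rw [← hρ]; positivity
  have hρk : ρ * (3 * k) = k + d := by
    rw [← hρ]
    field_simp
  have hρ1 : 0 < 3 / 2 * ρ - 1 := by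
    have : 3 / 2 * ρ - 1 = h / (2 * k) := by
      rw [eq_div_iff (by positivity)]
      nlinarith
    rw [this]
    positivity
  -- the two functions of `y = 1 / M`
  let G0 : ℝ → ℝ := fun y => (d : ℝ) * ((h : ℝ) - d * y) ^ 2 / (2 * h) * (h / 2) -
    (3 / 2 * (h : ℝ) + (1 + x0) * y) ^ 3 / (6 * x0)
  let G1 : ℝ → ℝ := fun y => ((h : ℝ) / k) * ((d : ℝ) * ((k : ℝ) * h * ((1 - d * y) ^ 3 -
      (1 - d * y) * y ^ 2) / 6 - ((h : ℝ) ^ 2 * ((1 + y) * (2 + y)) / 12 + h * ((1 + y) * y) / 4))) +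
      (d : ℝ) * ((h : ℝ) - d * y) ^ 2 / (2 * h) * (h * (3 / 2 * ρ - 1)) -
      (3 / 2 * (h : ℝ) * ρ + (1 + x1) * y) ^ 3 / (6 * x1)
  have hG0c : Continuous G0 := by
    simp only [G0]
    fun_prop
  have hG1c : Continuous G1 := by
    simp only [G1]
    fun_prop
  have hG00 : 0 < G0 0 := by
    have h1 : G0 0 = (h : ℝ) ^ 2 * ((d : ℝ) / 4 - 9 * h / (16 * x0)) := by
      simp only [G0]
      field_simp
      ring
    rw [h1]
    apply mul_pos (by positivity)
    rw [sub_pos, div_lt_div_iff₀ (by positivity) (by positivity)]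
    rw [div_lt_iff₀ (by positivity)] at hx0
    linarith only [hx0]
  have hG10 : 0 < G1 0 := by
    have h1 : G1 0 = (h : ℝ) ^ 2 * ρ * ((d : ℝ) / 4 - 9 * h * ρ ^ 2 / (16 * x1)) := by
      have h2 : (h : ℝ) / k * ((d : ℝ) * ((k : ℝ) * h / 6 - (h : ℝ) ^ 2 * 2 / 12)) +
        (d : ℝ) * (h : ℝ) ^ 2 / (2 * h) * (h * (3 / 2 * ρ - 1)) = (h : ℝ) ^ 2 * ρ * (d / 4) := by
        have h3 : ρ = (k + d) / (3 * k) := hρ.symm
        rw [h3, ← hkd]
        field_simp
        ring
      have h4 : G1 0 = ((h : ℝ) / k * ((d : ℝ) * ((k : ℝ) * h / 6 - (h : ℝ) ^ 2 * 2 / 12)) +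
        (d : ℝ) * (h : ℝ) ^ 2 / (2 * h) * (h * (3 / 2 * ρ - 1))) -
        (3 / 2 * (h : ℝ) * ρ) ^ 3 / (6 * x1) := by
        simp only [G1]
        ring
      rw [h4, h2]
      field_simp
      ring
    rw [h1]
    apply mul_pos (by positivity)
    rw [sub_pos, div_lt_div_iff₀ (by positivity) (by positivity)]
    rw [div_mul_eq_mul_div, div_lt_iff₀ (by positivity)] at hx1
    linarith only [hx1]
  have hinv : Filter.Tendsto (fun M : ℕ => ((M : ℝ))⁻¹) Filter.atTop (nhds 0) :=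
    tendsto_inv_atTop_nhds_zero_nat
  have hev0 := ((hG0c.tendsto 0).comp hinv).eventually (lt_mem_nhds hG00)
  have hev1 := ((hG1c.tendsto 0).comp hinv).eventually (lt_mem_nhds hG10)
  obtain ⟨M, hM0, hM1, hM2⟩ := (hev0.and (hev1.and (Filter.eventually_ge_atTop (max d 1)))).exists
  simp only [Function.comp_apply] at hM0 hM1
  have hdM : d ≤ M := le_trans (le_max_left _ _) hM2
  have hM3 : 1 ≤ M := le_trans (le_max_right _ _) hM2
  have hMp : (0 : ℝ) < M := by exact_mod_cast hM3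
  have hMh : M ≤ h * M := Nat.le_mul_of_pos_left _ hh
  have hcard := card_idx_ge d h (h * M) hh (hdM.trans hMh)
  have hsum := sum_idx_ge d h k M hh hdM
  refine ⟨h * M, by omega, fun T => ⟨?_, ?_⟩⟩
  · refine (phi_bound x0 _ hx0p (by positivity) T).trans_lt ?_
    refine lt_of_lt_of_le ?_ (mul_le_mul_of_nonneg_right hcard (by positivity))
    rw [← sub_pos]
    have h1 : (d : ℝ) * (((h * M : ℕ) : ℝ) - d) ^ 2 / (2 * h) * (((h * M : ℕ) : ℝ) / 2) -
      (3 / 2 * ((h * M : ℕ) : ℝ) + 1 + x0) ^ 3 / (6 * x0) = (M : ℝ) ^ 3 * G0 ((M : ℝ)⁻¹) := by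
      simp only [G0]
      push_cast
      field_simp
      ring
    rw [h1]
    (clear * - hM3 hM0; positivity)
  · refine (phi_bound x1 _ hx1p (by positivity) T).trans_lt ?_
    have h5 : ((h : ℝ) / k) * ((d : ℝ) * ((k : ℝ) * h * (((M : ℝ) - d) ^ 3 - ((M : ℝ) - d)) / 6 -
      ((h : ℝ) ^ 2 * (M * (M + 1) * (2 * M + 1)) / 12 + h * (M * (M + 1)) / 4))) +
      (d : ℝ) * (((h * M : ℕ) : ℝ) - d) ^ 2 / (2 * h) * (((h * M : ℕ) : ℝ) * (3 / 2 * ρ - 1)) ≤
      ((h : ℝ) / k) * ∑ t ∈ idx d h (h * M), ((k : ℝ) * (t.2.2 : ℝ) - (t.2.1 : ℝ)) +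
        ((idx d h (h * M)).card : ℝ) * (((h * M : ℕ) : ℝ) * (3 / 2 * ρ - 1)) :=
      add_le_add (mul_le_mul_of_nonneg_left hsum (by positivity))
        (mul_le_mul_of_nonneg_right hcard (mul_nonneg (by positivity) hρ1.le))
    refine lt_of_lt_of_le ?_ h5
    rw [← sub_pos]
    have h1 : ((h : ℝ) / k) * ((d : ℝ) * ((k : ℝ) * h * (((M : ℝ) - d) ^ 3 - ((M : ℝ) - d)) / 6 -
      ((h : ℝ) ^ 2 * (M * (M + 1) * (2 * M + 1)) / 12 + h * (M * (M + 1)) / 4))) +
      (d : ℝ) * (((h * M : ℕ) : ℝ) - d) ^ 2 / (2 * h) * (((h * M : ℕ) : ℝ) * (3 / 2 * ρ - 1)) -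
      (3 / 2 * ((h * M : ℕ) : ℝ) * ρ + 1 + x1) ^ 3 / (6 * x1) = (M : ℝ) ^ 3 * G1 ((M : ℝ)⁻¹) := by
      simp only [G1]
      push_cast
      field_simp
      ring
    rw [h1]
    (clear * - hM3 hM1; positivity)

end Vale.Agent.P018
end

section

/-! All maximal minors vanish on a rescaled patch. -/

namespace Vale.Agent.P018

open Finset

/-- The rescaled basic identity. -/
theorem mono_eq2 (f : Polynomial ℤ) (k h D : ℕ) (hk : k + h = f.natDegree) (t : ℕ × ℕ × ℕ)
    (ht : t.1 + t.2.1 + h * t.2.2 ≤ D) (n p m : ℤ) (hp : p ≠ 0) (hm : p ^ k * m = f.eval n)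
    (u0 V : ℝ) (hV : 0 < V) :
    ((n : ℝ) ^ t.1 * (p : ℝ) ^ t.2.1 * (m : ℝ) ^ t.2.2) =
      (p : ℝ) ^ D * ((V⁻¹) ^ (D - t.2.1 + k * t.2.2) *
        evBP u0 ((n : ℝ) / p * V - u0) (1 / p * V) (Gh f h D t)) := by
  rw [mono_eq f k h D hk t ht n p m hp hm 0]
  congr 1
  rw [evBP_Gh, evBP_Gh]
  have h1 : u0 + ((n : ℝ) / p * V - u0) = (n : ℝ) / p * V := by ring
  have h2 : (0 : ℝ) + ((n : ℝ) / p - 0) = (n : ℝ) / p := by ring
  rw [h1, h2]
  generalize (n : ℝ) / p = A
  generalize (1 : ℝ) / p = w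
  have h3 : ∑ t ∈ range (f.natDegree + 1), (f.coeff t : ℝ) * (A * V) ^ t *
      (w * V) ^ (f.natDegree - t) = V ^ f.natDegree *
      ∑ t ∈ range (f.natDegree + 1), (f.coeff t : ℝ) * A ^ t * w ^ (f.natDegree - t) := by
    rw [Finset.mul_sum]
    refine Finset.sum_congr rfl fun t ht => ?_
    rw [mem_range] at ht
    have h4 : V ^ f.natDegree = V ^ t * V ^ (f.natDegree - t) := by
      rw [← pow_add]
      congr 1
      omega
    rw [h4, mul_pow, mul_pow]
    ring
  rw [h3]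
  generalize (∑ t ∈ range (f.natDegree + 1), (f.coeff t : ℝ) * A ^ t * w ^ (f.natDegree - t)) = F
  rw [mul_pow, mul_pow, mul_pow, ← pow_mul]
  have h5 : D - t.2.1 + k * t.2.2 = (D - (t.1 + t.2.1 + h * t.2.2)) + t.1 + f.natDegree * t.2.2 := by
    rw [← hk, add_mul]
    omega
  rw [h5, pow_add, pow_add]
  have hV' : V ≠ 0 := hV.ne'
  have e : ∀ a : ℕ, (V⁻¹) ^ a * V ^ a = 1 := fun a => by
    rw [← mul_pow, inv_mul_cancel₀ hV', one_pow]
  generalize D - (t.1 + t.2.1 + h * t.2.2) = e1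
  generalize f.natDegree * t.2.2 = e3
  have h6 : (V⁻¹) ^ e1 * (V⁻¹) ^ t.1 * (V⁻¹) ^ e3 *
      (w ^ e1 * V ^ e1 * (A ^ t.1 * V ^ t.1) * (V ^ e3 * F ^ t.2.2)) =
      ((V⁻¹) ^ e1 * V ^ e1) * ((V⁻¹) ^ t.1 * V ^ t.1) * ((V⁻¹) ^ e3 * V ^ e3) *
      (w ^ e1 * A ^ t.1 * F ^ t.2.2) := by ring
  rw [h6, e, e, e]
  ring

theorem phi_convex (T : Finset (Fin 2 →₀ ℕ)) (x0 x1 z0 z1 l : ℝ) (hl0 : 0 ≤ l) (hl1 : l ≤ 1) :
    ∑ t ∈ T, max 0 (((1 - l) * z0 + l * z1) -
      (((1 - l) * x0 + l * x1) * (t 0 : ℕ) + (t 1 : ℕ))) ≤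
    (1 - l) * ∑ t ∈ T, max 0 (z0 - (x0 * (t 0 : ℕ) + (t 1 : ℕ))) +
      l * ∑ t ∈ T, max 0 (z1 - (x1 * (t 0 : ℕ) + (t 1 : ℕ))) := by
  rw [Finset.mul_sum, Finset.mul_sum, ← Finset.sum_add_distrib]
  refine Finset.sum_le_sum fun t _ => ?_
  apply max_le
  · have h1 := le_max_left (0 : ℝ) (z0 - (x0 * (t 0 : ℕ) + (t 1 : ℕ)))
    have h2 := le_max_left (0 : ℝ) (z1 - (x1 * (t 0 : ℕ) + (t 1 : ℕ)))
    have h3 : 0 ≤ 1 - l := by linarith
    (clear * - hl1 hl0; positivity)
  · have h1 := mul_le_mul_of_nonneg_left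
      (le_max_right (0 : ℝ) (z0 - (x0 * (t 0 : ℕ) + (t 1 : ℕ))))
      (show 0 ≤ 1 - l by linarith)
    have h2 := mul_le_mul_of_nonneg_left
      (le_max_right (0 : ℝ) (z1 - (x1 * (t 0 : ℕ) + (t 1 : ℕ)))) hl0
    have h3 : ((1 - l) * z0 + l * z1) - (((1 - l) * x0 + l * x1) * (t 0 : ℕ) + (t 1 : ℕ)) =
      (1 - l) * (z0 - (x0 * (t 0 : ℕ) + (t 1 : ℕ))) +
      l * (z1 - (x1 * (t 0 : ℕ) + (t 1 : ℕ))) := by
      ring
    rw [h3]
    linarith only [h2, h1]

theorem prod_W (d h D k : ℕ) (hh : 1 ≤ h) (V : ℝ) (hVpos : 0 < V) :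
    ∏ j : idx d h D, (V⁻¹) ^ (D - (j : ℕ × ℕ × ℕ).2.1 + k * (j : ℕ × ℕ × ℕ).2.2) =
      V ^ (-(((idx d h D).card : ℝ) * D +
        ∑ t ∈ idx d h D, ((k : ℝ) * (t.2.2 : ℝ) - (t.2.1 : ℝ)))) := by
  have h1 : ∀ j : idx d h D, (V⁻¹) ^ (D - (j : ℕ × ℕ × ℕ).2.1 + k * (j : ℕ × ℕ × ℕ).2.2) =
      V ^ (-((D : ℝ) + ((k : ℝ) * ((j : ℕ × ℕ × ℕ).2.2 : ℝ) - ((j : ℕ × ℕ × ℕ).2.1 : ℝ)))) := by
    intro j
    have hj := (mem_idx hh).mp j.2
    rw [Real.rpow_neg hVpos.le, ← Real.inv_rpow hVpos.le, ← Real.rpow_natCast]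
    congr 1
    push_cast [Nat.cast_sub (show (j : ℕ × ℕ × ℕ).2.1 ≤ D by omega)]
    ring
  simp_rw [h1]
  rw [← Real.rpow_sum_of_pos hVpos]
  congr 1
  rw [Finset.sum_neg_distrib, Finset.sum_add_distrib]
  congr 1
  congr 1
  · rw [Finset.sum_const, Finset.card_univ, Fintype.card_coe, nsmul_eq_mul]
  · rw [← Finset.sum_coe_sort (idx d h D)]

theorem exp_combine (X P : ℝ) (hX : 1 ≤ X) (s D : ℕ) (S t : ℝ) (hPX : P = X ^ (1 + t)) :
    P ^ (D * s) * (P / X) ^ (-((s : ℝ) * D + S)) = X ^ ((s : ℝ) * D - t * S) := by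
  have hXpos : 0 < X := by linarith
  have hPpos : 0 < P := by rw [hPX]; positivity
  have h4 : P ^ (D * s) = P ^ ((s : ℝ) * D) := by
    rw [← Real.rpow_natCast]
    congr 1
    push_cast
    ring
  have h5 : (P / X) ^ (-((s : ℝ) * D + S)) = P ^ (-((s : ℝ) * D + S)) *
      X ^ ((s : ℝ) * D + S) := by
    rw [Real.div_rpow hPpos.le hXpos.le, div_eq_mul_inv,
      ← Real.rpow_neg hXpos.le, neg_neg]
  rw [h4, h5]
  have h6 : P ^ ((s : ℝ) * D) * (P ^ (-((s : ℝ) * D + S)) *
      X ^ ((s : ℝ) * D + S)) = P ^ (-S) * X ^ ((s : ℝ) * D + S) := by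
    rw [← mul_assoc, ← Real.rpow_add hPpos]
    congr 2
    ring
  rw [h6, hPX, ← Real.rpow_mul hXpos.le, ← Real.rpow_add hXpos]
  congr 1
  ring

/-- The size of the determinant in a rescaled patch. -/
theorem det_patch2 (f : Polynomial ℤ) (k h : ℕ) (hh : 1 ≤ h)
    (hkh : k + h = f.natDegree) (D : ℕ) (T : Finset (Fin 2 →₀ ℕ)) (β : ℝ) (hβ0 : 0 ≤ β)
    (X P : ℕ) (hX1 : 1 ≤ X) (hXP : X ≤ P) (t x z u0 : ℝ)
    (hPX : (P : ℝ) = (X : ℝ) ^ (1 + t))
    (hT1 : ∀ t (j : idx f.natDegree h D),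
      |(MvPolynomial.coeff t (Gh f h D (j : ℕ × ℕ × ℕ))).eval u0| * (if t ∈ T then 1 else 0) ≤ β)
    (hT2 : ∀ v w : ℝ, ∀ j : idx f.natDegree h D, evBP u0 v w (Gh f h D (j : ℕ × ℕ × ℕ)) =
        ∑ t ∈ T, (v ^ (t 0) * w ^ (t 1)) *
          (MvPolynomial.coeff t (Gh f h D (j : ℕ × ℕ × ℕ))).eval u0)
    (n p m : (idx f.natDegree h D) → ℤ)
    (hz : ∀ i, (P : ℤ) < p i ∧ p i ≤ 2 * P ∧
        |(n i : ℝ) / p i * ((P : ℝ) / X) - u0| ≤ (X : ℝ) ^ (-x) ∧
        (p i) ^ k * m i = f.eval (n i)) :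
    |(((Matrix.of fun i (j : idx f.natDegree h D) =>
        (n i) ^ (j : ℕ × ℕ × ℕ).1 * (p i) ^ (j : ℕ × ℕ × ℕ).2.1 *
        (m i) ^ (j : ℕ × ℕ × ℕ).2.2).det : ℤ) : ℝ)| ≤
      (2 : ℝ) ^ (D * (idx f.natDegree h D).card) * ((Fintype.card T : ℝ) ^ (idx f.natDegree h D).card
        * (β ^ (idx f.natDegree h D).card * ((idx f.natDegree h D).card.factorial : ℝ))) *
      (X : ℝ) ^ (((idx f.natDegree h D).card : ℝ) * D -
        t * (∑ t ∈ idx f.natDegree h D, ((k : ℝ) * (t.2.2 : ℝ) - (t.2.1 : ℝ))) -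
        (((idx f.natDegree h D).card : ℝ) * z -
          ∑ t ∈ T, max 0 (z - (x * (t 0 : ℕ) + (t 1 : ℕ))))) := by
  classical
  set s : ℕ := (idx f.natDegree h D).card with hs
  have hcardJ : Fintype.card (idx f.natDegree h D) = s := Fintype.card_coe _
  set S : ℝ := ∑ t ∈ idx f.natDegree h D, ((k : ℝ) * (t.2.2 : ℝ) - (t.2.1 : ℝ)) with hS
  set Φ : ℝ := ∑ t ∈ T, max 0 (z - (x * (t 0 : ℕ) + (t 1 : ℕ))) with hΦ
  have hX1' : (1 : ℝ) ≤ X := by exact_mod_cast hX1
  have hXpos : (0 : ℝ) < X := by linarith only [hX1']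
  have hXPr : (X : ℝ) ≤ P := by exact_mod_cast hXP
  have hPpos : (0 : ℝ) < P := by linarith only [hXPr, hXpos]
  set V : ℝ := (P : ℝ) / X with hV
  have hVpos : 0 < V := by (clear * - hPpos hX1; positivity)
  set M : Matrix (idx f.natDegree h D) (idx f.natDegree h D) ℤ :=
    Matrix.of fun i (j : idx f.natDegree h D) =>
        (n i) ^ (j : ℕ × ℕ × ℕ).1 * (p i) ^ (j : ℕ × ℕ × ℕ).2.1 * (m i) ^ (j : ℕ × ℕ × ℕ).2.2
    with hM
  have hcast : ((M.det : ℤ) : ℝ) = (M.map (Int.castRingHom ℝ)).det := by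
    have h9 := RingHom.map_det (Int.castRingHom ℝ) M
    rw [RingHom.mapMatrix_apply] at h9
    exact h9
  let A : (idx f.natDegree h D) → T → ℝ := fun i t =>
    ((n i : ℝ) / p i * V - u0) ^ ((t : Fin 2 →₀ ℕ) 0) * (1 / (p i : ℝ) * V) ^ ((t : Fin 2 →₀ ℕ) 1)
  let B : T → (idx f.natDegree h D) → ℝ := fun t j =>
    (MvPolynomial.coeff (t : Fin 2 →₀ ℕ) (Gh f h D (j : ℕ × ℕ × ℕ))).eval u0
  let W : (idx f.natDegree h D) → ℝ := fun j =>
    (V⁻¹) ^ (D - (j : ℕ × ℕ × ℕ).2.1 + k * (j : ℕ × ℕ × ℕ).2.2)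
  have hfac : M.map (Int.castRingHom ℝ) = Matrix.of fun i j => (fun i => ((p i : ℝ)) ^ D) i *
      (Matrix.of fun i j => W j * (Matrix.of fun i j => ∑ t, A i t * B t j) i j) i j := by
    ext i j
    have hj := (mem_idx hh).mp j.2
    have hpi : p i ≠ 0 := by
      have := (hz i).1
      have h0 : (0 : ℤ) ≤ P := by (clear * -; positivity)
      omega
    simp only [hM, Matrix.map_apply, Matrix.of_apply, eq_intCast, Int.cast_mul, Int.cast_pow]
    rw [mono_eq2 f k h D hkh (j : ℕ × ℕ × ℕ) hj.2 (n i) (p i) (m i) hpi (hz i).2.2.2 u0 V hVpos]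
    rw [hT2]
    congr 1
    congr 1
    rw [← Finset.sum_coe_sort T]
  have hprodW : ∏ j, W j = V ^ (-((s : ℝ) * D + S)) := prod_W f.natDegree h D k hh V hVpos
  have hW0 : 0 ≤ ∏ j, W j := by
    rw [hprodW]
    (clear * - hPpos hX1; positivity)
  rw [hcast, hfac, Matrix.det_mul_column, Matrix.det_mul_row, abs_mul, abs_mul, abs_of_nonneg hW0]
  have h1 : |∏ i, (p i : ℝ) ^ D| ≤ (2 * (P : ℝ)) ^ (D * s) := by
    rw [Finset.abs_prod]
    calc ∏ i, |(p i : ℝ) ^ D| ≤ ∏ _i : (idx f.natDegree h D), (2 * (P : ℝ)) ^ D := by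
          refine Finset.prod_le_prod (fun _ _ => abs_nonneg _) fun i _ => ?_
          rw [abs_pow]
          refine pow_le_pow_left₀ (abs_nonneg _) ?_ _
          have h2 : (p i : ℝ) ≤ 2 * P := by exact_mod_cast (hz i).2.1
          have h3 : (P : ℝ) < p i := by exact_mod_cast (hz i).1
          rw [abs_of_pos (by linarith only [h3, h2])]
          exact h2
      _ = (2 * (P : ℝ)) ^ (D * s) := by
          rw [Finset.prod_const, ← pow_mul, Finset.card_univ, hcardJ]
  have h2 := det_bound A B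
    (fun t => (X : ℝ) ^ (-(x * ((t : Fin 2 →₀ ℕ) 0 : ℕ) + ((t : Fin 2 →₀ ℕ) 1 : ℕ)))) β
    ((X : ℝ) ^ (-((Fintype.card (idx f.natDegree h D) : ℝ) * z - Φ)))
    ?_ ?_ (by positivity) ?_
  · rw [hcardJ] at h2
    calc |∏ i, (p i : ℝ) ^ D| * ((∏ j, W j) * |(Matrix.of fun i j => ∑ t, A i t * B t j).det|)
        ≤ (2 * (P : ℝ)) ^ (D * s) * ((∏ j, W j) * ((Fintype.card T : ℝ) ^ s *
            (β ^ s * ((s.factorial : ℝ) * (X : ℝ) ^ (-((s : ℝ) * z - Φ)))))) :=
          mul_le_mul h1 (mul_le_mul_of_nonneg_left h2 hW0)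
            (mul_nonneg hW0 (abs_nonneg _)) (by (clear * - hPpos; positivity))
      _ = (2 : ℝ) ^ (D * s) * ((Fintype.card T : ℝ) ^ s * (β ^ s * (s.factorial : ℝ))) *
            (((P : ℝ) ^ (D * s) * V ^ (-((s : ℝ) * D + S))) *
            (X : ℝ) ^ (-((s : ℝ) * z - Φ))) := by
          rw [hprodW, mul_pow]
          ring
      _ = (2 : ℝ) ^ (D * s) * ((Fintype.card T : ℝ) ^ s * (β ^ s * (s.factorial : ℝ))) *
            (X : ℝ) ^ ((s : ℝ) * D - t * S - ((s : ℝ) * z - Φ)) := by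
          rw [hV, exp_combine X P hX1' s D S t hPX, ← Real.rpow_add hXpos]
          congr 1
  · intro i t
    simp only [A]
    rw [abs_mul, abs_pow, abs_pow]
    have hpi : (P : ℝ) < p i := by exact_mod_cast (hz i).1
    have hpi0 : (0 : ℝ) < p i := by linarith only [hpi, hPpos]
    have e1 : |(n i : ℝ) / p i * V - u0| ≤ (X : ℝ) ^ (-x) := (hz i).2.2.1
    have e2 : |1 / (p i : ℝ) * V| ≤ (X : ℝ) ^ (-1 : ℝ) := by
      rw [abs_of_pos (by (clear * - hpi0 hPpos hX1; positivity)), Real.rpow_neg_one, hV]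
      have h7 : 1 / (p i : ℝ) * ((P : ℝ) / X) = (P / p i) * (X : ℝ)⁻¹ := by
        field_simp
      rw [h7]
      have h8 : (P : ℝ) / p i ≤ 1 := by
        rw [div_le_one hpi0]
        exact hpi.le
      calc (P : ℝ) / p i * (X : ℝ)⁻¹ ≤ 1 * (X : ℝ)⁻¹ :=
            mul_le_mul_of_nonneg_right h8 (by positivity)
        _ = (X : ℝ)⁻¹ := one_mul _
    calc |(n i : ℝ) / p i * V - u0| ^ ((t : Fin 2 →₀ ℕ) 0) *
          |1 / (p i : ℝ) * V| ^ ((t : Fin 2 →₀ ℕ) 1)
        ≤ ((X : ℝ) ^ (-x)) ^ ((t : Fin 2 →₀ ℕ) 0) *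
            ((X : ℝ) ^ (-1 : ℝ)) ^ ((t : Fin 2 →₀ ℕ) 1) :=
          mul_le_mul (pow_le_pow_left₀ (abs_nonneg _) e1 _)
            (pow_le_pow_left₀ (abs_nonneg _) e2 _) (by (clear * - hpi0 hPpos hX1; positivity)) (by positivity)
      _ = (X : ℝ) ^ (-(x * ((t : Fin 2 →₀ ℕ) 0 : ℕ) + ((t : Fin 2 →₀ ℕ) 1 : ℕ))) := by
          rw [← Real.rpow_natCast, ← Real.rpow_natCast, ← Real.rpow_mul hXpos.le,
            ← Real.rpow_mul hXpos.le, ← Real.rpow_add hXpos]
          congr 1
          ring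
  · intro t j
    have := hT1 (t : Fin 2 →₀ ℕ) j
    simp only [t.2, if_true, mul_one] at this
    exact this
  · intro φ hφ
    exact prod_alpha_le T x X z hX1' φ hφ

theorem patch_minor2 (f : Polynomial ℤ) (k h : ℕ) (hh : 1 ≤ h) (hk : 1 ≤ k)
    (hkh : k + h = f.natDegree) (x0 x1 : ℝ)
    (hx0 : 9 * (h : ℝ) / (4 * f.natDegree) < x0)
    (hx1 : 9 * (h : ℝ) / (4 * f.natDegree) * (((k : ℝ) + f.natDegree) / (3 * k)) ^ 2 < x1) :
    ∃ D X0 : ℕ, 1 ≤ X0 ∧ ∀ X P : ℕ, X0 ≤ X → X ≤ P → ∀ l : ℝ, 0 ≤ l → l ≤ 1 →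
      (P : ℝ) = (X : ℝ) ^ (1 + l * ((h : ℝ) / k)) →
      ∀ u0 : ℝ, 0 ≤ u0 → u0 ≤ 2 → ∀ n p m : (idx f.natDegree h D) → ℤ,
      (∀ i, (P : ℤ) < p i ∧ p i ≤ 2 * P ∧
        |(n i : ℝ) / p i * ((P : ℝ) / X) - u0| ≤ (X : ℝ) ^ (-((1 - l) * x0 + l * x1)) ∧
        (p i) ^ k * m i = f.eval (n i)) →
      (Matrix.of fun i (j : idx f.natDegree h D) =>
        (n i) ^ (j : ℕ × ℕ × ℕ).1 * (p i) ^ (j : ℕ × ℕ × ℕ).2.1 * (m i) ^ (j : ℕ × ℕ × ℕ).2.2).det
        = 0 := by
  classical
  obtain ⟨D, hD1, hD2⟩ := exists_D2 f.natDegree h k hh hk hkh x0 x1 hx0 hx1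
  obtain ⟨T, β, hβ0, hT⟩ := taylor_rep (fun j : idx f.natDegree h D => Gh f h D (j : ℕ × ℕ × ℕ))
  obtain ⟨hg0, hg1⟩ := hD2 T
  generalize ((k : ℝ) + f.natDegree) / (3 * k) = ρ at hg1
  generalize hKdef : (2 : ℝ) ^ (D * (idx f.natDegree h D).card) *
    ((Fintype.card T : ℝ) ^ (idx f.natDegree h D).card *
    (β ^ (idx f.natDegree h D).card * ((idx f.natDegree h D).card.factorial : ℝ))) = K
  have hK0 : 0 ≤ K := by rw [← hKdef]; (clear * - hβ0; positivity)
  obtain ⟨γ, hγ0, hγa, hγb⟩ : ∃ γ : ℝ, 0 < γ ∧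
      γ ≤ ((idx f.natDegree h D).card : ℝ) * ((D : ℝ) / 2) -
        ∑ t ∈ T, max 0 ((3 / 2 * (D : ℝ)) - (x0 * (t 0 : ℕ) + (t 1 : ℕ))) ∧
      γ ≤ (h : ℝ) / k * (∑ t ∈ idx f.natDegree h D, ((k : ℝ) * (t.2.2 : ℝ) - (t.2.1 : ℝ))) +
        ((idx f.natDegree h D).card : ℝ) * (D * (3 / 2 * ρ - 1)) -
        ∑ t ∈ T, max 0 ((3 / 2 * (D : ℝ) * ρ) - (x1 * (t 0 : ℕ) + (t 1 : ℕ))) :=
    ⟨_, lt_min (sub_pos.mpr hg0) (sub_pos.mpr hg1), min_le_left _ _, min_le_right _ _⟩
  have hlim : Filter.Tendsto (fun X : ℕ => K * (X : ℝ) ^ (-γ)) Filter.atTop (nhds (K * 0)) := by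
    refine Filter.Tendsto.const_mul _ ?_
    exact (tendsto_rpow_neg_atTop hγ0).comp tendsto_natCast_atTop_atTop
  rw [mul_zero] at hlim
  obtain ⟨X0, hX0⟩ := Filter.eventually_atTop.mp (hlim.eventually (gt_mem_nhds one_pos))
  refine ⟨D, max X0 1, le_max_right _ _, ?_⟩
  intro X P hX hXP l hl0 hl1 hPX u0 hu0 hu2 n p m hz
  have hX1 : 1 ≤ X := le_trans (le_max_right _ _) hX
  have hX1' : (1 : ℝ) ≤ X := by exact_mod_cast hX1
  have hsmall : K * (X : ℝ) ^ (-γ) < 1 := hX0 X (le_trans (le_max_left _ _) hX)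
  obtain ⟨hT1, hT2⟩ := hT u0 hu0 hu2
  have hdet := det_patch2 f k h hh hkh D T β hβ0 X P hX1 hXP (l * ((h : ℝ) / k))
    ((1 - l) * x0 + l * x1) ((1 - l) * (3 / 2 * (D : ℝ)) + l * (3 / 2 * (D : ℝ) * ρ)) u0 hPX
    hT1 hT2 n p m hz
  have hconv := phi_convex T x0 x1 (3 / 2 * (D : ℝ)) (3 / 2 * (D : ℝ) * ρ) l hl0 hl1
  rw [hKdef] at hdet
  have hexp : ((idx f.natDegree h D).card : ℝ) * D - l * ((h : ℝ) / k) *
      (∑ t ∈ idx f.natDegree h D, ((k : ℝ) * (t.2.2 : ℝ) - (t.2.1 : ℝ))) -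
      (((idx f.natDegree h D).card : ℝ) *
        ((1 - l) * (3 / 2 * (D : ℝ)) + l * (3 / 2 * (D : ℝ) * ρ)) -
        ∑ t ∈ T, max 0 (((1 - l) * (3 / 2 * (D : ℝ)) + l * (3 / 2 * (D : ℝ) * ρ)) -
          (((1 - l) * x0 + l * x1) * (t 0 : ℕ) + (t 1 : ℕ)))) ≤ -γ := by
    have h1 := mul_le_mul_of_nonneg_left hγa (show 0 ≤ 1 - l by linarith only [hl1])
    have h2 := mul_le_mul_of_nonneg_left hγb hl0
    linarith only [h2, h1, hconv]
  have hdetM := hdet.trans (mul_le_mul_of_nonneg_left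
    (Real.rpow_le_rpow_of_exponent_le hX1' hexp) hK0)
  have hdetM' := hdetM.trans_lt hsmall
  have hint : |(Matrix.of fun i (j : idx f.natDegree h D) =>
        (n i) ^ (j : ℕ × ℕ × ℕ).1 * (p i) ^ (j : ℕ × ℕ × ℕ).2.1 *
        (m i) ^ (j : ℕ × ℕ × ℕ).2.2).det| < 1 := by exact_mod_cast hdetM'
  exact Int.abs_lt_one_iff.mp hint

end Vale.Agent.P018
end

section

/-! # P018: definitions for the argument with lines in `ℤ[θ]`. -/

namespace Vale.Agent.P018

open Polynomial

/-- the field `ℚ[x]/(f)`. -/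
abbrev EE (f : ℤ[X]) : Type := AdjoinRoot (f.map (Int.castRingHom ℚ))

/-- the root `θ`. -/
noncomputable abbrev th (f : ℤ[X]) : EE f := AdjoinRoot.root (f.map (Int.castRingHom ℚ))

/-- `b ↦ b(θ)` for integer polynomials. -/
noncomputable def evT (f : ℤ[X]) : ℤ[X] →+* EE f :=
  Polynomial.eval₂RingHom (Int.castRingHom (EE f)) (th f)

/-- coefficientwise extension of a linear form to polynomials. -/
noncomputable def extL {E : Type*} [Field E] [Algebra ℚ E] (lam : E →ₗ[ℚ] ℚ) (q : E[X]) : ℚ[X] :=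
  ∑ i ∈ q.support, monomial i (lam (q.coeff i))

theorem extL_coeff {E : Type*} [Field E] [Algebra ℚ E] (lam : E →ₗ[ℚ] ℚ) (q : E[X]) (i : ℕ) :
    (extL lam q).coeff i = lam (q.coeff i) := by
  unfold extL
  rw [finsetSum_coeff]
  by_cases hi : i ∈ q.support
  · rw [Finset.sum_eq_single i]
    · rw [coeff_monomial, if_pos rfl]
    · intro j _ hji
      rw [coeff_monomial, if_neg hji]
    · intro h
      exact absurd hi h
  · rw [Finset.sum_eq_zero]
    · rw [notMem_support_iff.mp hi, map_zero]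
    · intro j hj
      have : j ≠ i := fun h => hi (h ▸ hj)
      rw [coeff_monomial, if_neg this]

end Vale.Agent.P018
end

section

/-! # P018: elements of `ℤ[θ]` with bounded coordinates. -/

namespace Vale.Agent.P018

open Polynomial Finset

/-- `x = g(θ)` with `deg g < deg f` and coefficients of `g` at most `M`. -/
def Bd (f : ℤ[X]) (M : ℕ) (x : EE f) : Prop :=
  ∃ g : ℤ[X], g.natDegree < f.natDegree ∧ evT f g = x ∧ ∀ j, |g.coeff j| ≤ (M : ℤ)

theorem evT_C (f : ℤ[X]) (n : ℤ) : evT f (C n) = (n : EE f) := by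
  unfold evT
  rw [coe_eval₂RingHom, eval₂_C]
  rfl

theorem evT_X (f : ℤ[X]) : evT f X = th f := by
  unfold evT
  rw [coe_eval₂RingHom, eval₂_X]

theorem evT_eq_mk (f : ℤ[X]) (g : ℤ[X]) :
    evT f g = AdjoinRoot.mk (f.map (Int.castRingHom ℚ)) (g.map (Int.castRingHom ℚ)) := by
  have h : evT f = (AdjoinRoot.mk (f.map (Int.castRingHom ℚ))).comp
      (mapRingHom (Int.castRingHom ℚ)) := by
    apply Polynomial.ringHom_ext
    · intro a
      rw [evT_C, RingHom.comp_apply, coe_mapRingHom, Polynomial.map_C]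
      simp
    · rw [evT_X, RingHom.comp_apply, coe_mapRingHom, Polynomial.map_X, AdjoinRoot.mk_X]
  rw [h]
  rfl

theorem evT_self (f : ℤ[X]) : evT f f = 0 := by
  rw [evT_eq_mk, AdjoinRoot.mk_self]

theorem evT_modByMonic (f : ℤ[X]) (g : ℤ[X]) (hm : f.Monic) : evT f (g %ₘ f) = evT f g := by
  conv_rhs => rw [← modByMonic_add_div g f]
  rw [map_add, map_mul, evT_self, zero_mul, add_zero]

theorem Bd.mono {f : ℤ[X]} {M M' : ℕ} {x : EE f} (h : Bd f M x) (hM : M ≤ M') : Bd f M' x := by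
  obtain ⟨g, h1, h2, h3⟩ := h
  exact ⟨g, h1, h2, fun j => (h3 j).trans (by exact_mod_cast hM)⟩

theorem Bd.add {f : ℤ[X]} {M M' : ℕ} {x y : EE f} (hx : Bd f M x) (hy : Bd f M' y) :
    Bd f (M + M') (x + y) := by
  obtain ⟨g, h1, h2, h3⟩ := hx
  obtain ⟨g', h1', h2', h3'⟩ := hy
  refine ⟨g + g', lt_of_le_of_lt (natDegree_add_le _ _) (max_lt h1 h1'), by rw [map_add, h2, h2'],
    fun j => ?_⟩
  rw [coeff_add]
  refine (abs_add_le _ _).trans ?_
  push_cast
  exact add_le_add (h3 j) (h3' j)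

theorem Bd.neg {f : ℤ[X]} {M : ℕ} {x : EE f} (hx : Bd f M x) : Bd f M (-x) := by
  obtain ⟨g, h1, h2, h3⟩ := hx
  refine ⟨-g, by rwa [natDegree_neg], by rw [map_neg, h2], fun j => ?_⟩
  rw [coeff_neg, abs_neg]
  exact h3 j

theorem Bd.zero {f : ℤ[X]} (hd : 1 ≤ f.natDegree) (M : ℕ) : Bd f M (0 : EE f) :=
  ⟨0, by rw [natDegree_zero]; omega, map_zero _, fun j => by simp⟩

theorem Bd.int {f : ℤ[X]} (hd : 1 ≤ f.natDegree) (n : ℤ) (M : ℕ) (hn : |n| ≤ M) :
    Bd f M (n : EE f) := by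
  refine ⟨C n, by rw [natDegree_C]; omega, evT_C f n, fun j => ?_⟩
  rw [coeff_C]
  split_ifs
  · exact hn
  · simp

theorem Bd.theta {f : ℤ[X]} (hd : 2 ≤ f.natDegree) : Bd f 1 (th f) := by
  refine ⟨X, by rw [natDegree_X]; omega, evT_X f, fun j => ?_⟩
  rw [coeff_X]
  split_ifs <;> simp

theorem Bd.sum {f : ℤ[X]} (hd : 1 ≤ f.natDegree) {ι : Type*} (s : Finset ι) (x : ι → EE f)
    (M : ι → ℕ) (h : ∀ i ∈ s, Bd f (M i) (x i)) : Bd f (∑ i ∈ s, M i) (∑ i ∈ s, x i) := by
  classical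
  induction s using Finset.induction_on with
  | empty => simpa using Bd.zero hd 0
  | insert a s ha ih =>
    rw [Finset.sum_insert ha, Finset.sum_insert ha]
    exact (h a (Finset.mem_insert_self _ _)).add
      (ih fun i hi => h i (Finset.mem_insert_of_mem hi))

/-- multiplication constant. -/
theorem exists_bd_mul (f : ℤ[X]) (hm : f.Monic) (hd : 1 ≤ f.natDegree) :
    ∃ C0 : ℕ, 1 ≤ C0 ∧ ∀ (M M' : ℕ) (x y : EE f), Bd f M x → Bd f M' y →
      Bd f (C0 * (M * M')) (x * y) := by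
  set d := f.natDegree with hdd
  set W : ℕ := ∑ m ∈ range (2 * d), ∑ j ∈ range d, ((X ^ m %ₘ f : ℤ[X]).coeff j).natAbs with hW
  refine ⟨2 * d * (2 * d) * W + 1, by omega, ?_⟩
  rintro M M' x y ⟨g, h1, h2, h3⟩ ⟨g', h1', h2', h3'⟩
  have hdeg : (g * g').natDegree < 2 * d := by
    have := natDegree_mul_le (p := g) (q := g')
    omega
  refine ⟨(g * g') %ₘ f, ?_, by rw [evT_modByMonic f _ hm, map_mul, h2, h2'], fun j => ?_⟩
  · exact natDegree_modByMonic_lt _ hm (by
      rintro rfl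
      rw [hdd, natDegree_one] at hd
      omega)
  · have hlin : (g * g') %ₘ f = ∑ m ∈ range (2 * d), C ((g * g').coeff m) * (X ^ m %ₘ f) := by
      have e1 : g * g' = ∑ m ∈ range (2 * d), (g * g').coeff m • (X : ℤ[X]) ^ m := by
        conv_lhs => rw [as_sum_range_C_mul_X_pow' (g * g') hdeg]
        refine Finset.sum_congr rfl fun m _ => ?_
        rw [smul_eq_C_mul]
      have e2 := congrArg (modByMonicHom f) e1
      rw [map_sum] at e2
      refine Eq.trans e2 ?_
      refine Finset.sum_congr rfl fun m _ => ?_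
      rw [map_smul, smul_eq_C_mul]
      rfl
    rw [hlin, finsetSum_coeff]
    refine (Finset.abs_sum_le_sum_abs _ _).trans ?_
    have hc : ∀ m ∈ range (2 * d), |(g * g').coeff m| ≤ ((2 * d * (M * M') : ℕ) : ℤ) := by
      intro m hm'
      rw [coeff_mul]
      refine (Finset.abs_sum_le_sum_abs _ _).trans ?_
      have : ∀ x ∈ antidiagonal m, |g.coeff x.1 * g'.coeff x.2| ≤ (M : ℤ) * M' := by
        intro x _
        rw [abs_mul]
        exact mul_le_mul (h3 _) (h3' _) (abs_nonneg _) (by positivity)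
      refine (Finset.sum_le_sum this).trans ?_
      rw [Finset.sum_const, Finset.Nat.card_antidiagonal, nsmul_eq_mul]
      push_cast
      rw [mem_range] at hm'
      have h5 : ((m : ℤ) + 1) ≤ 2 * d := by exact_mod_cast hm'
      have h6 : (0 : ℤ) ≤ (M : ℤ) * M' := by (clear * -; positivity)
      linarith only [mul_nonneg (sub_nonneg.2 h5) (sub_nonneg.2 h6)]
    have hr : ∀ m ∈ range (2 * d), |(X ^ m %ₘ f : ℤ[X]).coeff j| ≤ (W : ℤ) := by
      intro m hm'
      by_cases hj : j < d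
      · rw [hW, Int.abs_eq_natAbs]
        have h5 : ((X ^ m %ₘ f : ℤ[X]).coeff j).natAbs ≤
            ∑ j ∈ range d, ((X ^ m %ₘ f : ℤ[X]).coeff j).natAbs :=
          Finset.single_le_sum (f := fun j => ((X ^ m %ₘ f : ℤ[X]).coeff j).natAbs)
            (fun _ _ => Nat.zero_le _) (mem_range.mpr hj)
        have h6 : ∑ j ∈ range d, ((X ^ m %ₘ f : ℤ[X]).coeff j).natAbs ≤
            ∑ m ∈ range (2 * d), ∑ j ∈ range d, ((X ^ m %ₘ f : ℤ[X]).coeff j).natAbs :=
          Finset.single_le_sum (f := fun m => ∑ j ∈ range d, ((X ^ m %ₘ f : ℤ[X]).coeff j).natAbs)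
            (fun _ _ => Nat.zero_le _) hm'
        exact_mod_cast h5.trans h6
      · have h5 : (X ^ m %ₘ f : ℤ[X]).natDegree < d := natDegree_modByMonic_lt _ hm (by
          rintro rfl
          rw [hdd, natDegree_one] at hd
          omega)
        rw [coeff_eq_zero_of_natDegree_lt (by omega)]
        simp
    calc ∑ m ∈ range (2 * d), |(C ((g * g').coeff m) * (X ^ m %ₘ f)).coeff j|
        ≤ ∑ m ∈ range (2 * d), ((2 * d * (M * M') : ℕ) : ℤ) * (W : ℤ) := by
          refine Finset.sum_le_sum fun m hm' => ?_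
          rw [coeff_C_mul, abs_mul]
          exact mul_le_mul (hc m hm') (hr m hm') (abs_nonneg _) (by (clear * -; positivity))
      _ = ((2 * d * (2 * d) * W * (M * M') : ℕ) : ℤ) := by
          rw [Finset.sum_const, card_range, nsmul_eq_mul]
          push_cast
          ring
      _ ≤ (((2 * d * (2 * d) * W + 1) * (M * M') : ℕ) : ℤ) := by
          exact_mod_cast Nat.mul_le_mul_right _ (Nat.le_succ _)

end Vale.Agent.P018
end

section

/-! # P018, module M4: algebra of the relation on a line. -/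

namespace Vale.Agent.P018

open Polynomial

section ext

variable {E : Type*} [Field E] [Algebra ℚ E]

theorem extL_add (lam : E →ₗ[ℚ] ℚ) (p q : E[X]) : extL lam (p + q) = extL lam p + extL lam q := by
  ext i
  simp [extL_coeff]

theorem extL_map_mul (lam : E →ₗ[ℚ] ℚ) (p : ℚ[X]) (q : E[X]) :
    extL lam (p.map (algebraMap ℚ E) * q) = p * extL lam q := by
  ext i
  rw [extL_coeff, coeff_mul, coeff_mul, map_sum]
  refine Finset.sum_congr rfl fun x _ => ?_
  rw [coeff_map, extL_coeff, ← Algebra.smul_def, map_smul, smul_eq_mul]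

theorem extL_derivative (lam : E →ₗ[ℚ] ℚ) (q : E[X]) :
    extL lam (derivative q) = derivative (extL lam q) := by
  ext i
  rw [extL_coeff, coeff_derivative, coeff_derivative, extL_coeff]
  have : q.coeff (i + 1) * ((i : E) + 1) = ((i : ℚ) + 1) • q.coeff (i + 1) := by
    rw [Algebra.smul_def, mul_comm, map_add, map_natCast, map_one]
  rw [this, map_smul, smul_eq_mul, mul_comm]

theorem extL_natDegree_le (lam : E →ₗ[ℚ] ℚ) (q : E[X]) : (extL lam q).natDegree ≤ q.natDegree := by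
  rw [natDegree_le_iff_coeff_eq_zero]
  intro i hi
  rw [extL_coeff, coeff_eq_zero_of_natDegree_lt hi, map_zero]

end ext

section main

variable {E : Type*} [Field E] [Algebra ℚ E]

/-- the powers identity. -/
theorem la_identity (β0 : E) (N : ℚ[X]) (B : E[X])
    (hB : (X + C β0) * B = N.map (algebraMap ℚ E)) (mu : E →ₗ[ℚ] ℚ) (r : ℕ) :
    N * derivative (extL mu (B ^ r)) =
      C (r : ℚ) * (derivative N * extL mu (B ^ r) - extL mu (B ^ (r + 1))) := by
  have h1 : B + (X + C β0) * derivative B = (derivative N).map (algebraMap ℚ E) := by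
    have h2 := congrArg derivative hB
    rw [derivative_mul, derivative_add, derivative_X, derivative_C, add_zero, one_mul,
      derivative_map] at h2
    exact h2
  have h3 : N.map (algebraMap ℚ E) * derivative (B ^ r) =
      (C (r : ℚ)).map (algebraMap ℚ E) * ((derivative N).map (algebraMap ℚ E) * B ^ r -
        B ^ (r + 1)) := by
    rw [← hB, ← h1, derivative_pow]
    rcases r with _ | r
    · simp
    · simp only [Nat.add_sub_cancel, map_natCast, Polynomial.map_natCast]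
      ring
  have h4 := congrArg (extL mu) h3
  rw [extL_map_mul, extL_derivative, extL_map_mul] at h4
  rw [h4]
  congr 1
  have h5 : (derivative N).map (algebraMap ℚ E) * B ^ r =
      ((derivative N).map (algebraMap ℚ E) * B ^ r - B ^ (r + 1)) + B ^ (r + 1) := by ring
  have h6 := congrArg (extL mu) h5
  rw [extL_add, extL_map_mul] at h6
  rw [h6]
  ring

variable [FiniteDimensional ℚ E]

theorem la_span (β0 : E) (N : ℚ[X]) (hN : N.Monic) (hNirr : Irreducible N)
    (hdeg : N.natDegree = Module.finrank ℚ E) (B : E[X])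
    (hB : (X + C β0) * B = N.map (algebraMap ℚ E)) (mu : E →ₗ[ℚ] ℚ) (hmu : extL mu B = 0) :
    mu = 0 := by
  -- the span of the coefficients
  set S : Submodule ℚ E := Submodule.span ℚ (Set.range fun i => B.coeff i) with hS
  have hBmonic : B.Monic := by
    have h1 : (N.map (algebraMap ℚ E)).Monic := hN.map _
    rw [← hB] at h1
    exact (monic_X_add_C β0).of_mul_monic_left h1
  have h1S : (1 : E) ∈ S := by
    have h2 : B.coeff B.natDegree = 1 := hBmonic.coeff_natDegree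
    rw [← h2]
    exact Submodule.subset_span ⟨_, rfl⟩
  have hclosed : ∀ x ∈ S, β0 * x ∈ S := by
    intro x hx
    induction hx using Submodule.span_induction with
    | mem x hx =>
      obtain ⟨i, rfl⟩ := hx
      simp only
      rcases i with _ | i
      · have h2 := congrArg (fun q : E[X] => q.coeff 0) hB
        simp only [add_mul, coeff_add, mul_coeff_zero, coeff_X_zero, zero_mul,
          zero_add, coeff_map, coeff_C_zero] at h2
        rw [h2, Algebra.algebraMap_eq_smul_one]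
        exact S.smul_mem _ h1S
      · have h2 := congrArg (fun q : E[X] => q.coeff (i + 1)) hB
        simp only [add_mul, coeff_add, coeff_C_mul, coeff_X_mul, coeff_map] at h2
        have h3 : β0 * B.coeff (i + 1) = algebraMap ℚ E (N.coeff (i + 1)) - B.coeff i := by
          rw [← h2]
          ring
        rw [h3, Algebra.algebraMap_eq_smul_one]
        exact S.sub_mem (S.smul_mem _ h1S) (Submodule.subset_span ⟨_, rfl⟩)
    | zero => simp
    | add x y _ _ hx hy => rw [mul_add]; exact S.add_mem hx hy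
    | smul a x _ hx => rw [mul_smul_comm]; exact S.smul_mem _ hx
  have hpow : ∀ j : ℕ, β0 ^ j ∈ S := by
    intro j
    induction j with
    | zero => simpa using h1S
    | succ j ih => rw [pow_succ']; exact hclosed _ ih
  -- the field is generated by `β0`
  have hroot : aeval (-β0) N = 0 := by
    have h2 := congrArg (Polynomial.eval (-β0)) hB
    rw [eval_mul, eval_add, eval_X, eval_C, neg_add_cancel, zero_mul, eval_map_algebraMap] at h2
    exact h2.symm
  have hmin : minpoly ℚ (-β0) = N := (minpoly.eq_of_irreducible_of_monic hNirr hroot hN).symm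
  have hint : IsIntegral ℚ (-β0) := Algebra.IsIntegral.isIntegral _
  have htop : IntermediateField.adjoin ℚ {-β0} = (⊤ : IntermediateField ℚ E) := by
    apply IntermediateField.eq_of_le_of_finrank_eq le_top
    rw [IntermediateField.adjoin.finrank hint, hmin, hdeg, IntermediateField.finrank_top']
  have hStop : ∀ x : E, x ∈ S := by
    intro x
    have h2 : x ∈ (IntermediateField.adjoin ℚ {-β0} : IntermediateField ℚ E) := by
      rw [htop]; trivial
    rw [← IntermediateField.mem_toSubalgebra,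
      IntermediateField.adjoin_simple_toSubalgebra_of_isAlgebraic hint.isAlgebraic,
      Algebra.adjoin_singleton_eq_range_aeval] at h2
    obtain ⟨p, rfl⟩ := h2
    change (aeval (-β0)) p ∈ S
    rw [aeval_eq_sum_range]
    refine S.sum_mem fun j _ => S.smul_mem _ ?_
    rw [neg_pow]
    rcases Nat.even_or_odd j with hj | hj
    · rw [hj.neg_one_pow, one_mul]; exact hpow j
    · rw [hj.neg_one_pow, neg_one_mul]; exact S.neg_mem (hpow j)
  ext x
  have hx := hStop x
  rw [LinearMap.zero_apply]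
  induction hx using Submodule.span_induction with
  | mem x hx =>
    obtain ⟨i, rfl⟩ := hx
    rw [← extL_coeff, hmu, coeff_zero]
  | zero => simp
  | add x y _ _ hx hy => rw [map_add, hx, hy, add_zero]
  | smul a x _ hx => rw [map_smul, hx, smul_zero]

theorem la_key (β0 : E) (N : ℚ[X]) (B : E[X])
    (hB : (X + C β0) * B = N.map (algebraMap ℚ E)) (lam mu : E →ₗ[ℚ] ℚ) (r : ℕ) :
    N * extL lam (B ^ (r + 2)) + extL mu (B ^ (r + 3)) =
      C ((r : ℚ) + 2) * derivative N *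
        (C (1 / ((r : ℚ) + 1)) * N * extL lam (B ^ (r + 1)) +
          C (1 / ((r : ℚ) + 2)) * extL mu (B ^ (r + 2))) -
      N * derivative (C (1 / ((r : ℚ) + 1)) * N * extL lam (B ^ (r + 1)) +
          C (1 / ((r : ℚ) + 2)) * extL mu (B ^ (r + 2))) := by
  have h1 := la_identity β0 N B hB lam (r + 1)
  have h2 := la_identity β0 N B hB mu (r + 2)
  push_cast at h1 h2
  set u := extL lam (B ^ (r + 1))
  set v := extL mu (B ^ (r + 2))
  set u2 := extL lam (B ^ (r + 2))
  set v2 := extL mu (B ^ (r + 3))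
  have hr1 : ((r : ℚ) + 1) ≠ 0 := by positivity
  have hr2 : ((r : ℚ) + 2) ≠ 0 := by positivity
  have e1 : C (1 / ((r : ℚ) + 1)) * C ((r : ℚ) + 1) = 1 := by
    rw [← C_mul, one_div_mul_cancel hr1, C_1]
  have e2 : C (1 / ((r : ℚ) + 2)) * C ((r : ℚ) + 2) = 1 := by
    rw [← C_mul, one_div_mul_cancel hr2, C_1]
  have e3 : C ((r : ℚ) + 2) = C ((r : ℚ) + 1) + 1 := by
    rw [← C_1, ← C_add]
    congr 1
    ring
  have h3 : u2 = derivative N * u - C (1 / ((r : ℚ) + 1)) * (N * derivative u) := by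
    rw [h1]
    linear_combination (derivative N * u - u2) * e1
  have h4 : v2 = derivative N * v - C (1 / ((r : ℚ) + 2)) * (N * derivative v) := by
    rw [h2]
    linear_combination (derivative N * v - v2) * e2
  rw [h3, h4]
  simp only [derivative_add, derivative_mul, derivative_C, zero_mul, zero_add]
  linear_combination (-(derivative N * v)) * e2 - (derivative N * N * u) * e1 -
    (C (1 / ((r : ℚ) + 1)) * derivative N * N * u) * e3

theorem la_degree (N : ℚ[X]) (hN : N.Monic) (W : ℚ[X]) (hW : W ≠ 0) (m : ℚ)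
    (hm : (W.natDegree : ℚ) < m * N.natDegree) :
    C m * derivative N * W - N * derivative W ≠ 0 ∧
      N.natDegree - 1 ≤ (C m * derivative N * W - N * derivative W).natDegree := by
  rcases Nat.eq_zero_or_pos N.natDegree with h0 | hpos
  · exfalso
    rw [h0] at hm
    simp only [Nat.cast_zero, mul_zero] at hm
    have : (0 : ℚ) ≤ W.natDegree := by positivity
    linarith only [this, hm]
  have hcoeff : (C m * derivative N * W - N * derivative W).coeff (N.natDegree - 1 + W.natDegree) =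
      (m * N.natDegree - W.natDegree) * W.leadingCoeff := by
    rw [coeff_sub, mul_assoc, coeff_C_mul]
    have h1 : (derivative N * W).coeff (N.natDegree - 1 + W.natDegree) =
        N.natDegree * W.leadingCoeff := by
      rw [coeff_mul_add_eq_of_natDegree_le (natDegree_derivative_le N) le_rfl, coeff_derivative,
        Nat.sub_add_cancel hpos, hN.coeff_natDegree, one_mul]
      have : ((N.natDegree - 1 : ℕ) : ℚ) + 1 = N.natDegree := by
        rw [Nat.cast_sub hpos]
        simp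
      rw [this]
      rfl
    have h2 : (N * derivative W).coeff (N.natDegree - 1 + W.natDegree) =
        W.natDegree * W.leadingCoeff := by
      rcases Nat.eq_zero_or_pos W.natDegree with hw0 | hwpos
      · rw [hw0, natDegree_eq_zero.mp hw0 |>.choose_spec.symm]
        simp
      · have h3 : N.natDegree - 1 + W.natDegree = N.natDegree + (W.natDegree - 1) := by omega
        rw [h3, coeff_mul_add_eq_of_natDegree_le le_rfl (natDegree_derivative_le W),
          coeff_derivative, hN.coeff_natDegree, one_mul, Nat.sub_add_cancel hwpos]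
        have : ((W.natDegree - 1 : ℕ) : ℚ) + 1 = W.natDegree := by
          rw [Nat.cast_sub hwpos]
          simp
        rw [this, mul_comm]
        rfl
    rw [h1, h2]
    ring
  have hne : (C m * derivative N * W - N * derivative W).coeff (N.natDegree - 1 + W.natDegree) ≠ 0 := by
    rw [hcoeff]
    exact mul_ne_zero (by linarith only [hm]) (leadingCoeff_ne_zero.mpr hW)
  refine ⟨fun h => hne (by rw [h, coeff_zero]), ?_⟩
  have := le_natDegree_of_ne_zero hne
  omega

omit [FiniteDimensional ℚ E] in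
theorem la_natDegree_B (β0 : E) (N : ℚ[X]) (hN : N.Monic) (B : E[X])
    (hB : (X + C β0) * B = N.map (algebraMap ℚ E)) : B.natDegree + 1 = N.natDegree := by
  have h1 : (N.map (algebraMap ℚ E)).Monic := hN.map _
  rw [← hB] at h1
  have hBm : B.Monic := (monic_X_add_C β0).of_mul_monic_left h1
  have h2 := congrArg natDegree hB
  rw [(monic_X_add_C β0).natDegree_mul hBm, natDegree_X_add_C,
    natDegree_map] at h2
  omega

theorem la_W_degree (β0 : E) (N : ℚ[X]) (hN : N.Monic) (B : E[X])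
    (hB : (X + C β0) * B = N.map (algebraMap ℚ E)) (lam mu : E →ₗ[ℚ] ℚ) (r : ℕ) :
    (N * extL lam (B ^ (r + 1)) + extL mu (B ^ (r + 2))).natDegree <
      (r + 2) * N.natDegree := by
  have hd := la_natDegree_B β0 N hN B hB
  have h1 : (N * extL lam (B ^ (r + 1))).natDegree ≤ N.natDegree + (r + 1) * B.natDegree := by
    refine natDegree_mul_le.trans ?_
    gcongr
    exact (extL_natDegree_le _ _).trans natDegree_pow_le
  have h2 : (extL mu (B ^ (r + 2))).natDegree ≤ (r + 2) * B.natDegree :=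
    (extL_natDegree_le _ _).trans natDegree_pow_le
  refine lt_of_le_of_lt (natDegree_add_le _ _) (max_lt ?_ ?_)
  · refine lt_of_le_of_lt h1 ?_
    rw [← hd]
    nlinarith
  · refine lt_of_le_of_lt h2 ?_
    rw [← hd]
    nlinarith

theorem la_nonzero (β0 : E) (N : ℚ[X]) (hN : N.Monic) (hNirr : Irreducible N)
    (hdeg : N.natDegree = Module.finrank ℚ E) (B : E[X])
    (hB : (X + C β0) * B = N.map (algebraMap ℚ E)) (r : ℕ) :
    ∀ lam mu : E →ₗ[ℚ] ℚ, (lam ≠ 0 ∨ mu ≠ 0) →
      N * extL lam (B ^ (r + 1)) + extL mu (B ^ (r + 2)) ≠ 0 := by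
  induction r with
  | zero =>
    intro lam mu hne hzero
    have h1 := la_identity β0 N B hB mu 1
    simp only [pow_one, Nat.cast_one, C_1, one_mul, Nat.reduceAdd] at h1
    simp only [zero_add, pow_one] at hzero
    have h2 : N * (extL lam B - derivative (extL mu B)) + derivative N * extL mu B = 0 := by
      linear_combination hzero - h1
    have hcop : IsCoprime N (derivative N) := hNirr.separable
    have h3 : N ∣ derivative N * extL mu B :=
      ⟨-(extL lam B - derivative (extL mu B)), by linear_combination h2⟩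
    have h4 : N ∣ extL mu B := hcop.dvd_of_dvd_mul_left h3
    have hd := la_natDegree_B β0 N hN B hB
    have h5 : extL mu B = 0 := by
      by_contra hne0
      have h6 := natDegree_le_of_dvd h4 hne0
      have h7 := extL_natDegree_le mu B
      omega
    have hmu : mu = 0 := la_span β0 N hN hNirr hdeg B hB mu h5
    rw [h5] at h2
    simp only [derivative_zero, sub_zero, mul_zero, add_zero] at h2
    have h8 : extL lam B = 0 := (mul_eq_zero.mp h2).resolve_left hNirr.ne_zero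
    have hlam : lam = 0 := la_span β0 N hN hNirr hdeg B hB lam h8
    rcases hne with h | h
    · exact h hlam
    · exact h hmu
  | succ r ih =>
    intro lam mu hne
    have hW : C (1 / ((r : ℚ) + 1)) * N * extL lam (B ^ (r + 1)) +
        C (1 / ((r : ℚ) + 2)) * extL mu (B ^ (r + 2)) ≠ 0 := by
      have hr1 : (1 / ((r : ℚ) + 1)) ≠ 0 := by positivity
      have hr2 : (1 / ((r : ℚ) + 2)) ≠ 0 := by positivity
      have h1 := ih ((1 / ((r : ℚ) + 1)) • lam) ((1 / ((r : ℚ) + 2)) • mu) (by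
        rcases hne with h | h
        · left; exact smul_ne_zero hr1 h
        · right; exact smul_ne_zero hr2 h)
      have h2 : ∀ (c : ℚ) (l : E →ₗ[ℚ] ℚ) (q : E[X]), extL (c • l) q = C c * extL l q := by
        intro c l q
        ext i
        rw [extL_coeff, coeff_C_mul, extL_coeff, LinearMap.smul_apply, smul_eq_mul]
      rw [h2, h2] at h1
      intro h3
      apply h1
      rw [← h3]
      ring
    have hWdeg : ((C (1 / ((r : ℚ) + 1)) * N * extL lam (B ^ (r + 1)) +
        C (1 / ((r : ℚ) + 2)) * extL mu (B ^ (r + 2))).natDegree : ℚ) <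
          ((r : ℚ) + 2) * N.natDegree := by
      have h2 : ∀ (c : ℚ) (l : E →ₗ[ℚ] ℚ) (q : E[X]), extL (c • l) q = C c * extL l q := by
        intro c l q
        ext i
        rw [extL_coeff, coeff_C_mul, extL_coeff, LinearMap.smul_apply, smul_eq_mul]
      have h1 := la_W_degree β0 N hN B hB ((1 / ((r : ℚ) + 1)) • lam) ((1 / ((r : ℚ) + 2)) • mu) r
      rw [h2, h2] at h1
      have h3 : N * (C (1 / ((r : ℚ) + 1)) * extL lam (B ^ (r + 1))) +
          C (1 / ((r : ℚ) + 2)) * extL mu (B ^ (r + 2)) =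
          C (1 / ((r : ℚ) + 1)) * N * extL lam (B ^ (r + 1)) +
        C (1 / ((r : ℚ) + 2)) * extL mu (B ^ (r + 2)) := by ring
      rw [h3] at h1
      exact_mod_cast h1
    rw [la_key β0 N B hB lam mu r]
    exact (la_degree N hN _ hW _ hWdeg).1

/-- M4. Algebra: the relation coming from the vanishing of the determinants. -/
theorem line_algebra (β0 : E)
    (N : ℚ[X]) (hN : N.Monic) (hNirr : Irreducible N) (hdeg : N.natDegree = Module.finrank ℚ E)
    (B : E[X]) (hB : (X + C β0) * B = N.map (algebraMap ℚ E)) (k : ℕ) (hk : 3 ≤ k) (ϑ : E)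
    (lam0 lam1 : E →ₗ[ℚ] ℚ) (hlam : lam0 ≠ 0 ∨ lam1 ≠ 0) (t0 : ℚ) :
    N.natDegree - 1 ≤ (extL lam0 (B ^ k) + (X - C t0) * extL lam1 (B ^ k)).natDegree ∧
    extL lam0 (B ^ k) + (X - C t0) * extL lam1 (B ^ k) ≠ 0 ∧
    (extL lam0 (C ϑ * B ^ k) + (X - C t0) * extL lam1 (C ϑ * B ^ k)).natDegree ≤
      k * (N.natDegree - 1) + 1 := by
  obtain ⟨r, rfl⟩ : ∃ r, k = r + 3 := ⟨k - 3, by omega⟩
  have hd := la_natDegree_B β0 N hN B hB
  set c0 : E := β0 + algebraMap ℚ E t0 with hc0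
  set lam2 : E →ₗ[ℚ] ℚ := lam0 - lam1 ∘ₗ (LinearMap.mulLeft ℚ c0) with hlam2
  have hcomp : ∀ q : E[X], extL (lam1 ∘ₗ (LinearMap.mulLeft ℚ c0)) q = extL lam1 (C c0 * q) := by
    intro q
    ext i
    rw [extL_coeff, extL_coeff, coeff_C_mul]
    rfl
  have hsub : ∀ q : E[X], extL lam2 q = extL lam0 q - extL lam1 (C c0 * q) := by
    intro q
    rw [← hcomp]
    ext i
    rw [coeff_sub, extL_coeff, extL_coeff, extL_coeff]
    rfl
  have hA : extL lam0 (B ^ (r + 3)) + (X - C t0) * extL lam1 (B ^ (r + 3)) =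
      N * extL lam1 (B ^ (r + 2)) + extL lam2 (B ^ (r + 3)) := by
    rw [hsub]
    have h2 : (X - C t0).map (algebraMap ℚ E) * B ^ (r + 3) + C c0 * B ^ (r + 3) =
        N.map (algebraMap ℚ E) * B ^ (r + 2) := by
      rw [← hB, hc0]
      simp only [Polynomial.map_sub, map_X, map_C, C_add]
      ring
    have h3 := congrArg (extL lam1) h2
    rw [extL_add, extL_map_mul, extL_map_mul] at h3
    linear_combination h3
  have hne : lam1 ≠ 0 ∨ lam2 ≠ 0 := by
    by_contra hcon
    push Not at hcon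
    obtain ⟨h1, h2⟩ := hcon
    rw [hlam2, h1, LinearMap.zero_comp, sub_zero] at h2
    rcases hlam with h | h
    · exact h h2
    · exact h h1
  -- the antiderivative
  have h2 : ∀ (c : ℚ) (l : E →ₗ[ℚ] ℚ) (q : E[X]), extL (c • l) q = C c * extL l q := by
    intro c l q
    ext i
    rw [extL_coeff, coeff_C_mul, extL_coeff, LinearMap.smul_apply, smul_eq_mul]
  have h3 : N * (C (1 / ((r : ℚ) + 1)) * extL lam1 (B ^ (r + 1))) +
      C (1 / ((r : ℚ) + 2)) * extL lam2 (B ^ (r + 2)) =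
      C (1 / ((r : ℚ) + 1)) * N * extL lam1 (B ^ (r + 1)) +
        C (1 / ((r : ℚ) + 2)) * extL lam2 (B ^ (r + 2)) := by ring
  have hW : C (1 / ((r : ℚ) + 1)) * N * extL lam1 (B ^ (r + 1)) +
      C (1 / ((r : ℚ) + 2)) * extL lam2 (B ^ (r + 2)) ≠ 0 := by
    have hr1 : (1 / ((r : ℚ) + 1)) ≠ 0 := by (clear * -; positivity)
    have hr2 : (1 / ((r : ℚ) + 2)) ≠ 0 := by (clear * -; positivity)
    have h1 := la_nonzero β0 N hN hNirr hdeg B hB r ((1 / ((r : ℚ) + 1)) • lam1)
      ((1 / ((r : ℚ) + 2)) • lam2) (by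
      rcases hne with h | h
      · left; exact smul_ne_zero hr1 h
      · right; exact smul_ne_zero hr2 h)
    rw [h2, h2, h3] at h1
    exact h1
  have hWdeg : ((C (1 / ((r : ℚ) + 1)) * N * extL lam1 (B ^ (r + 1)) +
      C (1 / ((r : ℚ) + 2)) * extL lam2 (B ^ (r + 2))).natDegree : ℚ) <
        ((r : ℚ) + 2) * N.natDegree := by
    have h1 := la_W_degree β0 N hN B hB ((1 / ((r : ℚ) + 1)) • lam1)
      ((1 / ((r : ℚ) + 2)) • lam2) r
    rw [h2, h2, h3] at h1
    exact_mod_cast h1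
  have hfin := la_degree N hN _ hW _ hWdeg
  rw [hA, la_key β0 N B hB lam1 lam2 r]
  refine ⟨hfin.2, hfin.1, ?_⟩
  have h4 : ∀ l : E →ₗ[ℚ] ℚ, (extL l (C ϑ * B ^ (r + 3))).natDegree ≤
      (r + 3) * (N.natDegree - 1) := by
    intro l
    refine (extL_natDegree_le _ _).trans ((natDegree_C_mul_le _ _).trans ?_)
    refine natDegree_pow_le.trans ?_
    rw [← hd]
    simp
  refine (natDegree_add_le _ _).trans (max_le ((h4 lam0).trans (Nat.le_succ _)) ?_)
  refine natDegree_mul_le.trans ?_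
  rw [natDegree_X_sub_C, add_comm]
  exact Nat.succ_le_succ (h4 lam1)

end main

end Vale.Agent.P018
end

section

/-! # P018, quartics: the kernel of an integer matrix is spanned by integer vectors with bounded
entries. -/

namespace Vale.Agent.P018.Q

open Matrix

theorem adjugate_bound {J : Type*} [Fintype J] [DecidableEq J] (A : Matrix J J ℤ) {h : ℤ}
    (hh : 1 ≤ h) (hA : ∀ i j, |A i j| ≤ h) (i j : J) :
    |A.adjugate i j| ≤ (Fintype.card J).factorial * h ^ (Fintype.card J) := by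
  rw [Matrix.adjugate_apply]
  have h1 := Matrix.det_le (A := A.updateRow j (Pi.single i 1)) (abv := AbsoluteValue.abs)
    (x := h) ?_
  · simpa [nsmul_eq_mul] using h1
  · intro a b
    rw [AbsoluteValue.abs_apply, Matrix.updateRow_apply]
    split_ifs with hab
    · by_cases hb : b = i
      · subst hb; simpa using hh
      · rw [Pi.single_eq_of_ne hb]; simp; omega
    · exact hA a b

/-- the kernel of an integer matrix is spanned by integer vectors with bounded entries. -/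
theorem ker_span {I J : Type*} [Fintype I] [Fintype J] [DecidableEq J] (M : Matrix I J ℤ) {h : ℤ}
    (hh : 1 ≤ h) (hM : ∀ i j, |M i j| ≤ h) (w : J → ℚ)
    (hw : (M.map (Int.cast : ℤ → ℚ)).mulVec w = 0) :
    w ∈ Submodule.span ℚ {v : J → ℚ | ∃ u : J → ℤ, (v = fun j => (u j : ℚ)) ∧ M.mulVec u = 0 ∧
      ∀ j, |u j| ≤ (Fintype.card J).factorial * h ^ (Fintype.card J)} := by
  classical
  let V : I ⊕ J → (J → ℤ) := Sum.elim M (fun j => Pi.single j 1)
  let v : I ⊕ J → (J → ℚ) := fun x j => (V x j : ℚ)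
  have hVb : ∀ x j, |V x j| ≤ h := by
    rintro (i | k) j
    · exact hM i j
    · show |(Pi.single k 1 : J → ℤ) j| ≤ h
      by_cases hb : j = k
      · subst hb; simpa using hh
      · rw [Pi.single_eq_of_ne hb]; simp; omega
  obtain ⟨b0, hb0t, -, htb0, hb0⟩ :=
    exists_linearIndepOn_extension (K := ℚ) (v := v) (s := ∅) (t := Set.range Sum.inl)
      (linearIndepOn_empty ℚ v) (Set.empty_subset _)
  obtain ⟨b, -, hb0b, htb, hb⟩ :=
    exists_linearIndepOn_extension (t := Set.univ) hb0 (Set.subset_univ _)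
  have hspan : ⊤ ≤ Submodule.span ℚ (Set.range fun x : b => v x) := by
    rw [← Set.image_eq_range]
    intro x _
    have hvr : ∀ j k, v (Sum.inr j) k = (((Pi.single j 1 : J → ℤ) k : ℤ) : ℚ) := fun _ _ => rfl
    have hx : x = ∑ j, x j • v (Sum.inr j) := by
      funext k
      rw [Finset.sum_apply, Finset.sum_eq_single k]
      · rw [Pi.smul_apply, hvr, Pi.single_eq_same]; simp
      · intro j _ hj
        rw [Pi.smul_apply, hvr, Pi.single_eq_of_ne (Ne.symm hj)]; simp
      · simp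
    rw [hx]
    refine Submodule.sum_mem _ fun j _ => Submodule.smul_mem _ _ ?_
    exact htb ⟨Sum.inr j, trivial, rfl⟩
  let B : Module.Basis b ℚ (J → ℚ) := Module.Basis.mk hb hspan
  have hcard : Fintype.card J = Fintype.card b := by
    rw [← Module.finrank_eq_card_basis B, Module.finrank_fintype_fun_eq_card]
  let e : J ≃ b := Fintype.equivOfCardEq hcard
  let A : Matrix J J ℤ := fun k j => V (e k) j
  have hAb : ∀ k j, |A k j| ≤ h := fun k j => hVb _ _
  have hdet : (A.map (Int.cast : ℤ → ℚ)).det ≠ 0 := by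
    have h1 : LinearIndependent ℚ (A.map (Int.cast : ℤ → ℚ)).row := by
      have h2 := hb.linearIndependent.comp e e.injective
      exact h2
    rw [Matrix.linearIndependent_rows_iff_isUnit, Matrix.isUnit_iff_isUnit_det] at h1
    exact h1.ne_zero
  have hmap : (A.map (Int.cast : ℤ → ℚ)).adjugate = A.adjugate.map (Int.cast : ℤ → ℚ) :=
    ((Int.castRingHom ℚ).map_adjugate A).symm
  -- the decomposition of `w`
  have hdec : w = ∑ k, ((A.map (Int.cast : ℤ → ℚ)).det⁻¹ *
      ((A.map (Int.cast : ℤ → ℚ)).mulVec w) k) • (fun j => (A.adjugate j k : ℚ)) := by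
    have h1 : (A.map (Int.cast : ℤ → ℚ)).adjugate.mulVec ((A.map (Int.cast : ℤ → ℚ)).mulVec w) =
        (A.map (Int.cast : ℤ → ℚ)).det • w := by
      rw [Matrix.mulVec_mulVec, Matrix.adjugate_mul, Matrix.smul_mulVec, Matrix.one_mulVec]
    funext j
    have h2 := congrFun h1 j
    rw [hmap] at h2
    simp only [Matrix.mulVec, dotProduct, Pi.smul_apply, smul_eq_mul, Matrix.map_apply] at h2
    rw [Finset.sum_apply]
    simp only [Pi.smul_apply, smul_eq_mul, Matrix.mulVec, dotProduct, Matrix.map_apply]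
    rw [eq_comm, ← mul_right_inj' hdet, ← h2, Finset.mul_sum]
    refine Finset.sum_congr rfl fun k _ => ?_
    field_simp
  rw [hdec]
  refine Submodule.sum_mem _ fun k _ => ?_
  by_cases hk : ((e k : b) : I ⊕ J) ∈ b0
  · -- the coordinate vanishes
    obtain ⟨i, hi⟩ := hb0t hk
    have h1 : ((A.map (Int.cast : ℤ → ℚ)).mulVec w) k = 0 := by
      have h2 := congrFun hw i
      rw [Pi.zero_apply] at h2
      rw [← h2]
      simp only [Matrix.mulVec, dotProduct, Matrix.map_apply]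
      refine Finset.sum_congr rfl fun j _ => ?_
      congr 2
      show V (e k) j = M i j
      rw [← hi]
      rfl
    rw [h1, mul_zero, zero_smul]
    exact Submodule.zero_mem _
  · refine Submodule.smul_mem _ _ (Submodule.subset_span ⟨fun j => A.adjugate j k, rfl, ?_,
      fun j => adjugate_bound A hh hAb j k⟩)
    have hAu : ∀ k', ∑ j, A k' j * A.adjugate j k = if k' = k then A.det else 0 := by
      intro k'
      have h1 := congrFun (congrFun (Matrix.mul_adjugate A) k') k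
      rw [Matrix.mul_apply] at h1
      rw [h1, Matrix.smul_apply, Matrix.one_apply]
      simp
    funext i
    have h3 : v (Sum.inl i) ∈ Submodule.span ℚ (v '' b0) := htb0 ⟨Sum.inl i, ⟨i, rfl⟩, rfl⟩
    let φ : (J → ℚ) →ₗ[ℚ] ℚ := ∑ j, (A.adjugate j k : ℚ) • LinearMap.proj j
    have hφ : ∀ x, φ x = ∑ j, (A.adjugate j k : ℚ) * x j := by
      intro x
      simp [φ]
    have h4 : Submodule.span ℚ (v '' b0) ≤ LinearMap.ker φ := by
      rw [Submodule.span_le]
      rintro _ ⟨y, hy, rfl⟩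
      show φ (v y) = 0
      obtain ⟨k', hk'⟩ := e.surjective ⟨y, hb0b hy⟩
      have hne : k' ≠ k := by
        rintro rfl
        apply hk
        rw [hk']
        exact hy
      have h5 := hAu k'
      rw [if_neg hne] at h5
      rw [hφ]
      have h6 : ∀ j, v y j = (A k' j : ℚ) := by
        intro j
        show (V y j : ℚ) = (V (e k') j : ℚ)
        rw [hk']
      simp only [h6]
      have h7 := congrArg (Int.cast : ℤ → ℚ) h5
      push_cast at h7
      rw [← h7]
      exact Finset.sum_congr rfl fun j _ => mul_comm _ _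
    have h5 : φ (v (Sum.inl i)) = 0 := h4 h3
    rw [hφ] at h5
    have h6 : ((M.mulVec (fun j => A.adjugate j k) i : ℤ) : ℚ) = 0 := by
      rw [← h5]
      simp only [Matrix.mulVec, dotProduct]
      push_cast
      exact Finset.sum_congr rfl fun j _ => mul_comm _ _
    exact_mod_cast h6

end Vale.Agent.P018.Q
end

section

/-! # P018, quartics: spaces of bivariate polynomials with a weighted degree. -/

namespace Vale.Agent.P018.Q.Lev

open Polynomial

/-- polynomials of degree `< J` in the outer variable, the coefficient of `κ^m` has degree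
`≤ w + 2 ε m`. -/
def F (ε J w : ℕ) : Submodule ℚ ℚ[X][X] where
  carrier := {Ψ | ∀ m r, (J ≤ m ∨ w + 2 * ε * m < r) → (Ψ.coeff m).coeff r = 0}
  add_mem' := by intro a b ha hb m r h; simp [ha m r h, hb m r h]
  zero_mem' := by intro m r _; simp
  smul_mem' := by intro c a ha m r h; simp [ha m r h]

theorem mem_of_monomials (S : Submodule ℚ ℚ[X][X]) (Ψ : ℚ[X][X])
    (h : ∀ m r, (Ψ.coeff m).coeff r ≠ 0 → monomial m (monomial r (1 : ℚ)) ∈ S) : Ψ ∈ S := by
  rw [Ψ.as_sum_support]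
  refine Submodule.sum_mem _ fun m _ => ?_
  have e : monomial m (Ψ.coeff m) =
      ∑ r ∈ (Ψ.coeff m).support, monomial m (monomial r ((Ψ.coeff m).coeff r)) := by
    rw [← map_sum, ← (Ψ.coeff m).as_sum_support]
  rw [e]
  refine Submodule.sum_mem _ fun r hr => ?_
  have h1 := h m r (mem_support_iff.1 hr)
  have : monomial m (monomial r ((Ψ.coeff m).coeff r)) =
      ((Ψ.coeff m).coeff r) • monomial m (monomial r (1 : ℚ)) := by
    rw [smul_monomial, smul_monomial, smul_eq_mul, mul_one]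
  rw [this]
  exact S.smul_mem _ h1

theorem coeff_big {J : ℕ} {N : Fin J → ℕ} (c : (m : Fin J) → Fin (N m) → ℚ) (m' r' : ℕ) :
    ((∑ m : Fin J, ∑ r : Fin (N m),
      monomial (m : ℕ) (monomial (r : ℕ) (c m r)) : ℚ[X][X]).coeff m').coeff r' =
    if h : m' < J then (if h' : r' < N ⟨m', h⟩ then c ⟨m', h⟩ ⟨r', h'⟩ else 0) else 0 := by
  simp only [finsetSum_coeff, coeff_monomial]
  split_ifs with h h'
  · rw [Finset.sum_eq_single (⟨m', h⟩ : Fin J)]
    · rw [Finset.sum_eq_single (⟨r', h'⟩ : Fin (N ⟨m', h⟩))]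
      · simp [coeff_monomial]
      · intro b _ hb
        have : (b : ℕ) ≠ r' := fun e => hb (Fin.ext e)
        simp [coeff_monomial, this]
      · simp
    · intro b _ hb
      have : (b : ℕ) ≠ m' := fun e => hb (Fin.ext e)
      simp [coeff_monomial, this]
    · simp
  · rw [Finset.sum_eq_zero]
    intro b _
    by_cases hb : (b : ℕ) = m'
    · subst hb
      refine Finset.sum_eq_zero fun r _ => ?_
      have : (r : ℕ) ≠ r' := fun e => h' (e ▸ r.2)
      simp [coeff_monomial, this]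
    · simp [hb]
  · rw [Finset.sum_eq_zero]
    intro b _
    have : (b : ℕ) ≠ m' := fun e => h (e ▸ b.2)
    simp [this]

/-- coefficients of an element of `F`. -/
noncomputable def toPi (ε J w : ℕ) : F ε J w →ₗ[ℚ] ((m : Fin J) → (Fin (w + 2 * ε * m + 1) → ℚ)) where
  toFun Ψ := fun m r => ((Ψ : ℚ[X][X]).coeff m).coeff r
  map_add' := by intro a b; ext m r; simp
  map_smul' := by intro a b; ext m r; simp

theorem toPi_bij (ε J w : ℕ) : Function.Bijective (toPi ε J w) := by
  constructor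
  · rw [injective_iff_map_eq_zero]
    intro Ψ h
    apply Subtype.ext
    ext m r
    by_cases hm : m < J
    · by_cases hr : r < w + 2 * ε * m + 1
      · exact congrFun (congrFun h ⟨m, hm⟩) ⟨r, hr⟩
      · simpa using Ψ.2 m r (Or.inr (by omega))
    · simpa using Ψ.2 m r (Or.inl (by omega))
  · intro c
    refine ⟨⟨∑ m : Fin J, ∑ r : Fin (w + 2 * ε * m + 1),
      monomial (m : ℕ) (monomial (r : ℕ) (c m r)), ?_⟩, ?_⟩
    · intro m r h
      rw [coeff_big]
      split_ifs with h1 h2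
      · exfalso
        rcases h with h | h
        · omega
        · simp only at h2; omega
      · rfl
      · rfl
    · ext m r
      show ((∑ m : Fin J, ∑ r : Fin (w + 2 * ε * m + 1),
        monomial (m : ℕ) (monomial (r : ℕ) (c m r)) : ℚ[X][X]).coeff m).coeff r = _
      rw [coeff_big]
      have h1 := r.2
      rw [dif_pos m.2, dif_pos h1]

noncomputable instance (ε J w : ℕ) : Module.Finite ℚ (F ε J w) :=
  Module.Finite.of_injective (toPi ε J w) (toPi_bij ε J w).1

theorem finrank_F (ε J w : ℕ) :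
    Module.finrank ℚ (F ε J w) = ∑ m ∈ Finset.range J, (w + 2 * ε * m + 1) := by
  rw [LinearEquiv.finrank_eq (LinearEquiv.ofBijective _ (toPi_bij ε J w)),
    Module.finrank_pi_fintype, Finset.sum_range]
  refine Finset.sum_congr rfl fun m _ => ?_
  simp

theorem finrank_F' (ε J w : ℕ) :
    Module.finrank ℚ (F ε J w) + ε * J = J * (w + 1) + ε * J * J := by
  rw [finrank_F]
  induction J with
  | zero => simp
  | succ J ih =>
    rw [Finset.sum_range_succ]
    nlinarith [ih]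


/-! ### weighted degree -/

theorem coeff_swap (p : ℚ[X][X]) (m r : ℕ) :
    ((Bivariate.swap p).coeff r).coeff m = (p.coeff m).coeff r := by
  induction p using Polynomial.induction_on' with
  | add p q hp hq => simp only [map_add, coeff_add, hp, hq]
  | monomial n f =>
    induction f using Polynomial.induction_on' with
    | add f h hf hh => simp only [map_add, coeff_add, hf, hh]
    | monomial k c =>
      rw [Bivariate.swap_monomial_monomial]
      simp only [coeff_monomial]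
      split_ifs with h1 h2 h2 <;> simp_all [coeff_monomial]

/-- the weighted degree (shifted by `2 ε` times the degree). -/
noncomputable def D (ε : ℕ) (Ψ : ℚ[X][X]) : ℕ :=
  (Bivariate.swap (scaleRoots Ψ (X ^ (2 * ε)))).natDegree

theorem D_mul {ε : ℕ} {p q : ℚ[X][X]} (hp : p ≠ 0) (hq : q ≠ 0) :
    D ε (p * q) = D ε p + D ε q := by
  unfold D
  rw [mul_scaleRoots_of_noZeroDivisors, map_mul, natDegree_mul]
  · exact (map_ne_zero_iff _ (Bivariate.swap (R := ℚ)).injective).2 (scaleRoots_ne_zero hp _)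
  · exact (map_ne_zero_iff _ (Bivariate.swap (R := ℚ)).injective).2 (scaleRoots_ne_zero hq _)

theorem coeff_le_D (ε : ℕ) (Ψ : ℚ[X][X]) (m r : ℕ) (h : (Ψ.coeff m).coeff r ≠ 0) :
    r + 2 * ε * (Ψ.natDegree - m) ≤ D ε Ψ := by
  unfold D
  apply le_natDegree_of_ne_zero
  intro h0
  have h1 : ((Bivariate.swap (scaleRoots Ψ (X ^ (2 * ε)))).coeff
      (r + 2 * ε * (Ψ.natDegree - m))).coeff m = 0 := by rw [h0]; simp
  rw [coeff_swap, coeff_scaleRoots, ← pow_mul, coeff_mul_X_pow] at h1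
  exact h h1

theorem D_le {ε : ℕ} {Ψ : ℚ[X][X]} {n : ℕ}
    (h : ∀ m r, (Ψ.coeff m).coeff r ≠ 0 → r + 2 * ε * (Ψ.natDegree - m) ≤ n) : D ε Ψ ≤ n := by
  unfold D
  rw [natDegree_le_iff_coeff_eq_zero]
  intro N hN
  ext m
  rw [coeff_swap, coeff_scaleRoots, ← pow_mul, coeff_mul_X_pow']
  split_ifs with h1
  · by_contra h2
    have := h m _ h2
    omega
  · simp

theorem mem_of_mul {ε j w w' : ℕ} (hε : ε ≤ 1) (hw : w' + 2 = w + 2 * ε)
    {g H : ℚ[X][X]} (hg2 : 2 ≤ g.natDegree) (hD : 2 + 2 * ε * g.natDegree ≤ D ε g + 2 * ε)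
    (h : g * H ∈ F ε (j + 1) w) : H ∈ F ε (j - 1) w' := by
  by_cases hH : H = 0
  · subst hH; exact Submodule.zero_mem _
  have hg0 : g ≠ 0 := by rintro rfl; simp at hg2
  have hgH : g * H ≠ 0 := mul_ne_zero hg0 hH
  have hdeg : (g * H).natDegree ≤ j := by
    rw [natDegree_le_iff_coeff_eq_zero]
    intro N hN
    ext r
    simpa using h N r (Or.inl (by omega))
  rw [natDegree_mul hg0 hH] at hdeg
  have hDl : D ε (g * H) ≤ w + 2 * ε * (g.natDegree + H.natDegree) := by
    apply D_le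
    intro m r hmr
    have h1 : r ≤ w + 2 * ε * m := by
      by_contra h2
      exact hmr (h m r (Or.inr (by omega)))
    have h3 : m ≤ (g * H).natDegree :=
      le_natDegree_of_ne_zero (by intro h0; rw [h0] at hmr; simp at hmr)
    rw [natDegree_mul hg0 hH] at h3 ⊢
    obtain ⟨k, hk⟩ := Nat.exists_eq_add_of_le h3
    rw [hk, Nat.add_sub_cancel_left]
    linarith [mul_add (2 * ε) m k]
  rw [D_mul hg0 hH] at hDl
  intro m r hmr
  by_contra hne
  have h4 := coeff_le_D ε H m r hne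
  have h5 : m ≤ H.natDegree :=
    le_natDegree_of_ne_zero (by intro h0; rw [h0] at hne; simp at hne)
  rcases hmr with h6 | h6
  · omega
  · interval_cases ε <;> simp at * <;> omega

theorem finrank_quot {ε j w w' : ℕ} (hε : ε ≤ 1) (hw : w' + 2 = w + 2 * ε)
    {g : ℚ[X][X]} (hg2 : 2 ≤ g.natDegree) (hD : 2 + 2 * ε * g.natDegree ≤ D ε g + 2 * ε) :
    Module.finrank ℚ (F ε (j + 1) w) ≤ Module.finrank ℚ (Submodule.map (Submodule.mkQ
        ((Ideal.span {g}).restrictScalars ℚ)) (F ε (j + 1) w)) +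
      Module.finrank ℚ (F ε (j - 1) w') := by
  set I : Submodule ℚ ℚ[X][X] := (Ideal.span {g}).restrictScalars ℚ with hI
  set f : F ε (j + 1) w →ₗ[ℚ] (ℚ[X][X] ⧸ I) := I.mkQ.comp (F ε (j + 1) w).subtype with hf
  have h1 := LinearMap.finrank_range_add_finrank_ker (K := ℚ) (V := F ε (j + 1) w)
    (V₂ := ℚ[X][X] ⧸ I) f
  have h2 : LinearMap.range f = Submodule.map I.mkQ (F ε (j + 1) w) := by
    rw [hf, LinearMap.range_comp, Submodule.range_subtype]
  have h3 : Submodule.map (F ε (j + 1) w).subtype (LinearMap.ker f) ≤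
      Submodule.map (LinearMap.mulLeft ℚ g) (F ε (j - 1) w') := by
    rintro _ ⟨Ψ, hΨ, rfl⟩
    have h4 : (Ψ : ℚ[X][X]) ∈ I := by
      have : f Ψ = 0 := hΨ
      rwa [hf, LinearMap.comp_apply, Submodule.mkQ_apply, Submodule.Quotient.mk_eq_zero] at this
    rw [hI, Submodule.restrictScalars_mem, Ideal.mem_span_singleton] at h4
    obtain ⟨H, hH⟩ := h4
    refine ⟨H, ?_, ?_⟩
    · exact mem_of_mul hε hw hg2 hD (hH ▸ Ψ.2)
    · rw [LinearMap.mulLeft_apply, ← hH]; rfl
  have h5 : Module.finrank ℚ (LinearMap.ker f) ≤ Module.finrank ℚ (F ε (j - 1) w') := by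
    rw [← Submodule.finrank_map_subtype_eq]
    exact (Submodule.finrank_mono h3).trans (Submodule.finrank_map_le _ _)
  rw [← h2]
  omega

end Vale.Agent.P018.Q.Lev
end

section

/-! # Kummer independence for square roots. -/

namespace Vale.Agent.P018.QB

open Polynomial IntermediateField

/-- nonzero elements `w i` of an extension `Ω / F` with `w i ^ 2 ∈ F` and `w i * w j ∉ F` for
`i ≠ j` are linearly independent over `F` (characteristic `≠ 2`).  Proof: `F(w)` is Galois over `F`,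
every automorphism multiplies `w i` by a sign `χ_i`, and `χ_i ≠ χ_j` because `w i * w j ∉ F`; now use
the independence of the characters `χ_i`. -/
theorem kummer_indep {F Ω : Type*} [Field F] [Field Ω] [Algebra F Ω] [CharZero F] {ι : Type*}
    [Finite ι] (w : ι → Ω) (h0 : ∀ i, w i ≠ 0) (h2 : ∀ i, w i ^ 2 ∈ (algebraMap F Ω).range)
    (hij : ∀ i j, i ≠ j → w i * w j ∉ (algebraMap F Ω).range) : LinearIndependent F w := by
  classical
  cases nonempty_fintype ι
  choose c hc using h2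
  set p : F[X] := ∏ i, (X ^ 2 - C (c i)) with hp
  have hf : ∀ i, (X ^ 2 - C (c i) : F[X]).map (algebraMap F Ω) = (X - C (w i)) * (X + C (w i)) := by
    intro i
    rw [Polynomial.map_sub, Polynomial.map_pow, map_X, map_C, hc, C_pow]
    ring
  have hp0 : p ≠ 0 := Finset.prod_ne_zero_iff.mpr fun i _ => X_pow_sub_C_ne_zero (by norm_num) _
  have hs : (p.map (algebraMap F Ω)).Splits := by
    rw [hp, Polynomial.map_prod]
    refine Polynomial.Splits.prod fun i _ => ?_
    rw [hf]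
    exact (Splits.X_sub_C _).mul (Splits.X_add_C _)
  let K : IntermediateField F Ω := adjoin F (p.rootSet Ω)
  have h1 : p.IsSplittingField F K := adjoin_rootSet_isSplittingField hs
  have : Normal F K := Normal.of_isSplittingField p
  have : FiniteDimensional F K := Polynomial.IsSplittingField.finiteDimensional K p
  have : IsGalois F K := ⟨⟩
  have hw : ∀ i, w i ∈ K := by
    intro i
    refine subset_adjoin _ _ ?_
    rw [mem_rootSet]
    refine ⟨hp0, ?_⟩
    rw [hp, map_prod]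
    refine Finset.prod_eq_zero (Finset.mem_univ i) ?_
    rw [aeval_def, ← eval_map, hf]
    simp
  let v : ι → K := fun i => ⟨w i, hw i⟩
  have hv0 : ∀ i, v i ≠ 0 := fun i h => h0 i (congrArg Subtype.val h)
  have hv2 : ∀ i, v i ^ 2 = algebraMap F K (c i) := by
    intro i
    apply Subtype.ext
    change w i ^ 2 = algebraMap F Ω (c i)
    exact (hc i).symm
  have hσ2 : ∀ (σ : K ≃ₐ[F] K) i, (σ (v i) / v i) ^ 2 = 1 := by
    intro σ i
    rw [div_pow, ← map_pow, hv2, AlgEquiv.commutes]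
    refine div_self ?_
    rw [← hv2]
    exact pow_ne_zero _ (hv0 i)
  have hσ1 : ∀ (σ : K ≃ₐ[F] K) i, σ (v i) / v i = 1 ∨ σ (v i) / v i = -1 := fun σ i =>
    sq_eq_one_iff.mp (hσ2 σ i)
  have hfix : ∀ (σ τ : K ≃ₐ[F] K) i, σ (τ (v i) / v i) = τ (v i) / v i := by
    intro σ τ i
    rcases hσ1 τ i with h | h <;> simp [h]
  let χ : ι → (K ≃ₐ[F] K) →* K := fun i =>
    { toFun := fun σ => σ (v i) / v i
      map_one' := div_self (hv0 i)
      map_mul' := fun σ τ => by
        have h3 : τ (v i) = τ (v i) / v i * v i := (div_mul_cancel₀ _ (hv0 i)).symm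
        have h4 : (σ * τ) (v i) = τ (v i) / v i * σ (v i) := by
          rw [AlgEquiv.mul_apply]
          conv_lhs => rw [h3, map_mul, hfix]
        change (σ * τ) (v i) / v i = σ (v i) / v i * (τ (v i) / v i)
        rw [h4]
        ring }
  have hχ : Function.Injective χ := by
    intro i j h
    by_contra hne
    refine hij i j hne ?_
    have h5 : v i * v j ∈ Set.range (algebraMap F K) := by
      rw [IsGalois.mem_range_algebraMap_iff_fixed]
      intro σ
      have h6 : σ (v i) / v i = σ (v j) / v j := DFunLike.congr_fun h σ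
      have h7 : σ (v i) = σ (v i) / v i * v i := (div_mul_cancel₀ _ (hv0 i)).symm
      have h8 : σ (v j) = σ (v i) / v i * v j := by rw [h6, div_mul_cancel₀ _ (hv0 j)]
      have h11 := hσ2 σ i
      generalize σ (v i) / v i = e at h7 h8 h11
      rw [map_mul, h8, h7, mul_mul_mul_comm, ← sq, h11, one_mul]
    obtain ⟨x, hx⟩ := h5
    exact ⟨x, congrArg Subtype.val hx⟩
  have hli : LinearIndependent K fun i => (χ i : (K ≃ₐ[F] K) → K) :=
    (linearIndependent_monoidHom (K ≃ₐ[F] K) K).comp χ hχ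
  rw [Fintype.linearIndependent_iff] at hli ⊢
  intro a ha i
  have ha' : ∑ i, a i • v i = 0 := by
    apply Subtype.ext
    rw [AddSubmonoidClass.coe_finsetSum]
    exact ha
  have h9 := hli (fun i => a i • v i) (by
    funext σ
    rw [Finset.sum_apply]
    have h10 := congrArg σ ha'
    rw [map_sum, map_zero] at h10
    rw [Pi.zero_apply, ← h10]
    refine Finset.sum_congr rfl fun i _ => ?_
    change a i • v i * (σ (v i) / v i) = _
    rw [Algebra.smul_def, map_mul, AlgEquiv.commutes, mul_assoc, mul_div_cancel₀ _ (hv0 i)]) i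
  rcases smul_eq_zero.mp h9 with h | h
  · exact h
  · exact absurd h (hv0 i)

end Vale.Agent.P018.QB
end

section

/-! # P018, (B): dimension count for the functions on the surface, in `ℂ[w][n]`. -/

namespace Vale.Agent.P018.QB.Surf

open Polynomial Module

/-- the span of the `X ^ a * q ^ f`, `a ≤ i`, `|f| = M`. -/
noncomputable def U (q : Fin 3 → ℂ[X]) (M i : ℕ) : Submodule ℂ ℂ[X] :=
  Submodule.span ℂ {F | ∃ (a : ℕ) (f : Fin 3 → ℕ), a ≤ i ∧ ∑ j, f j = M ∧
    F = X ^ a * ∏ j, q j ^ f j}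

theorem U_mul (q : Fin 3 → ℂ[X]) (M i : ℕ) (j : Fin 3) {F : ℂ[X]} (hF : F ∈ U q M i) :
    q j * F ∈ U q (M + 1) i := by
  induction hF using Submodule.span_induction with
  | mem F h =>
    obtain ⟨a, f, ha, hf, rfl⟩ := h
    refine Submodule.subset_span ⟨a, Function.update f j (f j + 1), ha, ?_, ?_⟩
    · rw [Finset.sum_update_of_mem (Finset.mem_univ j), ← hf,
        ← Finset.add_sum_erase _ _ (Finset.mem_univ j), Finset.sdiff_singleton_eq_erase]
      ring
    · rw [← Finset.mul_prod_erase Finset.univ _ (Finset.mem_univ j),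
        ← Finset.mul_prod_erase Finset.univ (fun k => q k ^ Function.update f j (f j + 1) k)
        (Finset.mem_univ j)]
      have : ∏ x ∈ Finset.univ.erase j, q x ^ Function.update f j (f j + 1) x =
          ∏ x ∈ Finset.univ.erase j, q x ^ f x :=
        Finset.prod_congr rfl fun x hx => by
          rw [Function.update_of_ne (Finset.ne_of_mem_erase hx)]
      rw [this, Function.update_self]
      ring
  | zero => simp
  | add F G _ _ h1 h2 => rw [mul_add]; exact add_mem h1 h2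
  | smul c F _ h => rw [mul_smul_comm]; exact Submodule.smul_mem _ _ h

theorem X_pow_mem_U (q : Fin 3 → ℂ[X])
    (hq : ∀ k ≤ 2, (X : ℂ[X]) ^ k ∈ Submodule.span ℂ (Set.range q)) (M i : ℕ) :
    ∀ k ≤ 2 * M + i, (X : ℂ[X]) ^ k ∈ U q M i := by
  induction M with
  | zero =>
    intro k hk
    exact Submodule.subset_span ⟨k, 0, by omega, by simp, by simp⟩
  | succ M ih =>
    intro k hk
    obtain ⟨k1, k2, h1, h2, rfl⟩ : ∃ k1 k2, k1 ≤ 2 * M + i ∧ k2 ≤ 2 ∧ k = k1 + k2 :=
      ⟨min k (2 * M + i), k - min k (2 * M + i), by omega, by omega, by omega⟩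
    obtain ⟨c, hc⟩ := (Submodule.mem_span_range_iff_exists_fun ℂ).mp (hq k2 h2)
    rw [pow_add, ← hc, Finset.mul_sum]
    refine Submodule.sum_mem _ fun j _ => ?_
    rw [mul_smul_comm, mul_comm]
    exact Submodule.smul_mem _ _ (U_mul q M i j (ih k1 h1))

theorem quad {a1 a2 a3 b1 b2 b3 c1 c2 c3 : ℂ} (h12 : a1 * b2 ≠ a2 * b1) (h13 : a1 * b3 ≠ a3 * b1)
    (h23 : a2 * b3 ≠ a3 * b2) (h1 : c1 ≠ 0) (h2 : c2 ≠ 0) (h3 : c3 ≠ 0) {k : ℕ} (hk : k ≤ 2) :
    (X : ℂ[X]) ^ k ∈ Submodule.span ℂ (Set.range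
      ![C c1 * ((C a2 + C b2 * X) * (C a3 + C b3 * X)),
        C c2 * ((C a1 + C b1 * X) * (C a3 + C b3 * X)),
        C c3 * ((C a1 + C b1 * X) * (C a2 + C b2 * X))]) := by
  rw [Submodule.mem_span_range_iff_exists_fun]
  have d12 : a2 * b1 - a1 * b2 ≠ 0 := fun h => h12 (by linear_combination -h)
  have d13 : a3 * b1 - a1 * b3 ≠ 0 := fun h => h13 (by linear_combination -h)
  have d23 : a3 * b2 - a2 * b3 ≠ 0 := fun h => h23 (by linear_combination -h)
  set D12 := a2 * b1 - a1 * b2 with e12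
  set D13 := a3 * b1 - a1 * b3 with e13
  set D23 := a3 * b2 - a2 * b3 with e23
  refine ⟨![c1⁻¹ * (D12⁻¹ * D13⁻¹ * (b1 ^ (2 - k) * (-a1) ^ k)),
    c2⁻¹ * (-(D12⁻¹ * D23⁻¹ * (b2 ^ (2 - k) * (-a2) ^ k))),
    c3⁻¹ * (D13⁻¹ * D23⁻¹ * (b3 ^ (2 - k) * (-a3) ^ k))], ?_⟩
  have key : C (D12 * D13 * D23) * (X : ℂ[X]) ^ k =
      C (D23 * (b1 ^ (2 - k) * (-a1) ^ k)) * ((C a2 + C b2 * X) * (C a3 + C b3 * X)) -
      C (D13 * (b2 ^ (2 - k) * (-a2) ^ k)) * ((C a1 + C b1 * X) * (C a3 + C b3 * X)) +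
      C (D12 * (b3 ^ (2 - k) * (-a3) ^ k)) * ((C a1 + C b1 * X) * (C a2 + C b2 * X)) := by
    interval_cases k <;>
    · simp only [e12, e13, e23, C_mul, C_sub, C_neg, C_pow]
      norm_num
      ring
  have hD : D12 * D13 * D23 ≠ 0 := mul_ne_zero (mul_ne_zero d12 d13) d23
  have hCD : C (D12 * D13 * D23) ≠ (0 : ℂ[X]) := C_ne_zero.mpr hD
  apply mul_left_cancel₀ hCD
  rw [key, Fin.sum_univ_three]
  simp only [Matrix.cons_val_zero, Matrix.cons_val_one, Matrix.cons_val, smul_eq_C_mul]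
  have f1 : C (D12 * D13 * D23) * (C (c1⁻¹ * (D12⁻¹ * D13⁻¹ * (b1 ^ (2 - k) * (-a1) ^ k))) * C c1) =
      (C (D23 * (b1 ^ (2 - k) * (-a1) ^ k)) : ℂ[X]) := by
    rw [← C_mul, ← C_mul]
    congr 1
    field_simp
  have f2 : C (D12 * D13 * D23) * (C (c2⁻¹ * (-(D12⁻¹ * D23⁻¹ * (b2 ^ (2 - k) * (-a2) ^ k)))) *
      C c2) = (-C (D13 * (b2 ^ (2 - k) * (-a2) ^ k)) : ℂ[X]) := by
    rw [← C_mul, ← C_mul, ← C_neg]
    congr 1
    field_simp
  have f3 : C (D12 * D13 * D23) * (C (c3⁻¹ * (D13⁻¹ * D23⁻¹ * (b3 ^ (2 - k) * (-a3) ^ k))) * C c3) =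
      (C (D12 * (b3 ^ (2 - k) * (-a3) ^ k)) : ℂ[X]) := by
    rw [← C_mul, ← C_mul]
    congr 1
    field_simp
  linear_combination ((C a2 + C b2 * X) * (C a3 + C b3 * X)) * f1 +
    ((C a1 + C b1 * X) * (C a3 + C b3 * X)) * f2 + ((C a1 + C b1 * X) * (C a2 + C b2 * X)) * f3

/-- the linear form `γ_j(w)`. -/
noncomputable def gam (g1 g2 : Fin 4 → ℂ) (j : Fin 4) : ℂ[X] := C (g1 j) + C (g2 j) * X

/-- `∏_{k ≠ j} γ_k`. -/
noncomputable def gam' (g1 g2 : Fin 4 → ℂ) (j : Fin 4) : ℂ[X] :=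
  ∏ k ∈ Finset.univ.erase j, gam g1 g2 k

/-- `p_j = (n - α_j) ∏_{k ≠ j} γ_k`. -/
noncomputable def pp (α g1 g2 : Fin 4 → ℂ) (j : Fin 4) : ℂ[X][X] :=
  C (gam' g1 g2 j) * (X - C (C (α j)))

/-- the span of the `w ^ a * ∏ p_j ^ f_j`, `a ≤ i`, `|f| = M`. -/
noncomputable def W (α g1 g2 : Fin 4 → ℂ) (M i : ℕ) : Submodule ℂ ℂ[X][X] :=
  Submodule.span ℂ {F | ∃ (a : ℕ) (f : Fin 4 → ℕ), a ≤ i ∧ ∑ j, f j = M ∧
    F = C (X ^ a) * ∏ j, pp α g1 g2 j ^ f j}

instance (α g1 g2 : Fin 4 → ℂ) (M i : ℕ) : FiniteDimensional ℂ (W α g1 g2 M i) := by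
  refine FiniteDimensional.span_of_finite ℂ ?_
  refine Set.Finite.subset (((Finset.range (i + 1)).finite_toSet.prod
    (Finset.piAntidiag (Finset.univ : Finset (Fin 4)) M).finite_toSet).image
    fun x => C (X ^ x.1) * ∏ j, pp α g1 g2 j ^ x.2 j) ?_
  rintro F ⟨a, f, ha, hf, rfl⟩
  refine ⟨(a, f), ⟨?_, ?_⟩, rfl⟩
  · simpa using Nat.lt_succ_of_le ha
  · simpa [Finset.mem_piAntidiag] using hf

theorem W_mul (α g1 g2 : Fin 4 → ℂ) (M i : ℕ) (j : Fin 4) {F : ℂ[X][X]}
    (hF : F ∈ W α g1 g2 M i) : pp α g1 g2 j * F ∈ W α g1 g2 (M + 1) i := by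
  induction hF using Submodule.span_induction with
  | mem F h =>
    obtain ⟨a, f, ha, hf, rfl⟩ := h
    refine Submodule.subset_span ⟨a, Function.update f j (f j + 1), ha, ?_, ?_⟩
    · rw [Finset.sum_update_of_mem (Finset.mem_univ j), ← hf,
        ← Finset.add_sum_erase _ _ (Finset.mem_univ j), Finset.sdiff_singleton_eq_erase]
      ring
    · rw [← Finset.mul_prod_erase Finset.univ _ (Finset.mem_univ j),
        ← Finset.mul_prod_erase Finset.univ
          (fun k => pp α g1 g2 k ^ Function.update f j (f j + 1) k) (Finset.mem_univ j)]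
      have : ∏ x ∈ Finset.univ.erase j, pp α g1 g2 x ^ Function.update f j (f j + 1) x =
          ∏ x ∈ Finset.univ.erase j, pp α g1 g2 x ^ f x :=
        Finset.prod_congr rfl fun x hx => by
          rw [Function.update_of_ne (Finset.ne_of_mem_erase hx)]
      rw [this, Function.update_self]
      ring
  | zero => simp
  | add F G _ _ h1 h2 => rw [mul_add]; exact add_mem h1 h2
  | smul c F _ h => rw [mul_smul_comm]; exact Submodule.smul_mem _ _ h

/-- restriction to `n = a`. -/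
noncomputable def res (a : ℂ) : ℂ[X][X] →ₐ[ℂ] ℂ[X] :=
  (aeval (R := ℂ[X]) (C a : ℂ[X])).restrictScalars ℂ

theorem res_C (a : ℂ) (F : ℂ[X]) : res a (C F) = F := by
  simp [res]

theorem res_pp (α g1 g2 : Fin 4 → ℂ) (a : ℂ) (j : Fin 4) :
    res a (pp α g1 g2 j) = gam' g1 g2 j * C (a - α j) := by
  simp [res, pp, aeval_def]

theorem finrank_rank_null {V V' : Type*} [AddCommGroup V] [Module ℂ V] [AddCommGroup V']
    [Module ℂ V'] (E : V →ₗ[ℂ] V') (A B : Submodule ℂ V) (R : Submodule ℂ V')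
    [FiniteDimensional ℂ A] (hB : B ≤ A) (hBE : ∀ x ∈ B, E x = 0) (hR : R ≤ A.map E) :
    finrank ℂ B + finrank ℂ R ≤ finrank ℂ A := by
  have h1 := LinearMap.finrank_range_add_finrank_ker (E.domRestrict A)
  have h2 : finrank ℂ R ≤ finrank ℂ (LinearMap.range (E.domRestrict A)) := by
    rw [LinearMap.range_domRestrict]
    exact Submodule.finrank_mono hR
  have h3 : finrank ℂ B ≤ finrank ℂ (LinearMap.ker (E.domRestrict A)) := by
    rw [← (Submodule.comapSubtypeEquivOfLe hB).finrank_eq]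
    refine Submodule.finrank_mono ?_
    intro x hx
    exact hBE _ hx
  omega

theorem finrank_map_mul {R : Type*} [CommRing R] [IsDomain R] [Algebra ℂ R] {g : R} (hg : g ≠ 0)
    (A : Submodule ℂ R) : finrank ℂ (A.map (LinearMap.mulLeft ℂ g)) = finrank ℂ A := by
  have h : Function.Injective (LinearMap.mulLeft ℂ g) := fun a b h => mul_left_cancel₀ hg h
  exact (Submodule.equivMapOfInjective _ h A).finrank_eq.symm

instance (q : Fin 3 → ℂ[X]) (M i : ℕ) : FiniteDimensional ℂ (U q M i) := by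
  refine FiniteDimensional.span_of_finite ℂ ?_
  refine Set.Finite.subset (((Finset.range (i + 1)).finite_toSet.prod
    (Finset.piAntidiag (Finset.univ : Finset (Fin 3)) M).finite_toSet).image
    fun x => X ^ x.1 * ∏ j, q j ^ x.2 j) ?_
  rintro F ⟨a, f, ha, hf, rfl⟩
  refine ⟨(a, f), ⟨?_, ?_⟩, rfl⟩
  · simpa using Nat.lt_succ_of_le ha
  · simpa [Finset.mem_piAntidiag] using hf

theorem finrank_U (q : Fin 3 → ℂ[X])
    (hq : ∀ k ≤ 2, (X : ℂ[X]) ^ k ∈ Submodule.span ℂ (Set.range q)) (M i : ℕ) :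
    2 * M + i + 1 ≤ finrank ℂ (U q M i) := by
  have h1 : degreeLT ℂ (2 * M + i + 1) ≤ U q M i := by
    rw [degreeLT_eq_span_X_pow, Submodule.span_le]
    intro F hF
    simp only [Finset.coe_image, Finset.coe_range, Set.mem_image, Set.mem_Iio] at hF
    obtain ⟨k, hk, rfl⟩ := hF
    exact X_pow_mem_U q hq M i k (by omega)
  have h2 : finrank ℂ (degreeLT ℂ (2 * M + i + 1)) = 2 * M + i + 1 := by
    rw [(degreeLTEquiv ℂ (2 * M + i + 1)).finrank_eq]
    simp
  rw [← h2]
  exact Submodule.finrank_mono h1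

theorem pp_ne_zero {α g1 g2 : Fin 4 → ℂ} (h : ∀ j k, j ≠ k → g1 j * g2 k ≠ g1 k * g2 j)
    (j : Fin 4) : pp α g1 g2 j ≠ 0 := by
  have hg : ∀ k, gam g1 g2 k ≠ 0 := by
    intro k hk
    have h0 : g1 k = 0 := by
      have := congrArg (fun P => coeff P 0) hk
      simpa [gam] using this
    have h1 : g2 k = 0 := by
      have := congrArg (fun P => coeff P 1) hk
      simpa [gam, coeff_C] using this
    obtain ⟨l, hl⟩ : ∃ l : Fin 4, l ≠ k := exists_ne k
    exact h l k hl (by rw [h0, h1]; ring)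
  unfold pp
  refine mul_ne_zero (C_ne_zero.mpr ?_) (X_sub_C_ne_zero _)
  exact Finset.prod_ne_zero_iff.mpr fun k _ => hg k

theorem finrank_W {α g1 g2 : Fin 4 → ℂ} (hα : Function.Injective α)
    (h : ∀ j k, j ≠ k → g1 j * g2 k ≠ g1 k * g2 j) (M i : ℕ) :
    (M + 1) * (M + 1 + i) ≤ finrank ℂ (W α g1 g2 M i) := by
  have hα' : ∀ j : Fin 3, α 0 - α j.succ ≠ 0 := fun j => sub_ne_zero.mpr fun h => by
    have := hα h
    exact absurd this (Fin.succ_ne_zero j).symm
  have hg0 : gam g1 g2 0 ≠ 0 := by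
    intro hk
    have h0 : g1 0 = 0 := by
      have := congrArg (fun P => coeff P 0) hk
      simpa [gam] using this
    have h1 : g2 0 = 0 := by
      have := congrArg (fun P => coeff P 1) hk
      simpa [gam, coeff_C] using this
    exact h 1 0 (by decide) (by rw [h0, h1]; ring)
  set q : Fin 3 → ℂ[X] := ![C (α 0 - α 1) * (gam g1 g2 2 * gam g1 g2 3),
    C (α 0 - α 2) * (gam g1 g2 1 * gam g1 g2 3), C (α 0 - α 3) * (gam g1 g2 1 * gam g1 g2 2)]
    with hqdef
  have hq : ∀ k ≤ 2, (X : ℂ[X]) ^ k ∈ Submodule.span ℂ (Set.range q) := by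
    intro k hk
    exact quad (h 1 2 (by decide)) (h 1 3 (by decide)) (h 2 3 (by decide)) (hα' 0) (hα' 1)
      (hα' 2) hk
  have e1 : (Finset.univ.erase (1 : Fin 4)) = {0, 2, 3} := by decide
  have e2 : (Finset.univ.erase (2 : Fin 4)) = {0, 1, 3} := by decide
  have e3 : (Finset.univ.erase (3 : Fin 4)) = {0, 1, 2} := by decide
  have hres : ∀ j : Fin 3, res (α 0) (pp α g1 g2 j.succ) = gam g1 g2 0 * q j := by
    intro j
    rw [res_pp]
    fin_cases j
    · change (∏ k ∈ Finset.univ.erase (1 : Fin 4), gam g1 g2 k) * C (α 0 - α 1) = gam g1 g2 0 *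
        (C (α 0 - α 1) * (gam g1 g2 2 * gam g1 g2 3))
      rw [e1, Finset.prod_insert (by decide), Finset.prod_insert (by decide),
        Finset.prod_singleton]
      ring
    · change (∏ k ∈ Finset.univ.erase (2 : Fin 4), gam g1 g2 k) * C (α 0 - α 2) = gam g1 g2 0 *
        (C (α 0 - α 2) * (gam g1 g2 1 * gam g1 g2 3))
      rw [e2, Finset.prod_insert (by decide), Finset.prod_insert (by decide),
        Finset.prod_singleton]
      ring
    · change (∏ k ∈ Finset.univ.erase (3 : Fin 4), gam g1 g2 k) * C (α 0 - α 3) = gam g1 g2 0 *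
        (C (α 0 - α 3) * (gam g1 g2 1 * gam g1 g2 2))
      rw [e3, Finset.prod_insert (by decide), Finset.prod_insert (by decide),
        Finset.prod_singleton]
      ring
  have hR : ∀ M, (U q M i).map (LinearMap.mulLeft ℂ (gam g1 g2 0 ^ M)) ≤
      (W α g1 g2 M i).map (res (α 0)).toLinearMap := by
    intro M
    rw [Submodule.map_le_iff_le_comap]
    refine Submodule.span_le.mpr ?_
    rintro F ⟨a, f, ha, hf, rfl⟩
    refine ⟨C (X ^ a) * ∏ j, pp α g1 g2 j ^ (Fin.cons 0 f : Fin 4 → ℕ) j,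
      Submodule.subset_span ⟨a, Fin.cons 0 f, ha, ?_, rfl⟩, ?_⟩
    · rw [Fin.sum_univ_succ]
      simpa using hf
    · rw [Fin.prod_univ_succ]
      simp only [Fin.cons_zero, Fin.cons_succ, pow_zero, one_mul, AlgHom.toLinearMap_apply,
        map_mul, map_prod, map_pow, res_C, hres, LinearMap.mulLeft_apply, mul_pow,
        Finset.prod_mul_distrib]
      rw [Finset.prod_pow_eq_pow_sum, hf]
      ring
  have hRank : ∀ M, 2 * M + i + 1 ≤ finrank ℂ
      ((U q M i).map (LinearMap.mulLeft ℂ (gam g1 g2 0 ^ M))) := by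
    intro M
    rw [finrank_map_mul (pow_ne_zero _ hg0)]
    exact finrank_U q hq M i
  induction M with
  | zero =>
    have h1 := finrank_rank_null (res (α 0)).toLinearMap (W α g1 g2 0 i) ⊥ _ bot_le
      (by simp) (hR 0)
    have h2 := hRank 0
    simp only [finrank_bot] at h1
    omega
  | succ M ih =>
    have h1 := finrank_rank_null (res (α 0)).toLinearMap (W α g1 g2 (M + 1) i)
      ((W α g1 g2 M i).map (LinearMap.mulLeft ℂ (pp α g1 g2 0))) _ ?_ ?_ (hR (M + 1))
    · have h2 := hRank (M + 1)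
      rw [finrank_map_mul (pp_ne_zero h 0)] at h1
      nlinarith
    · rw [Submodule.map_le_iff_le_comap]
      intro F hF
      exact W_mul α g1 g2 M i 0 hF
    · rintro _ ⟨F, hF, rfl⟩
      rw [LinearMap.mulLeft_apply, AlgHom.toLinearMap_apply, map_mul, res_pp]
      simp

end Vale.Agent.P018.QB.Surf
end

section

/-! # P018, quartics: the spanning lemma (partial fractions).

For pairwise coprime linear polynomials `ϖ_0, …, ϖ_r` over a field and `κ ≤ l + 1`, the products
`∏ ϖ_j^(κ (i - m_j)) u^μ` with `∑ m_j = i`, `μ ≤ l` span all polynomials of degree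
`≤ κ i r + l`. -/

namespace Vale.Agent.P018.Q

open Polynomial

variable {k : Type*} [Field k]

/-- the set of products `∏ ϖ_j^(κ (i - m_j)) u^μ`, `∑ m_j = i`, `μ ≤ l`. -/
def prodSet {r : ℕ} (κ i l : ℕ) (ϖ : Fin r → k[X]) : Set k[X] :=
  {Q | ∃ (m : Fin r → ℕ) (μ : ℕ), ∑ j, m j = i ∧ μ ≤ l ∧
    Q = (∏ j, ϖ j ^ (κ * (i - m j))) * X ^ μ}

theorem prodSet_mul_poly {r : ℕ} (κ i l : ℕ) (ϖ : Fin r → k[X]) (m : Fin r → ℕ)
    (hm : ∑ j, m j = i) (G : k[X]) (hG : G.natDegree ≤ l) :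
    (∏ j, ϖ j ^ (κ * (i - m j))) * G ∈ Submodule.span k (prodSet κ i l ϖ) := by
  rw [G.as_sum_range' (l + 1) (by omega), Finset.mul_sum]
  refine Submodule.sum_mem _ fun μ hμ => ?_
  rw [← C_mul_X_pow_eq_monomial, mul_left_comm, ← smul_eq_C_mul]
  refine Submodule.smul_mem _ _ (Submodule.subset_span ⟨m, μ, hm, ?_, rfl⟩)
  rw [Finset.mem_range] at hμ
  omega

theorem prodSet_natDegree_le {r : ℕ} (κ i l : ℕ) (ϖ : Fin (r + 1) → k[X])
    (hdeg : ∀ j, (ϖ j).natDegree = 1) {Q : k[X]} (hQ : Q ∈ Submodule.span k (prodSet κ i l ϖ)) :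
    Q.natDegree ≤ κ * i * r + l := by
  have h : Submodule.span k (prodSet κ i l ϖ) ≤ degreeLE k ((κ * i * r + l : ℕ) : WithBot ℕ) := by
    rw [Submodule.span_le]
    rintro _ ⟨m, μ, hm, hμ, rfl⟩
    rw [SetLike.mem_coe, mem_degreeLE]
    refine degree_le_of_natDegree_le ?_
    refine natDegree_mul_le.trans ?_
    rw [natDegree_X_pow]
    refine Nat.add_le_add ?_ hμ
    refine (natDegree_prod_le _ _).trans ?_
    have h1 : ∀ j ∈ Finset.univ, (ϖ j ^ (κ * (i - m j))).natDegree ≤ κ * (i - m j) := by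
      intro j _
      refine natDegree_pow_le.trans ?_
      rw [hdeg j, mul_one]
    refine (Finset.sum_le_sum h1).trans ?_
    rw [← Finset.mul_sum]
    have h2 : ∑ j : Fin (r + 1), (i - m j) + i = (r + 1) * i := by
      conv_lhs => rw [← hm]
      rw [hm, ← hm, ← Finset.sum_add_distrib]
      have h3 : ∀ j ∈ Finset.univ, (∑ j, m j - m j) + m j = i := by
        intro j _
        have := Finset.single_le_sum (f := m) (fun _ _ => Nat.zero_le _) (Finset.mem_univ j)
        omega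
      rw [Finset.sum_congr rfl h3]
      simp [hm]
    have h4 : ∑ j : Fin (r + 1), (i - m j) = i * r := by
      have : (r + 1) * i = i * r + i := by ring
      omega
    rw [h4, mul_assoc]
  have := h hQ
  rw [mem_degreeLE] at this
  exact natDegree_le_of_degree_le this

theorem span_prodSet (κ i l : ℕ) (hl : κ ≤ l + 1) (r : ℕ) :
    ∀ (ϖ : Fin (r + 1) → k[X]), (∀ j, (ϖ j).natDegree = 1) →
      (∀ i j, i ≠ j → IsCoprime (ϖ i) (ϖ j)) → ∀ P : k[X], P.natDegree ≤ κ * i * r + l →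
      P ∈ Submodule.span k (prodSet κ i l ϖ) := by
  induction r with
  | zero =>
    intro ϖ _ _ P hP
    have h := prodSet_mul_poly κ i l ϖ (fun _ => i) (by simp) P (by simpa using hP)
    simpa using h
  | succ r ih =>
    intro ϖ hdeg hcop P hP
    set w : k[X] := ϖ (Fin.last (r + 1)) with hw
    have hw1 : w.natDegree = 1 := hdeg _
    have hw0 : w ≠ 0 := by
      intro h
      rw [h] at hw1
      simp at hw1
    -- the root of `w`
    obtain ⟨x0, hx0⟩ : ∃ x0, w.eval x0 = 0 := by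
      refine ⟨-(w.coeff 0) / w.coeff 1, ?_⟩
      have h1 : w.coeff 1 ≠ 0 := by
        have := leadingCoeff_ne_zero.mpr hw0
        rwa [leadingCoeff, hw1] at this
      rw [eval_eq_sum_range, hw1, Finset.sum_range_succ, Finset.sum_range_one]
      field_simp
      ring
    have hwdvd : ∀ Q : k[X], Q.eval x0 = 0 → w ∣ Q := by
      intro Q hQ
      have h1 : (X - C x0) ∣ Q := dvd_iff_isRoot.mpr hQ
      have h2 : (X - C x0) ∣ w := dvd_iff_isRoot.mpr hx0
      obtain ⟨e, he⟩ := h2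
      have h3 : e.natDegree = 0 := by
        have h4 := congrArg natDegree he
        rw [hw1] at h4
        have he0 : e ≠ 0 := by
          rintro rfl
          rw [mul_zero] at he
          exact hw0 he
        rw [natDegree_mul (X_sub_C_ne_zero x0) he0, natDegree_X_sub_C] at h4
        omega
      have h5 : IsUnit e := by
        rw [natDegree_eq_zero] at h3
        obtain ⟨c, rfl⟩ := h3
        rw [isUnit_C, isUnit_iff_ne_zero]
        rintro rfl
        rw [C_0, mul_zero] at he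
        exact hw0 he
      rw [he]
      exact (h5.mul_right_dvd).mpr h1
    have hne : ∀ j : Fin (r + 1), (ϖ j.castSucc).eval x0 ≠ 0 := by
      intro j h0
      obtain ⟨a, b, hab⟩ := hcop j.castSucc (Fin.last _) (Fin.castSucc_lt_last j).ne
      have := congrArg (eval x0) hab
      rw [eval_add, eval_mul, eval_mul, h0, ← hw, hx0] at this
      simp at this
    -- elimination at the root of `w`
    have key : ∀ j, j ≤ κ * i → ∃ Q ∈ Submodule.span k (prodSet κ i l ϖ), w ^ j ∣ P - Q := by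
      intro j
      induction j with
      | zero => exact fun _ => ⟨0, Submodule.zero_mem _, by simp⟩
      | succ j ihj =>
        intro hj
        obtain ⟨Q, hQ, P', hP'⟩ := ihj (by omega)
        have hκ : 0 < κ := by
          rcases Nat.eq_zero_or_pos κ with h | h
          · subst h
            simp at hj
          · exact h
        have hji : j / κ < i := by
          rw [Nat.div_lt_iff_lt_mul hκ, mul_comm]
          omega
        have hmod : κ * (j / κ) + j % κ = j := Nat.div_add_mod j κ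
        set q := j / κ with hq
        set m : Fin (r + 2) → ℕ := Fin.snoc (Fin.cons q (fun _ => 0) : Fin (r + 1) → ℕ) (i - q)
          with hm
        have hmsum : ∑ j, m j = i := by
          rw [Fin.sum_univ_castSucc]
          simp only [hm, Fin.snoc_castSucc, Fin.snoc_last]
          rw [Fin.sum_univ_succ]
          simp only [Fin.cons_zero, Fin.cons_succ, Finset.sum_const_zero]
          omega
        set e : k[X] := (∏ j, ϖ j ^ (κ * (i - m j))) * w ^ (j % κ) with he
        have heS : e ∈ Submodule.span k (prodSet κ i l ϖ) := by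
          refine prodSet_mul_poly κ i l ϖ m hmsum _ ?_
          refine natDegree_pow_le.trans ?_
          rw [hw1]
          have := Nat.mod_lt j hκ
          omega
        set e' : k[X] := ∏ j : Fin (r + 1), ϖ j.castSucc ^ (κ * (i - m j.castSucc)) with he'
        have hee : e = w ^ j * e' := by
          rw [he, Fin.prod_univ_castSucc, ← he', ← hw]
          have h1 : m (Fin.last (r + 1)) = i - q := by simp [hm]
          rw [h1]
          have h2 : κ * (i - (i - q)) = κ * q := by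
            rw [Nat.sub_sub_self hji.le]
          rw [h2]
          conv_rhs => rw [← hmod, pow_add]
          ring
        have he0 : e'.eval x0 ≠ 0 := by
          rw [he', eval_prod, Finset.prod_ne_zero_iff]
          intro j _
          rw [eval_pow]
          exact pow_ne_zero _ (hne j)
        refine ⟨Q + (P'.eval x0 / e'.eval x0) • e,
          Submodule.add_mem _ hQ (Submodule.smul_mem _ _ heS), ?_⟩
        have h6 : P - (Q + (P'.eval x0 / e'.eval x0) • e) =
            w ^ j * (P' - C (P'.eval x0 / e'.eval x0) * e') := by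
          rw [← sub_sub, hP', smul_eq_C_mul, hee]
          ring
        rw [h6, pow_succ]
        refine mul_dvd_mul_left _ (hwdvd _ ?_)
        rw [eval_sub, eval_mul, eval_C, div_mul_cancel₀ _ he0, sub_self]
    obtain ⟨Q, hQ, P', hP'⟩ := key (κ * i) le_rfl
    have hQd := prodSet_natDegree_le κ i l ϖ hdeg hQ
    have hP'd : P'.natDegree ≤ κ * i * r + l := by
      by_cases h0 : P' = 0
      · simp [h0]
      have h1 : (P - Q).natDegree ≤ κ * i * (r + 1) + l :=
        (natDegree_sub_le _ _).trans (max_le hP hQd)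
      rw [hP', natDegree_mul (pow_ne_zero _ hw0) h0, natDegree_pow, hw1] at h1
      have : κ * i * (r + 1) = κ * i * r + κ * i := by ring
      omega
    have h7 := ih (fun j => ϖ j.castSucc) (fun j => hdeg _)
      (fun a b hab => hcop _ _ (fun h => hab (Fin.castSucc_injective _ h))) P' hP'd
    have h8 : (w ^ (κ * i) * P') ∈ Submodule.span k (prodSet κ i l ϖ) := by
      have h9 : Submodule.map (LinearMap.mulLeft k (w ^ (κ * i)))
          (Submodule.span k (prodSet κ i l (fun j : Fin (r + 1) => ϖ j.castSucc))) ≤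
          Submodule.span k (prodSet κ i l ϖ) := by
        rw [Submodule.map_span, Submodule.span_le]
        rintro _ ⟨_, ⟨m, μ, hm, hμ, rfl⟩, rfl⟩
        refine Submodule.subset_span ⟨Fin.snoc m 0, μ, ?_, hμ, ?_⟩
        · rw [Fin.sum_univ_castSucc]
          simp [hm]
        · rw [LinearMap.mulLeft_apply, Fin.prod_univ_castSucc (n := r + 1)]
          simp only [Fin.snoc_castSucc, Fin.snoc_last, Nat.sub_zero]
          rw [← hw]
          ring
      exact h9 ⟨P', h7, rfl⟩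
    have h10 : P = Q + w ^ (κ * i) * P' := by
      rw [← hP']
      ring
    rw [h10]
    exact Submodule.add_mem _ hQ h8

end Vale.Agent.P018.Q
end

section

/-! # P018, quartics, family (B): definitions for the ranks of functions on curves.

`n` is the outer variable, `ξ` (`= w = u2 / u1`) the inner one; `ϖ_j(ξ)` is the linear polynomial
`γ_j / u1`. Everything is over a field `k` (here `ℂ`). -/

namespace Vale.Agent.P018.Q

open Polynomial

variable {k : Type*} [Field k]

/-- `n - θ`. -/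
noncomputable def lin (θ : k) : k[X][X] := X - C (C θ)

/-- the degree in the inner variable. -/
noncomputable def dIn (g : k[X][X]) : ℕ := (Bivariate.swap g).natDegree

/-- the substitution `n = θ + ϖ Y`. -/
noncomputable def tw (θ : k) (ϖ : k[X]) (g : k[X][X]) : k[X][X] := g.comp (C (C θ) + C ϖ * X)

/-- `g` has order exactly `w` at the point `(n, ξ) = (θ, root of ϖ)`. -/
def OrdAt (θ : k) (ϖ : k[X]) (w : ℕ) (g : k[X][X]) : Prop :=
  C ϖ ^ w ∣ tw θ ϖ g ∧ ¬ C ϖ ^ (w + 1) ∣ tw θ ϖ g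

/-- the function `∏_j (n - θ_j)^(m_j) ϖ_j^(M - m_j) ξ^a`. -/
noncomputable def fB (θ : Fin 4 → k) (ϖ : Fin 4 → k[X]) (M : ℕ) (m : Fin 4 → ℕ) (a : ℕ) : k[X][X] :=
  (∏ j, lin (θ j) ^ m j * C (ϖ j ^ (M - m j))) * C (X ^ a)

/-- the space spanned by the functions `fB` with `∑ m_j = M`, `a ≤ I`. -/
noncomputable def MB (θ : Fin 4 → k) (ϖ : Fin 4 → k[X]) (M I : ℕ) : Submodule k k[X][X] :=
  Submodule.span k {F | ∃ (m : Fin 4 → ℕ) (a : ℕ), ∑ j, m j = M ∧ a ≤ I ∧ F = fB θ ϖ M m a}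

/-- the rank of a space of functions modulo `g`. -/
noncomputable def rk (g : k[X][X]) (W : Submodule k k[X][X]) : ℕ :=
  Module.finrank k (W.map (Submodule.mkQ ((Ideal.span {g}).restrictScalars k)))

/-- four distinct points and four pairwise coprime linear polynomials. -/
structure Conf (θ : Fin 4 → k) (ϖ : Fin 4 → k[X]) : Prop where
  inj : Function.Injective θ
  deg : ∀ j, (ϖ j).natDegree = 1
  cop : ∀ i j, i ≠ j → IsCoprime (ϖ i) (ϖ j)

/-- `x_i x_j ~ (n - θ_i)(n - θ_j) ϖ_i ϖ_j` is not a square on the curve `g = 0`. -/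
def NSq (θ : Fin 4 → k) (ϖ : Fin 4 → k[X]) (g : k[X][X]) (i j : Fin 4) : Prop :=
  ∀ f h : k[X][X], g ∣ f ^ 2 - lin (θ i) * lin (θ j) * C (ϖ i * ϖ j) * h ^ 2 → g ∣ h

end Vale.Agent.P018.Q
end

section

/-! # P018, quartics, family (B): classification of the curves. -/

namespace Vale.Agent.P018.Q

open Polynomial

variable {k : Type*} [Field k]

namespace RClass

theorem coeff_coeff_swap (p : k[X][X]) (m r : ℕ) :
    ((Bivariate.swap p).coeff r).coeff m = (p.coeff m).coeff r := by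
  induction p using Polynomial.induction_on' with
  | add p q hp hq => simp only [map_add, coeff_add, hp, hq]
  | monomial n f =>
    induction f using Polynomial.induction_on' with
    | add f h hf hh => simp only [map_add, coeff_add, hf, hh]
    | monomial l c =>
      rw [Bivariate.swap_monomial_monomial]
      simp only [coeff_monomial]
      split_ifs <;> simp_all [coeff_monomial]

theorem natDegree_coeff_le (p : k[X][X]) (a : ℕ) : (p.coeff a).natDegree ≤ dIn p := by
  rw [natDegree_le_iff_coeff_eq_zero]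
  intro N hN
  rw [← coeff_coeff_swap, coeff_eq_zero_of_natDegree_lt hN, coeff_zero]

/-- homogenisation. -/
noncomputable def rchom (g : k[X][X]) (A B : k[X]) : k[X] :=
  ∑ a ∈ Finset.range (g.natDegree + 1), g.coeff a * B ^ a * A ^ (g.natDegree - a)

theorem natDegree_hom_le (g : k[X][X]) {A B : k[X]} (hA : A.natDegree ≤ 2)
    (hB : B.natDegree ≤ 2) : (rchom g A B).natDegree ≤ dIn g + 2 * g.natDegree := by
  unfold rchom
  refine natDegree_sum_le_of_forall_le _ _ fun a ha => ?_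
  have ha' : a ≤ g.natDegree := Nat.lt_succ_iff.1 (Finset.mem_range.1 ha)
  have h1 : (B ^ a).natDegree ≤ a * 2 := natDegree_pow_le.trans (Nat.mul_le_mul_left a hB)
  have h2 : (A ^ (g.natDegree - a)).natDegree ≤ (g.natDegree - a) * 2 :=
    natDegree_pow_le.trans (Nat.mul_le_mul_left _ hA)
  have h3 := natDegree_coeff_le g a
  have h4 : (g.coeff a * B ^ a * A ^ (g.natDegree - a)).natDegree ≤
      (g.coeff a).natDegree + (B ^ a).natDegree + (A ^ (g.natDegree - a)).natDegree :=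
    natDegree_mul_le.trans (Nat.add_le_add_right natDegree_mul_le _)
  omega

theorem eval_hom (g : k[X][X]) {A B : k[X]} {n0 ξ0 : k} (h : B.eval ξ0 = n0 * A.eval ξ0) :
    (rchom g A B).eval ξ0 = (A.eval ξ0) ^ g.natDegree * (g.map (evalRingHom ξ0)).eval n0 := by
  unfold rchom
  rw [eval_finsetSum, eval_eq_sum_range' (n := g.natDegree + 1)
    (Nat.lt_succ_iff.2 natDegree_map_le), Finset.mul_sum]
  refine Finset.sum_congr rfl fun a ha => ?_
  have ha' : a ≤ g.natDegree := Nat.lt_succ_iff.1 (Finset.mem_range.1 ha)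
  rw [eval_mul, eval_mul, eval_pow, eval_pow, h, coeff_map, coe_evalRingHom, mul_pow]
  have : (eval ξ0 A) ^ g.natDegree = (eval ξ0 A) ^ a * (eval ξ0 A) ^ (g.natDegree - a) := by
    rw [← pow_add]; congr 1; omega
  rw [this]; ring

theorem hom_eq (g : k[X][X]) {A B : k[X]} (hA : A ≠ 0) :
    algebraMap k[X] (FractionRing k[X]) (rchom g A B) =
      (algebraMap k[X] (FractionRing k[X]) A) ^ g.natDegree *
        (g.map (algebraMap k[X] (FractionRing k[X]))).eval
          (algebraMap k[X] (FractionRing k[X]) B / algebraMap k[X] (FractionRing k[X]) A) := by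
  have hA' : algebraMap k[X] (FractionRing k[X]) A ≠ 0 := by
    simpa using hA
  unfold rchom
  rw [map_sum, eval_eq_sum_range' (n := g.natDegree + 1)
    (Nat.lt_succ_iff.2 natDegree_map_le), Finset.mul_sum]
  refine Finset.sum_congr rfl fun a ha => ?_
  have ha' : a ≤ g.natDegree := Nat.lt_succ_iff.1 (Finset.mem_range.1 ha)
  rw [map_mul, map_mul, map_pow, map_pow, coeff_map, div_pow]
  have : (algebraMap k[X] (FractionRing k[X]) A) ^ g.natDegree =
      (algebraMap k[X] (FractionRing k[X]) A) ^ a *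
      (algebraMap k[X] (FractionRing k[X]) A) ^ (g.natDegree - a) := by
    rw [← pow_add]; congr 1; omega
  rw [this]
  field_simp

theorem natDegree_tw_le (θ : k) {ϖ : k[X]} (g : k[X][X]) :
    (tw θ ϖ g).natDegree ≤ g.natDegree := by
  unfold tw
  refine natDegree_comp_le.trans ?_
  have : (C (C θ) + C ϖ * X : k[X][X]).natDegree ≤ 1 := by
    refine (natDegree_add_le _ _).trans ?_
    rw [natDegree_C]
    exact max_le (Nat.zero_le _) ((natDegree_C_mul_le _ _).trans natDegree_X_le)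
  exact (Nat.mul_le_mul_left _ this).trans (by rw [mul_one])

theorem dvd_hom (θ : k) {ϖ A B D : k[X]} {g : k[X][X]} {w : ℕ} (hA : A ≠ 0)
    (hB : B = C θ * A + ϖ * D) (hw : C ϖ ^ w ∣ tw θ ϖ g) : ϖ ^ w ∣ rchom g A B := by
  have hA' : algebraMap k[X] (FractionRing k[X]) A ≠ 0 := by
    simpa using hA
  have key : rchom g A B = ∑ a ∈ Finset.range (g.natDegree + 1),
      (tw θ ϖ g).coeff a * D ^ a * A ^ (g.natDegree - a) := by
    apply IsFractionRing.injective k[X] (FractionRing k[X])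
    rw [hom_eq g hA]
    have h1 : (g.map (algebraMap k[X] (FractionRing k[X]))).eval
          (algebraMap k[X] (FractionRing k[X]) B / algebraMap k[X] (FractionRing k[X]) A) =
        ((tw θ ϖ g).map (algebraMap k[X] (FractionRing k[X]))).eval
          (algebraMap k[X] (FractionRing k[X]) D / algebraMap k[X] (FractionRing k[X]) A) := by
      unfold tw
      rw [map_comp, eval_comp]
      congr 1
      rw [Polynomial.map_add, Polynomial.map_mul, map_C, map_C, map_X, eval_add, eval_mul,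
        eval_C, eval_C, eval_X, hB, map_add, map_mul, map_mul]
      field_simp
    rw [h1, map_sum, eval_eq_sum_range' (n := g.natDegree + 1)
      (Nat.lt_succ_iff.2 (natDegree_map_le.trans (natDegree_tw_le θ g))), Finset.mul_sum]
    refine Finset.sum_congr rfl fun a ha => ?_
    have ha' : a ≤ g.natDegree := Nat.lt_succ_iff.1 (Finset.mem_range.1 ha)
    rw [map_mul, map_mul, map_pow, map_pow, coeff_map, div_pow]
    have : (algebraMap k[X] (FractionRing k[X]) A) ^ g.natDegree =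
        (algebraMap k[X] (FractionRing k[X]) A) ^ a *
        (algebraMap k[X] (FractionRing k[X]) A) ^ (g.natDegree - a) := by
      rw [← pow_add]; congr 1; omega
    rw [this]
    field_simp
  rw [key]
  refine Finset.dvd_sum fun a _ => ?_
  rw [← C_pow, C_dvd_iff_dvd_coeff] at hw
  exact Dvd.dvd.mul_right (Dvd.dvd.mul_right (hw a) _) _

theorem hom_ne_zero {g : k[X][X]} (hg : Irreducible g) (hE : 2 ≤ g.natDegree) {A B : k[X]}
    (hA : A ≠ 0) : rchom g A B ≠ 0 := by
  intro h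
  have hA' : algebraMap k[X] (FractionRing k[X]) A ≠ 0 := by
    simpa using hA
  have h1 := hom_eq g (B := B) hA
  rw [h, map_zero] at h1
  have h2 : (g.map (algebraMap k[X] (FractionRing k[X]))).eval
          (algebraMap k[X] (FractionRing k[X]) B / algebraMap k[X] (FractionRing k[X]) A) = 0 := by
    rcases mul_eq_zero.1 h1.symm with h3 | h3
    · exact absurd (eq_zero_of_pow_eq_zero h3) hA'
    · exact h3
  have hirr : Irreducible (g.map (algebraMap k[X] (FractionRing k[X]))) :=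
    (IsPrimitive.irreducible_iff_irreducible_map_fraction_map
      (hg.isPrimitive (by omega))).1 hg
  refine hirr.not_isRoot_of_natDegree_ne_one ?_ h2
  rw [natDegree_map_eq_of_injective (IsFractionRing.injective k[X] (FractionRing k[X]))]
  omega

/-- a polynomial of degree `≤ 2` divisible by four pairwise coprime linear ones is `0`. -/
theorem eq_zero_of_dvd {ϖ : Fin 4 → k[X]} (hd : ∀ j, (ϖ j).natDegree = 1)
    (hc : ∀ i j, i ≠ j → IsCoprime (ϖ i) (ϖ j)) {B : k[X]} (hB : B.natDegree ≤ 2)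
    (h : ∀ j, ϖ j ∣ B) : B = 0 := by
  by_contra hne
  have h1 : (∏ j, ϖ j) ∣ B :=
    Finset.prod_dvd_of_coprime (fun i _ j _ hij => hc i j hij) (fun j _ => h j)
  have h2 := natDegree_le_of_dvd h1 hne
  rw [natDegree_prod _ _ (fun j _ => by
    intro h0; have := hd j; rw [h0, natDegree_zero] at this; omega)] at h2
  simp only [hd, Finset.sum_const, Finset.card_univ, Fintype.card_fin, smul_eq_mul] at h2
  omega

/-- existence of the pencil element. -/
theorem exists_pair (θ : Fin 4 → k) (ρ : Fin 4 → k) (n0 ξ0 : k) :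
    ∃ A B : k[X], A.natDegree ≤ 2 ∧ B.natDegree ≤ 2 ∧ (A ≠ 0 ∨ B ≠ 0) ∧
      (∀ j, (B - C (θ j) * A).eval (ρ j) = 0) ∧ B.eval ξ0 = n0 * A.eval ξ0 := by
  classical
  let P : (Fin 3 → k) →ₗ[k] k[X] :=
    (degreeLT k 3).subtype ∘ₗ (degreeLTEquiv k 3).symm.toLinearMap
  have hPinj : Function.Injective P := by
    intro u v huv
    apply (degreeLTEquiv k 3).symm.injective
    exact Subtype.ext huv
  have hPdeg : ∀ v, (P v).natDegree ≤ 2 := by
    intro v
    have h1 : P v ∈ degreeLT k 3 := ((degreeLTEquiv k 3).symm v).2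
    rw [mem_degreeLT] at h1
    refine natDegree_le_iff_coeff_eq_zero.2 fun N hN => ?_
    refine coeff_eq_zero_of_degree_lt (h1.trans_le ?_)
    exact_mod_cast hN
  let L : ((Fin 3 → k) × (Fin 3 → k)) →ₗ[k] ((Fin 4 → k) × k) :=
    LinearMap.prod
      (LinearMap.pi fun j => (leval (ρ j)) ∘ₗ
        (P ∘ₗ LinearMap.snd k _ _ - (θ j) • (P ∘ₗ LinearMap.fst k _ _)))
      ((leval ξ0) ∘ₗ (P ∘ₗ LinearMap.snd k _ _ - n0 • (P ∘ₗ LinearMap.fst k _ _)))
  have hker : LinearMap.ker L ≠ ⊥ := by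
    refine LinearMap.ker_ne_bot_of_finrank_lt ?_
    rw [Module.finrank_prod, Module.finrank_prod, Module.finrank_fin_fun, Module.finrank_fin_fun,
      Module.finrank_self]
    norm_num
  obtain ⟨v, hv, hv0⟩ := (Submodule.ne_bot_iff _).1 hker
  rw [LinearMap.mem_ker] at hv
  refine ⟨P v.1, P v.2, hPdeg _, hPdeg _, ?_, fun j => ?_, ?_⟩
  · by_contra hcon
    push Not at hcon
    apply hv0
    have h1 : v.1 = 0 := hPinj (by rw [hcon.1, map_zero])
    have h2 : v.2 = 0 := hPinj (by rw [hcon.2, map_zero])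
    exact Prod.ext h1 h2
  · have h1 := congrFun (congrArg Prod.fst hv) j
    have h2 : eval (ρ j) (P v.2) - θ j * eval (ρ j) (P v.1) = 0 := by
      simpa [L, leval_apply, smul_eq_C_mul] using h1
    rw [eval_sub, eval_mul, eval_C]
    exact h2
  · have h1 := congrArg Prod.snd hv
    have h2 : eval ξ0 (P v.2) - n0 * eval ξ0 (P v.1) = 0 := by
      simpa [L, leval_apply, smul_eq_C_mul] using h1
    exact sub_eq_zero.1 h2

end RClass

open RClass in
/-- a curve of degree `≥ 2` in `n` which has a point outside `∏ ϖ_j = 0`. -/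
theorem class_d {θ : Fin 4 → k} {ϖ : Fin 4 → k[X]} (hc : Conf θ ϖ) {g : k[X][X]}
    (hg : Irreducible g) (hE : 2 ≤ g.natDegree) {w : Fin 4 → ℕ}
    (hw : ∀ j, C (ϖ j) ^ w j ∣ tw (θ j) (ϖ j) g) {n0 ξ0 : k}
    (h0 : (g.map (evalRingHom ξ0)).eval n0 = 0) (hξ : ∀ j, (ϖ j).eval ξ0 ≠ 0) :
    ∑ j, w j + 1 ≤ dIn g + 2 * g.natDegree := by
  classical
  have hne : ∀ j, ϖ j ≠ 0 := by
    intro j h
    have := hc.deg j
    rw [h, natDegree_zero] at this
    omega
  -- the roots
  have hroot : ∀ j, ∃ ρ : k, ∃ c : k, c ≠ 0 ∧ ϖ j = C c * (X - C ρ) := by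
    intro j
    have h1 := hc.deg j
    have h2 : (ϖ j).coeff 1 ≠ 0 := by
      have := leadingCoeff_ne_zero.2 (hne j)
      rwa [leadingCoeff, h1] at this
    refine ⟨-(ϖ j).coeff 0 / (ϖ j).coeff 1, (ϖ j).coeff 1, h2, ?_⟩
    conv_lhs => rw [eq_X_add_C_of_natDegree_le_one h1.le]
    rw [mul_sub, ← C_mul]
    have : (ϖ j).coeff 1 * (-(ϖ j).coeff 0 / (ϖ j).coeff 1) = -(ϖ j).coeff 0 := by
      field_simp
    rw [this, C_neg, sub_neg_eq_add]
  choose ρ c hc0 hϖ using hroot
  obtain ⟨A, B, hA2, hB2, hAB, hj, hB0⟩ := exists_pair θ ρ n0 ξ0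
  have hdvd : ∀ j, ϖ j ∣ B - C (θ j) * A := by
    intro j
    have h1 : (X - C (ρ j)) ∣ B - C (θ j) * A := dvd_iff_isRoot.2 (hj j)
    rw [hϖ j]
    obtain ⟨q, hq⟩ := h1
    refine ⟨C (c j)⁻¹ * q, ?_⟩
    rw [hq]
    have : (C (c j) : k[X]) * C (c j)⁻¹ = 1 := by rw [← C_mul, mul_inv_cancel₀ (hc0 j), C_1]
    linear_combination (-(X - C (ρ j)) * q) * this
  have hA : A ≠ 0 := by
    rintro rfl
    have hB : B = 0 := by
      refine eq_zero_of_dvd hc.deg hc.cop hB2 fun j => ?_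
      simpa using hdvd j
    rcases hAB with h | h
    · exact h rfl
    · exact h hB
  have hr0 := hom_ne_zero hg hE (B := B) hA
  have hrdeg := natDegree_hom_le g hA2 hB2
  have hr1 : ∀ j, ϖ j ^ w j ∣ rchom g A B := by
    intro j
    obtain ⟨D, hD⟩ := hdvd j
    exact dvd_hom (θ j) (D := D) hA (by rw [← hD]; ring) (hw j)
  have hr2 : (X - C ξ0) ∣ rchom g A B := by
    rw [dvd_iff_isRoot, IsRoot, eval_hom g hB0, h0, mul_zero]
  have hcop1 : IsCoprime (X - C ξ0) (∏ j, ϖ j ^ w j) := by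
    refine IsCoprime.prod_right fun j _ => IsCoprime.pow_right ?_
    refine (irreducible_X_sub_C ξ0).coprime_iff_not_dvd.2 fun h => hξ j ?_
    exact dvd_iff_isRoot.1 h
  have h3 : (X - C ξ0) * (∏ j, ϖ j ^ w j) ∣ rchom g A B := by
    refine hcop1.mul_dvd hr2 ?_
    exact Finset.prod_dvd_of_coprime (fun i _ j _ hij => (hc.cop i j hij).pow) (fun j _ => hr1 j)
  have h4 := natDegree_le_of_dvd h3 hr0
  have h5 : (∏ j, ϖ j ^ w j) ≠ 0 := Finset.prod_ne_zero_iff.2 fun j _ => pow_ne_zero _ (hne j)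
  rw [natDegree_mul (X_sub_C_ne_zero ξ0) h5, natDegree_X_sub_C,
    natDegree_prod _ _ (fun j _ => pow_ne_zero _ (hne j))] at h4
  simp only [natDegree_pow, hc.deg, mul_one] at h4
  omega

end Vale.Agent.P018.Q
end
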