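import Mathlib
import Vale.Agent.P018.Bdl.B1
import Vale.Agent.P018.Bdl.B2

set_option linter.all false

section

/-! The points of a patch lie on a curve of bounded degree. -/

namespace Vale.Agent.P018

open Finset Polynomial

/-- `f(x)` as a polynomial in two variables. -/
noncomputable def fX (f : ℤ[X]) : MvPolynomial (Fin 2) ℚ :=
  Polynomial.aeval (MvPolynomial.X 0) f

theorem evQ_fX (f : ℤ[X]) (z : ℤ × ℤ) : evQ z (fX f) = ((f.eval z.1 : ℤ) : ℚ) := by
  unfold fX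
  rw [Polynomial.aeval_def, Polynomial.hom_eval₂]
  have h1 : evQ z (MvPolynomial.X 0) = (Int.castRingHom ℚ) z.1 := by
    simp [evQ]
  rw [h1, show (evQ z).comp (algebraMap ℤ (MvPolynomial (Fin 2) ℚ)) = Int.castRingHom ℚ from
    RingHom.ext_int _ _, Polynomial.eval₂_at_apply]
  rfl

/-- the two-variable polynomial attached to the monomial `x^a y^b z^c`. -/
noncomputable def gpoly (f : ℤ[X]) (k D : ℕ) (t : ℕ × ℕ × ℕ) : MvPolynomial (Fin 2) ℚ :=
  (MvPolynomial.X 0) ^ t.1 * (MvPolynomial.X 1) ^ (t.2.1 + k * (D - t.2.2)) * (fX f) ^ t.2.2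

theorem evQ_gpoly (f : ℤ[X]) (k D : ℕ) (t : ℕ × ℕ × ℕ) (ht : t.2.2 ≤ D) (z : ℤ × ℤ) (m : ℤ)
    (hm : z.2 ^ k * m = f.eval z.1) :
    evQ z (gpoly f k D t) = (z.2 : ℚ) ^ (k * D) *
      ((z.1 : ℚ) ^ t.1 * (z.2 : ℚ) ^ t.2.1 * (m : ℚ) ^ t.2.2) := by
  unfold gpoly
  rw [map_mul, map_mul, map_pow, map_pow, map_pow, evQ_fX, ← hm]
  have h0 : evQ z (MvPolynomial.X 0) = (z.1 : ℚ) := by simp [evQ]
  have h1 : evQ z (MvPolynomial.X 1) = (z.2 : ℚ) := by simp [evQ]
  rw [h0, h1]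
  push_cast
  rw [mul_pow, ← pow_mul, pow_add]
  have h3 : k * D = k * (D - t.2.2) + k * t.2.2 := by
    rw [← mul_add]
    congr 1
    omega
  rw [h3, pow_add]
  ring

theorem totalDegree_fX_le (f : ℤ[X]) : (fX f).totalDegree ≤ f.natDegree := by
  unfold fX
  rw [Polynomial.aeval_eq_sum_range]
  refine (MvPolynomial.totalDegree_finsetSum _ _).trans ?_
  refine Finset.sup_le fun i hi => ?_
  rw [Finset.mem_range] at hi
  rw [← Int.cast_smul_eq_zsmul ℚ]
  refine (MvPolynomial.totalDegree_smul_le _ _).trans ?_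
  refine (MvPolynomial.totalDegree_pow _ _).trans ?_
  rw [MvPolynomial.totalDegree_X]
  omega

theorem totalDegree_gpoly_le (f : ℤ[X]) (k h D : ℕ) (hh : 1 ≤ h) (t : ℕ × ℕ × ℕ)
    (ht : t.1 + t.2.1 + h * t.2.2 ≤ D) :
    (gpoly f k D t).totalDegree ≤ D + k * D + f.natDegree * D := by
  unfold gpoly
  have hc : t.2.2 ≤ h * t.2.2 := Nat.le_mul_of_pos_left _ hh
  have hc2 : t.2.2 ≤ D := by omega
  refine (MvPolynomial.totalDegree_mul _ _).trans ?_
  have h1 : ((MvPolynomial.X 0 : MvPolynomial (Fin 2) ℚ) ^ t.1 *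
      (MvPolynomial.X 1) ^ (t.2.1 + k * (D - t.2.2))).totalDegree ≤ t.1 + (t.2.1 + k * (D - t.2.2)) := by
    refine (MvPolynomial.totalDegree_mul _ _).trans ?_
    rw [MvPolynomial.totalDegree_X_pow, MvPolynomial.totalDegree_X_pow]
  have h2 : ((fX f) ^ t.2.2).totalDegree ≤ t.2.2 * f.natDegree := by
    refine (MvPolynomial.totalDegree_pow _ _).trans ?_
    exact Nat.mul_le_mul_left _ (totalDegree_fX_le f)
  have h3 : k * (D - t.2.2) ≤ k * D := Nat.mul_le_mul_left _ (Nat.sub_le _ _)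
  have h4 : t.2.2 * f.natDegree ≤ f.natDegree * D := by
    rw [mul_comm]
    exact Nat.mul_le_mul_left _ hc2
  omega

/-- the ring map to `ℚ[X][Y]`. -/
noncomputable def toBi : MvPolynomial (Fin 2) ℚ →ₐ[ℚ] ℚ[X][X] :=
  MvPolynomial.aeval ![(Polynomial.C Polynomial.X : ℚ[X][X]), Polynomial.X]

theorem toBi_fX (f : ℤ[X]) : toBi (fX f) = Polynomial.C (f.map (Int.castRingHom ℚ)) := by
  unfold fX
  rw [Polynomial.aeval_def]
  change (toBi : MvPolynomial (Fin 2) ℚ →+* ℚ[X][X]) _ = _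
  rw [Polynomial.hom_eval₂]
  have h1 : (toBi : MvPolynomial (Fin 2) ℚ →+* ℚ[X][X]) (MvPolynomial.X 0) =
      Polynomial.C Polynomial.X := by
    simp [toBi]
  rw [h1]
  have h2 : Polynomial.C (f.map (Int.castRingHom ℚ)) = (Polynomial.C : ℚ[X] →+* ℚ[X][X])
      ((f.map (Int.castRingHom ℚ)).eval₂ (Polynomial.C : ℚ →+* ℚ[X]) Polynomial.X) := by
    rw [Polynomial.eval₂_C_X]
  rw [h2, Polynomial.hom_eval₂, Polynomial.eval₂_map]
  congr 1
  exact RingHom.ext_int _ _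

theorem toBi_gpoly (f : ℤ[X]) (k D : ℕ) (t : ℕ × ℕ × ℕ) :
    toBi (gpoly f k D t) = Polynomial.C (Polynomial.X ^ t.1 *
      (f.map (Int.castRingHom ℚ)) ^ t.2.2) * Polynomial.X ^ (t.2.1 + k * (D - t.2.2)) := by
  unfold gpoly
  rw [map_mul, map_mul, map_pow, map_pow, map_pow, toBi_fX]
  have h0 : toBi (MvPolynomial.X 0) = Polynomial.C Polynomial.X := by simp [toBi]
  have h1 : toBi (MvPolynomial.X 1) = Polynomial.X := by simp [toBi]
  rw [h0, h1, Polynomial.C_mul, Polynomial.C_pow, Polynomial.C_pow]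
  ring

/-- Linear independence of the `gpoly`. -/
theorem gpoly_sum_ne_zero (f : ℤ[X]) (k h D : ℕ) (hh : 1 ≤ h) (hf : 1 ≤ f.natDegree)
    (α : idx f.natDegree h D → ℚ) (hα : α ≠ 0) :
    ∑ j, MvPolynomial.C (α j) * gpoly f k D (j : ℕ × ℕ × ℕ) ≠ 0 := by
  classical
  intro hzero
  have hex : ∃ j, α j ≠ 0 := by
    by_contra hcon
    push Not at hcon
    exact hα (funext hcon)
  obtain ⟨j0, hj0⟩ := hex
  obtain ⟨js, hjs1, hjs2⟩ := Finset.exists_max_image (univ.filter fun j => α j ≠ 0)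
    (fun j => (j : ℕ × ℕ × ℕ).1 + f.natDegree * (j : ℕ × ℕ × ℕ).2.2)
    ⟨j0, by simp [hj0]⟩
  rw [mem_filter] at hjs1
  have hlc : (f.map (Int.castRingHom ℚ)).leadingCoeff ≠ 0 := by
    rw [Polynomial.leadingCoeff_ne_zero]
    intro h0
    rw [Polynomial.map_eq_zero_iff (Int.cast_injective (α := ℚ))] at h0
    rw [h0] at hf
    simp at hf
  have hnd : (f.map (Int.castRingHom ℚ)).natDegree = f.natDegree :=
    Polynomial.natDegree_map_eq_of_injective (Int.cast_injective (α := ℚ)) f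
  have h1 := congrArg toBi hzero
  rw [map_sum, map_zero] at h1
  have h2 : ∀ j : idx f.natDegree h D, toBi (MvPolynomial.C (α j) * gpoly f k D (j : ℕ × ℕ × ℕ)) =
      Polynomial.C (Polynomial.C (α j) * (Polynomial.X ^ (j : ℕ × ℕ × ℕ).1 *
      (f.map (Int.castRingHom ℚ)) ^ (j : ℕ × ℕ × ℕ).2.2)) *
      Polynomial.X ^ ((j : ℕ × ℕ × ℕ).2.1 + k * (D - (j : ℕ × ℕ × ℕ).2.2)) := by
    intro j
    rw [map_mul, toBi_gpoly, Polynomial.C_mul (a := Polynomial.C (α j))]
    have : toBi (MvPolynomial.C (α j)) = Polynomial.C (Polynomial.C (α j)) := by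
      rw [← MvPolynomial.algebraMap_eq, AlgHom.commutes]
      rfl
    rw [this]
    ring
  simp_rw [h2] at h1
  set e : ℕ := (js : ℕ × ℕ × ℕ).2.1 + k * (D - (js : ℕ × ℕ × ℕ).2.2) with he
  set N : ℕ := (js : ℕ × ℕ × ℕ).1 + f.natDegree * (js : ℕ × ℕ × ℕ).2.2 with hN
  have h3 := congrArg (fun q : ℚ[X][X] => (q.coeff e).coeff N) h1
  simp only [Polynomial.finsetSum_coeff, Polynomial.coeff_zero] at h3
  rw [Finset.sum_eq_single js] at h3
  · rw [Polynomial.coeff_C_mul_X_pow] at h3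
    rw [if_pos he, Polynomial.coeff_C_mul] at h3
    have h4 : (Polynomial.X ^ (js : ℕ × ℕ × ℕ).1 *
      (f.map (Int.castRingHom ℚ)) ^ (js : ℕ × ℕ × ℕ).2.2).coeff N =
        (f.map (Int.castRingHom ℚ)).leadingCoeff ^ (js : ℕ × ℕ × ℕ).2.2 := by
      rw [hN, Polynomial.coeff_X_pow_mul', if_pos (Nat.le_add_right _ _), Nat.add_sub_cancel_left]
      rw [← Polynomial.leadingCoeff_pow, Polynomial.leadingCoeff]
      congr 1
      rw [Polynomial.natDegree_pow, hnd, mul_comm]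
    rw [h4] at h3
    exact (mul_ne_zero hjs1.2 (pow_ne_zero _ hlc)) h3
  · intro j _ hne
    rw [Polynomial.coeff_C_mul_X_pow]
    split_ifs with hej
    · rw [Polynomial.coeff_C_mul]
      by_cases hαj : α j = 0
      · rw [hαj, zero_mul]
      · have h5 := hjs2 j (by simp [hαj])
        have hmj := (mem_idx hh).mp j.2
        have hms := (mem_idx hh).mp js.2
        rcases lt_or_eq_of_le h5 with hlt | heq
        · rw [Polynomial.coeff_eq_zero_of_natDegree_lt, mul_zero]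
          refine lt_of_le_of_lt ?_ hlt
          refine (Polynomial.natDegree_mul_le).trans ?_
          rw [Polynomial.natDegree_X_pow, Polynomial.natDegree_pow, hnd, mul_comm]
        · exfalso
          apply hne
          have ha : (j : ℕ × ℕ × ℕ).1 = (js : ℕ × ℕ × ℕ).1 := by
            rw [hN] at heq
            have := congrArg (· % f.natDegree) heq
            simp only [Nat.add_mul_mod_self_left] at this
            rwa [Nat.mod_eq_of_lt hmj.1, Nat.mod_eq_of_lt hms.1] at this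
          have hc : (j : ℕ × ℕ × ℕ).2.2 = (js : ℕ × ℕ × ℕ).2.2 := by
            rw [ha] at heq
            have := Nat.add_left_cancel heq
            exact Nat.eq_of_mul_eq_mul_left hf this
          have hb : (j : ℕ × ℕ × ℕ).2.1 = (js : ℕ × ℕ × ℕ).2.1 := by
            rw [he, hc] at hej
            omega
          apply Subtype.ext
          exact Prod.ext ha (Prod.ext hb hc)
    · simp
  · intro h
    exact absurd (mem_univ _) h

/-- Module B: the points in a patch lie on a curve of bounded degree. -/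
theorem patch_curve (f : ℤ[X]) (k : ℕ) (hk1 : 1 ≤ k) (hkd : k < f.natDegree) (x : ℝ)
    (hx : 9 * ((f.natDegree : ℝ) - k) / (4 * f.natDegree) < x) :
    ∃ Δ P0 : ℕ, ∀ P : ℕ, P0 ≤ P → ∀ u0 : ℝ, 0 ≤ u0 → u0 ≤ 2 → ∀ Z : Finset (ℤ × ℤ),
      (∀ z ∈ Z, (P : ℤ) < z.2 ∧ z.2 ≤ 2 * P ∧ |(z.1 : ℝ) / z.2 - u0| ≤ (P : ℝ) ^ (-x) ∧
        z.2 ^ k ∣ f.eval z.1) →
      ∃ C : MvPolynomial (Fin 2) ℚ, C ≠ 0 ∧ C.totalDegree ≤ Δ ∧ ∀ z ∈ Z, evQ z C = 0 := by
  classical
  set h : ℕ := f.natDegree - k with hh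
  have hh1 : 1 ≤ h := by omega
  have hkh : k + h = f.natDegree := by omega
  have hx' : 9 * (h : ℝ) / (4 * f.natDegree) < x := by
    have : (h : ℝ) = (f.natDegree : ℝ) - k := by
      rw [← hkh]
      push_cast
      ring
    rwa [this]
  obtain ⟨D, P0, hP01, hmin⟩ := patch_minor f k h hh1 hkh x hx'
  refine ⟨D + k * D + f.natDegree * D, P0, ?_⟩
  intro P hP u0 hu0 hu2 Z hZ
  have hm : ∀ z : Z, ∃ m : ℤ, (z : ℤ × ℤ).2 ^ k * m = f.eval (z : ℤ × ℤ).1 := by
    intro z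
    obtain ⟨m, hm⟩ := (hZ z z.2).2.2.2
    exact ⟨m, hm.symm⟩
  choose m hm using hm
  obtain ⟨α, hα0, hα⟩ := exists_kernel (I := Z) (J := idx f.natDegree h D) (K := ℚ)
    (fun z j => ((z : ℤ × ℤ).1 : ℚ) ^ (j : ℕ × ℕ × ℕ).1 * ((z : ℤ × ℤ).2 : ℚ) ^ (j : ℕ × ℕ × ℕ).2.1 *
      (m z : ℚ) ^ (j : ℕ × ℕ × ℕ).2.2) (by
      intro φ
      have h1 := hmin P hP u0 hu0 hu2 (fun i => (φ i : ℤ × ℤ).1) (fun i => (φ i : ℤ × ℤ).2)
        (fun i => m (φ i)) (fun i => ⟨(hZ _ (φ i).2).1, (hZ _ (φ i).2).2.1, (hZ _ (φ i).2).2.2.1,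
          hm (φ i)⟩)
      have h2 := congrArg (Int.castRingHom ℚ) h1
      rw [RingHom.map_det, map_zero] at h2
      rw [← h2]
      congr 1
      ext i j
      simp)
  refine ⟨∑ j, MvPolynomial.C (α j) * gpoly f k D (j : ℕ × ℕ × ℕ),
    gpoly_sum_ne_zero f k h D hh1 (by omega) α hα0, ?_, ?_⟩
  · refine (MvPolynomial.totalDegree_finsetSum _ _).trans ?_
    refine Finset.sup_le fun j _ => ?_
    refine (MvPolynomial.totalDegree_mul _ _).trans ?_
    rw [MvPolynomial.totalDegree_C, zero_add]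
    exact totalDegree_gpoly_le f k h D hh1 _ ((mem_idx hh1).mp j.2).2
  · intro z hz
    rw [map_sum]
    have h4 := hα ⟨z, hz⟩
    have h5 : ∀ j : idx f.natDegree h D, evQ z (MvPolynomial.C (α j) * gpoly f k D (j : ℕ × ℕ × ℕ)) =
        (z.2 : ℚ) ^ (k * D) * (α j * ((z.1 : ℚ) ^ (j : ℕ × ℕ × ℕ).1 *
          (z.2 : ℚ) ^ (j : ℕ × ℕ × ℕ).2.1 * (m ⟨z, hz⟩ : ℚ) ^ (j : ℕ × ℕ × ℕ).2.2)) := by
      intro j
      have hmj := (mem_idx hh1).mp j.2
      have hc : (j : ℕ × ℕ × ℕ).2.2 ≤ h * (j : ℕ × ℕ × ℕ).2.2 := Nat.le_mul_of_pos_left _ hh1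
      rw [map_mul, evQ_gpoly f k D _ (by omega) z (m ⟨z, hz⟩) (hm ⟨z, hz⟩)]
      have : evQ z (MvPolynomial.C (α j)) = α j := by simp [evQ]
      rw [this]
      ring
    rw [Finset.sum_congr rfl fun j _ => h5 j, ← Finset.mul_sum, h4, mul_zero]

end Vale.Agent.P018
end

section

/-! Points of a curve in one residue class lie on a curve of small degree. -/

namespace Vale.Agent.P018

open Polynomial Finset

theorem det_modEq {s : ℕ} (n : ℤ) (M N : Matrix (Fin s) (Fin s) ℤ) (h : ∀ i j, n ∣ M i j - N i j)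
    (hN : n ∣ N.det) : n ∣ M.det := by
  have h1 : (Ideal.Quotient.mk (Ideal.span {n})).mapMatrix M =
      (Ideal.Quotient.mk (Ideal.span {n})).mapMatrix N := by
    ext i j
    simp only [RingHom.mapMatrix_apply, Matrix.map_apply]
    rw [Ideal.Quotient.eq, Ideal.mem_span_singleton]
    exact h i j
  have h2 : (Ideal.Quotient.mk (Ideal.span {n})) M.det =
      (Ideal.Quotient.mk (Ideal.span {n})) N.det := by
    rw [RingHom.map_det, RingHom.map_det, h1]
  rw [← Ideal.mem_span_singleton, ← Ideal.Quotient.eq_zero_iff_mem, h2,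
    Ideal.Quotient.eq_zero_iff_mem, Ideal.mem_span_singleton]
  exact hN

/-- The monomial matrix. -/
def monoMat {ι κ : Type*} (z : κ → ℤ × ℤ) (e : ι → ℕ × ℕ) : Matrix κ ι ℤ :=
  Matrix.of fun i j => (z i).1 ^ (e j).1 * (z i).2 ^ (e j).2

theorem det_class_fin (Q : MvPolynomial (Fin 2) ℤ) {l x0 y0 : ℤ}
    (hv : IsCoprime l (evZ (x0, y0) (MvPolynomial.pderiv 1 Q))) {s : ℕ} (z : Fin s → ℤ × ℤ)
    (hz : ∀ i, l ∣ (z i).1 - x0 ∧ l ∣ (z i).2 - y0 ∧ evZ (z i) Q = 0) (e : Fin s → ℕ × ℕ) :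
    l ^ (∑ i ∈ range s, i) ∣ (monoMat z e).det := by
  obtain ⟨u, v, huv⟩ := hv
  have hv' : l ∣ 1 - v * ev2 (derivative (toBiv Q)) x0 y0 := by
    rw [derivative_toBiv, ev2_toBiv]
    exact ⟨u, by linear_combination -huv⟩
  obtain ⟨φ, hφ⟩ := hensel_poly (toBiv Q) hv' (∑ i ∈ range s, i)
  set x : ℕ → ℤ := fun i => if h : i < s then (z ⟨i, h⟩).1 else x0 with hx
  have hx0 : ∀ i, l ∣ x i - x0 := by
    intro i
    simp only [hx]
    split_ifs with h
    · exact (hz _).1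
    · simp
  have hxx : ∀ i j, l ∣ x i - x j := by
    intro i j
    have := dvd_sub (hx0 i) (hx0 j)
    rwa [sub_sub_sub_cancel_right] at this
  refine det_modEq _ _ _ ?_ (det_dvd l x hxx (fun j => X ^ (e j).1 * φ ^ (e j).2))
  intro i j
  have hxi : x i = (z i).1 := by
    simp [hx]
  simp only [monoMat, Matrix.of_apply, eval_mul, eval_pow, eval_X, hxi]
  rw [← mul_sub]
  apply Dvd.dvd.mul_left
  have h1 := hφ (z i).1 (z i).2 (hz i).1 (hz i).2.1 (by rw [ev2_toBiv]; exact (hz i).2.2)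
  exact ((pow_dvd_pow l (Nat.le_succ _)).trans h1).trans (sub_dvd_pow_sub_pow _ _ _)

theorem det_class {ι : Type*} [Fintype ι] [DecidableEq ι] (Q : MvPolynomial (Fin 2) ℤ)
    {l x0 y0 : ℤ} (hv : IsCoprime l (evZ (x0, y0) (MvPolynomial.pderiv 1 Q))) (z : ι → ℤ × ℤ)
    (hz : ∀ i, l ∣ (z i).1 - x0 ∧ l ∣ (z i).2 - y0 ∧ evZ (z i) Q = 0) (e : ι → ℕ × ℕ) :
    l ^ (∑ i ∈ range (Fintype.card ι), i) ∣ (monoMat z e).det := by
  have h := det_class_fin Q hv (z ∘ (Fintype.equivFin ι).symm)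
    (fun i => hz _) (e ∘ (Fintype.equivFin ι).symm)
  have h2 : monoMat (z ∘ (Fintype.equivFin ι).symm) (e ∘ (Fintype.equivFin ι).symm) =
      (monoMat z e).submatrix (Fintype.equivFin ι).symm (Fintype.equivFin ι).symm := rfl
  rw [h2, Matrix.det_submatrix_equiv_self] at h
  exact h

theorem abs_det_le {ι : Type*} [Fintype ι] [DecidableEq ι] (z : ι → ℤ × ℤ) (e : ι → ℕ × ℕ)
    (X : ℕ) (hX : 1 ≤ X) (hz : ∀ i, |(z i).1| ≤ X ∧ |(z i).2| ≤ X) :
    |(monoMat z e).det| ≤ (Fintype.card ι).factorial * (X : ℤ) ^ (∑ j, ((e j).1 + (e j).2)) := by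
  rw [Matrix.det_apply]
  refine (abs_sum_le_sum_abs _ _).trans ?_
  calc ∑ σ : Equiv.Perm ι, |Equiv.Perm.sign σ • ∏ i, monoMat z e (σ i) i|
      ≤ ∑ σ : Equiv.Perm ι, (X : ℤ) ^ (∑ j, ((e j).1 + (e j).2)) := by
        apply sum_le_sum
        intro σ _
        rw [Units.smul_def, smul_eq_mul, abs_mul]
        have h1 : |((Equiv.Perm.sign σ : ℤˣ) : ℤ)| = 1 := by
          rcases Int.units_eq_one_or (Equiv.Perm.sign σ) with h | h <;> simp [h]
        rw [h1, one_mul, abs_prod, ← prod_pow_eq_pow_sum]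
        apply prod_le_prod (fun i _ => abs_nonneg _)
        intro i _
        rw [monoMat, Matrix.of_apply, abs_mul, abs_pow, abs_pow, pow_add]
        exact mul_le_mul (pow_le_pow_left₀ (abs_nonneg _) (hz _).1 _)
          (pow_le_pow_left₀ (abs_nonneg _) (hz _).2 _) (by positivity) (by positivity)
    _ = (Fintype.card ι).factorial * (X : ℤ) ^ (∑ j, ((e j).1 + (e j).2)) := by
        rw [sum_const, Finset.card_univ, Fintype.card_perm, nsmul_eq_mul]

theorem exists_relation {ι : Type*} [Fintype ι] [DecidableEq ι] {κ : Type*} (S : Set κ)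
    (v : κ → ι → ℚ) (h : ∀ z : ι → κ, (∀ i, z i ∈ S) → (Matrix.of fun i j => v (z i) j).det = 0) :
    ∃ c : ι → ℚ, c ≠ 0 ∧ ∀ s ∈ S, ∑ j, c j * v s j = 0 := by
  by_cases htop : Submodule.span ℚ (v '' S) = ⊤
  · exfalso
    obtain ⟨b, hbS, hb, hli⟩ := exists_linearIndependent ℚ (v '' S)
    have hb' : Submodule.span ℚ (Set.range ((↑) : b → ι → ℚ)) = ⊤ := by
      rw [Subtype.range_coe, hb, htop]
    let B := Module.Basis.mk hli hb'.ge
    have : Fintype b := FiniteDimensional.fintypeBasisIndex B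
    have hcard : Fintype.card ι = Fintype.card b := by
      rw [← Module.finrank_eq_card_basis B, Module.finrank_fintype_fun_eq_card]
    let E : ι ≃ b := Fintype.equivOfCardEq hcard
    have hch : ∀ i : ι, ∃ k ∈ S, v k = (E i : ι → ℚ) := fun i => hbS (E i).2
    choose z hz hz' using hch
    have hdet := h z hz
    have hli' : LinearIndependent ℚ (Matrix.of fun i j => v (z i) j).row := by
      have : (Matrix.of fun i j => v (z i) j).row = ((↑) : b → ι → ℚ) ∘ E := by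
        funext i
        change v (z i) = _
        rw [hz']
        rfl
      rw [this]
      exact hli.comp _ E.injective
    rw [Matrix.linearIndependent_rows_iff_isUnit, Matrix.isUnit_iff_isUnit_det, hdet] at hli'
    exact not_isUnit_zero hli'
  · obtain ⟨f, hf, hle⟩ := Submodule.exists_le_ker_of_lt_top _ (lt_top_iff_ne_top.mpr htop)
    refine ⟨fun j => f (Pi.single j 1), ?_, ?_⟩
    · intro h0
      apply hf
      apply LinearMap.pi_ext'
      intro j
      ext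
      simpa using congrFun h0 j
    · intro s hs
      have h1 : f (v s) = 0 := hle (Submodule.subset_span ⟨s, hs, rfl⟩)
      rw [LinearMap.pi_apply_eq_sum_univ f (v s)] at h1
      rw [← h1]
      apply sum_congr rfl
      intro j _
      have h2 : (Pi.single j 1 : ι → ℚ) = fun k => if j = k then 1 else 0 := by
        funext k
        simp [Pi.single_apply, eq_comm]
      rw [smul_eq_mul, mul_comm]
      simp only [h2]

end Vale.Agent.P018
end

section

/-! Auxiliary polynomials supported on an L-shaped set of monomials. -/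

namespace Vale.Agent.P018

open Finset

/-- Index set of an L-shaped set of monomials. -/
abbrev LIdx (α β M : ℕ) : Type := (Fin α × Fin M) ⊕ (Fin M × Fin β)

/-- The monomials. -/
def lexp {α β M : ℕ} : LIdx α β M → ℕ × ℕ
  | .inl p => (p.1, p.2)
  | .inr p => (α + p.1, p.2)

theorem lexp_injective {α β M : ℕ} : Function.Injective (lexp (α := α) (β := β) (M := M)) := by
  rintro (⟨a, b⟩ | ⟨a, b⟩) (⟨a', b'⟩ | ⟨a', b'⟩) h
  · simp only [lexp, Prod.mk.injEq] at h
    rw [Fin.ext h.1, Fin.ext h.2]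
  · simp only [lexp, Prod.mk.injEq] at h
    have := a.2
    omega
  · simp only [lexp, Prod.mk.injEq] at h
    have := a'.2
    omega
  · simp only [lexp, Prod.mk.injEq] at h
    have h1 : (a : ℕ) = a' := by omega
    rw [Fin.ext h1, Fin.ext h.2]

theorem card_LIdx (α β M : ℕ) : Fintype.card (LIdx α β M) = (α + β) * M := by
  simp only [Fintype.card_sum, Fintype.card_prod, Fintype.card_fin]
  ring

theorem lexp_lt {α β M : ℕ} (j : LIdx α β M) : (lexp j).1 < α ∨ (lexp j).2 < β := by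
  rcases j with ⟨a, b⟩ | ⟨a, b⟩
  · exact Or.inl a.2
  · exact Or.inr b.2

theorem lexp_le {α β M : ℕ} (j : LIdx α β M) : (lexp j).1 + (lexp j).2 ≤ α + β + M := by
  rcases j with ⟨a, b⟩ | ⟨a, b⟩
  · have := a.2
    have := b.2
    simp only [lexp]
    omega
  · have := a.2
    have := b.2
    simp only [lexp]
    omega

theorem sum_fin_val_le (n : ℕ) : 2 * ∑ i : Fin n, (i : ℕ) ≤ n * n := by
  rw [← Finset.sum_range (f := fun i => i), mul_comm 2, sum_range_id_mul_two]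
  exact Nat.mul_le_mul_left n (Nat.sub_le n 1)

theorem sum_lexp_le (α β M : ℕ) : 2 * ∑ j : LIdx α β M, ((lexp j).1 + (lexp j).2) ≤
    (α + β) * M ^ 2 + 2 * (α + β) ^ 2 * M := by
  rw [Fintype.sum_sum_type, Fintype.sum_prod_type, Fintype.sum_prod_type]
  simp only [lexp]
  simp only [sum_add_distrib, sum_const, Finset.card_univ, Fintype.card_fin, smul_eq_mul]
  have h1 := sum_fin_val_le α
  have h2 := sum_fin_val_le β
  have h3 := sum_fin_val_le M
  have e1 : ∑ x : Fin α, M * (x : ℕ) = M * ∑ x : Fin α, (x : ℕ) := by rw [mul_sum]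
  have e2 : ∑ x : Fin M, β * (x : ℕ) = β * ∑ x : Fin M, (x : ℕ) := by rw [mul_sum]
  rw [e1, e2]
  nlinarith [Nat.mul_le_mul_left M h1, Nat.mul_le_mul_left M h2, Nat.mul_le_mul_left α h3,
    Nat.mul_le_mul_left β h3, Nat.zero_le (M * α * β), Nat.zero_le (M * α * α),
    Nat.zero_le (M * β * β)]

/-- Exponent vector in two variables. -/
noncomputable def expo (p : ℕ × ℕ) : Fin 2 →₀ ℕ := Finsupp.equivFunOnFinite.symm ![p.1, p.2]

@[simp] theorem expo_zero (p : ℕ × ℕ) : expo p 0 = p.1 := rfl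

@[simp] theorem expo_one (p : ℕ × ℕ) : expo p 1 = p.2 := rfl

theorem expo_injective : Function.Injective expo := by
  intro p p' h
  have h0 : expo p 0 = expo p' 0 := by rw [h]
  have h1 : expo p 1 = expo p' 1 := by rw [h]
  exact Prod.ext h0 h1

/-- The auxiliary polynomial. -/
noncomputable def auxPoly {α β M : ℕ} (c : LIdx α β M → ℚ) : MvPolynomial (Fin 2) ℚ :=
  ∑ j, MvPolynomial.monomial (expo (lexp j)) (c j)

theorem evQ_auxPoly {α β M : ℕ} (c : LIdx α β M → ℚ) (z : ℤ × ℤ) :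
    evQ z (auxPoly c) = ∑ j, c j * ((z.1 : ℚ) ^ (lexp j).1 * (z.2 : ℚ) ^ (lexp j).2) := by
  rw [auxPoly, map_sum]
  apply sum_congr rfl
  intro j _
  rw [evQ, MvPolynomial.eval_monomial, Finsupp.prod_fintype _ _ (by simp), Fin.prod_univ_two]
  simp

theorem coeff_auxPoly {α β M : ℕ} (c : LIdx α β M → ℚ) (j : LIdx α β M) :
    (auxPoly c).coeff (expo (lexp j)) = c j := by
  classical
  rw [auxPoly, MvPolynomial.coeff_sum, sum_eq_single j]
  · simp
  · intro j' _ hj'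
    rw [MvPolynomial.coeff_monomial, if_neg]
    intro h
    exact hj' (lexp_injective (expo_injective h))
  · simp

theorem auxPoly_ne_zero {α β M : ℕ} {c : LIdx α β M → ℚ} (hc : c ≠ 0) : auxPoly c ≠ 0 := by
  intro h
  apply hc
  funext j
  rw [← coeff_auxPoly c j, h]
  simp

theorem support_auxPoly {α β M : ℕ} {c : LIdx α β M → ℚ} {m : Fin 2 →₀ ℕ}
    (hm : m ∈ (auxPoly c).support) : ∃ j : LIdx α β M, m = expo (lexp j) := by
  classical
  by_contra hcon
  push Not at hcon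
  rw [MvPolynomial.mem_support_iff, auxPoly, MvPolynomial.coeff_sum] at hm
  apply hm
  apply sum_eq_zero
  intro j _
  rw [MvPolynomial.coeff_monomial, if_neg (hcon j).symm]

theorem totalDegree_auxPoly_le {α β M : ℕ} (c : LIdx α β M → ℚ) :
    (auxPoly c).totalDegree ≤ α + β + M := by
  apply Finset.sup_le
  intro m hm
  obtain ⟨j, rfl⟩ := support_auxPoly hm
  have := lexp_le j
  rw [Finsupp.sum_fintype _ _ (by simp), Fin.sum_univ_two]
  simpa using this

theorem not_dvd_auxPoly {q : MvPolynomial (Fin 2) ℚ} {α β M : ℕ}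
    (hα : MonomialOrder.degLex.degree q 0 = α)
    (hβ : MonomialOrder.degLex.degree q 1 = β) {c : LIdx α β M → ℚ} (hc : c ≠ 0) :
    ¬ q ∣ auxPoly c := by
  rintro ⟨w, hw⟩
  have hG := auxPoly_ne_zero hc
  have hq0 : q ≠ 0 := fun h => hG (by rw [hw, h, zero_mul])
  have hw0 : w ≠ 0 := fun h => hG (by rw [hw, h, mul_zero])
  obtain ⟨j, hj⟩ := support_auxPoly (MonomialOrder.degLex.degree_mem_support hG)
  rw [hw, MonomialOrder.degree_mul hq0 hw0] at hj
  have h0 := congrArg (fun m : Fin 2 →₀ ℕ => m 0) hj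
  have h1 := congrArg (fun m : Fin 2 →₀ ℕ => m 1) hj
  simp only [Finsupp.add_apply, expo_zero, expo_one] at h0 h1
  rcases lexp_lt j with h | h
  · omega
  · omega

theorem sum_degree (q : MvPolynomial (Fin 2) ℚ) :
    MonomialOrder.degLex.degree q 0 + MonomialOrder.degLex.degree q 1 = q.totalDegree := by
  rw [← MvPolynomial.degree_degLexDegree, Finsupp.degree_eq_sum, Fin.sum_univ_two]

end Vale.Agent.P018
end

section

/-! Counting points of a curve which are smooth modulo a prime. -/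

namespace Vale.Agent.P018

open Finset

/-- Module C, as a hypothesis. -/
def BezoutStmt : Prop := ∀ q G : MvPolynomial (Fin 2) ℚ, Irreducible q → ¬ q ∣ G →
  ∀ Z : Finset (ℤ × ℤ), (∀ z ∈ Z, evQ z q = 0) → (∀ z ∈ Z, evQ z G = 0) →
    Z.card ≤ q.totalDegree * G.totalDegree

theorem class_card_le (hbez : BezoutStmt) {q : MvPolynomial (Fin 2) ℚ} (hq : Irreducible q)
    {Q : MvPolynomial (Fin 2) ℤ} {c : ℚ}
    (hQ : MvPolynomial.map (Int.castRingHom ℚ) Q = MvPolynomial.C c * q) (M X W : ℕ) (hX : 1 ≤ X)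
    (hW : q.totalDegree * M ^ 2 + 2 * q.totalDegree ^ 2 * M ≤ 2 * W)
    {l x0 y0 : ℤ} (hv : IsCoprime l (evZ (x0, y0) (MvPolynomial.pderiv 1 Q)))
    (hl : ((q.totalDegree * M).factorial : ℤ) * (X : ℤ) ^ W <
      l ^ (∑ i ∈ range (q.totalDegree * M), i)) (Z : Finset (ℤ × ℤ))
    (hZ : ∀ z ∈ Z, |z.1| ≤ X ∧ |z.2| ≤ X ∧ evQ z q = 0 ∧ l ∣ z.1 - x0 ∧ l ∣ z.2 - y0) :
    Z.card ≤ q.totalDegree * (q.totalDegree + M) := by
  classical
  obtain ⟨α, hα⟩ : ∃ α, MonomialOrder.degLex.degree q 0 = α := ⟨_, rfl⟩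
  obtain ⟨β, hβ⟩ : ∃ β, MonomialOrder.degLex.degree q 1 = β := ⟨_, rfl⟩
  have hδ : α + β = q.totalDegree := by rw [← hα, ← hβ, sum_degree]
  have hZQ : ∀ z, evQ z q = 0 → evZ z Q = 0 := by
    intro z hz
    have h1 := evQ_map z Q
    rw [hQ, map_mul, hz, mul_zero] at h1
    exact_mod_cast h1.symm
  obtain ⟨b, hb, hbS⟩ := exists_relation (ι := LIdx α β M) (Z : Set (ℤ × ℤ))
    (fun z j => (z.1 : ℚ) ^ (lexp j).1 * (z.2 : ℚ) ^ (lexp j).2) (by
      intro z hz
      have hcast : (Matrix.of fun (i j : LIdx α β M) =>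
          ((z i).1 : ℚ) ^ (lexp j).1 * ((z i).2 : ℚ) ^ (lexp j).2) =
          (monoMat z lexp).map (Int.castRingHom ℚ) := by
        ext i j
        simp [monoMat]
      rw [hcast, ← RingHom.mapMatrix_apply, ← RingHom.map_det]
      have hdvd := det_class Q hv z
        (fun i => ⟨(hZ _ (hz i)).2.2.2.1, (hZ _ (hz i)).2.2.2.2, hZQ _ (hZ _ (hz i)).2.2.1⟩)
        (lexp (α := α) (β := β) (M := M))
      have habs := abs_det_le z (lexp (α := α) (β := β) (M := M)) X hX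
        (fun i => ⟨(hZ _ (hz i)).1, (hZ _ (hz i)).2.1⟩)
      rw [card_LIdx, hδ] at hdvd habs
      have hW' : ∑ j : LIdx α β M, ((lexp j).1 + (lexp j).2) ≤ W := by
        have := sum_lexp_le α β M
        rw [hδ] at this
        omega
      have h0 : (monoMat z lexp).det = 0 := by
        apply Int.eq_zero_of_abs_lt_dvd hdvd
        refine habs.trans_lt (lt_of_le_of_lt ?_ hl)
        apply mul_le_mul_of_nonneg_left _ (by positivity)
        exact pow_le_pow_right₀ (by exact_mod_cast hX) hW'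
      rw [h0, map_zero])
  have h1 := hbez q (auxPoly b) hq (not_dvd_auxPoly hα hβ hb) Z (fun z hz => (hZ z hz).2.2.1)
    (fun z hz => by rw [evQ_auxPoly]; exact hbS z hz)
  refine h1.trans (Nat.mul_le_mul_left _ ?_)
  rw [← hδ]
  exact totalDegree_auxPoly_le b

theorem totalDegree_le_of_map {q : MvPolynomial (Fin 2) ℚ} {Q : MvPolynomial (Fin 2) ℤ} {c : ℚ}
    (hQ : MvPolynomial.map (Int.castRingHom ℚ) Q = MvPolynomial.C c * q) :
    Q.totalDegree ≤ q.totalDegree := by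
  apply Finset.sup_le
  intro m hm
  apply MvPolynomial.le_totalDegree
  rw [MvPolynomial.mem_support_iff] at hm ⊢
  intro h
  apply hm
  have h1 := congrArg (MvPolynomial.coeff m) hQ
  rw [MvPolynomial.coeff_map, MvPolynomial.coeff_C_mul, h, mul_zero, eq_intCast,
    Int.cast_eq_zero] at h1
  exact h1

theorem fiber_card_le {Q : MvPolynomial (Fin 2) ℤ} (p : ℕ) [Fact p.Prime] (z0 : ℤ × ℤ)
    (hz0 : ¬ (p : ℤ) ∣ evZ z0 (MvPolynomial.pderiv 1 Q)) (T : Finset (ZMod p))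
    (hT : ∀ b ∈ T, ∃ z : ℤ × ℤ, evZ z Q = 0 ∧ (z.1 : ZMod p) = z0.1 ∧ (z.2 : ZMod p) = b) :
    T.card ≤ Q.totalDegree := by
  classical
  set ψ : Polynomial ℤ := MvPolynomial.aeval ![Polynomial.C z0.1, Polynomial.X] Q with hψ
  have hψ2 : (toBiv Q).map (Polynomial.evalRingHom z0.1) = ψ := by
    have h : ((Polynomial.mapRingHom (Polynomial.evalRingHom z0.1)).comp
        (toBiv : MvPolynomial (Fin 2) ℤ →+* Polynomial (Polynomial ℤ))) =
        (MvPolynomial.aeval ![Polynomial.C z0.1, Polynomial.X] :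
          MvPolynomial (Fin 2) ℤ →ₐ[ℤ] Polynomial ℤ) := by
      apply MvPolynomial.ringHom_ext
      · intro r
        simp
      · intro i
        fin_cases i <;> simp [toBiv]
    exact congrArg (fun g => g Q) h
  have hdeg : ψ.natDegree ≤ Q.totalDegree := by
    have := MvPolynomial.aeval_natDegree_le Q (m := Q.totalDegree) (n := 1) le_rfl
      ![Polynomial.C z0.1, Polynomial.X] (by
        intro i
        fin_cases i <;> simp)
    rwa [mul_one] at this
  set χ : Polynomial (ZMod p) := ψ.map (Int.castRingHom (ZMod p)) with hχ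
  have hev : ∀ y : ℤ, χ.eval (y : ZMod p) = ((ev2 (toBiv Q) z0.1 y : ℤ) : ZMod p) := by
    intro y
    rw [hχ, Polynomial.eval_intCast_map, ev2, hψ2]
    rfl
  have hne : χ ≠ 0 := by
    intro h0
    apply hz0
    have h1 : (Polynomial.derivative χ).eval ((z0.2 : ℤ) : ZMod p) = 0 := by
      rw [h0]
      simp
    rw [hχ, Polynomial.derivative_map, Polynomial.eval_intCast_map, ← hψ2,
      Polynomial.derivative_map] at h1
    have h2 : ((ev2 (Polynomial.derivative (toBiv Q)) z0.1 z0.2 : ℤ) : ZMod p) = 0 := h1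
    rw [derivative_toBiv, ev2_toBiv] at h2
    exact (ZMod.intCast_zmod_eq_zero_iff_dvd _ p).mp h2
  calc T.card ≤ χ.roots.toFinset.card := by
        apply card_le_card
        intro b hb
        obtain ⟨z, hz, h1, rfl⟩ := hT b hb
        rw [Multiset.mem_toFinset, Polynomial.mem_roots hne, Polynomial.IsRoot, hev]
        have hdvd : (p : ℤ) ∣ ev2 (toBiv Q) z.1 z.2 - ev2 (toBiv Q) z0.1 z.2 := by
          apply ev2_dvd _ _ (by simp)
          rwa [← ZMod.intCast_zmod_eq_zero_iff_dvd, Int.cast_sub, sub_eq_zero]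
        rw [← ZMod.intCast_zmod_eq_zero_iff_dvd, ev2_toBiv, hz, zero_sub, Int.cast_neg,
          neg_eq_zero] at hdvd
        exact hdvd
    _ ≤ Multiset.card χ.roots := Multiset.toFinset_card_le _
    _ ≤ χ.natDegree := Polynomial.card_roots' _
    _ ≤ ψ.natDegree := Polynomial.natDegree_map_le
    _ ≤ Q.totalDegree := hdeg

theorem smooth_card_le (hbez : BezoutStmt) {q : MvPolynomial (Fin 2) ℚ} (hq : Irreducible q)
    {Q : MvPolynomial (Fin 2) ℤ} {c : ℚ}
    (hQ : MvPolynomial.map (Int.castRingHom ℚ) Q = MvPolynomial.C c * q) (M X W : ℕ) (hX : 1 ≤ X)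
    (hW : q.totalDegree * M ^ 2 + 2 * q.totalDegree ^ 2 * M ≤ 2 * W)
    (p : ℕ) [hp : Fact p.Prime]
    (hl : ((q.totalDegree * M).factorial : ℤ) * (X : ℤ) ^ W <
      (p : ℤ) ^ (∑ i ∈ range (q.totalDegree * M), i)) (Z : Finset (ℤ × ℤ))
    (hZ : ∀ z ∈ Z, |z.1| ≤ X ∧ |z.2| ≤ X ∧ evQ z q = 0)
    (hs : ∀ z ∈ Z, ¬ (p : ℤ) ∣ evZ z (MvPolynomial.pderiv 1 Q)) :
    Z.card ≤ q.totalDegree * (q.totalDegree + M) * (q.totalDegree * p) := by
  classical
  have hZQ : ∀ z, evQ z q = 0 → evZ z Q = 0 := by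
    intro z hz
    have h1 := evQ_map z Q
    rw [hQ, map_mul, hz, mul_zero] at h1
    exact_mod_cast h1.symm
  let f : ℤ × ℤ → ZMod p × ZMod p := fun z => (z.1, z.2)
  have h1 : Z.card ≤ q.totalDegree * (q.totalDegree + M) * (Z.image f).card := by
    apply card_le_mul_card_image
    intro a ha
    obtain ⟨z0, hz0, rfl⟩ := mem_image.mp ha
    have hv : IsCoprime (p : ℤ) (evZ (z0.1, z0.2) (MvPolynomial.pderiv 1 Q)) :=
      (Nat.prime_iff_prime_int.mp hp.out).irreducible.coprime_iff_not_dvd.mpr (hs z0 hz0)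
    apply class_card_le hbez hq hQ M X W hX hW hv hl
    intro z hz
    obtain ⟨hz, hzf⟩ := mem_filter.mp hz
    have e1 : ((z.1 : ℤ) : ZMod p) = z0.1 := congrArg Prod.fst hzf
    have e2 : ((z.2 : ℤ) : ZMod p) = z0.2 := congrArg Prod.snd hzf
    refine ⟨(hZ z hz).1, (hZ z hz).2.1, (hZ z hz).2.2, ?_, ?_⟩
    · rwa [← ZMod.intCast_zmod_eq_zero_iff_dvd, Int.cast_sub, sub_eq_zero]
    · rwa [← ZMod.intCast_zmod_eq_zero_iff_dvd, Int.cast_sub, sub_eq_zero]
  have h2 : (Z.image f).card ≤ q.totalDegree * ((Z.image f).image Prod.fst).card := by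
    apply card_le_mul_card_image
    intro a ha
    obtain ⟨x, hx, rfl⟩ := mem_image.mp ha
    obtain ⟨z0, hz0, rfl⟩ := mem_image.mp hx
    have hinj : Set.InjOn Prod.snd
        (({x ∈ Z.image f | x.1 = (f z0).1} : Finset (ZMod p × ZMod p)) :
          Set (ZMod p × ZMod p)) := by
      intro x hx y hy hxy
      simp only [coe_filter, Set.mem_ofPred_eq] at hx hy
      exact Prod.ext (hx.2.trans hy.2.symm) hxy
    rw [← card_image_of_injOn hinj]
    refine (fiber_card_le (Q := Q) p z0 (hs z0 hz0) _ ?_).trans (totalDegree_le_of_map hQ)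
    intro b hb
    obtain ⟨x, hx, rfl⟩ := mem_image.mp hb
    obtain ⟨hx1, hx2⟩ := mem_filter.mp hx
    obtain ⟨z, hz, rfl⟩ := mem_image.mp hx1
    exact ⟨z, hZQ z (hZ z hz).2.2, hx2, rfl⟩
  have h3 : ((Z.image f).image Prod.fst).card ≤ p := by
    refine (card_le_univ _).trans ?_
    rw [ZMod.card]
  calc Z.card ≤ q.totalDegree * (q.totalDegree + M) * (Z.image f).card := h1
    _ ≤ q.totalDegree * (q.totalDegree + M) * (q.totalDegree * p) :=
      Nat.mul_le_mul_left _ (h2.trans (Nat.mul_le_mul_left _ h3))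

end Vale.Agent.P018
end

section

/-! Points with vanishing derivative, and the size of the derivative. -/

namespace Vale.Agent.P018

open Finset

theorem totalDegree_pderiv_lt {R : Type*} [CommRing R] {P : MvPolynomial (Fin 2) R} (i : Fin 2)
    (h : MvPolynomial.pderiv i P ≠ 0) : (MvPolynomial.pderiv i P).totalDegree < P.totalDegree := by
  have hne : (MvPolynomial.pderiv i P).support.Nonempty := by
    rwa [MvPolynomial.support_nonempty]
  rw [MvPolynomial.totalDegree, Finset.sup_lt_iff]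
  · intro m hm
    rw [MvPolynomial.mem_support_iff, MvPolynomial.coeff_pderiv] at hm
    have h1 : P.coeff (m + Finsupp.single i 1) ≠ 0 := by
      intro h0
      apply hm
      rw [h0]
      simp
    have h2 := MvPolynomial.le_totalDegree (MvPolynomial.mem_support_iff.mpr h1)
    refine lt_of_lt_of_le ?_ h2
    rw [Finsupp.sum_add_index' (by simp) (by simp), Finsupp.sum_single_index rfl]
    exact Nat.lt_succ_self _
  · obtain ⟨m, hm⟩ := hne
    rw [MvPolynomial.mem_support_iff, MvPolynomial.coeff_pderiv] at hm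
    have h1 : P.coeff (m + Finsupp.single i 1) ≠ 0 := by
      intro h0
      apply hm
      rw [h0]
      simp
    have h2 := MvPolynomial.le_totalDegree (MvPolynomial.mem_support_iff.mpr h1)
    refine lt_of_lt_of_le ?_ h2
    rw [Finsupp.sum_add_index' (by simp) (by simp), Finsupp.sum_single_index rfl]
    exact Nat.succ_pos _

theorem not_dvd_of_totalDegree_lt {q G : MvPolynomial (Fin 2) ℚ} (hG : G ≠ 0)
    (h : G.totalDegree < q.totalDegree) : ¬ q ∣ G := by
  rintro ⟨w, rfl⟩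
  have hq : q ≠ 0 := left_ne_zero_of_mul hG
  have hw : w ≠ 0 := right_ne_zero_of_mul hG
  rw [MvPolynomial.totalDegree_mul_of_isDomain hq hw] at h
  omega

theorem pderiv_eq_zero_empty (hbez : BezoutStmt) {q : MvPolynomial (Fin 2) ℚ}
    (hq : Irreducible q) (hδ : 2 ≤ q.totalDegree) {Q : MvPolynomial (Fin 2) ℤ} {c : ℚ} (hc : c ≠ 0)
    (hQ : MvPolynomial.map (Int.castRingHom ℚ) Q = MvPolynomial.C c * q)
    (hD : MvPolynomial.pderiv 1 Q = 0) (z : ℤ × ℤ) : evQ z q ≠ 0 := by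
  classical
  intro hz
  have hzQ : evZ z Q = 0 := by
    have h1 := evQ_map z Q
    rw [hQ, map_mul, hz, mul_zero] at h1
    exact_mod_cast h1.symm
  have h1 : Polynomial.derivative (toBiv Q) = 0 := by rw [derivative_toBiv, hD, map_zero]
  have h2 : toBiv Q = Polynomial.C ((toBiv Q).coeff 0) :=
    Polynomial.eq_C_of_natDegree_eq_zero (Polynomial.derivative_eq_zero.mp h1)
  have h3 : ∀ y : ℤ, evZ (z.1, y) Q = 0 := by
    intro y
    have h4 : evZ (z.1, y) Q = evZ (z.1, z.2) Q := by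
      rw [← ev2_toBiv, ← ev2_toBiv, h2]
      simp [ev2]
    rw [h4]
    exact hzQ
  have h5 : ∀ y : ℤ, evQ (z.1, y) q = 0 := by
    intro y
    have h6 := evQ_map (z.1, y) Q
    rw [hQ, map_mul, h3 y, Int.cast_zero] at h6
    have h7 : evQ (z.1, y) (MvPolynomial.C c) = c := by simp [evQ]
    rw [h7] at h6
    exact (mul_eq_zero.mp h6).resolve_left hc
  set G : MvPolynomial (Fin 2) ℚ := MvPolynomial.X 0 - MvPolynomial.C (z.1 : ℚ) with hG
  have hG0 : G ≠ 0 := by
    intro h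
    have := congrArg (MvPolynomial.eval ![(z.1 : ℚ) + 1, 0]) h
    simp [hG] at this
  have hG1 : G.totalDegree ≤ 1 := by
    refine (MvPolynomial.totalDegree_sub _ _).trans ?_
    rw [MvPolynomial.totalDegree_X, MvPolynomial.totalDegree_C]
    simp
  have h8 := hbez q G hq (not_dvd_of_totalDegree_lt hG0 (by omega))
    ((range (q.totalDegree + 1)).image (fun y : ℕ => ((z.1, (y : ℤ)) : ℤ × ℤ)))
    (by
      intro w hw
      obtain ⟨y, -, rfl⟩ := mem_image.mp hw
      exact h5 _)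
    (by
      intro w hw
      obtain ⟨y, -, rfl⟩ := mem_image.mp hw
      simp [hG, evQ])
  rw [card_image_of_injective _ (by
    intro a b hab
    simpa using hab), card_range] at h8
  have h9 : q.totalDegree * G.totalDegree ≤ q.totalDegree * 1 := Nat.mul_le_mul_left _ hG1
  omega

theorem singular_card_le (hbez : BezoutStmt) {q : MvPolynomial (Fin 2) ℚ}
    (hq : Irreducible q) (hδ : 2 ≤ q.totalDegree) {Q : MvPolynomial (Fin 2) ℤ} {c : ℚ} (hc : c ≠ 0)
    (hQ : MvPolynomial.map (Int.castRingHom ℚ) Q = MvPolynomial.C c * q)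
    (Z : Finset (ℤ × ℤ)) (hZ : ∀ z ∈ Z, evQ z q = 0)
    (hD : ∀ z ∈ Z, evZ z (MvPolynomial.pderiv 1 Q) = 0) :
    Z.card ≤ q.totalDegree ^ 2 := by
  by_cases hD0 : MvPolynomial.pderiv 1 Q = 0
  · have : Z = ∅ := by
      by_contra hne
      obtain ⟨z, hz⟩ := nonempty_iff_ne_empty.mpr hne
      exact pderiv_eq_zero_empty hbez hq hδ hc hQ hD0 z (hZ z hz)
    simp [this]
  · have hinj : Function.Injective (MvPolynomial.map (σ := Fin 2) (Int.castRingHom ℚ)) :=
      MvPolynomial.map_injective _ Int.cast_injective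
    have h0 : MvPolynomial.map (Int.castRingHom ℚ) (MvPolynomial.pderiv 1 Q) ≠ 0 := by
      intro h
      exact hD0 (hinj (by rw [h, map_zero]))
    have h1 : (MvPolynomial.map (Int.castRingHom ℚ) (MvPolynomial.pderiv 1 Q)).totalDegree <
        q.totalDegree := by
      have h2 := totalDegree_pderiv_lt 1 hD0
      have h3 := totalDegree_le_of_map hQ
      have h4 : (MvPolynomial.map (Int.castRingHom ℚ) (MvPolynomial.pderiv 1 Q)).totalDegree ≤
          (MvPolynomial.pderiv 1 Q).totalDegree := by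
        apply Finset.sup_le
        intro m hm
        exact MvPolynomial.le_totalDegree (MvPolynomial.support_map_subset _ _ hm)
      omega
    have h2 := hbez q _ hq (not_dvd_of_totalDegree_lt h0 h1) Z hZ (fun z hz => by
      rw [evQ_map, hD z hz, Int.cast_zero])
    refine h2.trans ?_
    rw [sq]
    exact Nat.mul_le_mul_left _ h1.le

theorem card_support_le {R : Type*} [CommRing R] (P : MvPolynomial (Fin 2) R) (δ : ℕ)
    (h : P.totalDegree ≤ δ) : P.support.card ≤ (δ + 1) ^ 2 := by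
  classical
  have hinj : Set.InjOn (fun m : Fin 2 →₀ ℕ => (m 0, m 1)) (P.support : Set (Fin 2 →₀ ℕ)) := by
    intro m _ m' _ hmm
    have h0 : m 0 = m' 0 := congrArg Prod.fst hmm
    have h1 : m 1 = m' 1 := congrArg Prod.snd hmm
    ext i
    fin_cases i
    · exact h0
    · exact h1
  rw [← card_image_of_injOn hinj]
  calc (P.support.image fun m : Fin 2 →₀ ℕ => (m 0, m 1)).card
      ≤ (range (δ + 1) ×ˢ range (δ + 1)).card := by
        apply card_le_card
        intro a ha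
        obtain ⟨m, hm, rfl⟩ := mem_image.mp ha
        have h1 := (MvPolynomial.le_totalDegree hm).trans h
        rw [Finsupp.sum_fintype _ _ (by simp), Fin.sum_univ_two] at h1
        rw [mem_product, mem_range, mem_range]
        constructor
        · change m 0 < δ + 1
          omega
        · change m 1 < δ + 1
          omega
    _ = (δ + 1) ^ 2 := by rw [card_product, card_range, sq]

theorem abs_evZ_le (P : MvPolynomial (Fin 2) ℤ) (δ : ℕ) (h : P.totalDegree ≤ δ) (H X : ℕ)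
    (hX : 1 ≤ X) (hH : ∀ m, |P.coeff m| ≤ (H : ℤ)) (z : ℤ × ℤ) (hz : |z.1| ≤ X ∧ |z.2| ≤ X) :
    |evZ z P| ≤ ((δ + 1) ^ 2 * H * X ^ δ : ℕ) := by
  have hX' : (1 : ℤ) ≤ X := by exact_mod_cast hX
  rw [evZ, MvPolynomial.eval_eq']
  refine (abs_sum_le_sum_abs _ _).trans ?_
  calc ∑ m ∈ P.support, |P.coeff m * ∏ i, ![z.1, z.2] i ^ m i|
      ≤ ∑ m ∈ P.support, ((H * X ^ δ : ℕ) : ℤ) := by
        apply sum_le_sum
        intro m hm
        have h1 := (MvPolynomial.le_totalDegree hm).trans h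
        rw [Finsupp.sum_fintype _ _ (by simp), Fin.sum_univ_two] at h1
        rw [abs_mul, Nat.cast_mul, Fin.prod_univ_two]
        apply mul_le_mul (hH m) _ (abs_nonneg _) (by positivity)
        rw [abs_mul, abs_pow, abs_pow]
        calc |z.1| ^ m 0 * |z.2| ^ m 1 ≤ (X : ℤ) ^ m 0 * (X : ℤ) ^ m 1 :=
              mul_le_mul (pow_le_pow_left₀ (abs_nonneg _) hz.1 _)
                (pow_le_pow_left₀ (abs_nonneg _) hz.2 _) (by positivity) (by positivity)
          _ = (X : ℤ) ^ (m 0 + m 1) := (pow_add _ _ _).symm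
          _ ≤ (X : ℤ) ^ δ := pow_le_pow_right₀ hX' h1
          _ = ((X ^ δ : ℕ) : ℤ) := by push_cast; ring
    _ = P.support.card * ((H * X ^ δ : ℕ) : ℤ) := by rw [sum_const, nsmul_eq_mul]
    _ ≤ ((δ + 1) ^ 2 : ℕ) * ((H * X ^ δ : ℕ) : ℤ) := by
        apply mul_le_mul_of_nonneg_right _ (by positivity)
        exact_mod_cast card_support_le P δ h
    _ = ((δ + 1) ^ 2 * H * X ^ δ : ℕ) := by push_cast; ring

theorem abs_pderiv_le (Q : MvPolynomial (Fin 2) ℤ) (δ : ℕ) (h : Q.totalDegree ≤ δ) (H X : ℕ)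
    (hX : 1 ≤ X) (hH : ∀ m, |Q.coeff m| ≤ (H : ℤ)) (z : ℤ × ℤ) (hz : |z.1| ≤ X ∧ |z.2| ≤ X) :
    |evZ z (MvPolynomial.pderiv 1 Q)| ≤ ((δ + 1) ^ 2 * (H * δ) * X ^ δ : ℕ) := by
  by_cases h0 : MvPolynomial.pderiv 1 Q = 0
  · rw [h0, map_zero, abs_zero]
    (clear * -; positivity)
  apply abs_evZ_le _ δ ((totalDegree_pderiv_lt 1 h0).le.trans h) (H * δ) X hX _ z hz
  intro m
  rw [MvPolynomial.coeff_pderiv]
  by_cases hm : Q.coeff (m + Finsupp.single 1 1) = 0
  · rw [hm]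
    simp only [zero_mul, abs_zero]
    (clear * -; positivity)
  · have h1 := (MvPolynomial.le_totalDegree (MvPolynomial.mem_support_iff.mpr hm)).trans h
    rw [Finsupp.sum_fintype _ _ (by simp), Fin.sum_univ_two] at h1
    have h2 : (m + Finsupp.single (1 : Fin 2) 1 : Fin 2 →₀ ℕ) 1 = m 1 + 1 := by simp
    rw [abs_mul, Nat.cast_mul]
    apply mul_le_mul (hH _) _ (abs_nonneg _) (by (clear * -; positivity))
    rw [h2] at h1
    have h3 : m 1 + 1 ≤ δ := by omega
    have h4 : |((m 1 : ℤ) + 1)| = (m 1 : ℤ) + 1 := abs_of_nonneg (by positivity)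
    rw [h4]
    exact_mod_cast h3

end Vale.Agent.P018
end

section

/-! The Bombieri-Pila bound by `l`-adic determinants. -/

namespace Vale.Agent.P018

open Finset

/-- Module C', as a hypothesis. -/
def HeightStmt (δ : ℕ) : Prop := ∃ K : ℕ, ∀ X : ℕ, 2 ≤ X → ∀ q : MvPolynomial (Fin 2) ℚ,
    Irreducible q → q.totalDegree ≤ δ → ∀ Z : Finset (ℤ × ℤ),
    (∀ z ∈ Z, |z.1| ≤ X ∧ |z.2| ≤ X) → (∀ z ∈ Z, evQ z q = 0) → δ * δ < Z.card →
    ∃ (Q : MvPolynomial (Fin 2) ℤ) (c : ℚ), c ≠ 0 ∧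
      MvPolynomial.map (Int.castRingHom ℚ) Q = MvPolynomial.C c * q ∧
      ∀ m, |Q.coeff m| ≤ (X : ℤ) ^ K

theorem exists_primes (L : ℕ) (hL : 1 ≤ L) : ∃ ℓ : ℕ → ℕ, Function.Injective ℓ ∧
    ∀ i, (ℓ i).Prime ∧ L < ℓ i ∧ ℓ i ≤ 2 ^ (i + 1) * L := by
  have h : ∀ i : ℕ, ∃ p : ℕ, p.Prime ∧ 2 ^ i * L < p ∧ p ≤ 2 ^ (i + 1) * L := by
    intro i
    obtain ⟨p, hp, h1, h2⟩ := Nat.exists_prime_lt_and_le_two_mul (2 ^ i * L) (by positivity)
    exact ⟨p, hp, h1, by rw [pow_succ]; linarith⟩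
  choose ℓ hℓ using h
  refine ⟨ℓ, ?_, fun i => ⟨(hℓ i).1, ?_, (hℓ i).2.2⟩⟩
  · apply StrictMono.injective
    apply strictMono_nat_of_lt_succ
    intro i
    exact (hℓ i).2.2.trans_lt (hℓ (i + 1)).2.1
  · refine lt_of_le_of_lt ?_ (hℓ i).2.1
    exact Nat.le_mul_of_pos_left L (by positivity)

theorem exists_not_dvd {ℓ : ℕ → ℕ} {L : ℕ} (hinj : Function.Injective ℓ)
    (hℓ : ∀ i, (ℓ i).Prime ∧ L < ℓ i ∧ ℓ i ≤ 2 ^ (i + 1) * L) (r n : ℕ) (hn : n ≠ 0)
    (hnr : n < (L + 1) ^ r) : ∃ i < r, ¬ ℓ i ∣ n := by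
  classical
  by_contra hcon
  push Not at hcon
  have h1 : ∏ p ∈ (range r).image ℓ, p ∣ n := by
    apply Finset.prod_primes_dvd
    · intro p hp
      obtain ⟨i, -, rfl⟩ := mem_image.mp hp
      exact (hℓ i).1.prime
    · intro p hp
      obtain ⟨i, hi, rfl⟩ := mem_image.mp hp
      exact hcon i (mem_range.mp hi)
  rw [prod_image hinj.injOn] at h1
  have h2 := Nat.le_of_dvd (Nat.pos_of_ne_zero hn) h1
  have h3 : (L + 1) ^ r ≤ ∏ i ∈ range r, ℓ i := by
    calc (L + 1) ^ r = ∏ i ∈ range r, (L + 1) := by simp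
      _ ≤ ∏ i ∈ range r, ℓ i := prod_le_prod' fun i _ => (hℓ i).2.1
  omega

theorem exponent_ineq (δ m : ℕ) (hδ : 2 ≤ δ) (ε : ℝ) (hε : 0 < ε) (hm : 3 ≤ ε * m) :
    ((2 * δ * m ^ 2 + 2 * δ ^ 2 * m : ℕ) : ℝ) ≤
      (1 / (δ : ℝ) + ε) * ((∑ i ∈ range (δ * (2 * m)), i : ℕ) : ℝ) := by
  have hm1 : 1 ≤ m := by
    rcases Nat.eq_zero_or_pos m with h | h
    · rw [h] at hm
      norm_num at hm
    · exact h
  have h1 := Finset.sum_range_id_mul_two (δ * (2 * m))
  have h2 : 1 ≤ δ * (2 * m) := Nat.one_le_iff_ne_zero.mpr (by positivity)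
  have h3 : ((∑ i ∈ range (δ * (2 * m)), i : ℕ) : ℝ) = δ * m * (2 * δ * m - 1) := by
    have h4 : (((∑ i ∈ range (δ * (2 * m)), i : ℕ) : ℝ)) * 2 = (δ * (2 * m)) * (δ * (2 * m) - 1) := by
      have := congrArg (fun n : ℕ => (n : ℝ)) h1
      simp only [Nat.cast_mul, Nat.cast_ofNat] at this
      rw [this, Nat.cast_sub h2]
      push_cast
      ring
    linear_combination h4 / 2
  rw [h3]
  have hδ' : (2 : ℝ) ≤ δ := by exact_mod_cast hδ
  have hm' : (1 : ℝ) ≤ m := by exact_mod_cast hm1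
  have h5 : (1 / (δ : ℝ) + ε) * (δ * m * (2 * δ * m - 1)) =
      m * (2 * δ * m - 1) + ε * m * (δ * (2 * δ * m - 1)) := by
    field_simp
  rw [h5]
  push_cast
  have h6 : (0 : ℝ) ≤ δ * (2 * δ * m - 1) := by nlinarith
  have h7 : 3 * (δ * (2 * δ * m - 1)) ≤ ε * m * (δ * (2 * δ * m - 1)) :=
    mul_le_mul_of_nonneg_right hm h6
  have h8 : (δ : ℝ) * (δ * m) ≤ δ * (2 * δ * m - 1) := by
    apply mul_le_mul_of_nonneg_left _ (by positivity)
    nlinarith
  nlinarith [mul_le_mul hδ' hδ' (by norm_num) (by positivity)]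

theorem size_ineq (δ m : ℕ) (hδ : 2 ≤ δ) (ε : ℝ) (hε : 0 < ε) (hm : 3 ≤ ε * m) (X p : ℕ)
    (hX : 1 ≤ X) (hp : ((δ * (2 * m)).factorial : ℝ) * (X : ℝ) ^ (1 / (δ : ℝ) + ε) < p) :
    ((δ * (2 * m)).factorial : ℤ) * (X : ℤ) ^ (2 * δ * m ^ 2 + 2 * δ ^ 2 * m) <
      (p : ℤ) ^ (∑ i ∈ range (δ * (2 * m)), i) := by
  have hm1 : 1 ≤ m := by
    rcases Nat.eq_zero_or_pos m with h | h
    · rw [h] at hm
      norm_num at hm
    · exact h
  have hX' : (1 : ℝ) ≤ X := by exact_mod_cast hX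
  have hR : (∑ i ∈ range (δ * (2 * m)), i) ≠ 0 := by
    have h1 := Finset.sum_range_id_mul_two (δ * (2 * m))
    intro h0
    rw [h0, zero_mul] at h1
    have h2 : 4 ≤ δ * (2 * m) := by nlinarith
    rcases Nat.mul_eq_zero.mp h1.symm with h | h <;> omega
  set R := ∑ i ∈ range (δ * (2 * m)), i with hRdef
  set A : ℝ := ((δ * (2 * m)).factorial : ℝ) with hA
  have hA1 : 1 ≤ A := by
    rw [hA]
    exact_mod_cast Nat.one_le_iff_ne_zero.mpr (Nat.factorial_ne_zero _)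
  have key : A * (X : ℝ) ^ (2 * δ * m ^ 2 + 2 * δ ^ 2 * m) < (p : ℝ) ^ R := by
    calc A * (X : ℝ) ^ (2 * δ * m ^ 2 + 2 * δ ^ 2 * m)
        ≤ A ^ R * ((X : ℝ) ^ (1 / (δ : ℝ) + ε)) ^ R := by
          apply mul_le_mul (le_self_pow₀ hA1 hR) _ (by positivity) (by positivity)
          rw [← Real.rpow_natCast, ← Real.rpow_natCast, ← Real.rpow_mul (by positivity)]
          exact Real.rpow_le_rpow_of_exponent_le hX' (exponent_ineq δ m hδ ε hε hm)
      _ = (A * (X : ℝ) ^ (1 / (δ : ℝ) + ε)) ^ R := (mul_pow _ _ _).symm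
      _ < (p : ℝ) ^ R := pow_lt_pow_left₀ hp (by positivity) hR
  rw [hA] at key
  exact_mod_cast key

theorem bombieri_pila_of (hbez : BezoutStmt) (δ : ℕ) (hht : HeightStmt δ) (hδ : 2 ≤ δ) (ε : ℝ)
    (hε : 0 < ε) :
    ∃ K : ℝ, 0 < K ∧ ∀ X : ℕ, 2 ≤ X → ∀ q : MvPolynomial (Fin 2) ℚ,
    Irreducible q → q.totalDegree = δ → ∀ Z : Finset (ℤ × ℤ),
    (∀ z ∈ Z, |z.1| ≤ X ∧ |z.2| ≤ X) → (∀ z ∈ Z, evQ z q = 0) →
    (Z.card : ℝ) ≤ K * (X : ℝ) ^ (1 / (δ : ℝ) + ε) := by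
  classical
  obtain ⟨K0, hK0⟩ := hht
  set m : ℕ := ⌈3 / ε⌉₊ with hm
  have hm3 : 3 ≤ ε * m := by
    have := Nat.le_ceil (3 / ε)
    rw [← hm, div_le_iff₀ hε] at this
    linarith only [this]
  set K1 : ℕ := K0 + δ + (δ + 1) ^ 2 * δ with hK1
  set r : ℕ := δ * K1 with hr
  set A : ℕ := (δ * (2 * m)).factorial with hA
  have hA1 : 1 ≤ A := Nat.one_le_iff_ne_zero.mpr (Nat.factorial_ne_zero _)
  set B : ℕ := r * (δ * (δ + 2 * m) * (δ * 2 ^ r)) with hB
  refine ⟨(δ : ℝ) ^ 2 + B * (2 * A), by positivity, ?_⟩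
  intro X hX q hq hqδ Z hZ hZq
  have hX1 : 1 ≤ X := by omega
  have hX' : (1 : ℝ) ≤ X := by exact_mod_cast hX1
  have hθ : 0 ≤ 1 / (δ : ℝ) + ε := by positivity
  set T : ℝ := (X : ℝ) ^ (1 / (δ : ℝ) + ε) with hT
  have hT1 : 1 ≤ T := Real.one_le_rpow hX' hθ
  rcases le_or_gt Z.card (δ * δ) with hcard | hcard
  · calc (Z.card : ℝ) ≤ (δ : ℝ) ^ 2 := by
          rw [sq]
          exact_mod_cast hcard
      _ ≤ (δ : ℝ) ^ 2 + B * (2 * A) := le_add_of_nonneg_right (by (clear * - hδ hε; positivity))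
      _ = ((δ : ℝ) ^ 2 + B * (2 * A)) * 1 := (mul_one _).symm
      _ ≤ ((δ : ℝ) ^ 2 + B * (2 * A)) * T := by
          apply mul_le_mul_of_nonneg_left hT1 (by positivity)
  obtain ⟨Q, c, hc, hQ, hcoef⟩ := hK0 X hX q hq hqδ.le Z hZ hZq hcard
  set L : ℕ := ⌈(A : ℝ) * T⌉₊ with hL
  have hAT : 1 ≤ (A : ℝ) * T := by
    have : (1 : ℝ) ≤ A := by exact_mod_cast hA1
    linarith only [this, mul_nonneg (sub_nonneg.2 hT1) (sub_nonneg.2 this), hT1]
  have hLle : (A : ℝ) * T ≤ L := Nat.le_ceil _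
  have hLge : (L : ℝ) ≤ 2 * A * T := by
    have := Nat.ceil_lt_add_one (show 0 ≤ (A : ℝ) * T by positivity)
    linarith only [hAT, this]
  have hL1 : 1 ≤ L := by
    have : (1 : ℝ) ≤ L := hAT.trans hLle
    exact_mod_cast this
  obtain ⟨ℓ, hinj, hℓ⟩ := exists_primes L hL1
  -- the singular points
  set Zs : Finset (ℤ × ℤ) := Z.filter (fun z => evZ z (MvPolynomial.pderiv 1 Q) = 0) with hZs
  set Zi : ℕ → Finset (ℤ × ℤ) :=
    fun i => Z.filter (fun z => ¬ ((ℓ i : ℕ) : ℤ) ∣ evZ z (MvPolynomial.pderiv 1 Q)) with hZi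
  have hcover : Z ⊆ Zs ∪ (range r).biUnion Zi := by
    intro z hz
    by_cases hD : evZ z (MvPolynomial.pderiv 1 Q) = 0
    · exact mem_union_left _ (mem_filter.mpr ⟨hz, hD⟩)
    · apply mem_union_right
      have hsize := abs_pderiv_le Q δ ((totalDegree_le_of_map hQ).trans hqδ.le) (X ^ K0) X hX1
        (fun m => by exact_mod_cast hcoef m) z (hZ z hz)
      have h1 : (evZ z (MvPolynomial.pderiv 1 Q)).natAbs < (L + 1) ^ r := by
        have h2 : (evZ z (MvPolynomial.pderiv 1 Q)).natAbs ≤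
            (δ + 1) ^ 2 * (X ^ K0 * δ) * X ^ δ := by
          zify
          exact_mod_cast hsize
        have h3 : (δ + 1) ^ 2 * (X ^ K0 * δ) * X ^ δ < X ^ K1 := by
          have h4 : (δ + 1) ^ 2 * δ < X ^ ((δ + 1) ^ 2 * δ) :=
            (Nat.lt_two_pow_self).trans_le (Nat.pow_le_pow_left hX _)
          calc (δ + 1) ^ 2 * (X ^ K0 * δ) * X ^ δ = X ^ (K0 + δ) * ((δ + 1) ^ 2 * δ) := by ring
            _ < X ^ (K0 + δ) * X ^ ((δ + 1) ^ 2 * δ) := by
              apply Nat.mul_lt_mul_of_pos_left h4 (by (clear * - hX; positivity))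
            _ = X ^ K1 := by rw [hK1, ← pow_add]
        have h5 : X ^ K1 ≤ (L + 1) ^ r := by
          have h6 : (X : ℝ) ^ K1 ≤ ((L : ℝ) + 1) ^ r := by
            calc (X : ℝ) ^ K1 = ((X : ℝ) ^ (1 / (δ : ℝ))) ^ r := by
                  rw [← Real.rpow_natCast, ← Real.rpow_natCast, ← Real.rpow_mul (by (clear * - hX; positivity)),
                    hr]
                  congr 1
                  push_cast
                  field_simp
              _ ≤ ((L : ℝ) + 1) ^ r := by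
                  apply pow_le_pow_left₀ (by (clear * - hX; positivity))
                  have h7 : (X : ℝ) ^ (1 / (δ : ℝ)) ≤ T :=
                    Real.rpow_le_rpow_of_exponent_le hX' (by linarith only [hε])
                  have h8 : T ≤ (A : ℝ) * T := by
                    have : (1 : ℝ) ≤ A := by exact_mod_cast hA1
                    nlinarith
                  linarith only [hLle, h7, h8]
          exact_mod_cast h6
        omega
      obtain ⟨i, hi, hdvd⟩ := exists_not_dvd hinj hℓ r _ (by simpa using hD) h1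
      rw [mem_biUnion]
      refine ⟨i, mem_range.mpr hi, mem_filter.mpr ⟨hz, ?_⟩⟩
      rwa [← Int.natCast_dvd] at hdvd
  have hs : Zs.card ≤ δ ^ 2 := by
    rw [← hqδ]
    exact singular_card_le hbez hq (by omega) hc hQ Zs (fun z hz => hZq z (mem_filter.mp hz).1)
      (fun z hz => (mem_filter.mp hz).2)
  have hi : ∀ i ∈ range r, (Zi i).card ≤ δ * (δ + 2 * m) * (δ * (2 ^ r * L)) := by
    intro i hi
    have hpr : Fact (ℓ i).Prime := ⟨(hℓ i).1⟩
    have h1 := smooth_card_le hbez hq hQ (2 * m) X (2 * δ * m ^ 2 + 2 * δ ^ 2 * m) hX1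
      (by rw [hqδ]; ring_nf; rfl) (ℓ i)
      (by
        rw [hqδ]
        apply size_ineq δ m hδ ε hε hm3 X (ℓ i) hX1
        exact lt_of_le_of_lt hLle (by exact_mod_cast (hℓ i).2.1))
      (Zi i) (fun z hz => ⟨(hZ z (mem_filter.mp hz).1).1, (hZ z (mem_filter.mp hz).1).2,
        hZq z (mem_filter.mp hz).1⟩) (fun z hz => (mem_filter.mp hz).2)
    rw [hqδ] at h1
    refine h1.trans ?_
    gcongr
    refine (hℓ i).2.2.trans ?_
    gcongr
    · norm_num
    · exact mem_range.mp hi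
  have htot : Z.card ≤ δ ^ 2 + B * L := by
    calc Z.card ≤ (Zs ∪ (range r).biUnion Zi).card := card_le_card hcover
      _ ≤ Zs.card + ((range r).biUnion Zi).card := card_union_le _ _
      _ ≤ δ ^ 2 + r * (δ * (δ + 2 * m) * (δ * (2 ^ r * L))) := by
          apply add_le_add hs
          refine card_biUnion_le.trans ?_
          refine (sum_le_sum hi).trans ?_
          rw [sum_const, card_range, smul_eq_mul]
      _ = δ ^ 2 + B * L := by
          rw [hB]
          ring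
  have htot' : (Z.card : ℝ) ≤ (δ : ℝ) ^ 2 + B * L := by exact_mod_cast htot
  calc (Z.card : ℝ) ≤ (δ : ℝ) ^ 2 + B * L := htot'
    _ ≤ (δ : ℝ) ^ 2 * T + B * (2 * A * T) := by
        apply add_le_add
        · exact le_mul_of_one_le_right (by positivity) hT1
        · exact mul_le_mul_of_nonneg_left hLge (by positivity)
    _ = ((δ : ℝ) ^ 2 + B * (2 * A)) * T := by ring

end Vale.Agent.P018
end

section

/-! The Bombieri-Pila bound. -/

namespace Vale.Agent.P018

/-- Module D: Bombieri-Pila. -/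
theorem bombieri_pila (δ : ℕ) (hδ : 2 ≤ δ) (ε : ℝ) (hε : 0 < ε) :
    ∃ K : ℝ, 0 < K ∧ ∀ X : ℕ, 2 ≤ X → ∀ q : MvPolynomial (Fin 2) ℚ,
    Irreducible q → q.totalDegree = δ → ∀ Z : Finset (ℤ × ℤ),
    (∀ z ∈ Z, |z.1| ≤ X ∧ |z.2| ≤ X) → (∀ z ∈ Z, evQ z q = 0) →
    (Z.card : ℝ) ≤ K * (X : ℝ) ^ (1 / (δ : ℝ) + ε) :=
  bombieri_pila_of (fun _ _ hq hG Z h1 h2 => bezout_bound hq hG Z h1 h2) δ (height_control δ)
    hδ ε hε

end Vale.Agent.P018
end

section

/-! Points on a curve of bounded degree, in a box after a unimodular change of coordinates. -/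

namespace Vale.Agent.P018

open Finset Polynomial

/-- linear substitution. -/
noncomputable def linSub (a b q r : ℤ) : MvPolynomial (Fin 2) ℚ →ₐ[ℚ] MvPolynomial (Fin 2) ℚ :=
  MvPolynomial.aeval ![MvPolynomial.C (a : ℚ) * MvPolynomial.X 0 + MvPolynomial.C (b : ℚ) * MvPolynomial.X 1,
    MvPolynomial.C (q : ℚ) * MvPolynomial.X 0 + MvPolynomial.C (r : ℚ) * MvPolynomial.X 1]

theorem linSub_comp (a b q r : ℤ) (h : a * r - b * q = 1) (g : MvPolynomial (Fin 2) ℚ) :
    linSub r (-b) (-q) a (linSub a b q r g) = g := by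
  have hQ : (a : ℚ) * r - b * q = 1 := by exact_mod_cast h
  have hC : MvPolynomial.C (a : ℚ) * MvPolynomial.C (r : ℚ) -
      MvPolynomial.C (b : ℚ) * MvPolynomial.C (q : ℚ) = (1 : MvPolynomial (Fin 2) ℚ) := by
    rw [← MvPolynomial.C_mul, ← MvPolynomial.C_mul, ← MvPolynomial.C_sub, hQ, MvPolynomial.C_1]
  have h1 : (linSub r (-b) (-q) a).comp (linSub a b q r) = AlgHom.id ℚ _ := by
    apply MvPolynomial.algHom_ext
    intro i
    fin_cases i
    · simp only [linSub, AlgHom.comp_apply, MvPolynomial.aeval_X, Fin.zero_eta, Fin.isValue,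
        Matrix.cons_val_zero, map_add, map_mul, Matrix.cons_val_one, MvPolynomial.algHom_C,
        MvPolynomial.algebraMap_eq, AlgHom.coe_id, id_eq, Int.cast_neg, map_neg]
      linear_combination (MvPolynomial.X 0 : MvPolynomial (Fin 2) ℚ) * hC
    · simp only [linSub, AlgHom.comp_apply, MvPolynomial.aeval_X, Fin.mk_one, Fin.isValue,
        Matrix.cons_val_zero, map_add, map_mul, Matrix.cons_val_one, MvPolynomial.algHom_C,
        MvPolynomial.algebraMap_eq, AlgHom.coe_id, id_eq, Int.cast_neg, map_neg]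
      linear_combination (MvPolynomial.X 1 : MvPolynomial (Fin 2) ℚ) * hC
  have := congrArg (fun φ : MvPolynomial (Fin 2) ℚ →ₐ[ℚ] MvPolynomial (Fin 2) ℚ => φ g) h1
  simpa using this

noncomputable def linEquiv (a b q r : ℤ) (h : a * r - b * q = 1) :
    MvPolynomial (Fin 2) ℚ ≃ₐ[ℚ] MvPolynomial (Fin 2) ℚ :=
  AlgEquiv.ofAlgHom (linSub a b q r) (linSub r (-b) (-q) a)
    (by
      apply AlgHom.ext
      intro g
      have h2 := linSub_comp r (-b) (-q) a (by linarith) g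
      simp only [neg_neg] at h2
      simpa using h2)
    (by
      apply AlgHom.ext
      intro g
      simpa using linSub_comp a b q r h g)

theorem linSub_irreducible (a b q r : ℤ) (h : a * r - b * q = 1) (g : MvPolynomial (Fin 2) ℚ)
    (hg : Irreducible g) : Irreducible (linSub a b q r g) := by
  have := (MulEquiv.irreducible_iff (linEquiv a b q r h)).mpr hg
  simpa [linEquiv] using this

theorem totalDegree_aeval_le (v : Fin 2 → MvPolynomial (Fin 2) ℚ) (hv : ∀ i, (v i).totalDegree ≤ 1)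
    (g : MvPolynomial (Fin 2) ℚ) : (MvPolynomial.aeval v g).totalDegree ≤ g.totalDegree := by
  rw [MvPolynomial.aeval_def, MvPolynomial.eval₂_eq']
  refine (MvPolynomial.totalDegree_finsetSum _ _).trans ?_
  refine Finset.sup_le fun m hm => ?_
  refine (MvPolynomial.totalDegree_mul _ _).trans ?_
  rw [MvPolynomial.algebraMap_eq, MvPolynomial.totalDegree_C, zero_add]
  refine (MvPolynomial.totalDegree_finsetProd _ _).trans ?_
  have h1 : ∑ i, ((v i) ^ (m i)).totalDegree ≤ ∑ i, m i := by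
    refine Finset.sum_le_sum fun i _ => ?_
    refine (MvPolynomial.totalDegree_pow _ _).trans ?_
    calc m i * (v i).totalDegree ≤ m i * 1 := Nat.mul_le_mul_left _ (hv i)
      _ = m i := mul_one _
  refine h1.trans ?_
  have h2 := MvPolynomial.le_totalDegree hm
  rwa [Finsupp.sum_fintype _ _ (fun _ => rfl)] at h2

theorem totalDegree_lin (a b : ℤ) : (MvPolynomial.C (a : ℚ) * MvPolynomial.X 0 +
    MvPolynomial.C (b : ℚ) * MvPolynomial.X 1 : MvPolynomial (Fin 2) ℚ).totalDegree ≤ 1 := by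
  refine (MvPolynomial.totalDegree_add _ _).trans (max_le ?_ ?_)
  · refine (MvPolynomial.totalDegree_mul _ _).trans ?_
    rw [MvPolynomial.totalDegree_C, MvPolynomial.totalDegree_X]
  · refine (MvPolynomial.totalDegree_mul _ _).trans ?_
    rw [MvPolynomial.totalDegree_C, MvPolynomial.totalDegree_X]

theorem linSub_totalDegree_le (a b q r : ℤ) (g : MvPolynomial (Fin 2) ℚ) :
    (linSub a b q r g).totalDegree ≤ g.totalDegree := by
  apply totalDegree_aeval_le
  intro i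
  fin_cases i
  · exact totalDegree_lin a b
  · exact totalDegree_lin q r

theorem linSub_totalDegree (a b q r : ℤ) (h : a * r - b * q = 1) (g : MvPolynomial (Fin 2) ℚ) :
    (linSub a b q r g).totalDegree = g.totalDegree := by
  apply le_antisymm (linSub_totalDegree_le a b q r g)
  calc g.totalDegree = (linSub r (-b) (-q) a (linSub a b q r g)).totalDegree := by
        rw [linSub_comp a b q r h g]
    _ ≤ _ := linSub_totalDegree_le _ _ _ _ _

theorem evQ_linSub (a b q r : ℤ) (g : MvPolynomial (Fin 2) ℚ) (y : ℤ × ℤ) :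
    evQ y (linSub a b q r g) = evQ (a * y.1 + b * y.2, q * y.1 + r * y.2) g := by
  have h1 : (evQ y).comp (linSub a b q r : MvPolynomial (Fin 2) ℚ →+* MvPolynomial (Fin 2) ℚ) =
      evQ (a * y.1 + b * y.2, q * y.1 + r * y.2) := by
    apply MvPolynomial.ringHom_ext
    · intro c
      simp [evQ, linSub]
    · intro i
      fin_cases i
      · simp [evQ, linSub]
      · simp [evQ, linSub]
  have := congrArg (fun φ : MvPolynomial (Fin 2) ℚ →+* ℚ => φ g) h1
  simpa using this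

theorem X_dvd_sub_res0 (g : MvPolynomial (Fin 2) ℚ) :
    MvPolynomial.X 1 ∣ g - Polynomial.aeval (MvPolynomial.X 0 : MvPolynomial (Fin 2) ℚ) (res0 g) := by
  induction g using MvPolynomial.induction_on with
  | C a =>
    have : res0 (MvPolynomial.C a) = Polynomial.C a := by
      rw [← MvPolynomial.algebraMap_eq, AlgHom.commutes]
      rfl
    rw [this, Polynomial.aeval_C, MvPolynomial.algebraMap_eq, sub_self]
    exact dvd_zero _
  | add p q hp hq =>
    rw [map_add, map_add]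
    have := dvd_add hp hq
    convert! this using 1
    ring
  | mul_X p i hp =>
    rw [map_mul, map_mul]
    fin_cases i
    · have : res0 (MvPolynomial.X 0) = Polynomial.X := by simp [res0]
      simp only [Fin.zero_eta, Fin.isValue]
      rw [this, Polynomial.aeval_X, ← sub_mul]
      exact Dvd.dvd.mul_right hp _
    · have : res0 (MvPolynomial.X 1) = 0 := by simp [res0]
      simp only [Fin.mk_one, Fin.isValue]
      rw [this, map_zero, mul_zero, sub_zero]
      exact Dvd.intro_left p rfl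

theorem natDegree_res0_le (g : MvPolynomial (Fin 2) ℚ) : (res0 g).natDegree ≤ g.totalDegree := by
  unfold res0
  rw [MvPolynomial.aeval_def, MvPolynomial.eval₂_eq']
  refine Polynomial.natDegree_sum_le_of_forall_le _ _ fun m hm => ?_
  have h2 := MvPolynomial.le_totalDegree hm
  rw [Finsupp.sum_fintype _ _ (fun _ => rfl), Fin.sum_univ_two] at h2
  rw [Fin.prod_univ_two]
  simp only [Fin.isValue, Matrix.cons_val_zero, Matrix.cons_val_one]
  refine Polynomial.natDegree_mul_le.trans ?_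
  have h3 : ((algebraMap ℚ ℚ[X]) (MvPolynomial.coeff m g)).natDegree = 0 := by
    rw [← Polynomial.C_eq_algebraMap, Polynomial.natDegree_C]
  rw [h3, zero_add]
  refine Polynomial.natDegree_mul_le.trans ?_
  rw [Polynomial.natDegree_X_pow]
  have h4 : ((0 : ℚ[X]) ^ (m 1)).natDegree = 0 := by
    rcases Nat.eq_zero_or_pos (m 1) with h | h
    · rw [h, pow_zero, Polynomial.natDegree_one]
    · rw [zero_pow h.ne', Polynomial.natDegree_zero]
  rw [h4]
  omega

theorem totalDegree_pos_of_irreducible (g : MvPolynomial (Fin 2) ℚ) (hg : Irreducible g) :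
    1 ≤ g.totalDegree := by
  by_contra hcon
  have h0 : g.totalDegree = 0 := by omega
  have h1 := MvPolynomial.totalDegree_eq_zero_iff_eq_C.mp h0
  apply hg.not_isUnit
  rw [h1]
  apply IsUnit.map
  rw [isUnit_iff_ne_zero]
  intro h2
  apply hg.ne_zero
  rw [h1, h2, MvPolynomial.C_0]

theorem factor_count (S : Set (ℤ × ℤ)) (Δ : ℕ) (B : ℝ) (hB : 0 ≤ B)
    (h : ∀ g : MvPolynomial (Fin 2) ℚ, Irreducible g → g.totalDegree ≤ Δ → ∀ Z : Finset (ℤ × ℤ),
      (∀ z ∈ Z, z ∈ S) → (∀ z ∈ Z, evQ z g = 0) → (Z.card : ℝ) ≤ B)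
    (C : MvPolynomial (Fin 2) ℚ) (hC : C ≠ 0) (hCΔ : C.totalDegree ≤ Δ) (Z : Finset (ℤ × ℤ))
    (hZS : ∀ z ∈ Z, z ∈ S) (hZ : ∀ z ∈ Z, evQ z C = 0) : (Z.card : ℝ) ≤ Δ * B := by
  classical
  have key : ∀ C : MvPolynomial (Fin 2) ℚ, C ≠ 0 → C.totalDegree ≤ Δ → ∀ Z : Finset (ℤ × ℤ),
      (∀ z ∈ Z, z ∈ S) → (∀ z ∈ Z, evQ z C = 0) → (Z.card : ℝ) ≤ C.totalDegree * B := by
    intro C
    induction C using UniqueFactorizationMonoid.induction_on_prime with
    | h₁ => intro h0; exact absurd rfl h0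
    | h₂ u hu =>
      intro _ _ Z _ hZ
      have : Z = ∅ := by
        rw [Finset.eq_empty_iff_forall_notMem]
        intro z hz
        exact (hu.map (evQ z)).ne_zero (hZ z hz)
      rw [this]
      simp only [Finset.card_empty, Nat.cast_zero]
      (clear * - hB; positivity)
    | h₃ a p ha hp ih =>
      intro hne hdeg Z hZS hZ
      have hp0 : p ≠ 0 := hp.ne_zero
      have hdeg' := MvPolynomial.totalDegree_mul_of_isDomain hp0 ha
      rw [hdeg'] at hdeg
      have hsub : Z ⊆ (Z.filter fun z => evQ z p = 0) ∪ (Z.filter fun z => evQ z a = 0) := by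
        intro z hz
        have h1 := hZ z hz
        rw [map_mul, mul_eq_zero] at h1
        rw [mem_union, mem_filter, mem_filter]
        rcases h1 with h1 | h1
        · exact Or.inl ⟨hz, h1⟩
        · exact Or.inr ⟨hz, h1⟩
      have h1 : ((Z.filter fun z => evQ z p = 0).card : ℝ) ≤ B :=
        h p hp.irreducible (by omega) _ (fun z hz => hZS z (Finset.mem_filter.mp hz).1)
          (fun z hz => (Finset.mem_filter.mp hz).2)
      have h2 : ((Z.filter fun z => evQ z a = 0).card : ℝ) ≤ a.totalDegree * B :=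
        ih ha (by omega) _ (fun z hz => hZS z (Finset.mem_filter.mp hz).1)
          (fun z hz => (Finset.mem_filter.mp hz).2)
      have h3 : (Z.card : ℝ) ≤ (Z.filter fun z => evQ z p = 0).card +
          (Z.filter fun z => evQ z a = 0).card := by
        exact_mod_cast (Finset.card_le_card hsub).trans (Finset.card_union_le _ _)
      have h4 : (1 : ℝ) ≤ p.totalDegree := by
        exact_mod_cast totalDegree_pos_of_irreducible p hp.irreducible
      rw [hdeg']
      push_cast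
      nlinarith
  refine (key C hC hCΔ Z hZS hZ).trans ?_
  have : (C.totalDegree : ℝ) ≤ Δ := by exact_mod_cast hCΔ
  exact mul_le_mul_of_nonneg_right this hB

/-- Module F1: points on a curve of bounded degree, in a box after a unimodular change of
coordinates. -/
theorem curve_count (f : ℤ[X]) (hirr : Irreducible (f.map (Int.castRingHom ℚ)))
    (hd : 2 ≤ f.natDegree) (Δ : ℕ) (ε : ℝ) (hε : 0 < ε) :
    ∃ (K : ℝ) (P0 : ℕ), 0 < K ∧ ∀ P : ℕ, P0 ≤ P → ∀ Y : ℕ, 2 ≤ Y → ∀ a b q r : ℤ,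
    a * r - b * q = 1 → ∀ C : MvPolynomial (Fin 2) ℚ, C ≠ 0 → C.totalDegree ≤ Δ →
    ∀ Z : Finset (ℤ × ℤ),
    (∀ z ∈ Z, 0 < z.1 ∧ z.1 < z.2 ∧ (P : ℤ) < z.2 ∧ z.2 ≤ 2 * P ∧ Prime z.2 ∧
      z.2 ∣ f.eval z.1 ∧ |r * z.1 - b * z.2| ≤ Y ∧ |a * z.2 - q * z.1| ≤ Y ∧ evQ z C = 0) →
    (Z.card : ℝ) ≤ K * (Y : ℝ) ^ (1 / (f.natDegree : ℝ) + ε) := by
  classical
  obtain ⟨K1, P0, hE⟩ := small_curve_of f hirr Δ (height_control Δ)
  have hD : ∀ δ : ℕ, ∃ K : ℝ, 0 < K ∧ (2 ≤ δ → ∀ X : ℕ, 2 ≤ X → ∀ q : MvPolynomial (Fin 2) ℚ,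
    Irreducible q → q.totalDegree = δ → ∀ Z : Finset (ℤ × ℤ),
    (∀ z ∈ Z, |z.1| ≤ X ∧ |z.2| ≤ X) → (∀ z ∈ Z, evQ z q = 0) →
    (Z.card : ℝ) ≤ K * (X : ℝ) ^ (1 / (δ : ℝ) + ε)) := by
    intro δ
    by_cases hδ : 2 ≤ δ
    · obtain ⟨K, hK, hK2⟩ := bombieri_pila δ hδ ε hε
      exact ⟨K, hK, fun _ => hK2⟩
    · exact ⟨1, one_pos, fun h => absurd h hδ⟩
  choose KD hKD0 hKD using hD
  set K2 : ℝ := ∑ δ ∈ range (Δ + 1), KD δ with hK2
  have hK20 : 0 ≤ K2 := Finset.sum_nonneg fun δ _ => (hKD0 δ).le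
  have hfnd : (f.map (Int.castRingHom ℚ)).natDegree = f.natDegree :=
    Polynomial.natDegree_map_eq_of_injective (Int.cast_injective (α := ℚ)) f
  refine ⟨Δ * (K1 + K2) + 1, P0, by (clear * - hK20; positivity), ?_⟩
  intro P hP Y hY a b q r hdet C hC hCΔ Z hZ
  have hY1 : (1 : ℝ) ≤ Y := by exact_mod_cast (by omega : 1 ≤ Y)
  set S : Set (ℤ × ℤ) := {z | 0 < z.1 ∧ z.1 < z.2 ∧ (P : ℤ) < z.2 ∧ z.2 ≤ 2 * P ∧ Prime z.2 ∧
      z.2 ∣ f.eval z.1 ∧ |r * z.1 - b * z.2| ≤ Y ∧ |a * z.2 - q * z.1| ≤ Y} with hS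
  have hpow1 : (1 : ℝ) ≤ (Y : ℝ) ^ (1 / (f.natDegree : ℝ) + ε) :=
    Real.one_le_rpow hY1 (by positivity)
  have hB0 : 0 ≤ (K1 + K2) * (Y : ℝ) ^ (1 / (f.natDegree : ℝ) + ε) := by (clear * - hK20 hY; positivity)
  have hmain := factor_count S Δ ((K1 + K2) * (Y : ℝ) ^ (1 / (f.natDegree : ℝ) + ε)) hB0 ?_
    C hC hCΔ Z (fun z hz => by
      obtain ⟨h1, h2, h3, h4, h5, h6, h7, h8, h9⟩ := hZ z hz
      exact ⟨h1, h2, h3, h4, h5, h6, h7, h8⟩) (fun z hz => (hZ z hz).2.2.2.2.2.2.2.2)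
  · refine hmain.trans ?_
    have : (Δ : ℝ) * ((K1 + K2) * (Y : ℝ) ^ (1 / (f.natDegree : ℝ) + ε)) =
      (Δ * (K1 + K2)) * (Y : ℝ) ^ (1 / (f.natDegree : ℝ) + ε) := by ring
    rw [this]
    exact mul_le_mul_of_nonneg_right (by linarith only []) (by positivity)
  · intro g hg hgΔ Z' hZ'S hZ'
    by_cases hdiv : f.map (Int.castRingHom ℚ) ∣ res0 g
    · by_cases hres : res0 g = 0
      · have hX : MvPolynomial.X 1 ∣ g := by
          have := X_dvd_sub_res0 g
          rw [hres, map_zero, sub_zero] at this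
          exact this
        have hempty : Z' = ∅ := by
          rw [Finset.eq_empty_iff_forall_notMem]
          intro z hz
          obtain ⟨c, hc⟩ := hX
          have hXu : ¬ IsUnit (MvPolynomial.X 1 : MvPolynomial (Fin 2) ℚ) :=
            (MvPolynomial.X_prime (R := ℚ) (i := (1 : Fin 2))).not_isUnit
          have hcu : IsUnit c := (hg.isUnit_or_isUnit hc).resolve_left hXu
          have h1 := hZ' z hz
          rw [hc, map_mul, mul_eq_zero] at h1
          rcases h1 with h1 | h1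
          · have h2 : evQ z (MvPolynomial.X 1) = (z.2 : ℚ) := by simp [evQ]
            rw [h2] at h1
            have h3 : z.2 = 0 := by exact_mod_cast h1
            have h4 := (hZ'S z hz).2.2.1
            rw [h3] at h4
            have : (0 : ℤ) ≤ P := by (clear * -; positivity)
            omega
          · exact (hcu.map (evQ z)).ne_zero h1
        rw [hempty]
        simp only [Finset.card_empty, Nat.cast_zero]
        exact hB0
      · have hdeg : f.natDegree ≤ g.totalDegree := by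
          have h1 := Polynomial.natDegree_le_of_dvd hdiv hres
          rw [hfnd] at h1
          exact h1.trans (natDegree_res0_le g)
        have hirr' := linSub_irreducible a b q r hdet g hg
        have hdeg' := linSub_totalDegree a b q r hdet g
        let τ : ℤ × ℤ → ℤ × ℤ := fun z => (r * z.1 - b * z.2, a * z.2 - q * z.1)
        have hτinv : ∀ z : ℤ × ℤ, (a * (τ z).1 + b * (τ z).2, q * (τ z).1 + r * (τ z).2) = z := by
          intro z
          ext
          · simp only [τ]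
            linear_combination z.1 * hdet
          · simp only [τ]
            linear_combination z.2 * hdet
        have hτinj : Function.Injective τ := by
          intro z w hzw
          rw [← hτinv z, ← hτinv w, hzw]
        have h2 := hKD g.totalDegree (by omega) Y hY (linSub a b q r g) hirr' hdeg' (Z'.image τ)
          (by
            intro y hy
            rw [mem_image] at hy
            obtain ⟨z, hz, rfl⟩ := hy
            exact ⟨(hZ'S z hz).2.2.2.2.2.2.1, (hZ'S z hz).2.2.2.2.2.2.2⟩)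
          (by
            intro y hy
            rw [mem_image] at hy
            obtain ⟨z, hz, rfl⟩ := hy
            rw [evQ_linSub, hτinv]
            exact hZ' z hz)
        rw [Finset.card_image_of_injective _ hτinj] at h2
        refine h2.trans ?_
        have h3 : (Y : ℝ) ^ (1 / (g.totalDegree : ℝ) + ε) ≤ (Y : ℝ) ^ (1 / (f.natDegree : ℝ) + ε) := by
          apply Real.rpow_le_rpow_of_exponent_le hY1
          have h4 : (0 : ℝ) < f.natDegree := by exact_mod_cast (by omega : 0 < f.natDegree)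
          have h5 : (f.natDegree : ℝ) ≤ g.totalDegree := by exact_mod_cast hdeg
          have := one_div_le_one_div_of_le h4 h5
          linarith only [this]
        have h4 : KD g.totalDegree ≤ K1 + K2 := by
          have h5 : KD g.totalDegree ≤ K2 :=
            Finset.single_le_sum (f := KD) (fun δ _ => (hKD0 δ).le)
              (Finset.mem_range.mpr (by omega))
          have h6 : (0 : ℝ) ≤ K1 := by (clear * -; positivity)
          linarith only [h6, h5]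
        exact mul_le_mul h4 h3 (by positivity) (by (clear * - hK20; positivity))
    · have h1 := hE P hP g hg hgΔ hdiv Z' (fun z hz => by
        obtain ⟨h1, h2, h3, h4, h5, h6, h7, h8⟩ := hZ'S z hz
        exact ⟨h1, h2, h3, h4, h5, h6⟩) hZ'
      have h2 : (Z'.card : ℝ) ≤ K1 := by exact_mod_cast h1
      have h3 : (K1 : ℝ) + K2 ≤ (K1 + K2) * (Y : ℝ) ^ (1 / (f.natDegree : ℝ) + ε) :=
        le_mul_of_one_le_right (by (clear * - hK20; positivity)) hpow1
      linarith only [h3, h2, hK20]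

end Vale.Agent.P018
end

section

/-! The bound for the number of pairs `(n, p)`. -/

namespace Vale.Agent.P018

open Finset Polynomial

theorem fiber_bound (f : ℤ[X]) (hirr : Irreducible (f.map (Int.castRingHom ℚ))) (k : ℕ)
    (hk : 2 ≤ k) (hkd : k < f.natDegree) (x ε : ℝ)
    (hx : 9 * ((f.natDegree : ℝ) - k) / (4 * f.natDegree) < x) (hε : 0 < ε) :
    ∃ (K : ℝ) (P0 : ℕ), 0 < K ∧ ∀ P : ℕ, P0 ≤ P → ∀ Q0 : ℕ, 2 ≤ Q0 →
      (P : ℝ) ^ x ≤ (Q0 : ℝ) ^ 2 → Q0 ≤ P → ∀ (a : ℤ) (q : ℕ), 1 ≤ q → q ≤ Q0 →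
      Int.gcd a q = 1 → ∀ u0 : ℝ, 0 ≤ u0 → u0 ≤ 2 → ∀ S : Finset (ℕ × ℕ),
      (∀ z ∈ S, 1 ≤ z.1 ∧ z.1 < z.2 ∧ P < z.2 ∧ z.2 ≤ 2 * P ∧ z.2.Prime ∧
        (z.2 : ℤ) ^ k ∣ f.eval (z.1 : ℤ) ∧ |(z.1 : ℝ) / z.2 - a / q| ≤ 1 / (Q0 * q) ∧
        |(z.1 : ℝ) / z.2 - u0| ≤ 1 / (Q0 : ℝ) ^ 2) →
      (S.card : ℝ) ≤ K * ((P : ℝ) / q) ^ (1 / (f.natDegree : ℝ) + ε) := by
  classical
  obtain ⟨Δ, P1, hpatch⟩ := patch_curve f k (by omega) hkd x hx
  obtain ⟨K, P2, hK0, hcurve⟩ := curve_count f hirr (by omega) Δ ε hε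
  set β : ℝ := 1 / (f.natDegree : ℝ) + ε with hβ
  have hβ0 : 0 ≤ β := by (clear * - hε; positivity)
  refine ⟨K * 5 ^ β, max (max P1 P2) 1, by positivity, ?_⟩
  intro P hP Q0 hQ0 hQx hQP a q hq1 hqQ hgcd u0 hu0 hu2 S hS
  have hP1 : P1 ≤ P := le_trans (le_trans (le_max_left _ _) (le_max_left _ _)) hP
  have hP2 : P2 ≤ P := le_trans (le_trans (le_max_right _ _) (le_max_left _ _)) hP
  have hP3 : 1 ≤ P := le_trans (le_max_right _ _) hP
  have hPr : (1 : ℝ) ≤ P := by exact_mod_cast hP3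
  have hqr : (1 : ℝ) ≤ q := by exact_mod_cast hq1
  have hQr : (2 : ℝ) ≤ Q0 := by exact_mod_cast hQ0
  have hqQr : (q : ℝ) ≤ Q0 := by exact_mod_cast hqQ
  have hqPr : (q : ℝ) ≤ P := by exact_mod_cast hqQ.trans hQP
  let e : ℕ × ℕ → ℤ × ℤ := fun z => ((z.1 : ℤ), (z.2 : ℤ))
  have he : Function.Injective e := by
    intro z w hzw
    simp only [e, Prod.mk.injEq, Nat.cast_inj] at hzw
    exact Prod.ext hzw.1 hzw.2
  have hdelta : 1 / (Q0 : ℝ) ^ 2 ≤ (P : ℝ) ^ (-x) := by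
    rw [Real.rpow_neg (by linarith only [hqPr]), one_div]
    exact inv_anti₀ (by positivity) hQx
  obtain ⟨C, hC0, hCΔ, hCz⟩ := hpatch P hP1 u0 hu0 hu2 (S.image e) (by
    intro w hw
    rw [mem_image] at hw
    obtain ⟨z, hz, rfl⟩ := hw
    obtain ⟨h1, h2, h3, h4, h5, h6, h7, h8⟩ := hS z hz
    simp only [e]
    refine ⟨by exact_mod_cast h3, by exact_mod_cast h4, ?_, h6⟩
    push_cast
    exact h8.trans hdelta)
  obtain ⟨b, r, hdet, hr0, hrq⟩ := exists_unimodular a q (by omega) hgcd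
  set Y : ℕ := 4 * P / q + 1 with hY
  have hY1 : 4 * (P : ℝ) / q ≤ Y := by
    rw [div_le_iff₀ (by linarith only [hqr])]
    have h1 : 4 * P < q * (4 * P / q + 1) := Nat.lt_mul_div_succ _ (by omega)
    have h2 : ((4 * P : ℕ) : ℝ) < ((q * (4 * P / q + 1) : ℕ) : ℝ) := by exact_mod_cast h1
    push_cast at h2
    rw [hY]
    push_cast
    linarith only [h2]
  have hY2 : (Y : ℝ) ≤ 5 * (P / q) := by
    have h1 : ((4 * P / q : ℕ) : ℝ) ≤ ((4 * P : ℕ) : ℝ) / q := Nat.cast_div_le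
    push_cast at h1
    have h2 : 1 ≤ (P : ℝ) / q := by
      rw [le_div_iff₀ (by linarith only [hqr])]
      linarith only [hqPr]
    rw [hY]
    push_cast
    have h3 : 4 * (P : ℝ) / q = 4 * (P / q) := by ring
    rw [h3] at h1
    linarith only [h2, h1]
  have hY3 : 2 ≤ Y := by
    have h1 : 1 ≤ 4 * P / q := by
      rw [Nat.one_le_div_iff (by omega)]
      have : q ≤ P := hqQ.trans hQP
      omega
    omega
  have hmain := hcurve P hP2 Y hY3 a b q r hdet C hC0 hCΔ (S.image e) (by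
    intro w hw
    have hw' := hw
    rw [mem_image] at hw
    obtain ⟨z, hz, rfl⟩ := hw
    obtain ⟨h1, h2, h3, h4, h5, h6, h7, h8⟩ := hS z hz
    simp only [e]
    have hzpos : (0 : ℝ) < z.2 := by
      have : 0 < z.2 := by omega
      exact_mod_cast this
    have h4r : (z.2 : ℝ) ≤ 2 * P := by exact_mod_cast h4
    have hA : |(a : ℝ) * z.2 - q * z.1| ≤ z.2 / Q0 := by
      have h9 : (a : ℝ) * z.2 - q * z.1 = -(q * z.2) * ((z.1 : ℝ) / z.2 - a / q) := by
        field_simp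
        ring
      rw [h9, abs_mul, abs_neg, abs_of_pos (by (clear * - hq1 hzpos; positivity))]
      calc (q : ℝ) * z.2 * |(z.1 : ℝ) / z.2 - a / q| ≤ q * z.2 * (1 / (Q0 * q)) :=
            mul_le_mul_of_nonneg_left h7 (by (clear * - hq1 hzpos; positivity))
        _ = z.2 / Q0 := by
            field_simp
    have hA2 : (z.2 : ℝ) / Q0 ≤ z.2 / q :=
      div_le_div_of_nonneg_left hzpos.le (by linarith only [hqr]) hqQr
    have hA3 : (z.2 : ℝ) / q ≤ 2 * P / q := by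
      apply div_le_div_of_nonneg_right h4r (by linarith only [hqPr])
    refine ⟨by exact_mod_cast h1, by exact_mod_cast h2, by exact_mod_cast h3,
      by exact_mod_cast h4, Nat.prime_iff_prime_int.mp h5, (dvd_pow_self _ (by omega)).trans h6,
      ?_, ?_, hCz _ hw'⟩
    · have hB : |(r : ℝ) * z.1 - b * z.2| ≤ Y := by
        have hdetR : (a : ℝ) * r - b * q = 1 := by exact_mod_cast hdet
        have h9 : (q : ℝ) * ((r : ℝ) * z.1 - b * z.2) = z.2 - r * (a * z.2 - q * z.1) := by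
          linear_combination (z.2 : ℝ) * hdetR
        have h10 : (q : ℝ) * |(r : ℝ) * z.1 - b * z.2| ≤ z.2 + q * (z.2 / q) := by
          rw [← abs_of_pos (by linarith only [hqr] : (0 : ℝ) < q), ← abs_mul, abs_of_pos (by linarith only [hqr] : (0 : ℝ) < q),
            h9]
          refine (abs_sub _ _).trans ?_
          rw [abs_of_pos hzpos, abs_mul]
          have h11 : |(r : ℝ)| ≤ q := by
            rw [abs_of_nonneg (by exact_mod_cast hr0)]
            exact_mod_cast hrq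
          have h12 := mul_le_mul h11 (hA.trans hA2) (abs_nonneg _) (by linarith only [h11])
          linarith only [h12]
        have h13 : (q : ℝ) * (z.2 / q) = z.2 := by field_simp
        rw [h13] at h10
        have h14 : |(r : ℝ) * z.1 - b * z.2| ≤ 2 * z.2 / q := by
          rw [le_div_iff₀ (by linarith only [hqr])]
          linarith only [h10]
        refine h14.trans (le_trans ?_ hY1)
        apply div_le_div_of_nonneg_right _ (by linarith only [h13])
        linarith only [h4r]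
      have hB' : |((r * (z.1 : ℤ) - b * (z.2 : ℤ) : ℤ) : ℝ)| ≤ ((Y : ℤ) : ℝ) := by
        push_cast
        exact hB
      exact_mod_cast hB'
    · have hB : |(a : ℝ) * z.2 - q * z.1| ≤ Y := by
        refine hA.trans (hA2.trans (hA3.trans (le_trans ?_ hY1)))
        apply div_le_div_of_nonneg_right _ (by linarith only [hqPr])
        linarith only [h4r, hzpos]
      have hB' : |((a * (z.2 : ℤ) - (q : ℤ) * (z.1 : ℤ) : ℤ) : ℝ)| ≤ ((Y : ℤ) : ℝ) := by
        push_cast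
        exact hB
      exact_mod_cast hB')
  rw [Finset.card_image_of_injective _ he] at hmain
  refine hmain.trans ?_
  rw [mul_assoc, ← Real.mul_rpow (by norm_num) (by positivity)]
  exact mul_le_mul_of_nonneg_left (Real.rpow_le_rpow (by positivity) hY2 hβ0) hK0.le

end Vale.Agent.P018
end

section

/-! `pairs_bound`. -/

namespace Vale.Agent.P018

open Finset Polynomial

/-- The pairs whose ratio is close to `a/q` with `a ≥ 1`. -/
theorem sector_count (f : ℤ[X]) (k : ℕ) (β K : ℝ) (hK : 0 ≤ K) (hβ0 : 0 ≤ β) (hβ1 : β < 1)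
    (P Q0 X : ℕ) (hX : 1 ≤ X) (hXP : X ≤ P) (hQ2 : 2 ≤ Q0)
    (hfib : ∀ (a : ℤ) (q : ℕ), 1 ≤ q → q ≤ Q0 →
      Int.gcd a q = 1 → ∀ u0 : ℝ, 0 ≤ u0 → u0 ≤ 2 → ∀ S : Finset (ℕ × ℕ),
      (∀ z ∈ S, 1 ≤ z.1 ∧ z.1 < z.2 ∧ P < z.2 ∧ z.2 ≤ 2 * P ∧ z.2.Prime ∧
        (z.2 : ℤ) ^ k ∣ f.eval (z.1 : ℤ) ∧ |(z.1 : ℝ) / z.2 - a / q| ≤ 1 / (Q0 * q) ∧
        |(z.1 : ℝ) / z.2 - u0| ≤ 1 / (Q0 : ℝ) ^ 2) →
      (S.card : ℝ) ≤ K * ((P : ℝ) / q) ^ β)
    (ρ : ℕ × ℕ → ℚ)
    (hρ : ∀ z, |(z.1 : ℝ) / z.2 - (ρ z : ℝ)| ≤ 1 / (((Q0 : ℝ) + 1) * (ρ z).den) ∧ (ρ z).den ≤ Q0)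
    (S : Finset (ℕ × ℕ)) (hS : ∀ z ∈ S, z ∈ pairs f k X P ∧ 0 < (ρ z).num) :
    (S.card : ℝ) ≤ 4 * K / (1 - β) * ((X : ℝ) / P) * (P : ℝ) ^ β * (Q0 : ℝ) ^ (2 - β) := by
  classical
  have hPpos : (0 : ℝ) < P := by
    have : 0 < P := by omega
    exact_mod_cast this
  have hXpos : (0 : ℝ) < X := by exact_mod_cast hX
  have hQr : (2 : ℝ) ≤ Q0 := by exact_mod_cast hQ2
  have hXPr : (X : ℝ) ≤ P := by exact_mod_cast hXP
  -- facts about members
  have hmem : ∀ z ∈ S, 1 ≤ z.1 ∧ z.1 ≤ X ∧ z.1 < z.2 ∧ P < z.2 ∧ z.2 ≤ 2 * P ∧ z.2.Prime ∧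
        (z.2 : ℤ) ^ k ∣ f.eval (z.1 : ℤ) := by
    intro z hz
    have h1 := (hS z hz).1
    simp only [pairs, mem_filter, mem_product, mem_Icc, mem_Ioc] at h1
    obtain ⟨⟨⟨h2, h3⟩, h4, h5⟩, h6, h7⟩ := h1
    exact ⟨h2, h3, by omega, h4, h5, h6, h7⟩
  have hq : ∀ q ∈ Icc 1 Q0, ((S.filter fun z => (ρ z).den = q).card : ℝ) ≤
      4 * K * Q0 * ((X : ℝ) / P) * (P : ℝ) ^ β * (q : ℝ) ^ (-β) := by
    intro q hq
    rw [mem_Icc] at hq
    have hq1 : (1 : ℝ) ≤ q := by exact_mod_cast hq.1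
    have hqQ : (q : ℝ) ≤ Q0 := by exact_mod_cast hq.2
    have hqpos : (0 : ℝ) < q := by linarith only [hq1]
    set Aq : ℕ := ⌊2 * (q : ℝ) * X / P⌋₊ with hAq
    let g : ℕ × ℕ → ℕ × ℕ := fun z => ((ρ z).num.toNat,
      ⌊((z.1 : ℝ) / z.2 - (ρ z : ℝ) + 1 / (Q0 * q)) * ((Q0 : ℝ) ^ 2 / 2)⌋₊)
    have hclose : ∀ z ∈ S, (ρ z).den = q →
        |(z.1 : ℝ) / z.2 - (ρ z : ℝ)| ≤ 1 / (Q0 * q) := by
      intro z hz hden
      refine (hρ z).1.trans ?_
      rw [hden]
      apply one_div_le_one_div_of_le (by (clear * - hQ2 hq1; positivity))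
      linarith only [hqpos]
    have hρcast : ∀ z, (ρ z).den = q → (ρ z : ℝ) = ((ρ z).num : ℝ) / q := by
      intro z hden
      rw [Rat.cast_def, hden]
    have hg : ∀ z ∈ S.filter (fun z => (ρ z).den = q), g z ∈ (Icc 1 Aq) ×ˢ (range (Q0 / q + 1)) := by
      intro z hz
      rw [mem_filter] at hz
      obtain ⟨hzS, hden⟩ := hz
      have hnum := (hS z hzS).2
      obtain ⟨h1, h2, h3, h4, h5, h6, h7⟩ := hmem z hzS
      have hz2 : (0 : ℝ) < z.2 := by
        have : 0 < z.2 := by omega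
        exact_mod_cast this
      have hcl := hclose z hzS hden
      rw [mem_product, mem_Icc, mem_range]
      refine ⟨⟨?_, ?_⟩, ?_⟩
      · simp only [g]
        omega
      · simp only [g]
        rw [hAq]
        apply Nat.le_floor
        have hnumR : (((ρ z).num.toNat : ℕ) : ℝ) = ((ρ z).num : ℝ) := by
          have : (((ρ z).num.toNat : ℕ) : ℤ) = (ρ z).num := Int.toNat_of_nonneg hnum.le
          exact_mod_cast this
        rw [hnumR]
        have h8 : (ρ z : ℝ) ≤ (z.1 : ℝ) / z.2 + 1 / (((Q0 : ℝ) + 1) * q) := by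
          have := (hρ z).1
          rw [hden] at this
          have := (abs_le.mp this).1
          linarith only [this]
        rw [hρcast z hden] at h8
        have h9 : (z.1 : ℝ) / z.2 ≤ X / P := by
          apply div_le_div₀ hXpos.le (by exact_mod_cast h2) hPpos (by exact_mod_cast h4.le)
        have h10 : ((ρ z).num : ℝ) ≤ q * (X / P) + 1 / 2 := by
          have h11 : ((ρ z).num : ℝ) / q ≤ X / P + 1 / (((Q0 : ℝ) + 1) * q) := by linarith only [h9, h8]
          rw [div_le_iff₀ hqpos] at h11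
          have h12 : (X / P + 1 / (((Q0 : ℝ) + 1) * q)) * q = q * (X / P) + 1 / ((Q0 : ℝ) + 1) := by
            field_simp
          rw [h12] at h11
          have h13 : 1 / ((Q0 : ℝ) + 1) ≤ 1 / 2 := one_div_le_one_div_of_le (by norm_num) (by linarith only [hQr])
          linarith only [h13, h11]
        have h14 : (1 : ℝ) ≤ ((ρ z).num : ℝ) := by exact_mod_cast hnum
        have h15 : 2 * (q : ℝ) * X / P = 2 * (q * (X / P)) := by ring
        rw [h15]
        linarith only [h14, h10]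
      · simp only [g]
        rw [Nat.lt_succ_iff, ← Nat.floor_div_eq_div (K := ℝ)]
        apply Nat.floor_le_floor
        have h8 := (abs_le.mp hcl).2
        have h9 : ((z.1 : ℝ) / z.2 - (ρ z : ℝ) + 1 / (Q0 * q)) ≤ 2 / (Q0 * q) := by
          have : (2 : ℝ) / (Q0 * q) = 1 / (Q0 * q) + 1 / (Q0 * q) := by ring
          linarith only [this, h8]
        calc ((z.1 : ℝ) / z.2 - (ρ z : ℝ) + 1 / (Q0 * q)) * ((Q0 : ℝ) ^ 2 / 2)
            ≤ 2 / (Q0 * q) * ((Q0 : ℝ) ^ 2 / 2) :=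
              mul_le_mul_of_nonneg_right h9 (by positivity)
          _ = (Q0 : ℝ) / q := by field_simp
    have hfibre : ∀ t ∈ (Icc 1 Aq) ×ˢ (range (Q0 / q + 1)),
        (((S.filter (fun z => (ρ z).den = q)).filter (fun z => g z = t)).card : ℝ) ≤
          K * ((P : ℝ) / q) ^ β := by
      intro t ht
      rw [mem_product, mem_Icc, mem_range] at ht
      rcases Finset.eq_empty_or_nonempty
        ((S.filter (fun z => (ρ z).den = q)).filter (fun z => g z = t)) with he | he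
      · rw [he]
        simp only [card_empty, Nat.cast_zero]
        (clear * - hK hPpos hq1; positivity)
      · obtain ⟨z0, hz0⟩ := he
        rw [mem_filter, mem_filter] at hz0
        obtain ⟨⟨hz0S, hden0⟩, hg0⟩ := hz0
        have hgcd : Int.gcd (t.1 : ℤ) q = 1 := by
          have h1 : ((ρ z0).num.toNat : ℤ) = (ρ z0).num := Int.toNat_of_nonneg (hS z0 hz0S).2.le
          have h2 : t.1 = (ρ z0).num.toNat := by rw [← hg0]
          rw [h2, h1, ← hden0]
          exact (ρ z0).reduced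
        have hQpos : (0 : ℝ) < Q0 := by linarith only [hQr]
        have ht1 : (1 : ℝ) ≤ (t.1 : ℝ) := by exact_mod_cast ht.1.1
        have hnear : ∀ z, z ∈ (S.filter (fun z => (ρ z).den = q)).filter (fun z => g z = t) →
            |(z.1 : ℝ) / z.2 - ((t.1 : ℤ) : ℝ) / q| ≤ 1 / (Q0 * q) ∧
            |(z.1 : ℝ) / z.2 - ((t.1 : ℝ) / q - 1 / (Q0 * q) + (2 * t.2 + 1) / (Q0 : ℝ) ^ 2)| ≤
              1 / (Q0 : ℝ) ^ 2 := by
          intro z hz
          rw [mem_filter, mem_filter] at hz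
          obtain ⟨⟨hzS, hden⟩, hgz⟩ := hz
          have hcl := hclose z hzS hden
          have h1 : (((ρ z).num.toNat : ℕ) : ℝ) = ((ρ z).num : ℝ) := by
            have : (((ρ z).num.toNat : ℕ) : ℤ) = (ρ z).num := Int.toNat_of_nonneg (hS z hzS).2.le
            exact_mod_cast this
          have h2 : (ρ z : ℝ) = (t.1 : ℝ) / q := by
            rw [hρcast z hden, ← h1]
            rw [← hgz]
          have h3 : ⌊((z.1 : ℝ) / z.2 - (ρ z : ℝ) + 1 / (Q0 * q)) * ((Q0 : ℝ) ^ 2 / 2)⌋₊ = t.2 := by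
            rw [← hgz]
          have h4 : 0 ≤ (z.1 : ℝ) / z.2 - (ρ z : ℝ) + 1 / (Q0 * q) := by
            have := (abs_le.mp hcl).1
            linarith only [this]
          have h5 : 0 ≤ ((z.1 : ℝ) / z.2 - (ρ z : ℝ) + 1 / (Q0 * q)) * ((Q0 : ℝ) ^ 2 / 2) := by
            (clear * - h4 hQ2; positivity)
          rw [Nat.floor_eq_iff h5] at h3
          rw [h2] at hcl h3
          refine ⟨by push_cast; exact hcl, ?_⟩
          have hQ2pos : (0 : ℝ) < (Q0 : ℝ) ^ 2 := by positivity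
          obtain ⟨h6, h7⟩ := h3
          set W := (z.1 : ℝ) / z.2 - (t.1 : ℝ) / q + 1 / (Q0 * q) with hW
          have h8 : 2 * (t.2 : ℝ) / (Q0 : ℝ) ^ 2 ≤ W := by
            rw [div_le_iff₀ hQ2pos]
            linarith only [h6]
          have h9 : W < 2 * ((t.2 : ℝ) + 1) / (Q0 : ℝ) ^ 2 := by
            rw [lt_div_iff₀ hQ2pos]
            linarith only [h7]
          have h10 : (z.1 : ℝ) / z.2 - ((t.1 : ℝ) / q - 1 / (Q0 * q) + (2 * t.2 + 1) / (Q0 : ℝ) ^ 2)
              = W - (2 * t.2 + 1) / (Q0 : ℝ) ^ 2 := by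
            rw [hW]
            ring
          rw [h10, abs_le]
          have h11 : 2 * ((t.2 : ℝ) + 1) / (Q0 : ℝ) ^ 2 =
            (2 * t.2 + 1) / (Q0 : ℝ) ^ 2 + 1 / (Q0 : ℝ) ^ 2 := by ring
          have h12 : 2 * (t.2 : ℝ) / (Q0 : ℝ) ^ 2 =
            (2 * t.2 + 1) / (Q0 : ℝ) ^ 2 - 1 / (Q0 : ℝ) ^ 2 := by ring
          rw [h11] at h9
          rw [h12] at h8
          constructor <;> linarith
        refine hfib (t.1 : ℤ) q hq.1 hq.2 hgcd
          ((t.1 : ℝ) / q - 1 / (Q0 * q) + (2 * t.2 + 1) / (Q0 : ℝ) ^ 2) ?_ ?_ _ ?_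
        · have h1 : 1 / ((Q0 : ℝ) * q) ≤ (t.1 : ℝ) / q := by
            have h0 : 1 ≤ (t.1 : ℝ) * Q0 := by (by_contra nlg; linarith only [mul_nonneg (le_of_lt (sub_pos.2 (not_le.1 nlg))) (sub_nonneg.2 hβ0), mul_pos (sub_pos.2 (not_le.1 nlg)) (sub_pos.2 hβ1), mul_nonneg (sub_nonneg.2 hβ0) (sub_nonneg.2 ht1), mul_nonneg (le_of_lt (sub_pos.2 hβ1)) (sub_nonneg.2 ht1), mul_nonneg (sub_nonneg.2 hQr) (sub_nonneg.2 ht1), hqQ, hq1])
            rw [div_le_div_iff₀ (by (clear * - hQ2 hq1; positivity)) hqpos]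
            calc 1 * (q : ℝ) ≤ ((t.1 : ℝ) * Q0) * q := mul_le_mul_of_nonneg_right h0 hqpos.le
              _ = (t.1 : ℝ) * (Q0 * q) := by ring
          have h2 : 0 ≤ (2 * (t.2 : ℝ) + 1) / (Q0 : ℝ) ^ 2 := by (clear * - hQ2; positivity)
          linarith only [h1, h2]
        · have h1 := hnear z0 (by
            rw [mem_filter, mem_filter]
            exact ⟨⟨hz0S, hden0⟩, hg0⟩)
          obtain ⟨h11, h12, h13, h14, h15, h16, h17⟩ := hmem z0 hz0S
          have h2 : (z0.1 : ℝ) / z0.2 ≤ 1 := by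
            have h3 : (0 : ℝ) < z0.2 := by
              have : 0 < z0.2 := by omega
              exact_mod_cast this
            rw [div_le_one h3]
            exact_mod_cast h13.le
          have h4 : 1 / (Q0 : ℝ) ^ 2 ≤ 1 := by
            rw [div_le_one (by positivity)]
            (by_contra nlg; linarith only [nlg, mul_nonneg (sub_nonneg.2 hQr) (le_of_lt (sub_pos.2 hQpos)), mul_nonneg (le_of_lt (sub_pos.2 hβ1)) (sub_nonneg.2 hQr), mul_nonneg (sub_nonneg.2 hβ0) (sub_nonneg.2 hQr), mul_pos (sub_pos.2 (not_le.1 nlg)) (sub_pos.2 hβ1), mul_nonneg (le_of_lt (sub_pos.2 (not_le.1 nlg))) (sub_nonneg.2 hβ0)])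
          have h5 := (abs_le.mp h1.2).1
          linarith only [h2, h4, h5]
        · intro z hz
          have h1 := hnear z hz
          rw [mem_filter, mem_filter] at hz
          obtain ⟨h11, h12, h13, h14, h15, h16, h17⟩ := hmem z hz.1.1
          exact ⟨h11, h13, h14, h15, h16, h17, h1.1, h1.2⟩
    have hmain := card_le_mul_of_fiber _ _ g hg _ hfibre
    refine hmain.trans ?_
    rw [card_product, Nat.card_Icc, card_range]
    have hAqle : (Aq : ℝ) ≤ 2 * q * X / P := by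
      rw [hAq]
      exact Nat.floor_le (by (clear * - hq1 hX hPpos; positivity))
    have hQqle : ((Q0 / q + 1 : ℕ) : ℝ) ≤ 2 * Q0 / q := by
      push_cast
      have h1 : ((Q0 / q : ℕ) : ℝ) ≤ (Q0 : ℝ) / q := Nat.cast_div_le
      have h2 : 1 ≤ (Q0 : ℝ) / q := by
        rw [le_div_iff₀ hqpos]
        linarith only [hqQ]
      have h3 : 2 * (Q0 : ℝ) / q = Q0 / q + Q0 / q := by ring
      linarith only [h3, h2, h1]
    have hsplit : ((P : ℝ) / q) ^ β = (P : ℝ) ^ β * (q : ℝ) ^ (-β) := by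
      rw [Real.div_rpow hPpos.le hqpos.le, Real.rpow_neg hqpos.le]
      rfl
    rw [hsplit]
    have hfac : (((Aq + 1 - 1) * (Q0 / q + 1) : ℕ) : ℝ) ≤ 4 * Q0 * ((X : ℝ) / P) := by
      rw [Nat.add_sub_cancel, Nat.cast_mul]
      calc (Aq : ℝ) * ((Q0 / q + 1 : ℕ) : ℝ) ≤ (2 * q * X / P) * (2 * Q0 / q) := by
            apply mul_le_mul hAqle hQqle (by positivity) (by positivity)
        _ = 4 * Q0 * ((X : ℝ) / P) := by
            field_simp
            ring
    calc (((Aq + 1 - 1) * (Q0 / q + 1) : ℕ) : ℝ) * (K * ((P : ℝ) ^ β * (q : ℝ) ^ (-β)))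
        ≤ (4 * Q0 * ((X : ℝ) / P)) * (K * ((P : ℝ) ^ β * (q : ℝ) ^ (-β))) := by
          apply mul_le_mul_of_nonneg_right hfac
          (clear * - hK hPpos hq1; positivity)
      _ = 4 * K * Q0 * ((X : ℝ) / P) * (P : ℝ) ^ β * (q : ℝ) ^ (-β) := by ring
  -- sum over q
  have hsum : (S.card : ℝ) = ∑ q ∈ Icc 1 Q0, ((S.filter fun z => (ρ z).den = q).card : ℝ) := by
    have h1 : ∀ z ∈ S, (ρ z).den ∈ Icc 1 Q0 := by
      intro z _
      rw [mem_Icc]
      exact ⟨(ρ z).den_pos, (hρ z).2⟩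
    rw [Finset.card_eq_sum_card_fiberwise h1]
    push_cast
    rfl
  rw [hsum]
  have hQ0pos : (0 : ℝ) < Q0 := by linarith only [hQr]
  have h1β : 0 < 1 - β := by linarith
  calc ∑ q ∈ Icc 1 Q0, ((S.filter fun z => (ρ z).den = q).card : ℝ)
      ≤ ∑ q ∈ Icc 1 Q0, 4 * K * Q0 * ((X : ℝ) / P) * (P : ℝ) ^ β * (q : ℝ) ^ (-β) :=
        Finset.sum_le_sum hq
    _ = 4 * K * Q0 * ((X : ℝ) / P) * (P : ℝ) ^ β * ∑ q ∈ Icc 1 Q0, (q : ℝ) ^ (-β) := by
        rw [Finset.mul_sum]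
    _ ≤ 4 * K * Q0 * ((X : ℝ) / P) * (P : ℝ) ^ β * ((Q0 : ℝ) ^ (1 - β) / (1 - β)) := by
        apply mul_le_mul_of_nonneg_left (sum_rpow_neg_le β hβ0 hβ1 Q0)
        (clear * - hK hQ2 hX hPpos; positivity)
    _ = 4 * K / (1 - β) * ((X : ℝ) / P) * (P : ℝ) ^ β * ((Q0 : ℝ) * (Q0 : ℝ) ^ (1 - β)) := by
        field_simp
    _ = 4 * K / (1 - β) * ((X : ℝ) / P) * (P : ℝ) ^ β * (Q0 : ℝ) ^ (2 - β) := by
        congr 1
        have h2 : (2 : ℝ) - β = 1 + (1 - β) := by ring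
        rw [h2, Real.rpow_add hQ0pos, Real.rpow_one]

end Vale.Agent.P018
end

section

/-! `pairs_bound`. -/

namespace Vale.Agent.P018

open Finset Polynomial

/-- The pairs with ratio close to `0`. -/
theorem zero_sector (f : ℤ[X]) (hirr : Irreducible (f.map (Int.castRingHom ℚ))) (k : ℕ)
    (hk : 1 ≤ k) (hd : 2 ≤ f.natDegree) (X P : ℕ) (hX : 1 ≤ X) (hXP : X ≤ P)
    (hXA : ∑ i ∈ range (f.natDegree + 1), |(f.coeff i : ℝ)| < X) (R : ℝ) (hR : 0 ≤ R)
    (S : Finset (ℕ × ℕ)) (hS : ∀ z ∈ S, z ∈ pairs f k X P ∧ (z.1 : ℝ) ≤ R) :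
    (S.card : ℝ) ≤ R * f.natDegree := by
  classical
  have hg : ∀ z ∈ S, z.1 ∈ Icc 1 ⌊R⌋₊ := by
    intro z hz
    have h1 := (hS z hz).1
    simp only [pairs, mem_filter, mem_product, mem_Icc, mem_Ioc] at h1
    rw [mem_Icc]
    exact ⟨h1.1.1.1, Nat.le_floor (hS z hz).2⟩
  have h2 := card_le_mul_of_fiber S (Icc 1 ⌊R⌋₊) (fun z => z.1) hg (f.natDegree : ℝ) ?_
  · refine h2.trans ?_
    rw [Nat.card_Icc, Nat.add_sub_cancel]
    exact mul_le_mul_of_nonneg_right (Nat.floor_le hR) (by positivity)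
  · intro n hn
    rcases Finset.eq_empty_or_nonempty (S.filter fun z => z.1 = n) with he | he
    · rw [he]
      simp
    obtain ⟨z0, hz0⟩ := he
    rw [mem_filter] at hz0
    have hnX : n ≤ X := by
      have h1 := (hS z0 hz0.1).1
      simp only [pairs, mem_filter, mem_product, mem_Icc, mem_Ioc] at h1
      rw [← hz0.2]
      exact h1.1.1.2
    have hcard : (S.filter fun z => z.1 = n).card =
        ((S.filter fun z => z.1 = n).image Prod.snd).card := by
      rw [Finset.card_image_of_injOn]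
      intro z hz w hw hzw
      simp only [coe_filter, Set.mem_ofPred_eq] at hz hw
      exact Prod.ext (hz.2.trans hw.2.symm) hzw
    rw [hcard]
    have h3 := pa_card_primes_le k f.natDegree (f.eval (n : ℤ))
      (pa_eval_ne_zero f hirr hd n) X _ hXA hX hk (pa_abs_eval_le f n X hnX hX)
      ((S.filter fun z => z.1 = n).image Prod.snd) ?_
    · exact_mod_cast h3
    · intro p hp
      rw [mem_image] at hp
      obtain ⟨z, hz, rfl⟩ := hp
      rw [mem_filter] at hz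
      have h1 := (hS z hz.1).1
      simp only [pairs, mem_filter, mem_product, mem_Icc, mem_Ioc] at h1
      refine ⟨h1.2.1, by omega, ?_⟩
      rw [← hz.2]
      exact h1.2.2

theorem choose_params (d k : ℝ) (hd3 : 3 ≤ d) (hk : 2 ≤ k) (hrr : 5 * d + 3 ≤ 9 * k) :
    ∃ x t : ℝ, 3 / 4 ≤ x ∧ x < 1 ∧ 0 < t ∧ 1 / d + t < 1 ∧
      0 < 1 - x - (1 / d + t) * (1 - x / 2) ∧ d / k * (1 - x / 2) < 1 ∧
      9 * (d - k) / (4 * d) < x := by
  have hdpos : (0 : ℝ) < d := by linarith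
  have hkpos : (0 : ℝ) < k := by linarith
  set t : ℝ := (2 * d - 3) / (32 * (d : ℝ) ^ 2) with ht
  have htpos : 0 < t := by
    rw [ht]
    apply div_pos (by linarith) (by positivity)
  have htd : t * d ≤ 1 / 16 := by
    rw [ht, div_mul_eq_mul_div, div_le_div_iff₀ (by positivity) (by norm_num)]
    linarith only [hd3]
  set x : ℝ := 1 - 3 / (4 * d) + t with hx
  have h34 : 3 / (4 * (d : ℝ)) ≤ 1 / 4 := by
    rw [div_le_div_iff₀ (by positivity) (by norm_num)]
    linarith only [hd3]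
  have ht34 : t < 3 / (4 * (d : ℝ)) := by
    rw [lt_div_iff₀ (by positivity)]
    linarith only [htd]
  have htdpos : 0 < t * d := by positivity
  refine ⟨x, t, ?_, ?_, htpos, ?_, ?_, ?_, ?_⟩
  · rw [hx]; linarith [htpos, h34]
  · rw [hx]; linarith only [ht34]
  · have h1 : 1 / (d : ℝ) ≤ 1 / 3 := one_div_le_one_div_of_le (by norm_num) hd3
    have h2 : t < 1 / 4 := by linarith only [ht34, h34]
    linarith only [htd, h34, ht34, htdpos, h1]
  · have h1 : 1 - x - (1 / d + t) * (1 - x / 2) =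
        (2 * d - 3) / (8 * (d : ℝ) ^ 2) - 3 / 2 * t + t / (8 * d) + t ^ 2 / 2 := by
      rw [hx]
      field_simp
      ring
    have h2 : (2 * d - 3) / (8 * (d : ℝ) ^ 2) = 4 * t := by
      rw [ht]
      field_simp
      ring
    rw [h1, h2]
    have h3 : 0 < t / (8 * d) := by (clear * - htpos hd3; positivity)
    linarith only [htpos, h3, sq_nonneg t]
  · rw [div_mul_eq_mul_div, div_lt_one hkpos]
    have h1 : (d : ℝ) * (1 - x / 2) = d / 2 + 3 / 8 - t * d / 2 := by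
      rw [hx]
      field_simp
      ring
    rw [h1]
    linarith only [hk, hrr, htd, htdpos]
  · rw [div_lt_iff₀ (by positivity), hx]
    have h1 : (1 - 3 / (4 * (d : ℝ)) + t) * (4 * d) = 4 * d - 3 + 4 * (t * d) := by
      field_simp
    rw [h1]
    linarith only [htdpos, hrr]

theorem q0_choice (P : ℕ) (hP : 2 ≤ P) (x : ℝ) (hx0 : 3 / 4 ≤ x) (hx1 : x < 1) :
    ∃ Q0 : ℕ, 2 ≤ Q0 ∧ (Q0 : ℝ) ≤ 2 * (P : ℝ) ^ (x / 2) ∧ (P : ℝ) ^ (x / 2) ≤ Q0 ∧ Q0 ≤ P ∧
      (P : ℝ) ^ x ≤ (Q0 : ℝ) ^ 2 := by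
  have hPr : (2 : ℝ) ≤ P := by exact_mod_cast hP
  have hPpos : (0 : ℝ) < P := by linarith only [hPr, hx1, hx0]
  have hP1 : (1 : ℝ) ≤ P := by linarith only [hPr, hx1, hx0]
  set Q0 : ℕ := ⌈(P : ℝ) ^ (x / 2)⌉₊ with hQ0
  have hpow1 : 1 < (P : ℝ) ^ (x / 2) := Real.one_lt_rpow (by linarith only [hPr, hx1, hx0]) (by linarith only [hx0, hx1])
  have hQge : (P : ℝ) ^ (x / 2) ≤ Q0 := Nat.le_ceil _
  refine ⟨Q0, ?_, ?_, hQge, ?_, ?_⟩
  · have : 1 < Q0 := by
      rw [hQ0, Nat.lt_ceil]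
      exact_mod_cast hpow1
    omega
  · have := Nat.ceil_lt_add_one (a := (P : ℝ) ^ (x / 2)) (by positivity)
    rw [← hQ0] at this
    linarith only [this, hpow1]
  · rw [hQ0, Nat.ceil_le]
    calc (P : ℝ) ^ (x / 2) ≤ (P : ℝ) ^ (1 : ℝ) := Real.rpow_le_rpow_of_exponent_le hP1 (by linarith only [hx1, hx0])
      _ = P := Real.rpow_one _
  · calc (P : ℝ) ^ x = ((P : ℝ) ^ (x / 2)) ^ 2 := by
          rw [← Real.rpow_natCast, ← Real.rpow_mul hPpos.le]
          congr 1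
          push_cast
          ring
      _ ≤ (Q0 : ℝ) ^ 2 := by
          apply pow_le_pow_left₀ (by positivity) hQge

theorem sector_algebra (X P Q x β η : ℝ) (hX1 : 1 ≤ X) (hXP : X ≤ P) (hQpos : 0 < Q)
    (hβ0 : 0 ≤ β) (hβ1 : β < 1)
    (hQle : Q ≤ 2 * P ^ (x / 2)) (hη0 : 0 ≤ η) (hη : η ≤ 1 - x - β * (1 - x / 2)) :
    (X / P) * P ^ β * Q ^ (2 - β) ≤ 4 * X ^ (1 - η) := by
  have hXpos : 0 < X := by linarith only [hX1]
  have hPpos : 0 < P := by linarith only [hXpos, hXP]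
  set μ : ℝ := 1 - x - β * (1 - x / 2) with hμ
  have h2 : Q ^ (2 - β) ≤ 4 * P ^ (x / 2 * (2 - β)) := by
    calc Q ^ (2 - β) ≤ (2 * P ^ (x / 2)) ^ (2 - β) :=
          Real.rpow_le_rpow hQpos.le hQle (by linarith)
      _ = 2 ^ (2 - β) * (P ^ (x / 2)) ^ (2 - β) :=
          Real.mul_rpow (by norm_num) (by positivity)
      _ = 2 ^ (2 - β) * P ^ (x / 2 * (2 - β)) := by
          rw [← Real.rpow_mul hPpos.le]
      _ ≤ 4 * P ^ (x / 2 * (2 - β)) := by
          apply mul_le_mul_of_nonneg_right _ (by positivity)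
          calc (2 : ℝ) ^ (2 - β) ≤ 2 ^ (2 : ℝ) :=
                Real.rpow_le_rpow_of_exponent_le (by norm_num) (by linarith only [hβ0])
            _ = 4 := by norm_num
  have h3 : (X / P) * P ^ β * P ^ (x / 2 * (2 - β)) = X * P ^ (-μ) := by
    have h4 : -μ = -1 + β + x / 2 * (2 - β) := by
      rw [hμ]
      ring
    rw [h4, Real.rpow_add hPpos, Real.rpow_add hPpos, Real.rpow_neg_one]
    ring
  have h5 : P ^ (-μ) ≤ X ^ (-μ) :=
    Real.rpow_le_rpow_of_nonpos hXpos hXP (by linarith only [hη, hη0])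
  have h6 : X * X ^ (-μ) ≤ X ^ (1 - η) := by
    have h7 : X * X ^ (-μ) = X ^ (1 - μ) := by
      rw [sub_eq_add_neg, Real.rpow_add hXpos, Real.rpow_one]
    rw [h7]
    apply Real.rpow_le_rpow_of_exponent_le hX1
    linarith only [hη]
  calc (X / P) * P ^ β * Q ^ (2 - β)
      ≤ (X / P) * P ^ β * (4 * P ^ (x / 2 * (2 - β))) := by
        apply mul_le_mul_of_nonneg_left h2
        positivity
    _ = 4 * ((X / P) * P ^ β * P ^ (x / 2 * (2 - β))) := by ring
    _ = 4 * (X * P ^ (-μ)) := by rw [h3]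
    _ ≤ 4 * (X * X ^ (-μ)) := by
        apply mul_le_mul_of_nonneg_left _ (by norm_num)
        exact mul_le_mul_of_nonneg_left h5 hXpos.le
    _ ≤ 4 * X ^ (1 - η) := mul_le_mul_of_nonneg_left h6 (by norm_num)

theorem zero_algebra (X P A x η : ℝ) (d k : ℕ) (hk : 1 ≤ k) (hX1 : 1 ≤ X) (hXP : X ≤ P)
    (hA : 0 < A) (hx1 : x < 1) (hPA : P ^ k ≤ A * X ^ d)
    (hη : η ≤ 1 - (d : ℝ) / k * (1 - x / 2)) :
    P ^ (1 - x / 2) ≤ A ^ ((1 - x / 2) / k) * X ^ (1 - η) := by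
  have hXpos : 0 < X := by linarith only [hX1]
  have hPpos : 0 < P := by linarith only [hXpos, hXP]
  have hkpos : (0 : ℝ) < k := by exact_mod_cast hk
  have h2 : P ≤ A ^ (1 / (k : ℝ)) * X ^ ((d : ℝ) / k) := by
    have h3 : P = (P ^ k) ^ (1 / (k : ℝ)) := by
      rw [← Real.rpow_natCast, ← Real.rpow_mul hPpos.le, mul_one_div_cancel hkpos.ne',
        Real.rpow_one]
    calc P = (P ^ k) ^ (1 / (k : ℝ)) := h3
      _ ≤ (A * X ^ d) ^ (1 / (k : ℝ)) :=
          Real.rpow_le_rpow (by positivity) hPA (by positivity)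
      _ = A ^ (1 / (k : ℝ)) * (X ^ d) ^ (1 / (k : ℝ)) :=
          Real.mul_rpow hA.le (by positivity)
      _ = A ^ (1 / (k : ℝ)) * X ^ ((d : ℝ) / k) := by
          rw [← Real.rpow_natCast, ← Real.rpow_mul hXpos.le]
          congr 2
          ring
  calc P ^ (1 - x / 2) ≤ (A ^ (1 / (k : ℝ)) * X ^ ((d : ℝ) / k)) ^ (1 - x / 2) :=
        Real.rpow_le_rpow hPpos.le h2 (by linarith only [hx1])
    _ = (A ^ (1 / (k : ℝ))) ^ (1 - x / 2) * (X ^ ((d : ℝ) / k)) ^ (1 - x / 2) :=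
        Real.mul_rpow (by positivity) (by positivity)
    _ = A ^ ((1 - x / 2) / k) * X ^ ((d : ℝ) / k * (1 - x / 2)) := by
        rw [← Real.rpow_mul hA.le, ← Real.rpow_mul hXpos.le]
        congr 2
        ring
    _ ≤ A ^ ((1 - x / 2) / k) * X ^ (1 - η) := by
        apply mul_le_mul_of_nonneg_left _ (by positivity)
        apply Real.rpow_le_rpow_of_exponent_le hX1
        linarith only [hη]

/-- If Dirichlet's fraction of `n/p` is at most `0` then `n` is small. -/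
theorem small_of_num_nonpos (n p P Q0 : ℕ) (x : ℝ) (hP : 0 < P) (hQ : 0 < Q0)
    (hQge : (P : ℝ) ^ (x / 2) ≤ Q0) (hp : 0 < p) (hp2 : p ≤ 2 * P) (ρ : ℚ)
    (hρ : |(n : ℝ) / p - (ρ : ℝ)| ≤ 1 / (((Q0 : ℝ) + 1) * ρ.den)) (hnum : ¬ 0 < ρ.num) :
    (n : ℝ) ≤ 2 * (P : ℝ) ^ (1 - x / 2) := by
  have hPpos : (0 : ℝ) < P := by exact_mod_cast hP
  have hQpos : (0 : ℝ) < Q0 := by exact_mod_cast hQ
  have hz2 : (0 : ℝ) < p := by exact_mod_cast hp
  have hnum' : (ρ : ℝ) ≤ 0 := by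
    have : ρ ≤ 0 := Rat.num_nonpos.mp (not_lt.mp hnum)
    exact_mod_cast this
  have h8 := (abs_le.mp hρ).2
  have h9 : 1 / (((Q0 : ℝ) + 1) * ρ.den) ≤ 1 / Q0 := by
    apply one_div_le_one_div_of_le hQpos
    have : (1 : ℝ) ≤ ρ.den := by exact_mod_cast ρ.den_pos
    linarith only [this, mul_nonneg (le_of_lt (sub_pos.2 hQpos)) (sub_nonneg.2 this)]
  have h10 : (n : ℝ) / p ≤ 1 / Q0 := by linarith only [h9, h8, hnum']
  rw [div_le_iff₀ hz2] at h10
  have h11 : (p : ℝ) ≤ 2 * P := by exact_mod_cast hp2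
  have h12 : 1 / (Q0 : ℝ) ≤ (P : ℝ) ^ (-(x / 2)) := by
    rw [Real.rpow_neg hPpos.le, one_div]
    exact inv_anti₀ (by positivity) hQge
  calc (n : ℝ) ≤ 1 / Q0 * p := h10
    _ ≤ (P : ℝ) ^ (-(x / 2)) * (2 * P) := mul_le_mul h12 h11 hz2.le (by positivity)
    _ = 2 * (P : ℝ) ^ (1 - x / 2) := by
        rw [sub_eq_add_neg, Real.rpow_add hPpos, Real.rpow_one]
        ring

/-- Module F2b. -/
theorem pairs_bound (f : ℤ[X]) (hirr : Irreducible (f.map (Int.castRingHom ℚ))) (k : ℕ)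
    (hk : 2 ≤ k) (hkd : k < f.natDegree) (hr : 5 * f.natDegree + 3 ≤ 9 * k) (A : ℝ) (hA : 0 < A) :
    ∃ η K : ℝ, 0 < η ∧ 0 < K ∧ ∃ X0 : ℕ, ∀ X P : ℕ, X0 ≤ X → X ≤ P →
      (P : ℝ) ^ k ≤ A * (X : ℝ) ^ f.natDegree →
      ((pairs f k X P).card : ℝ) ≤ K * (X : ℝ) ^ (1 - η) := by
  classical
  have hd3 : (3 : ℝ) ≤ f.natDegree := by
    have : 3 ≤ f.natDegree := by omega
    exact_mod_cast this
  have hkr : (2 : ℝ) ≤ k := by exact_mod_cast hk
  have hrr : 5 * (f.natDegree : ℝ) + 3 ≤ 9 * k := by exact_mod_cast hr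
  have hdpos : (0 : ℝ) < f.natDegree := by linarith only [hd3]
  obtain ⟨x, t, hx0, hx1, htpos, hβ1, hμ0, hθ1, hxfib⟩ := choose_params _ _ hd3 hkr hrr
  obtain ⟨K, P0, hK0, hfib⟩ := fiber_bound f hirr k hk hkd x t hxfib htpos
  generalize hβ : 1 / (f.natDegree : ℝ) + t = β at hβ1 hμ0 hfib
  have hβ0 : 0 ≤ β := by rw [← hβ]; (clear * - hd3 htpos; positivity)
  have hη1 := min_le_left (1 - x - β * (1 - x / 2)) (1 - (f.natDegree : ℝ) / k * (1 - x / 2))
  have hη2 := min_le_right (1 - x - β * (1 - x / 2)) (1 - (f.natDegree : ℝ) / k * (1 - x / 2))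
  have hη0 : 0 < min (1 - x - β * (1 - x / 2)) (1 - (f.natDegree : ℝ) / k * (1 - x / 2)) :=
    lt_min hμ0 (by linarith only [hθ1])
  generalize min (1 - x - β * (1 - x / 2)) (1 - (f.natDegree : ℝ) / k * (1 - x / 2)) = η
    at hη1 hη2 hη0
  have h1β : 0 < 1 - β := by linarith only [hβ1]
  refine ⟨η, 4 * K / (1 - β) * 4 + 2 * f.natDegree * A ^ ((1 - x / 2) / k), hη0, by positivity,
    max (max P0 2) (⌊∑ i ∈ range (f.natDegree + 1), |(f.coeff i : ℝ)|⌋₊ + 1), ?_⟩
  intro X P hX0 hXP hPA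
  have hXP0 : P0 ≤ X := le_trans (le_trans (le_max_left _ _) (le_max_left _ _)) hX0
  have hX2 : 2 ≤ X := le_trans (le_trans (le_max_right _ _) (le_max_left _ _)) hX0
  have hXA : ∑ i ∈ range (f.natDegree + 1), |(f.coeff i : ℝ)| < X := by
    have h1 := le_trans (le_max_right _ _) hX0
    exact (Nat.floor_lt' (by omega)).mp (Nat.lt_of_succ_le h1)
  have hP2 : 2 ≤ P := le_trans hX2 hXP
  have hX1 : (1 : ℝ) ≤ X := by
    have : 1 ≤ X := by omega
    exact_mod_cast this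
  have hXPr : (X : ℝ) ≤ P := by exact_mod_cast hXP
  obtain ⟨Q0, hQ2, hQle, hQge, hQP, hQx⟩ := q0_choice P hP2 x hx0 hx1
  have hQpos : (0 : ℝ) < Q0 := by
    have : 0 < Q0 := by omega
    exact_mod_cast this
  have hdir : ∀ z : ℕ × ℕ, ∃ q : ℚ, |(z.1 : ℝ) / z.2 - (q : ℝ)| ≤ 1 / (((Q0 : ℝ) + 1) * q.den) ∧
      q.den ≤ Q0 := fun z =>
    Real.exists_rat_abs_sub_le_and_den_le ((z.1 : ℝ) / z.2) (by omega)
  choose ρ hρ using hdir
  have hcard : ((pairs f k X P).card : ℝ) =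
      (((pairs f k X P).filter (fun z => 0 < (ρ z).num)).card : ℝ) +
      ((pairs f k X P).filter (fun z => ¬ 0 < (ρ z).num)).card := by
    rw [← Finset.card_filter_add_card_filter_not (s := pairs f k X P) (fun z => 0 < (ρ z).num)]
    push_cast
    rfl
  have hb1 : (((pairs f k X P).filter (fun z => 0 < (ρ z).num)).card : ℝ) ≤
      4 * K / (1 - β) * 4 * (X : ℝ) ^ (1 - η) := by
    have h1 := sector_count f k β K hK0.le hβ0 hβ1 P Q0 X (by omega) hXP hQ2
      (hfib P (hXP0.trans hXP) Q0 hQ2 hQx hQP) ρ hρ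
      ((pairs f k X P).filter (fun z => 0 < (ρ z).num)) (fun z hz => by
        rw [mem_filter] at hz; exact hz)
    refine h1.trans ?_
    have h2 := sector_algebra X P Q0 x β η hX1 hXPr hQpos hβ0 hβ1 hQle hη0.le hη1
    calc 4 * K / (1 - β) * ((X : ℝ) / P) * (P : ℝ) ^ β * (Q0 : ℝ) ^ (2 - β)
        = 4 * K / (1 - β) * (((X : ℝ) / P) * (P : ℝ) ^ β * (Q0 : ℝ) ^ (2 - β)) := by ring
      _ ≤ 4 * K / (1 - β) * (4 * (X : ℝ) ^ (1 - η)) := by
          apply mul_le_mul_of_nonneg_left h2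
          positivity
      _ = 4 * K / (1 - β) * 4 * (X : ℝ) ^ (1 - η) := by ring
  have hb0 : (((pairs f k X P).filter (fun z => ¬ 0 < (ρ z).num)).card : ℝ) ≤
      2 * f.natDegree * A ^ ((1 - x / 2) / k) * (X : ℝ) ^ (1 - η) := by
    have h1 := zero_sector f hirr k (by omega) (by omega) X P (by omega) hXP hXA
      (2 * (P : ℝ) ^ (1 - x / 2)) (by positivity)
      ((pairs f k X P).filter (fun z => ¬ 0 < (ρ z).num)) (fun z hz => by
        rw [mem_filter] at hz
        refine ⟨hz.1, ?_⟩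
        have h1 := hz.1
        simp only [pairs, mem_filter, mem_product, mem_Icc, mem_Ioc] at h1
        exact small_of_num_nonpos z.1 z.2 P Q0 x (by omega) (by omega) hQge (by omega)
          h1.1.2.2 (ρ z) (hρ z).1 hz.2)
    refine h1.trans ?_
    have h2 := zero_algebra X P A x η f.natDegree k (by omega) hX1 hXPr hA hx1 hPA hη2
    calc 2 * (P : ℝ) ^ (1 - x / 2) * f.natDegree
        = 2 * f.natDegree * (P : ℝ) ^ (1 - x / 2) := by ring
      _ ≤ 2 * f.natDegree * (A ^ ((1 - x / 2) / k) * (X : ℝ) ^ (1 - η)) := by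
          apply mul_le_mul_of_nonneg_left h2
          (clear * - hd3; positivity)
      _ = 2 * f.natDegree * A ^ ((1 - x / 2) / k) * (X : ℝ) ^ (1 - η) := by ring
  rw [hcard, add_mul]
  exact add_le_add hb1 hb0

end Vale.Agent.P018
end

section

/-! The points of a rescaled patch lie on a curve of bounded degree. -/

namespace Vale.Agent.P018

open Finset Polynomial

theorem patch_curve2 (f : ℤ[X]) (k : ℕ) (hk1 : 1 ≤ k) (hkd : k < f.natDegree) (x0 x1 : ℝ)
    (hx0 : 9 * ((f.natDegree : ℝ) - k) / (4 * f.natDegree) < x0)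
    (hx1 : 9 * ((f.natDegree : ℝ) - k) / (4 * f.natDegree) *
      (((k : ℝ) + f.natDegree) / (3 * k)) ^ 2 < x1) :
    ∃ Δ X0 : ℕ, ∀ X P : ℕ, X0 ≤ X → X ≤ P → ∀ l : ℝ, 0 ≤ l → l ≤ 1 →
      (P : ℝ) = (X : ℝ) ^ (1 + l * (((f.natDegree : ℝ) - k) / k)) →
      ∀ u0 : ℝ, 0 ≤ u0 → u0 ≤ 2 → ∀ Z : Finset (ℤ × ℤ),
      (∀ z ∈ Z, (P : ℤ) < z.2 ∧ z.2 ≤ 2 * P ∧
        |(z.1 : ℝ) / z.2 * ((P : ℝ) / X) - u0| ≤ (X : ℝ) ^ (-((1 - l) * x0 + l * x1)) ∧
        z.2 ^ k ∣ f.eval z.1) →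
      ∃ C : MvPolynomial (Fin 2) ℚ, C ≠ 0 ∧ C.totalDegree ≤ Δ ∧ ∀ z ∈ Z, evQ z C = 0 := by
  classical
  obtain ⟨h, hh⟩ : ∃ h : ℕ, h = f.natDegree - k := ⟨_, rfl⟩
  have hh1 : 1 ≤ h := by omega
  have hkh : k + h = f.natDegree := by omega
  have hhr : (f.natDegree : ℝ) - k = (h : ℝ) := by
    rw [← hkh]
    push_cast
    ring
  rw [hhr] at hx0 hx1
  obtain ⟨D, X0, hX01, hmin⟩ := patch_minor2 f k h hh1 hk1 hkh x0 x1 hx0 hx1
  refine ⟨D + k * D + f.natDegree * D, X0, ?_⟩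
  intro X P hX hXP l hl0 hl1 hPX u0 hu0 hu2 Z hZ
  rw [hhr] at hPX
  have hm : ∀ z : Z, ∃ m : ℤ, (z : ℤ × ℤ).2 ^ k * m = f.eval (z : ℤ × ℤ).1 := by
    intro z
    obtain ⟨m, hm⟩ := (hZ z z.2).2.2.2
    exact ⟨m, hm.symm⟩
  choose m hm using hm
  obtain ⟨α, hα0, hα⟩ := exists_kernel (I := Z) (J := idx f.natDegree h D) (K := ℚ)
    (fun z j => ((z : ℤ × ℤ).1 : ℚ) ^ (j : ℕ × ℕ × ℕ).1 * ((z : ℤ × ℤ).2 : ℚ) ^ (j : ℕ × ℕ × ℕ).2.1 *
      (m z : ℚ) ^ (j : ℕ × ℕ × ℕ).2.2) (by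
      intro φ
      have h1 := hmin X P hX hXP l hl0 hl1 hPX u0 hu0 hu2
        (fun i => (φ i : ℤ × ℤ).1) (fun i => (φ i : ℤ × ℤ).2)
        (fun i => m (φ i)) (fun i => ⟨(hZ _ (φ i).2).1, (hZ _ (φ i).2).2.1, (hZ _ (φ i).2).2.2.1,
          hm (φ i)⟩)
      have h2 := congrArg (Int.castRingHom ℚ) h1
      rw [RingHom.map_det, map_zero] at h2
      rw [← h2]
      congr 1
      ext i j
      simp)
  refine ⟨∑ j, MvPolynomial.C (α j) * gpoly f k D (j : ℕ × ℕ × ℕ),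
    gpoly_sum_ne_zero f k h D hh1 (by omega) α hα0, ?_, ?_⟩
  · refine (MvPolynomial.totalDegree_finsetSum _ _).trans ?_
    refine Finset.sup_le fun j _ => ?_
    refine (MvPolynomial.totalDegree_mul _ _).trans ?_
    rw [MvPolynomial.totalDegree_C, zero_add]
    exact totalDegree_gpoly_le f k h D hh1 _ ((mem_idx hh1).mp j.2).2
  · intro z hz
    rw [map_sum]
    have h4 := hα ⟨z, hz⟩
    have h5 : ∀ j : idx f.natDegree h D, evQ z (MvPolynomial.C (α j) * gpoly f k D (j : ℕ × ℕ × ℕ)) =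
        (z.2 : ℚ) ^ (k * D) * (α j * ((z.1 : ℚ) ^ (j : ℕ × ℕ × ℕ).1 *
          (z.2 : ℚ) ^ (j : ℕ × ℕ × ℕ).2.1 * (m ⟨z, hz⟩ : ℚ) ^ (j : ℕ × ℕ × ℕ).2.2)) := by
      intro j
      have hmj := (mem_idx hh1).mp j.2
      have hc : (j : ℕ × ℕ × ℕ).2.2 ≤ h * (j : ℕ × ℕ × ℕ).2.2 := Nat.le_mul_of_pos_left _ hh1
      rw [map_mul, evQ_gpoly f k D _ (by omega) z (m ⟨z, hz⟩) (hm ⟨z, hz⟩)]
      have : evQ z (MvPolynomial.C (α j)) = α j := by simp [evQ]
      rw [this]
      ring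
    rw [Finset.sum_congr rfl fun j _ => h5 j, ← Finset.mul_sum, h4, mul_zero]

end Vale.Agent.P018
end
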