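import Mathlib
import Vale.Agent.P018.Bdl.B1
import Vale.Agent.P018.Bdl.B2

set_option linter.all false

section

/-! # P018, Module G: the tail for `k ≥ deg f`. -/

namespace Vale.Agent.P018

open Polynomial Finset Filter Topology

theorem tendsto_primeCounting_div :
    Tendsto (fun n : ℕ => (Nat.primeCounting n : ℝ) / n) atTop (𝓝 0) := by
  have h1 := Chebyshev.eventually_primeCounting_le (ε := 1) one_pos
  have h2 : Tendsto (fun n : ℕ => (Real.log 4 + 1) / Real.log (n : ℝ)) atTop (𝓝 0) :=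
    Tendsto.const_div_atTop (Real.tendsto_log_atTop.comp tendsto_natCast_atTop_atTop) _
  refine squeeze_zero' (Eventually.of_forall fun n => by positivity) ?_ h2
  filter_upwards [tendsto_natCast_atTop_atTop.eventually h1, eventually_gt_atTop 0] with n hn hn0
  rw [Nat.floor_natCast] at hn
  have hn0' : (0 : ℝ) < n := by exact_mod_cast hn0
  rw [div_le_iff₀ hn0']
  calc (Nat.primeCounting n : ℝ) ≤ (Real.log 4 + 1) * n / Real.log n := hn
    _ = (Real.log 4 + 1) / Real.log n * n := by ring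

theorem eval_natAbs_le (f : ℤ[X]) {n X : ℕ} (hn : 1 ≤ n) (hnX : n ≤ X) :
    (f.eval (n : ℤ)).natAbs ≤
      (∑ i ∈ range (f.natDegree + 1), (f.coeff i).natAbs) * X ^ f.natDegree := by
  rw [eval_eq_sum_range, Finset.sum_mul]
  refine (Int.natAbs_sum_le _ _).trans (sum_le_sum fun i hi => ?_)
  rw [Int.natAbs_mul, Int.natAbs_pow, Int.natAbs_natCast]
  rw [mem_range] at hi
  refine Nat.mul_le_mul_left _ ?_
  exact (Nat.pow_le_pow_left hnX i).trans (Nat.pow_le_pow_right (by omega) (by omega))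

theorem tail_le (f : ℤ[X]) (hf0 : f ≠ 0) (k : ℕ) (hk : 1 ≤ k) (hkd : f.natDegree ≤ k) {H : ℕ}
    (hH : H = ∑ i ∈ range (f.natDegree + 1), (f.coeff i).natAbs) {X : ℕ} (hX : H ≤ X) (hX1 : 1 ≤ X) :
    tail f k X ≤ f.natDegree + f.natDegree * Nat.primeCounting (H * X) := by
  classical
  set d := f.natDegree with hd
  have hlc : f.leadingCoeff.natAbs ≤ H := by
    rw [hH]
    exact single_le_sum (f := fun i => (f.coeff i).natAbs) (fun _ _ => Nat.zero_le _)
      (mem_range.2 (Nat.lt_succ_self _))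
  have hH1 : 1 ≤ H := by
    have : 0 < f.leadingCoeff.natAbs := Int.natAbs_pos.2 (leadingCoeff_ne_zero.2 hf0)
    omega
  set PS := (Finset.Icc 1 (H * X)).filter (fun p => p.Prime ∧ X < p) with hPS
  have hPScard : PS.card ≤ Nat.primeCounting (H * X) := by
    rw [← Nat.primesLE_card_eq_primeCounting]
    refine card_le_card fun p hp => ?_
    rw [hPS, mem_filter, mem_Icc] at hp
    rw [Nat.mem_primesLE]
    exact ⟨hp.1.2, hp.2.1⟩
  have hsub : (Finset.Icc 1 X).filter (fun n : ℕ => ∃ p : ℕ, p.Prime ∧ X < p ∧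
      (p : ℤ) ^ k ∣ f.eval (n : ℤ)) ⊆
      (Finset.Icc 1 X).filter (fun n : ℕ => f.eval (n : ℤ) = 0) ∪
      PS.biUnion (fun p => (Finset.Icc 1 X).filter (fun n : ℕ => (p : ℤ) ∣ f.eval (n : ℤ))) := by
    intro n hn
    rw [mem_filter, mem_Icc] at hn
    obtain ⟨⟨hn1, hnX⟩, p, hp, hXp, hdvd⟩ := hn
    rw [mem_union, mem_filter, mem_Icc, mem_biUnion]
    by_cases h0 : f.eval (n : ℤ) = 0
    · exact Or.inl ⟨⟨hn1, hnX⟩, h0⟩
    refine Or.inr ⟨p, ?_, ?_⟩
    · rw [hPS, mem_filter, mem_Icc]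
      refine ⟨⟨hp.one_lt.le, ?_⟩, hp, hXp⟩
      by_contra hlt
      push Not at hlt
      have h1 : p ^ k ∣ (f.eval (n : ℤ)).natAbs := by
        have := Int.natAbs_dvd_natAbs.2 hdvd
        rwa [Int.natAbs_pow, Int.natAbs_natCast] at this
      have h2 := Nat.le_of_dvd (Int.natAbs_pos.2 h0) h1
      have h3 := eval_natAbs_le f hn1 hnX
      rw [← hH] at h3
      have h4 : H * X ^ d ≤ H ^ k * X ^ k :=
        Nat.mul_le_mul (Nat.le_self_pow (by omega) H) (Nat.pow_le_pow_right hX1 hkd)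
      have h5 : (H * X) ^ k < p ^ k := Nat.pow_lt_pow_left hlt (by omega)
      rw [mul_pow] at h5
      exact absurd (((h2.trans h3).trans h4).trans_lt h5) (lt_irrefl _)
    · rw [mem_filter, mem_Icc]
      exact ⟨⟨hn1, hnX⟩, (dvd_pow_self _ (by omega)).trans hdvd⟩
  unfold tail
  refine (card_le_card hsub).trans ((card_union_le _ _).trans (add_le_add ?_ ?_))
  · calc ((Finset.Icc 1 X).filter (fun n : ℕ => f.eval (n : ℤ) = 0)).card
        ≤ f.roots.toFinset.card := by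
          refine card_le_card_of_injOn (fun n : ℕ => (n : ℤ)) ?_ ?_
          · intro n hn
            rw [mem_coe, mem_filter] at hn
            rw [mem_coe, Multiset.mem_toFinset, mem_roots hf0]
            exact hn.2
          · intro a _ b _ hab
            exact Int.natCast_inj.1 hab
      _ ≤ Multiset.card f.roots := f.roots.toFinset_card_le
      _ ≤ d := card_roots' f
  · refine card_biUnion_le.trans ?_
    calc ∑ p ∈ PS, ((Finset.Icc 1 X).filter (fun n : ℕ => (p : ℤ) ∣ f.eval (n : ℤ))).card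
        ≤ ∑ p ∈ PS, d := by
          refine sum_le_sum fun p hp => ?_
          rw [hPS, mem_filter, mem_Icc] at hp
          have hinj : Set.InjOn (fun n : ℕ => (n : ℤ))
              (((Finset.Icc 1 X).filter (fun n : ℕ => (p : ℤ) ∣ f.eval (n : ℤ)) : Finset ℕ) : Set ℕ) :=
            fun a _ b _ hab => Int.natCast_inj.1 hab
          rw [← card_image_of_injOn hinj]
          refine card_roots_mod_le f hf0 hp.2.1 (by omega) _ ?_
          intro n hn
          obtain ⟨m, hm, rfl⟩ := mem_image.1 hn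
          rw [mem_filter, mem_Icc] at hm
          refine ⟨by positivity, ?_, hm.2⟩
          exact_mod_cast (by omega : m < p)
      _ = PS.card * d := by rw [sum_const, smul_eq_mul]
      _ ≤ d * Nat.primeCounting (H * X) := by
          rw [mul_comm]
          exact Nat.mul_le_mul_left _ hPScard

/-- Module G: the tail for `k ≥ d`. -/
theorem tail_large_k (f : ℤ[X]) (hirr : Irreducible (f.map (Int.castRingHom ℚ))) (k : ℕ)
    (hk : 2 ≤ k) (hkd : f.natDegree ≤ k) :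
    Tendsto (fun X : ℕ => (tail f k X : ℝ) / X) atTop (𝓝 0) := by
  have hf0 : f ≠ 0 := by
    rintro rfl
    simp at hirr
  obtain ⟨H, hH⟩ : ∃ H : ℕ, H = ∑ i ∈ range (f.natDegree + 1), (f.coeff i).natAbs := ⟨_, rfl⟩
  have hlc : f.leadingCoeff.natAbs ≤ H := by
    rw [hH]
    exact single_le_sum (f := fun i => (f.coeff i).natAbs) (fun _ _ => Nat.zero_le _)
      (mem_range.2 (Nat.lt_succ_self _))
  have hH1 : 1 ≤ H := by
    have : 0 < f.leadingCoeff.natAbs := Int.natAbs_pos.2 (leadingCoeff_ne_zero.2 hf0)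
    omega
  have hHX : Tendsto (fun X : ℕ => H * X) atTop atTop :=
    tendsto_id.const_mul_atTop' (by omega)
  have h1 := (tendsto_primeCounting_div.comp hHX).const_mul ((f.natDegree : ℝ) * H)
  have h2 : Tendsto (fun X : ℕ => (f.natDegree : ℝ) / X) atTop (𝓝 0) :=
    tendsto_const_div_atTop_nhds_zero_nat _
  have h3 := h2.add h1
  rw [mul_zero, add_zero] at h3
  refine squeeze_zero' (Eventually.of_forall fun n => by (clear * -; positivity)) ?_ h3
  filter_upwards [eventually_ge_atTop H, eventually_ge_atTop 1] with X hX hX1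
  have h4 := tail_le f hf0 k (by omega) hkd hH hX hX1
  have hX0 : (0 : ℝ) < X := by exact_mod_cast (by omega : 0 < X)
  have hH0 : (0 : ℝ) < H := by exact_mod_cast (by omega : 0 < H)
  have h5 : (tail f k X : ℝ) ≤ f.natDegree + f.natDegree * Nat.primeCounting (H * X) := by
    exact_mod_cast h4
  calc (tail f k X : ℝ) / X ≤ (f.natDegree + f.natDegree * Nat.primeCounting (H * X)) / X := by
        gcongr
    _ = f.natDegree / X + f.natDegree * H * (((fun n : ℕ => (Nat.primeCounting n : ℝ) / n) ∘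
          fun X => H * X) X) := by
        simp only [Function.comp]
        push_cast
        field_simp

end Vale.Agent.P018
end

section

/-! # P018, quartics: the point of the kappa model. -/

namespace Vale.Agent.P018.Q

open Polynomial NumberField

variable {L : Type} [Field L] [NumberField L]

omit [NumberField L] in
theorem eval₂_map_int (x : L) (P : ℤ[X]) :
    eval₂ (algebraMap (𝓞 L) L) x (P.map (algebraMap ℤ (𝓞 L))) = aeval x P := by
  rw [eval₂_map, aeval_def]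
  congr 1

theorem aeval_rat (x : ℚ) (P : ℤ[X]) :
    aeval ((x : L)) P = ((aeval x P : ℚ) : L) := by
  have h := (aeval_algebraMap_apply L x P)
  simpa using h

omit [NumberField L] in
/-- a polynomial combination of the powers of four distinct elements vanishes only trivially. -/
theorem vander_zero {v : Fin 4 → L} (hv : Function.Injective v) {a : Fin 4 → L}
    (h : ∀ j, ∑ m : Fin 4, a m * v j ^ (m : ℕ) = 0) : a = 0 := by
  have h1 : (Matrix.vandermonde v).mulVec a = 0 := by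
    funext j
    simp only [Matrix.mulVec, dotProduct, Matrix.vandermonde_apply, Pi.zero_apply]
    rw [← h j]
    exact Finset.sum_congr rfl fun m _ => mul_comm _ _
  exact Matrix.eq_zero_of_mulVec_eq_zero (Matrix.det_vandermonde_ne_zero_iff.mpr hv) h1

theorem kappa_point' (θ : Fin 4 → 𝓞 L)
    (hθ : Function.Injective θ)
    {l1 l2 : Fin 4 → ℤ} {d : Fin 2 → ℕ} {A B : Fin 2 → ℤ[X]} {Z : Fin 2 → Fin 4 → ℤ[X]}
    {Λ : ℤ[X]} {e : ℤ} (hK : KData θ l1 l2 d A B Z Λ e) {N c s t : ℤ} {z : Fin 4 → ℤ}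
    (ht : t ≠ 0) (hy : ∀ j, K.ell (θ j) (s • l1 + t • l2) ≠ 0)
    (heq : ∀ i, (c : 𝓞 L) * ((N : 𝓞 L) - θ i) = K.ell (θ i) (s • l1 + t • l2) ^ 2 * K.ell (θ i) z) :
    (aeval ((s : ℚ) / t) (A 1) ≠ 0 ∧
      aeval ((s : ℚ) / t) (A 1) * (N : ℚ) = aeval ((s : ℚ) / t) (B 1)) ∨
    ∃ κ : ℚ, aeval ((s : ℚ) / t) (A 0) + κ * aeval ((s : ℚ) / t) (A 1) ≠ 0 ∧
      (aeval ((s : ℚ) / t) (A 0) + κ * aeval ((s : ℚ) / t) (A 1)) * (N : ℚ) =
        aeval ((s : ℚ) / t) (B 0) + κ * aeval ((s : ℚ) / t) (B 1) ∧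
      ∀ m, (z m : ℚ) * (aeval ((s : ℚ) / t) (A 0) + κ * aeval ((s : ℚ) / t) (A 1)) * t ^ 2 =
        c * (aeval ((s : ℚ) / t) (Z 0 m) + κ * aeval ((s : ℚ) / t) (Z 1 m)) := by
  set σ : ℚ := (s : ℚ) / t with hσ
  have htL : (t : L) ≠ 0 := by exact_mod_cast ht
  -- the linear forms at `σ`
  have hpi : ∀ j, (t : L) * eval₂ (algebraMap (𝓞 L) L) (σ : L) (piPoly θ l1 l2 j) =
      ((K.ell (θ j) (s • l1 + t • l2) : 𝓞 L) : L) := by
    intro j
    have h1 : K.ell (θ j) (s • l1 + t • l2) =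
        (s : 𝓞 L) * K.ell (θ j) l1 + (t : 𝓞 L) * K.ell (θ j) l2 := by
      simp only [K.ell, Pi.add_apply, Pi.smul_apply, smul_eq_mul, Finset.mul_sum,
        ← Finset.sum_add_distrib]
      refine Finset.sum_congr rfl fun m _ => ?_
      push_cast
      ring
    rw [h1, piPoly, eval₂_add, eval₂_mul, eval₂_C, eval₂_X, eval₂_C]
    have h2 : (σ : L) * t = s := by
      rw [hσ]
      push_cast
      field_simp
    have h3 : (algebraMap (𝓞 L) L) ((s : 𝓞 L) * K.ell (θ j) l1 + (t : 𝓞 L) * K.ell (θ j) l2) =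
        (s : L) * (algebraMap (𝓞 L) L) (K.ell (θ j) l1) +
          (t : L) * (algebraMap (𝓞 L) L) (K.ell (θ j) l2) := by
      simp
    change _ = (algebraMap (𝓞 L) L) _
    rw [h3, ← h2]
    ring
  have hpi0 : ∀ j, eval₂ (algebraMap (𝓞 L) L) (σ : L) (piPoly θ l1 l2 j) ≠ 0 := by
    intro j h
    have h1 := hpi j
    rw [h, mul_zero] at h1
    exact hy j (by exact_mod_cast h1.symm)
  -- the determinant
  have hΛ0 : (aeval (σ : L) Λ) ≠ 0 := by
    rw [← eval₂_map_int, hK.hΛ, eval₂_finsetProd]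
    exact Finset.prod_ne_zero_iff.mpr fun j _ => hpi0 j
  set a0 : ℚ := aeval σ (A 0) with ha0
  set a1 : ℚ := aeval σ (A 1) with ha1
  set b0 : ℚ := aeval σ (B 0) with hb0
  set b1 : ℚ := aeval σ (B 1) with hb1
  have hdet : a0 * b1 - a1 * b0 ≠ 0 := by
    have h1 := congrArg (aeval σ) hK.det
    simp only [map_sub, map_mul, map_pow, aeval_C] at h1
    rw [← ha0, ← ha1, ← hb0, ← hb1] at h1
    rw [h1]
    have h2 : aeval σ Λ ≠ 0 := by
      intro h
      apply hΛ0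
      rw [aeval_rat, h, Rat.cast_zero]
    refine mul_ne_zero ?_ (pow_ne_zero _ h2)
    simpa using hK.c0
  set D : ℚ := a0 * b1 - a1 * b0 with hD
  set k1 : ℚ := (b1 - N * a1) / D with hk1
  set k2 : ℚ := (N * a0 - b0) / D with hk2
  have e1 : k1 * a0 + k2 * a1 = 1 := by
    rw [hk1, hk2]
    field_simp
    rw [hD]
    ring
  have e2 : k1 * b0 + k2 * b1 = N := by
    rw [hk1, hk2]
    field_simp
    rw [hD]
    ring
  by_cases hk : k1 = 0
  · left
    rw [hk, zero_mul, zero_add] at e1 e2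
    refine ⟨fun h => by rw [h, mul_zero] at e1; exact zero_ne_one e1, ?_⟩
    have h3 : b1 - N * a1 = 0 := by
      rw [hk1, div_eq_zero_iff] at hk
      exact hk.resolve_right hdet
    linarith
  · right
    refine ⟨k2 / k1, ?_, ?_, ?_⟩
    · have : a0 + k2 / k1 * a1 = 1 / k1 := by
        field_simp
        linarith
      rw [this]
      exact one_div_ne_zero hk
    · field_simp
      have : (a0 * k1 + k2 * a1) * N = (b0 * k1 + k2 * b1) := by
        have h1 : a0 * k1 + k2 * a1 = 1 := by linarith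
        rw [h1]
        linarith
      linarith
    · -- coefficients
      set κ : ℚ := k2 / k1 with hκ
      have hw : a0 + κ * a1 = 1 / k1 := by
        rw [hκ]
        field_simp
        linarith
      have hwN : (a0 + κ * a1) * N = b0 + κ * b1 := by
        rw [hw, hκ]
        field_simp
        linarith
      have hθL : Function.Injective (fun j => ((θ j : 𝓞 L) : L)) := by
        intro i j h
        exact hθ (RingOfIntegers.ext h)
      have hkey : (fun m : Fin 4 => (((z m : ℚ) * (a0 + κ * a1) * t ^ 2 -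
          c * (aeval σ (Z 0 m) + κ * aeval σ (Z 1 m)) : ℚ) : L)) = 0 := by
        apply vander_zero hθL
        intro j
        set π : L := eval₂ (algebraMap (𝓞 L) L) (σ : L) (piPoly θ l1 l2 j) with hπ
        have hB : ∀ i, ((aeval σ (B i) : ℚ) : L) - (θ j : L) * ((aeval σ (A i) : ℚ) : L) =
            π ^ 2 * ∑ m : Fin 4, ((aeval σ (Z i m) : ℚ) : L) * (θ j : L) ^ (m : ℕ) := by
          intro i
          have h := congrArg (eval₂ (algebraMap (𝓞 L) L) (σ : L)) (hK.eq i j)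
          rw [eval₂_sub, eval₂_mul, eval₂_mul, eval₂_pow, eval₂_finsetSum, eval₂_C,
            eval₂_map_int, eval₂_map_int, aeval_rat, aeval_rat] at h
          rw [h, hπ]
          congr 1
          refine Finset.sum_congr rfl fun m _ => ?_
          rw [eval₂_mul, eval₂_C, eval₂_map_int, aeval_rat]
          congr 1
        have hz : (c : L) * ((N : L) - θ j) =
            ((t : L) * π) ^ 2 * ∑ m : Fin 4, (z m : L) * (θ j : L) ^ (m : ℕ) := by
          have h := congrArg (algebraMap (𝓞 L) L) (heq j)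
          rw [map_mul, map_mul, map_pow, map_sub, map_intCast, map_intCast] at h
          have h2 : (algebraMap (𝓞 L) L) (K.ell (θ j) z) =
              ∑ m : Fin 4, (z m : L) * (θ j : L) ^ (m : ℕ) := by
            simp only [K.ell, map_sum, map_mul, map_pow, map_intCast]
          rw [h2] at h
          rw [hπ, hpi j]
          exact h
        have hcomb : ((b0 + κ * b1 : ℚ) : L) - (θ j : L) * ((a0 + κ * a1 : ℚ) : L) =
            π ^ 2 * ∑ m : Fin 4, ((aeval σ (Z 0 m) + κ * aeval σ (Z 1 m) : ℚ) : L) *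
              (θ j : L) ^ (m : ℕ) := by
          have h0 := hB 0
          have h1 := hB 1
          have h3 : ∑ m : Fin 4, ((aeval σ (Z 0 m) + κ * aeval σ (Z 1 m) : ℚ) : L) *
              (θ j : L) ^ (m : ℕ) =
              ∑ m : Fin 4, ((aeval σ (Z 0 m) : ℚ) : L) * (θ j : L) ^ (m : ℕ) + (κ : L) *
              ∑ m : Fin 4, ((aeval σ (Z 1 m) : ℚ) : L) * (θ j : L) ^ (m : ℕ) := by
            rw [Finset.mul_sum, ← Finset.sum_add_distrib]
            refine Finset.sum_congr rfl fun m _ => ?_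
            push_cast
            ring
          rw [h3, mul_add, ← h0, mul_left_comm, ← h1, hb0, hb1, ha0, ha1]
          push_cast
          ring
        have hπ0 : π ≠ 0 := hpi0 j
        have hfin : π ^ 2 * ∑ m : Fin 4, (((z m : ℚ) * (a0 + κ * a1) * t ^ 2 -
            c * (aeval σ (Z 0 m) + κ * aeval σ (Z 1 m)) : ℚ) : L) * (θ j : L) ^ (m : ℕ) = 0 := by
          have h4 : ∑ m : Fin 4, (((z m : ℚ) * (a0 + κ * a1) * t ^ 2 -
              c * (aeval σ (Z 0 m) + κ * aeval σ (Z 1 m)) : ℚ) : L) * (θ j : L) ^ (m : ℕ) =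
              ((a0 + κ * a1 : ℚ) : L) * (t : L) ^ 2 *
                ∑ m : Fin 4, (z m : L) * (θ j : L) ^ (m : ℕ) -
              (c : L) * ∑ m : Fin 4, ((aeval σ (Z 0 m) + κ * aeval σ (Z 1 m) : ℚ) : L) *
                (θ j : L) ^ (m : ℕ) := by
            rw [Finset.mul_sum, Finset.mul_sum, ← Finset.sum_sub_distrib]
            refine Finset.sum_congr rfl fun m _ => ?_
            push_cast
            ring
          have h5 : ((b0 + κ * b1 : ℚ) : L) = ((a0 + κ * a1 : ℚ) : L) * (N : L) := by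
            rw [← hwN]
            push_cast
            ring
          rw [h4, mul_sub]
          have h6 : π ^ 2 * (((a0 + κ * a1 : ℚ) : L) * (t : L) ^ 2 *
              ∑ m : Fin 4, (z m : L) * (θ j : L) ^ (m : ℕ)) =
              ((a0 + κ * a1 : ℚ) : L) * (((t : L) * π) ^ 2 *
                ∑ m : Fin 4, (z m : L) * (θ j : L) ^ (m : ℕ)) := by ring
          have h7 : π ^ 2 * ((c : L) * ∑ m : Fin 4,
              ((aeval σ (Z 0 m) + κ * aeval σ (Z 1 m) : ℚ) : L) * (θ j : L) ^ (m : ℕ)) =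
              (c : L) * (π ^ 2 * ∑ m : Fin 4,
              ((aeval σ (Z 0 m) + κ * aeval σ (Z 1 m) : ℚ) : L) * (θ j : L) ^ (m : ℕ)) := by ring
          rw [h6, ← hz, h7, ← hcomb, h5]
          ring
        exact (mul_eq_zero.mp hfin).resolve_left (pow_ne_zero _ hπ0)
      intro m
      have h := congrFun hkey m
      simp only [Pi.zero_apply] at h
      have h' : (z m : ℚ) * (a0 + κ * a1) * t ^ 2 -
          c * (aeval σ (Z 0 m) + κ * aeval σ (Z 1 m)) = 0 := by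
        exact_mod_cast h
      linarith

end Vale.Agent.P018.Q
end

section

/-! # P018, quartics: multiplication by `x` modulo `G` on coordinates. -/

namespace Vale.Agent.P018.Q

open Polynomial NumberField

/-- multiplication by `x` in the basis `1, x, x², x³` modulo `G`. -/
def sh (G : ℤ[X]) (y : Fin 4 → ℤ) : Fin 4 → ℤ :=
  ![-(G.coeff 0 * y 3), y 0 - G.coeff 1 * y 3, y 1 - G.coeff 2 * y 3, y 2 - G.coeff 3 * y 3]

/-- multiplication by `x ^ a`. -/
def shp (G : ℤ[X]) (a : ℕ) (y : Fin 4 → ℤ) : Fin 4 → ℤ := (sh G)^[a] y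

/-- multiplication of elements given by coordinates. -/
def mul4 (G : ℤ[X]) (y z : Fin 4 → ℤ) : Fin 4 → ℤ := ∑ a : Fin 4, z a • shp G a y

variable {R : Type*} [CommRing R]

theorem ell_four (t : R) (y : Fin 4 → ℤ) :
    K.ell t y = y 0 + y 1 * t + y 2 * t ^ 2 + y 3 * t ^ 3 := by
  unfold K.ell
  rw [Fin.sum_univ_four]
  simp

theorem G_eq {G : ℤ[X]} (hG : G.Monic) (hGd : G.natDegree = 4) {t : R}
    (ht : aeval t G = 0) : t ^ 4 = -((G.coeff 0 : R) + G.coeff 1 * t + G.coeff 2 * t ^ 2 +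
      G.coeff 3 * t ^ 3) := by
  rw [aeval_eq_sum_range, hGd] at ht
  simp only [Finset.sum_range_succ, Finset.range_zero, Finset.sum_empty, zero_add, pow_zero,
    pow_one, zsmul_eq_mul, mul_one] at ht
  have h4 : G.coeff 4 = 1 := by
    have := hG.coeff_natDegree
    rwa [hGd] at this
  rw [h4] at ht
  push_cast at ht
  linear_combination ht

theorem ell_sh {G : ℤ[X]} (hG : G.Monic) (hGd : G.natDegree = 4) {t : R}
    (ht : aeval t G = 0) (y : Fin 4 → ℤ) : K.ell t (sh G y) = t * K.ell t y := by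
  rw [ell_four, ell_four]
  have h := G_eq hG hGd ht
  simp only [sh, Matrix.cons_val_zero, Matrix.cons_val_one, Matrix.cons_val]
  push_cast
  linear_combination (-(y 3 : R)) * h

theorem ell_shp {G : ℤ[X]} (hG : G.Monic) (hGd : G.natDegree = 4) {t : R}
    (ht : aeval t G = 0) (a : ℕ) (y : Fin 4 → ℤ) : K.ell t (shp G a y) = t ^ a * K.ell t y := by
  induction a with
  | zero => simp [shp]
  | succ a ih =>
    have : shp G (a + 1) y = sh G (shp G a y) := by
      unfold shp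
      rw [Function.iterate_succ_apply']
    rw [this, ell_sh hG hGd ht, ih, pow_succ]
    ring

theorem ell_smul (t : R) (c : ℤ) (y : Fin 4 → ℤ) : K.ell t (c • y) = c * K.ell t y := by
  rw [ell_four, ell_four]
  simp only [Pi.smul_apply, smul_eq_mul]
  push_cast
  ring

theorem ell_add (t : R) (y z : Fin 4 → ℤ) : K.ell t (y + z) = K.ell t y + K.ell t z := by
  rw [ell_four, ell_four, ell_four]
  simp only [Pi.add_apply]
  push_cast
  ring

theorem ell_mul4 {G : ℤ[X]} (hG : G.Monic) (hGd : G.natDegree = 4) {t : R}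
    (ht : aeval t G = 0) (y z : Fin 4 → ℤ) :
    K.ell t (mul4 G y z) = K.ell t y * K.ell t z := by
  unfold mul4
  rw [Fin.sum_univ_four, ell_add, ell_add, ell_add, ell_smul, ell_smul, ell_smul, ell_smul,
    ell_shp hG hGd ht, ell_shp hG hGd ht, ell_shp hG hGd ht, ell_shp hG hGd ht, ell_four t z]
  simp
  ring

/-- size of the shift. -/
theorem sh_le {G : ℤ[X]} {g h : ℤ} (hg : ∀ k, |G.coeff k| ≤ g) {y : Fin 4 → ℤ}
    (hy : ∀ j, |y j| ≤ h) (j : Fin 4) : |sh G y j| ≤ (1 + g) * h := by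
  have hh : 0 ≤ h := (abs_nonneg _).trans (hy 0)
  have hg0 : 0 ≤ g := (abs_nonneg _).trans (hg 0)
  have key : ∀ k i, |y i - G.coeff k * y 3| ≤ (1 + g) * h := by
    intro k i
    calc |y i - G.coeff k * y 3| ≤ |y i| + |G.coeff k * y 3| := abs_sub _ _
      _ ≤ h + g * h := by
        rw [abs_mul]
        exact add_le_add (hy i) (mul_le_mul (hg k) (hy 3) (abs_nonneg _) hg0)
      _ = (1 + g) * h := by ring
  have k0 : |-(G.coeff 0 * y 3)| ≤ (1 + g) * h := by
    rw [abs_neg, abs_mul]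
    have := mul_le_mul (hg 0) (hy 3) (abs_nonneg _) hg0
    linarith only [this, hh]
  fin_cases j
  · exact k0
  · exact key 1 0
  · exact key 2 1
  · exact key 3 2

theorem shp_le {G : ℤ[X]} {g h : ℤ} (hg : ∀ k, |G.coeff k| ≤ g) (a : ℕ) {y : Fin 4 → ℤ}
    (hy : ∀ j, |y j| ≤ h) (j : Fin 4) : |shp G a y j| ≤ (1 + g) ^ a * h := by
  induction a generalizing j with
  | zero => simpa [shp] using hy j
  | succ a ih =>
    have : shp G (a + 1) y = sh G (shp G a y) := by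
      unfold shp
      rw [Function.iterate_succ_apply']
    rw [this]
    refine (sh_le hg (fun j => ih j) j).trans (le_of_eq ?_)
    ring

theorem mul4_le {G : ℤ[X]} {g h h' : ℤ} (hg : ∀ k, |G.coeff k| ≤ g) {y z : Fin 4 → ℤ}
    (hy : ∀ j, |y j| ≤ h) (hz : ∀ j, |z j| ≤ h') (j : Fin 4) :
    |mul4 G y z j| ≤ 4 * (1 + g) ^ 3 * h * h' := by
  have hh : 0 ≤ h := (abs_nonneg _).trans (hy 0)
  have hh' : 0 ≤ h' := (abs_nonneg _).trans (hz 0)
  have hg0 : 0 ≤ g := (abs_nonneg _).trans (hg 0)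
  unfold mul4
  rw [Finset.sum_apply]
  refine (Finset.abs_sum_le_sum_abs _ _).trans ?_
  have h1 : ∀ a : Fin 4, |(z a • shp G a y) j| ≤ (1 + g) ^ 3 * h * h' := by
    intro a
    rw [Pi.smul_apply, smul_eq_mul, abs_mul, mul_comm]
    refine mul_le_mul ((shp_le hg a hy j).trans ?_) (hz a) (abs_nonneg _) (by positivity)
    refine mul_le_mul_of_nonneg_right (pow_le_pow_right₀ (by linarith) ?_) hh
    have := a.2
    omega
  calc ∑ a : Fin 4, |(z a • shp G a y) j| ≤ ∑ _a : Fin 4, (1 + g) ^ 3 * h * h' :=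
        Finset.sum_le_sum fun a _ => h1 a
    _ = _ := by simp; ring

end Vale.Agent.P018.Q
end

section

/-! # P018, quartics: the linear system of the kappa model. -/

namespace Vale.Agent.P018.Q

open Polynomial NumberField

/-- unknowns: coefficients of `A`, `B` (degree `≤ d`) and `Z m` (degree `≤ d - 2`). -/
abbrev Col (d : ℕ) : Type := Fin (d + 1) ⊕ Fin (d + 1) ⊕ (Fin 4 × Fin (d - 1))

/-- equations. -/
abbrev Row (d : ℕ) : Type := Fin 4 × Fin (d + 1)

/-- coordinates of the coefficients of `π²`. -/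
def pc (G : ℤ[X]) (l1 l2 : Fin 4 → ℤ) (r : ℕ) : Fin 4 → ℤ :=
  if r = 0 then mul4 G l2 l2 else if r = 1 then (2 : ℤ) • mul4 G l1 l2 else
    if r = 2 then mul4 G l1 l1 else 0

/-- the matrix of the system `x A - B + π² Z = 0`. -/
def Mx (G : ℤ[X]) (l1 l2 : Fin 4 → ℤ) (d : ℕ) : Row d → Col d → ℤ := fun r c =>
  match c with
  | Sum.inl j => if j = r.2 ∧ r.1 = 1 then 1 else 0
  | Sum.inr (Sum.inl j) => if j = r.2 ∧ r.1 = 0 then -1 else 0
  | Sum.inr (Sum.inr (a, i)) => if (i : ℕ) ≤ r.2 then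
      shp G a (pc G l1 l2 ((r.2 : ℕ) - i)) r.1 else 0

theorem Mx_le {G : ℤ[X]} {g h : ℤ} (hg : ∀ k, |G.coeff k| ≤ g) (hh : 1 ≤ h) {l1 l2 : Fin 4 → ℤ}
    (h1 : ∀ j, |l1 j| ≤ h) (h2 : ∀ j, |l2 j| ≤ h) {d : ℕ} (r : Row d) (c : Col d) :
    |Mx G l1 l2 d r c| ≤ 8 * (1 + g) ^ 6 * h ^ 2 := by
  have hg0 : 0 ≤ g := (abs_nonneg _).trans (hg 0)
  have hb1 : (1 : ℤ) ≤ (1 + g) ^ 6 := one_le_pow₀ (by omega)
  have hb2 : (1 : ℤ) ≤ h ^ 2 := one_le_pow₀ hh
  have hone : (1 : ℤ) ≤ 8 * (1 + g) ^ 6 * h ^ 2 := by linarith only [hb2, mul_nonneg (sq_nonneg (h : ℤ)) (sub_nonneg.2 hb1)]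
  have hpc : ∀ n j, |pc G l1 l2 n j| ≤ 8 * (1 + g) ^ 3 * h ^ 2 := by
    intro n j
    unfold pc
    split_ifs
    · refine (mul4_le hg h2 h2 j).trans ?_
      have : 0 ≤ (1 + g) ^ 3 * h ^ 2 := by positivity
      linarith only [this]
    · rw [Pi.smul_apply, smul_eq_mul, abs_mul]
      have := mul4_le hg h1 h2 j
      rw [abs_of_pos (by norm_num : (0 : ℤ) < 2)]
      linarith only [this]
    · refine (mul4_le hg h1 h1 j).trans ?_
      have : 0 ≤ (1 + g) ^ 3 * h ^ 2 := by positivity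
      linarith only [this]
    · simp
      positivity
  match c with
  | Sum.inl j =>
    simp only [Mx]
    split_ifs
    · simpa using hone
    · simp; omega
  | Sum.inr (Sum.inl j) =>
    simp only [Mx]
    split_ifs
    · simpa using hone
    · simp; omega
  | Sum.inr (Sum.inr (a, i)) =>
    simp only [Mx]
    split_ifs
    · refine (shp_le hg a (hpc _) r.1).trans ?_
      have h3 : (1 + g) ^ (a : ℕ) ≤ (1 + g) ^ 3 := pow_le_pow_right₀ (by omega) (by omega)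
      calc (1 + g) ^ (a : ℕ) * (8 * (1 + g) ^ 3 * h ^ 2)
          ≤ (1 + g) ^ 3 * (8 * (1 + g) ^ 3 * h ^ 2) :=
            mul_le_mul_of_nonneg_right h3 (by positivity)
        _ = _ := by ring
    · simp; omega

section poly

variable {F : Type*} [CommRing F] {d : ℕ}

/-- the polynomial `A`. -/
noncomputable def pA (v : Col d → F) : F[X] := ∑ j : Fin (d + 1), C (v (Sum.inl j)) * X ^ (j : ℕ)

/-- the polynomial `B`. -/
noncomputable def pB (v : Col d → F) : F[X] :=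
  ∑ j : Fin (d + 1), C (v (Sum.inr (Sum.inl j))) * X ^ (j : ℕ)

/-- the polynomials `Z m`. -/
noncomputable def pZ (v : Col d → F) (m : Fin 4) : F[X] :=
  ∑ i : Fin (d - 1), C (v (Sum.inr (Sum.inr (m, i)))) * X ^ (i : ℕ)

/-- the column polynomials. -/
noncomputable def colp {R : Type*} [CommRing R] (l1 l2 : Fin 4 → ℤ) (t : R) : Col d → R[X]
  | Sum.inl j => C t * X ^ (j : ℕ)
  | Sum.inr (Sum.inl j) => -X ^ (j : ℕ)
  | Sum.inr (Sum.inr (a, i)) => C (t ^ (a : ℕ)) * X ^ (i : ℕ) *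
      (C (K.ell t l1) * X + C (K.ell t l2)) ^ 2

theorem ell_zero' {R : Type*} [CommRing R] (t : R) : K.ell t (0 : Fin 4 → ℤ) = 0 := by
  rw [ell_four]; simp

theorem colp_eq {R : Type*} [CommRing R] {G : ℤ[X]} (hG : G.Monic) (hGd : G.natDegree = 4) {t : R}
    (ht : aeval t G = 0) (l1 l2 : Fin 4 → ℤ) (hd : 2 ≤ d) (c : Col d) :
    ∑ k : Fin (d + 1), C (K.ell t fun m => Mx G l1 l2 d (m, k) c) * X ^ (k : ℕ) =
      colp l1 l2 t c := by
  match c with
  | Sum.inl j =>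
    show _ = C t * X ^ (j : ℕ)
    rw [Finset.sum_eq_single j]
    · congr 2
      rw [ell_four]
      simp [Mx]
    · intro k _ hk
      have : (fun m => Mx G l1 l2 d (m, k) (Sum.inl j)) = 0 := by
        funext m
        simp [Mx, Ne.symm hk]
      rw [this, ell_zero', C_0, zero_mul]
    · intro h; exact absurd (Finset.mem_univ _) h
  | Sum.inr (Sum.inl j) =>
    show _ = -X ^ (j : ℕ)
    rw [Finset.sum_eq_single j]
    · have : K.ell t (fun m => Mx G l1 l2 d (m, j) (Sum.inr (Sum.inl j))) = -1 := by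
        rw [ell_four]
        simp [Mx]
      rw [this]
      simp
    · intro k _ hk
      have : (fun m => Mx G l1 l2 d (m, k) (Sum.inr (Sum.inl j))) = 0 := by
        funext m
        simp [Mx, Ne.symm hk]
      rw [this, ell_zero', C_0, zero_mul]
    · intro h; exact absurd (Finset.mem_univ _) h
  | Sum.inr (Sum.inr (a, i)) =>
    show _ = C (t ^ (a : ℕ)) * X ^ (i : ℕ) * (C (K.ell t l1) * X + C (K.ell t l2)) ^ 2
    have hi : (i : ℕ) + 2 ≤ d := by have := i.2; omega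
    have h1 : ∀ k : Fin (d + 1), K.ell t (fun m => Mx G l1 l2 d (m, k) (Sum.inr (Sum.inr (a, i)))) =
        if (i : ℕ) ≤ k then t ^ (a : ℕ) * K.ell t (pc G l1 l2 ((k : ℕ) - i)) else 0 := by
      intro k
      split_ifs with hk
      · rw [← ell_shp hG hGd ht]
        congr 1
        funext m
        simp [Mx, hk]
      · have : (fun m => Mx G l1 l2 d (m, k) (Sum.inr (Sum.inr (a, i)))) = 0 := by
          funext m
          simp [Mx, hk]
        rw [this, ell_zero']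
    simp_rw [h1]
    rw [Fin.sum_univ_eq_sum_range (fun k => C (if (i : ℕ) ≤ k then
      t ^ (a : ℕ) * K.ell t (pc G l1 l2 (k - i)) else 0) * (X : R[X]) ^ k) (d + 1)]
    have h2 : Finset.range (d + 1) = Finset.range ((i : ℕ) + (d + 1 - i)) := by
      congr 1; omega
    rw [h2, Finset.sum_range_add]
    rw [Finset.sum_eq_zero (fun k hk => by
      rw [Finset.mem_range] at hk
      rw [if_neg (by omega), C_0, zero_mul]), zero_add]
    have h3 : d + 1 - i = 3 + (d + 1 - i - 3) := by omega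
    rw [h3, Finset.sum_range_add]
    rw [Finset.sum_eq_zero (s := Finset.range (d + 1 - i - 3)) (fun k hk => by
      rw [if_pos (by omega)]
      have : pc G l1 l2 ((i : ℕ) + (3 + k) - i) = 0 := by
        unfold pc
        rw [if_neg (by omega), if_neg (by omega), if_neg (by omega)]
      rw [this, ell_zero', mul_zero, C_0, zero_mul]), add_zero]
    simp only [Finset.sum_range_succ, Finset.range_zero, Finset.sum_empty, zero_add, add_zero,
      Nat.add_sub_cancel_left, le_add_iff_nonneg_right, zero_le, if_true]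
    have e0 : K.ell t (pc G l1 l2 0) = K.ell t l2 ^ 2 := by
      unfold pc
      rw [if_pos rfl, ell_mul4 hG hGd ht]; ring
    have e1 : K.ell t (pc G l1 l2 1) = 2 * K.ell t l1 * K.ell t l2 := by
      unfold pc
      rw [if_neg (by norm_num), if_pos rfl, ell_smul, ell_mul4 hG hGd ht]; push_cast; ring
    have e2 : K.ell t (pc G l1 l2 2) = K.ell t l1 ^ 2 := by
      unfold pc
      rw [if_neg (by norm_num), if_neg (by norm_num), if_pos rfl, ell_mul4 hG hGd ht]; ring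
    rw [e0, e1, e2]
    simp only [map_mul, map_pow, map_ofNat]
    ring

/-- the value of a row on a vector. -/
def rw' (G : ℤ[X]) (l1 l2 : Fin 4 → ℤ) (v : Col d → F) (r : Row d) : F :=
  ∑ c, (Mx G l1 l2 d r c : F) * v c

theorem sum_colp {R : Type*} [CommRing R] [Algebra F R] (l1 l2 : Fin 4 → ℤ) (t : R)
    (v : Col d → F) :
    ∑ c, C (algebraMap F R (v c)) * colp l1 l2 t c =
      C t * (pA v).map (algebraMap F R) - (pB v).map (algebraMap F R) +
      (C (K.ell t l1) * X + C (K.ell t l2)) ^ 2 *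
        ∑ m : Fin 4, (pZ v m).map (algebraMap F R) * C (t ^ (m : ℕ)) := by
  rw [Fintype.sum_sum_type, Fintype.sum_sum_type, Fintype.sum_prod_type]
  unfold pA pB pZ
  simp only [colp, Polynomial.map_sum, Polynomial.map_mul, map_C, Polynomial.map_pow, map_X,
    Finset.mul_sum, Finset.sum_mul, mul_neg, Finset.sum_neg_distrib]
  have h1 : ∀ x : Fin (d + 1), C (algebraMap F R (v (Sum.inl x))) * (C t * X ^ (x : ℕ)) =
      C t * (C (algebraMap F R (v (Sum.inl x))) * X ^ (x : ℕ)) := fun x => by ring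
  have h2 : ∀ (x : Fin 4) (i : Fin (d - 1)), C (algebraMap F R (v (Sum.inr (Sum.inr (x, i))))) *
      (C (t ^ (x : ℕ)) * X ^ (i : ℕ) * (C (K.ell t l1) * X + C (K.ell t l2)) ^ 2) =
      (C (K.ell t l1) * X + C (K.ell t l2)) ^ 2 *
        (C (algebraMap F R (v (Sum.inr (Sum.inr (x, i))))) * X ^ (i : ℕ) * C (t ^ (x : ℕ))) :=
    fun x i => by ring
  simp only [h1, h2]
  ring

theorem key_eq {R : Type*} [CommRing R] [Algebra F R] {G : ℤ[X]} (hG : G.Monic)
    (hGd : G.natDegree = 4) {t : R} (ht : aeval t G = 0) (l1 l2 : Fin 4 → ℤ) (hd : 2 ≤ d)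
    (v : Col d → F) :
    C t * (pA v).map (algebraMap F R) - (pB v).map (algebraMap F R) +
      (C (K.ell t l1) * X + C (K.ell t l2)) ^ 2 *
        ∑ m : Fin 4, (pZ v m).map (algebraMap F R) * C (t ^ (m : ℕ)) =
    ∑ k : Fin (d + 1), C (∑ m : Fin 4, algebraMap F R (rw' G l1 l2 v (m, k)) * t ^ (m : ℕ)) *
      X ^ (k : ℕ) := by
  rw [← sum_colp]
  simp_rw [← colp_eq hG hGd ht l1 l2 hd, Finset.mul_sum]
  rw [Finset.sum_comm]
  refine Finset.sum_congr rfl fun k _ => ?_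
  simp_rw [← mul_assoc, ← C_mul]
  rw [← Finset.sum_mul, ← map_sum]
  congr 2
  simp only [rw', map_sum, map_mul, map_intCast, Finset.sum_mul, K.ell, Finset.mul_sum]
  rw [Finset.sum_comm]
  refine Finset.sum_congr rfl fun m _ => Finset.sum_congr rfl fun c _ => ?_
  ring

theorem natDegree_pA (v : Col d → F) : (pA v).natDegree ≤ d := by
  refine natDegree_sum_le_of_forall_le _ _ fun j _ => ?_
  refine (natDegree_C_mul_X_pow_le _ _).trans ?_
  have := j.2
  omega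

theorem natDegree_pB (v : Col d → F) : (pB v).natDegree ≤ d := by
  refine natDegree_sum_le_of_forall_le _ _ fun j _ => ?_
  refine (natDegree_C_mul_X_pow_le _ _).trans ?_
  have := j.2
  omega

theorem natDegree_pZ (hd : 2 ≤ d) (v : Col d → F) (m : Fin 4) : (pZ v m).natDegree + 2 ≤ d := by
  have : (pZ v m).natDegree ≤ d - 2 := by
    refine natDegree_sum_le_of_forall_le _ _ fun j _ => ?_
    refine (natDegree_C_mul_X_pow_le _ _).trans ?_
    have := j.2
    omega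
  omega

theorem coeff_sumC {n : ℕ} (f : Fin n → F) (k : ℕ) :
    (∑ j : Fin n, C (f j) * X ^ (j : ℕ)).coeff k = if h : k < n then f ⟨k, h⟩ else 0 := by
  rw [finsetSum_coeff]
  simp only [coeff_C_mul, coeff_X_pow]
  split_ifs with h
  · rw [Finset.sum_eq_single (⟨k, h⟩ : Fin n)]
    · simp
    · intro b _ hb
      have : k ≠ (b : ℕ) := fun h' => hb (Fin.ext h'.symm)
      simp [this]
    · simp
  · refine Finset.sum_eq_zero fun b _ => ?_
    have : k ≠ (b : ℕ) := by have := b.2; omega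
    simp [this]

theorem sumC_of_natDegree {n : ℕ} (P : F[X]) (hP : P.natDegree < n) :
    ∑ j : Fin n, C (P.coeff j) * X ^ (j : ℕ) = P := by
  ext k
  rw [coeff_sumC (fun j : Fin n => P.coeff j)]
  split_ifs with h
  · rfl
  · rw [coeff_eq_zero_of_natDegree_lt (by omega)]

theorem vec_ext {v : Col d → F} (hA : pA v = 0) (hB : pB v = 0) (hZ : ∀ m, pZ v m = 0) : v = 0 := by
  funext c
  match c with
  | Sum.inl j =>
    have h := congrArg (fun P => P.coeff j) hA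
    simp only [pA, coeff_sumC (fun j => v (Sum.inl j)), coeff_zero] at h
    rwa [dif_pos j.2] at h
  | Sum.inr (Sum.inl j) =>
    have h := congrArg (fun P => P.coeff j) hB
    simp only [pB, coeff_sumC (fun j => v (Sum.inr (Sum.inl j))), coeff_zero] at h
    rwa [dif_pos j.2] at h
  | Sum.inr (Sum.inr (m, i)) =>
    have h := congrArg (fun P => P.coeff i) (hZ m)
    simp only [pZ, coeff_sumC (fun i => v (Sum.inr (Sum.inr (m, i)))), coeff_zero] at h
    rwa [dif_pos i.2] at h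

end poly

end Vale.Agent.P018.Q
end

section

/-! # P018, quartics: rational solutions of the system of the kappa model. -/

namespace Vale.Agent.P018.Q

open Polynomial NumberField Module

set_option linter.unusedSectionVars false

section

variable {L : Type} [Field L] [NumberField L] {θ : Fin 4 → 𝓞 L} {F : Type} [Field F]
  [NumberField F] {α : F} {σ : Fin 4 → F →+* L} {l1 l2 : Fin 4 → ℤ}

/-- `π` over the quartic field. -/
noncomputable def PF (α : F) (l1 l2 : Fin 4 → ℤ) : F[X] := C (K.ell α l1) * X + C (K.ell α l2)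

/-- the pairs `(A, B)` with `π² ∣ α A - B`. -/
def DD (α : F) (l1 l2 : Fin 4 → ℤ) (A B : ℚ[X]) : Prop :=
  PF α l1 l2 ^ 2 ∣ C α * A.map (algebraMap ℚ F) - B.map (algebraMap ℚ F)

theorem PF_natDegree (h : QF θ F α σ) (hl1 : l1 ≠ 0) : (PF α l1 l2).natDegree = 1 :=
  natDegree_linear (h.ell_ne_zero hl1)

theorem PF_ne_zero (h : QF θ F α σ) (hl1 : l1 ≠ 0) : PF α l1 l2 ≠ 0 := by
  intro h0
  have := PF_natDegree (l2 := l2) h hl1
  rw [h0] at this
  simp at this

theorem PF_irreducible (h : QF θ F α σ) (hl1 : l1 ≠ 0) : Irreducible (PF α l1 l2) :=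
  irreducible_of_degree_eq_one (by
    rw [degree_eq_natDegree (PF_ne_zero h hl1), PF_natDegree h hl1]; rfl)

/-- `π_j` over `L`. -/
noncomputable def PL (θ : Fin 4 → 𝓞 L) (l1 l2 : Fin 4 → ℤ) (j : Fin 4) : L[X] :=
  (piPoly θ l1 l2 j).map (algebraMap (𝓞 L) L)

theorem PL_eq (j : Fin 4) : PL θ l1 l2 j =
    C ((K.ell (θ j) l1 : 𝓞 L) : L) * X + C ((K.ell (θ j) l2 : 𝓞 L) : L) := by
  unfold PL piPoly
  rw [Polynomial.map_add, Polynomial.map_mul, map_C, map_C, map_X]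

theorem PF_map (h : QF θ F α σ) (j : Fin 4) : (PF α l1 l2).map (σ j) = PL θ l1 l2 j := by
  rw [PL_eq, PF, Polynomial.map_add, Polynomial.map_mul, map_C, map_C, map_X, h.map_ell,
    h.map_ell]

theorem ellj_ne_zero (h : QF θ F α σ) (hl1 : l1 ≠ 0) (j : Fin 4) :
    ((K.ell (θ j) l1 : 𝓞 L) : L) ≠ 0 := by
  rw [← h.map_ell]
  exact (_root_.map_ne_zero _).2 (h.ell_ne_zero hl1)

theorem PL_natDegree (h : QF θ F α σ) (hl1 : l1 ≠ 0) (j : Fin 4) :
    (PL θ l1 l2 j).natDegree = 1 := by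
  rw [PL_eq]
  exact natDegree_linear (ellj_ne_zero h hl1 j)

theorem PL_ne_zero (h : QF θ F α σ) (hl1 : l1 ≠ 0) (j : Fin 4) : PL θ l1 l2 j ≠ 0 := by
  intro h0
  have := PL_natDegree (l2 := l2) h hl1 j
  rw [h0] at this
  simp at this

theorem PL_coprime (hnd : NonDeg θ l1 l2) {i j : Fin 4} (hij : i ≠ j) :
    IsCoprime (PL θ l1 l2 i) (PL θ l1 l2 j) := by
  rw [PL_eq, PL_eq]
  set a : L := ((K.ell (θ i) l1 : 𝓞 L) : L)
  set b : L := ((K.ell (θ i) l2 : 𝓞 L) : L)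
  set a' : L := ((K.ell (θ j) l1 : 𝓞 L) : L)
  set b' : L := ((K.ell (θ j) l2 : 𝓞 L) : L)
  have h1 : a * b' - a' * b ≠ 0 := by
    intro h0
    apply hnd i j hij
    rw [sub_eq_zero] at h0
    apply RingOfIntegers.coe_injective
    show algebraMap (𝓞 L) L _ = algebraMap (𝓞 L) L _
    rw [map_mul, map_mul]
    exact h0
  refine ⟨C (-(a * b' - a' * b)⁻¹ * a'), C ((a * b' - a' * b)⁻¹ * a), ?_⟩
  have h2 : C (-(a * b' - a' * b)⁻¹ * a') * (C a * X + C b) +
      C ((a * b' - a' * b)⁻¹ * a) * (C a' * X + C b') =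
      C ((a * b' - a' * b)⁻¹ * (a * b' - a' * b)) := by
    simp only [map_mul, map_sub, map_neg]
    ring
  rw [h2, inv_mul_cancel₀ h1, C_1]

theorem map_map_eq (j : Fin 4) (g : ℚ[X]) :
    (g.map (algebraMap ℚ F)).map (σ j) = g.map (algebraMap ℚ L) := by
  rw [Polynomial.map_map]
  congr 1
  exact Subsingleton.elim _ _

theorem prod_dvd (h : QF θ F α σ) (hnd : NonDeg θ l1 l2) {g : ℚ[X]} {k : ℕ}
    (hg : PF α l1 l2 ^ k ∣ g.map (algebraMap ℚ F)) :
    (∏ j, PL θ l1 l2 j) ^ k ∣ g.map (algebraMap ℚ L) := by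
  rw [← Finset.prod_pow]
  refine Fintype.prod_dvd_of_coprime ?_ ?_
  · intro i j hij
    exact (PL_coprime hnd hij).pow
  · intro j
    have h1 := Polynomial.map_dvd (σ j) hg
    rwa [Polynomial.map_pow, PF_map h, map_map_eq] at h1

theorem prod_natDegree (h : QF θ F α σ) (hl1 : l1 ≠ 0) :
    (∏ j, PL θ l1 l2 j).natDegree = 4 := by
  rw [natDegree_prod _ _ fun j _ => PL_ne_zero h hl1 j]
  simp [PL_natDegree h hl1]

theorem four_le (h : QF θ F α σ) (hl1 : l1 ≠ 0) (hnd : NonDeg θ l1 l2) {g : ℚ[X]} (hg0 : g ≠ 0)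
    {k : ℕ} (hg : PF α l1 l2 ^ k ∣ g.map (algebraMap ℚ F)) : k * 4 ≤ g.natDegree := by
  have h1 := natDegree_le_of_dvd (prod_dvd h hnd hg)
    ((Polynomial.map_ne_zero_iff (algebraMap ℚ L).injective).2 hg0)
  rwa [natDegree_pow, prod_natDegree h hl1, natDegree_map] at h1

/-- `A B' - A' B` is divisible by `π²`. -/
theorem W_dvd {A B A' B' : ℚ[X]} (h1 : DD α l1 l2 A B) (h2 : DD α l1 l2 A' B') :
    PF α l1 l2 ^ 2 ∣ (A * B' - A' * B).map (algebraMap ℚ F) := by
  obtain ⟨q, hq⟩ := h1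
  obtain ⟨q', hq'⟩ := h2
  refine ⟨A'.map (algebraMap ℚ F) * q - A.map (algebraMap ℚ F) * q', ?_⟩
  rw [Polynomial.map_sub, Polynomial.map_mul, Polynomial.map_mul]
  linear_combination (A'.map (algebraMap ℚ F)) * hq - (A.map (algebraMap ℚ F)) * hq'

theorem quot_of_coprime {a b A B : ℚ[X]} (hab : IsCoprime a b) (h : a * B = A * b) :
    ∃ g, A = g * a ∧ B = g * b := by
  obtain ⟨u, w, huw⟩ := hab
  refine ⟨u * A + w * B, ?_, ?_⟩
  · linear_combination (-A) * huw - w * h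
  · linear_combination (-B) * huw + u * h

theorem exists_gcd' {A B : ℚ[X]} (h : A ≠ 0 ∨ B ≠ 0) :
    ∃ g a b, g ≠ 0 ∧ A = g * a ∧ B = g * b ∧ IsCoprime a b := by
  have hg0 : EuclideanDomain.gcd A B ≠ 0 := by
    rw [Ne, EuclideanDomain.gcd_eq_zero_iff]
    tauto
  obtain ⟨a, ha⟩ := EuclideanDomain.gcd_dvd_left A B
  obtain ⟨b, hb⟩ := EuclideanDomain.gcd_dvd_right A B
  refine ⟨EuclideanDomain.gcd A B, a, b, hg0, ha, hb, EuclideanDomain.gcdA A B,
    EuclideanDomain.gcdB A B, ?_⟩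
  apply mul_left_cancel₀ hg0
  have h1 := EuclideanDomain.gcd_eq_gcd_ab A B
  linear_combination (-1) * h1 - (EuclideanDomain.gcdA A B) * ha -
    (EuclideanDomain.gcdB A B) * hb

/-- reduction to a coprime pair; a nonzero solution has no small coprime part. -/
theorem primitive (h : QF θ F α σ) (hl1 : l1 ≠ 0) (hnd : NonDeg θ l1 l2) {A B : ℚ[X]}
    (hAB : A ≠ 0 ∨ B ≠ 0) (hA : A.natDegree ≤ 4) (hB : B.natDegree ≤ 4) (hD : DD α l1 l2 A B) :
    ∃ a b, IsCoprime a b ∧ DD α l1 l2 a b ∧ a * B = A * b ∧ a.natDegree ≤ 4 ∧ b.natDegree ≤ 4 ∧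
      (3 ≤ a.natDegree ∨ 3 ≤ b.natDegree) := by
  obtain ⟨g, a, b, hg0, rfl, rfl, hab⟩ := exists_gcd' hAB
  have hda : a ≠ 0 → g.natDegree + a.natDegree ≤ 4 := fun ha => by
    rwa [natDegree_mul hg0 ha] at hA
  have hdb : b ≠ 0 → g.natDegree + b.natDegree ≤ 4 := fun hb => by
    rwa [natDegree_mul hg0 hb] at hB
  have ha4 : a.natDegree ≤ 4 := by
    by_cases ha : a = 0
    · simp [ha]
    · have := hda ha; omega
  have hb4 : b.natDegree ≤ 4 := by
    by_cases hb : b = 0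
    · simp [hb]
    · have := hdb hb; omega
  have hg4 : g.natDegree ≤ 4 := by
    by_cases ha : a = 0
    · by_cases hb : b = 0
      · rw [ha, hb] at hAB; simp at hAB
      · have := hdb hb; omega
    · have := hda ha; omega
  have hfac : C α * (g * a).map (algebraMap ℚ F) - (g * b).map (algebraMap ℚ F) =
      g.map (algebraMap ℚ F) * (C α * a.map (algebraMap ℚ F) - b.map (algebraMap ℚ F)) := by
    rw [Polynomial.map_mul, Polynomial.map_mul]; ring
  unfold DD at hD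
  rw [hfac] at hD
  -- not both constant
  have hnc : a.natDegree ≠ 0 ∨ b.natDegree ≠ 0 := by
    by_contra hcon
    push Not at hcon
    obtain ⟨a0, rfl⟩ := natDegree_eq_zero.1 hcon.1
    obtain ⟨b0, rfl⟩ := natDegree_eq_zero.1 hcon.2
    have h1 : C α * (C a0).map (algebraMap ℚ F) - (C b0).map (algebraMap ℚ F) =
        C (α * (a0 : F) - (b0 : F)) := by
      rw [map_C, map_C, ← C_mul, ← C_sub]
      simp
    have h2 : α * (a0 : F) - (b0 : F) ≠ 0 := by
      intro h0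
      have h3 := h.li ![-b0, a0, 0, 0] (by
        rw [Fin.sum_univ_four]
        simp
        linear_combination h0)
      have h4 := congrFun h3 0
      have h5 := congrFun h3 1
      simp at h4 h5
      rw [h4, h5] at hAB
      simp at hAB
    rw [h1] at hD
    have h3 : PF α l1 l2 ^ 2 ∣ g.map (algebraMap ℚ F) := by
      obtain ⟨q, hq⟩ := hD
      refine ⟨q * C (α * (a0 : F) - (b0 : F))⁻¹, ?_⟩
      rw [← mul_assoc, ← hq, mul_assoc, ← C_mul, mul_inv_cancel₀ h2, C_1, mul_one]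
    have h4 := four_le h hl1 hnd hg0 h3
    omega
  have hg3 : g.natDegree ≤ 3 := by
    rcases hnc with hnc | hnc
    · have := hda (by rintro rfl; simp at hnc)
      omega
    · have := hdb (by rintro rfl; simp at hnc)
      omega
  have hcop : IsCoprime (PF α l1 l2 ^ 2) (g.map (algebraMap ℚ F)) := by
    refine IsCoprime.pow_left ?_
    rw [(PF_irreducible h hl1).coprime_iff_not_dvd]
    intro hdvd
    have := four_le h hl1 hnd hg0 (k := 1) (by rwa [pow_one])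
    omega
  have hDab : DD α l1 l2 a b := hcop.dvd_of_dvd_mul_left hD
  refine ⟨a, b, hab, hDab, by ring, ha4, hb4, ?_⟩
  by_contra hcon
  push Not at hcon
  have hw : wronskian a b = 0 := by
    by_contra hw
    have h1 := natDegree_wronskian_lt_add hw
    have h2 : PF α l1 l2 ^ 1 ∣ (wronskian a b).map (algebraMap ℚ F) := by
      obtain ⟨q, hq⟩ := hDab
      have hq' := congrArg derivative hq
      rw [derivative_sub, derivative_C_mul, derivative_map, derivative_map, derivative_mul,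
        derivative_pow] at hq'
      refine ⟨(derivative a).map (algebraMap ℚ F) * (PF α l1 l2 * q) - a.map (algebraMap ℚ F) *
        (2 * derivative (PF α l1 l2) * q + PF α l1 l2 * derivative q), ?_⟩
      rw [wronskian, Polynomial.map_sub, Polynomial.map_mul, Polynomial.map_mul]
      simp only [Nat.cast_ofNat, map_ofNat, Nat.add_one_sub_one, pow_one] at hq'
      linear_combination ((derivative a).map (algebraMap ℚ F)) * hq -
        (a.map (algebraMap ℚ F)) * hq'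
    have h3 := four_le h hl1 hnd hw h2
    omega
  rw [hab.wronskian_eq_zero_iff] at hw
  have h1 := derivative_eq_zero.1 hw.1
  have h2 := derivative_eq_zero.1 hw.2
  tauto

/-! ### vectors and solutions -/

theorem aeval_alpha (h : QF θ F α σ) {G : ℤ[X]}
    (hGθ : G.map (algebraMap ℤ (𝓞 L)) = ∏ i, (X - C (θ i))) : aeval α G = 0 := by
  apply (σ 0).injective
  rw [map_zero]
  have h1 := eval_theta hGθ 0
  rw [eval₂_map] at h1
  rw [aeval_def, hom_eval₂, h.sr]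
  have h3 : (σ 0).comp (algebraMap ℤ F) = (algebraMap ℚ L).comp (Int.castRingHom ℚ) :=
    RingHom.ext_int _ _
  rw [h3]
  exact h1

variable {G : ℤ[X]} {d : ℕ}

theorem DD_of_ker (h : QF θ F α σ) (hG : G.Monic) (hGd : G.natDegree = 4)
    (hGθ : G.map (algebraMap ℤ (𝓞 L)) = ∏ i, (X - C (θ i))) (hd : 2 ≤ d) {v : Col d → ℚ}
    (hv : ∀ r, rw' G l1 l2 v r = 0) : DD α l1 l2 (pA v) (pB v) := by
  have h1 := key_eq (F := ℚ) hG hGd (aeval_alpha h hGθ) l1 l2 hd v
  simp only [hv, map_zero, zero_mul, Finset.sum_const_zero] at h1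
  refine ⟨-∑ m : Fin 4, (pZ v m).map (algebraMap ℚ F) * C (α ^ (m : ℕ)), ?_⟩
  unfold PF
  linear_combination h1

/-- a combination of powers of `α` with rational polynomial coefficients. -/
theorem comb_zero (h : QF θ F α σ) {Z : Fin 4 → ℚ[X]}
    (hZ : ∑ m : Fin 4, (Z m).map (algebraMap ℚ F) * C (α ^ (m : ℕ)) = 0) (m : Fin 4) :
    Z m = 0 := by
  ext k
  have h1 := congrArg (fun P : F[X] => P.coeff k) hZ
  simp only [finsetSum_coeff, coeff_mul_C, coeff_map, coeff_zero] at h1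
  have h2 := h.li (fun m => (Z m).coeff k) (by simpa using h1)
  exact congrFun h2 m

theorem eq_zero_of_ker (h : QF θ F α σ) (hG : G.Monic) (hGd : G.natDegree = 4)
    (hGθ : G.map (algebraMap ℤ (𝓞 L)) = ∏ i, (X - C (θ i))) (hd : 2 ≤ d) (hl1 : l1 ≠ 0)
    {v : Col d → ℚ} (hv : ∀ r, rw' G l1 l2 v r = 0) (hA : pA v = 0) (hB : pB v = 0) : v = 0 := by
  have h1 := key_eq (F := ℚ) hG hGd (aeval_alpha h hGθ) l1 l2 hd v
  simp only [hv, map_zero, zero_mul, Finset.sum_const_zero, hA, hB, Polynomial.map_zero, mul_zero,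
    sub_zero, zero_add] at h1
  have h2 : PF α l1 l2 ^ 2 ≠ 0 := pow_ne_zero _ (PF_ne_zero h hl1)
  have h3 := (mul_eq_zero.1 h1).resolve_left h2
  exact vec_ext hA hB (comb_zero h h3)

theorem ker_of_DD (h : QF θ F α σ) (hG : G.Monic) (hGd : G.natDegree = 4)
    (hGθ : G.map (algebraMap ℤ (𝓞 L)) = ∏ i, (X - C (θ i))) (hd : 2 ≤ d) (hl1 : l1 ≠ 0)
    {A B : ℚ[X]} (hA : A.natDegree ≤ d) (hB : B.natDegree ≤ d) (hD : DD α l1 l2 A B) :
    ∃ v : Col d → ℚ, (∀ r, rw' G l1 l2 v r = 0) ∧ pA v = A ∧ pB v = B := by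
  obtain ⟨q, hq⟩ := hD
  choose y hy using fun k : ℕ => h.span (q.coeff k)
  have hqd : q = 0 ∨ q.natDegree + 2 ≤ d := by
    by_cases hq0 : q = 0
    · exact Or.inl hq0
    · right
      have h1 : (PF α l1 l2 ^ 2 * q).natDegree = 2 + q.natDegree := by
        rw [natDegree_mul (pow_ne_zero _ (PF_ne_zero h hl1)) hq0, natDegree_pow,
          PF_natDegree h hl1]
      have h2 : (C α * A.map (algebraMap ℚ F) - B.map (algebraMap ℚ F)).natDegree ≤ d := by
        refine (natDegree_sub_le _ _).trans (max_le ?_ ?_)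
        · refine (natDegree_C_mul_le _ _).trans ?_
          rwa [natDegree_map]
        · rwa [natDegree_map]
      rw [hq, h1] at h2
      omega
  let v : Col d → ℚ := fun c => match c with
    | Sum.inl j => A.coeff j
    | Sum.inr (Sum.inl j) => B.coeff j
    | Sum.inr (Sum.inr (m, i)) => -y i m
  have hvA : pA v = A := sumC_of_natDegree A (by omega)
  have hvB : pB v = B := sumC_of_natDegree B (by omega)
  refine ⟨v, ?_, hvA, hvB⟩
  have hZ : ∑ m : Fin 4, (pZ v m).map (algebraMap ℚ F) * C (α ^ (m : ℕ)) = -q := by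
    ext k
    simp only [finsetSum_coeff, coeff_mul_C, coeff_map, coeff_neg, pZ,
      coeff_sumC (fun i => v (Sum.inr (Sum.inr (_, i))))]
    by_cases hk : k < d - 1
    · simp only [dif_pos hk, v]
      conv_rhs => rw [hy k]
      rw [← Finset.sum_neg_distrib]
      refine Finset.sum_congr rfl fun m _ => ?_
      simp
    · simp only [dif_neg hk, map_zero, zero_mul, Finset.sum_const_zero]
      have : q.coeff k = 0 := by
        rcases hqd with hq0 | hqd
        · rw [hq0, coeff_zero]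
        · exact coeff_eq_zero_of_natDegree_lt (by omega)
      rw [this, neg_zero]
  have h1 := key_eq (F := ℚ) hG hGd (aeval_alpha h hGθ) l1 l2 hd v
  rw [hvA, hvB, hZ, hq] at h1
  have h2 : ∑ k : Fin (d + 1), C (∑ m : Fin 4, algebraMap ℚ F (rw' G l1 l2 v (m, k)) *
      α ^ (m : ℕ)) * X ^ (k : ℕ) = 0 := by
    rw [← h1]
    unfold PF
    ring
  rintro ⟨m, k⟩
  have h3 := congrArg (fun P : F[X] => P.coeff k) h2
  simp only [coeff_sumC (fun k => ∑ m : Fin 4, algebraMap ℚ F (rw' G l1 l2 v (m, k)) *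
      α ^ (m : ℕ)), coeff_zero] at h3
  rw [dif_pos k.2] at h3
  have h4 := h.li (fun m => rw' G l1 l2 v (m, k)) (by simpa using h3)
  exact congrFun h4 m

/-- the system as a linear map, with additional functionals. -/
noncomputable def sysL (G : ℤ[X]) (l1 l2 : Fin 4 → ℤ) (d r : ℕ)
    (φ : Fin r → ((Col d → ℚ) →ₗ[ℚ] ℚ)) : (Col d → ℚ) →ₗ[ℚ] (Row d ⊕ Fin r → ℚ) :=
  LinearMap.pi fun x => match x with
    | Sum.inl r => ∑ c, (Mx G l1 l2 d r c : ℚ) • LinearMap.proj c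
    | Sum.inr i => φ i

theorem exists_ker (G : ℤ[X]) (l1 l2 : Fin 4 → ℤ) (d r : ℕ)
    (φ : Fin r → ((Col d → ℚ) →ₗ[ℚ] ℚ)) (hd : 4 * (d + 1) + r < 2 * (d + 1) + 4 * (d - 1)) :
    ∃ v : Col d → ℚ, v ≠ 0 ∧ (∀ r, rw' G l1 l2 v r = 0) ∧ ∀ i, φ i v = 0 := by
  have h1 : LinearMap.ker (sysL G l1 l2 d r φ) ≠ ⊥ := by
    apply LinearMap.ker_ne_bot_of_finrank_lt
    rw [finrank_fintype_fun_eq_card, finrank_fintype_fun_eq_card]
    simp
    omega
  obtain ⟨v, hv, hv0⟩ := (Submodule.ne_bot_iff _).1 h1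
  rw [LinearMap.mem_ker] at hv
  refine ⟨v, hv0, fun r => ?_, fun i => ?_⟩
  · have := congrFun hv (Sum.inl r)
    simpa [sysL, rw'] using this
  · have := congrFun hv (Sum.inr i)
    simpa [sysL] using this

theorem coeff_pA (v : Col d → ℚ) (k : Fin (d + 1)) : (pA v).coeff k = v (Sum.inl k) := by
  unfold pA
  rw [coeff_sumC (fun j => v (Sum.inl j)), dif_pos k.2]

theorem coeff_pB (v : Col d → ℚ) (k : Fin (d + 1)) : (pB v).coeff k = v (Sum.inr (Sum.inl k)) := by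
  unfold pB
  rw [coeff_sumC (fun j => v (Sum.inr (Sum.inl j))), dif_pos k.2]

theorem kill_A (h : QF θ F α σ) (hG : G.Monic) (hGd : G.natDegree = 4)
    (hGθ : G.map (algebraMap ℤ (𝓞 L)) = ∏ i, (X - C (θ i))) (hd : 2 ≤ d) (hl1 : l1 ≠ 0)
    {a b : ℚ[X]} (hab : IsCoprime a b) (ha : 3 ≤ a.natDegree) {v : Col d → ℚ}
    (hv : ∀ r, rw' G l1 l2 v r = 0)
    (hk : ∀ k : Fin (d + 1), a.natDegree ≤ k → v (Sum.inl k) = 0)
    (heq : a * pB v = pA v * b) : v = 0 := by
  obtain ⟨g, hgA, hgB⟩ := quot_of_coprime hab heq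
  have ha0 : a ≠ 0 := by rintro rfl; simp at ha
  have hg : g = 0 := by
    by_contra hg0
    have h1 : (pA v).natDegree = g.natDegree + a.natDegree := by
      rw [hgA, natDegree_mul hg0 ha0]
    have h2 : pA v ≠ 0 := by rw [hgA]; exact mul_ne_zero hg0 ha0
    have h3 := natDegree_pA v
    have h4 := coeff_pA v ⟨(pA v).natDegree, by omega⟩
    rw [hk _ (by simp; omega)] at h4
    exact h2 (leadingCoeff_eq_zero.1 h4)
  rw [hg, zero_mul] at hgA hgB
  exact eq_zero_of_ker h hG hGd hGθ hd hl1 hv hgA hgB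

theorem kill_B (h : QF θ F α σ) (hG : G.Monic) (hGd : G.natDegree = 4)
    (hGθ : G.map (algebraMap ℤ (𝓞 L)) = ∏ i, (X - C (θ i))) (hd : 2 ≤ d) (hl1 : l1 ≠ 0)
    {a b : ℚ[X]} (hab : IsCoprime a b) (hb : 3 ≤ b.natDegree) {v : Col d → ℚ}
    (hv : ∀ r, rw' G l1 l2 v r = 0)
    (hk : ∀ k : Fin (d + 1), b.natDegree ≤ k → v (Sum.inr (Sum.inl k)) = 0)
    (heq : a * pB v = pA v * b) : v = 0 := by
  obtain ⟨g, hgA, hgB⟩ := quot_of_coprime hab heq
  have hb0 : b ≠ 0 := by rintro rfl; simp at hb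
  have hg : g = 0 := by
    by_contra hg0
    have h1 : (pB v).natDegree = g.natDegree + b.natDegree := by
      rw [hgB, natDegree_mul hg0 hb0]
    have h2 : pB v ≠ 0 := by rw [hgB]; exact mul_ne_zero hg0 hb0
    have h3 := natDegree_pB v
    have h4 := coeff_pB v ⟨(pB v).natDegree, by omega⟩
    rw [hk _ (by simp; omega)] at h4
    exact h2 (leadingCoeff_eq_zero.1 h4)
  rw [hg, zero_mul] at hgA hgB
  exact eq_zero_of_ker h hG hGd hGθ hd hl1 hv hgA hgB

/-- two independent solutions of total degree eight. -/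
theorem exists_rat (h : QF θ F α σ) (hG : G.Monic) (hGd : G.natDegree = 4)
    (hGθ : G.map (algebraMap ℤ (𝓞 L)) = ∏ i, (X - C (θ i))) (hl1 : l1 ≠ 0)
    (hnd : NonDeg θ l1 l2) :
    ∃ d0 d1 : ℕ, ((d0 = 4 ∧ d1 = 4) ∨ (d0 = 3 ∧ d1 = 5)) ∧
      ∃ (v0 : Col d0 → ℚ) (v1 : Col d1 → ℚ), (∀ r, rw' G l1 l2 v0 r = 0) ∧
        (∀ r, rw' G l1 l2 v1 r = 0) ∧ pA v0 * pB v1 - pA v1 * pB v0 ≠ 0 := by
  obtain ⟨v, hv0, hv, -⟩ := exists_ker G l1 l2 4 0 (fun _ => 0) (by norm_num)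
  have hAB : pA v ≠ 0 ∨ pB v ≠ 0 := by
    by_contra hcon
    push Not at hcon
    exact hv0 (eq_zero_of_ker h hG hGd hGθ (by norm_num) hl1 hv hcon.1 hcon.2)
  obtain ⟨a, b, hab, hD, heq, ha4, hb4, h3⟩ := primitive h hl1 hnd hAB (natDegree_pA v)
    (natDegree_pB v) (DD_of_ker h hG hGd hGθ (by norm_num) hv)
  by_cases h4 : a.natDegree = 4 ∨ b.natDegree = 4
  · refine ⟨4, 4, Or.inl ⟨rfl, rfl⟩, ?_⟩
    obtain ⟨g, hgA, hgB⟩ := quot_of_coprime hab heq
    have hg0 : g ≠ 0 := by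
      rintro rfl
      rw [zero_mul] at hgA hgB
      tauto
    have key : ∀ v2 : Col 4 → ℚ, a * pB v2 ≠ pA v2 * b →
        pA v * pB v2 - pA v2 * pB v ≠ 0 := by
      intro v2 h2 h0
      apply h2
      apply mul_left_cancel₀ hg0
      rw [hgA, hgB] at h0
      linear_combination h0
    rcases h4 with h4 | h4
    · obtain ⟨v2, hv20, hv2, hφ⟩ := exists_ker G l1 l2 4 1
        (fun _ => LinearMap.proj (Sum.inl (4 : Fin 5))) (by norm_num)
      refine ⟨v, v2, hv, hv2, key v2 fun h5 => hv20 ?_⟩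
      refine kill_A h hG hGd hGθ (by norm_num) hl1 hab (by omega) hv2 (fun k hk => ?_) h5
      have hk4 : k = (4 : Fin 5) := by
        apply Fin.ext
        have := k.2
        show (k : ℕ) = 4
        omega
      rw [hk4]
      exact hφ 0
    · obtain ⟨v2, hv20, hv2, hφ⟩ := exists_ker G l1 l2 4 1
        (fun _ => LinearMap.proj (Sum.inr (Sum.inl (4 : Fin 5)))) (by norm_num)
      refine ⟨v, v2, hv, hv2, key v2 fun h5 => hv20 ?_⟩
      refine kill_B h hG hGd hGθ (by norm_num) hl1 hab (by omega) hv2 (fun k hk => ?_) h5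
      have hk4 : k = (4 : Fin 5) := by
        apply Fin.ext
        have := k.2
        show (k : ℕ) = 4
        omega
      rw [hk4]
      exact hφ 0
  · refine ⟨3, 5, Or.inr ⟨rfl, rfl⟩, ?_⟩
    push Not at h4
    obtain ⟨v0, hv0, hvA, hvB⟩ := ker_of_DD (d := 3) h hG hGd hGθ (by norm_num) hl1
      (A := a) (B := b) (by omega) (by omega) hD
    have hk5 : ∀ k : Fin 6, 3 ≤ (k : ℕ) → ∃ i : Fin 3, k = ⟨3 + i, by omega⟩ := by
      intro k hk
      refine ⟨⟨(k : ℕ) - 3, by omega⟩, ?_⟩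
      apply Fin.ext
      simp
      omega
    rcases h3 with h3 | h3
    · obtain ⟨v2, hv20, hv2, hφ⟩ := exists_ker G l1 l2 5 3
        (fun i => LinearMap.proj (Sum.inl (⟨3 + i, by omega⟩ : Fin 6))) (by norm_num)
      refine ⟨v0, v2, hv0, hv2, fun h0 => hv20 ?_⟩
      rw [hvA, hvB, sub_eq_zero] at h0
      refine kill_A h hG hGd hGθ (by norm_num) hl1 hab (by omega) hv2 (fun k hk => ?_) h0
      obtain ⟨i, rfl⟩ := hk5 k (by omega)
      exact hφ i
    · obtain ⟨v2, hv20, hv2, hφ⟩ := exists_ker G l1 l2 5 3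
        (fun i => LinearMap.proj (Sum.inr (Sum.inl (⟨3 + i, by omega⟩ : Fin 6)))) (by norm_num)
      refine ⟨v0, v2, hv0, hv2, fun h0 => hv20 ?_⟩
      rw [hvA, hvB, sub_eq_zero] at h0
      refine kill_B h hG hGd hGθ (by norm_num) hl1 hab (by omega) hv2 (fun k hk => ?_) h0
      obtain ⟨i, rfl⟩ := hk5 k (by omega)
      exact hφ i

end

end Vale.Agent.P018.Q
end

section

/-! # P018, quartics: the integer polynomial `Λ = ∏ π_j`, as a determinant. -/

namespace Vale.Agent.P018.Q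

open Polynomial NumberField

variable {L : Type} [Field L] [NumberField L]

/-- matrix of the multiplication by `l1(x) X + l2(x)` modulo `G`. -/
noncomputable def mulMat (G : ℤ[X]) (l1 l2 : Fin 4 → ℤ) : Matrix (Fin 4) (Fin 4) ℤ[X] :=
  (X : ℤ[X]) • (Matrix.of fun k a : Fin 4 => shp G a l1 k).map C +
    (Matrix.of fun k a : Fin 4 => shp G a l2 k).map C

theorem mulMat_apply (G : ℤ[X]) (l1 l2 : Fin 4 → ℤ) (k a : Fin 4) :
    mulMat G l1 l2 k a = C (shp G a l1 k) * X + C (shp G a l2 k) := by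
  simp [mulMat, mul_comm]

theorem coeff_lin_mul {u v a b : ℤ} (hu : |u| ≤ a) (hv : |v| ≤ a) {P : ℤ[X]}
    (hP : ∀ k, |P.coeff k| ≤ b) (k : ℕ) : |((C u * X + C v) * P).coeff k| ≤ 2 * (a * b) := by
  have ha : 0 ≤ a := (abs_nonneg _).trans hu
  have hb : 0 ≤ b := (abs_nonneg _).trans (hP 0)
  have h2 : |v * P.coeff k| ≤ a * b := by
    rw [abs_mul]
    exact mul_le_mul hv (hP k) (abs_nonneg _) ha
  rw [add_mul, coeff_add, mul_assoc, coeff_C_mul, coeff_C_mul]
  rcases k with _ | k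
  · rw [coeff_zero_eq_eval_zero (X * P)]
    simp only [eval_mul, eval_X, zero_mul, mul_zero, zero_add]
    have := mul_nonneg ha hb
    linarith
  · rw [coeff_X_mul]
    have h1 : |u * P.coeff k| ≤ a * b := by
      rw [abs_mul]
      exact mul_le_mul hu (hP k) (abs_nonneg _) ha
    refine (abs_add_le _ _).trans ?_
    linarith only [h1, h2]

theorem coeff_prod_lin {u v : Fin 4 → ℤ} {h : ℤ} (hu : ∀ i, |u i| ≤ h) (hv : ∀ i, |v i| ≤ h)
    (k : ℕ) : |(∏ i, (C (u i) * X + C (v i))).coeff k| ≤ 8 * h ^ 4 := by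
  have h0 : ∀ k, |(1 : ℤ[X]).coeff k| ≤ 1 := by
    intro k
    rw [coeff_one]
    split_ifs <;> simp
  have hh : 0 ≤ h := (abs_nonneg _).trans (hu 0)
  have h3 : ∀ k, |(C (u 3) * X + C (v 3)).coeff k| ≤ h := by
    intro k
    rw [coeff_add, coeff_C_mul, coeff_X, coeff_C]
    rcases k with _ | _ | k
    · simpa using hv 3
    · simpa using hu 3
    · simpa using hh
  have h2 := coeff_lin_mul (hu 2) (hv 2) h3
  have h1 := coeff_lin_mul (hu 1) (hv 1) h2
  have h0 := coeff_lin_mul (hu 0) (hv 0) h1 k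
  rw [Fin.prod_univ_four, mul_assoc, mul_assoc]
  refine h0.trans (le_of_eq ?_)
  ring

theorem exists_Lam (G : ℤ[X]) (hG : G.Monic) (hGd : G.natDegree = 4) (θ : Fin 4 → 𝓞 L)
    (hθ : Function.Injective θ) (hGθ : G.map (algebraMap ℤ (𝓞 L)) = ∏ i, (X - C (θ i))) :
    ∃ C1 : ℕ, ∀ (H : ℕ) (l1 l2 : Fin 4 → ℤ), 2 ≤ H → (∀ j, |l1 j| ≤ H) → (∀ j, |l2 j| ≤ H) →
      ∃ Λ : ℤ[X], Λ.map (algebraMap ℤ (𝓞 L)) = ∏ j, piPoly θ l1 l2 j ∧ Λ.natDegree ≤ 4 ∧
        ∀ k, |Λ.coeff k| ≤ (H : ℤ) ^ C1 := by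
  obtain ⟨g, hg⟩ : ∃ g : ℤ, ∀ k, |G.coeff k| ≤ g := by
    refine ⟨∑ k ∈ Finset.range (G.natDegree + 1), |G.coeff k|, fun k => ?_⟩
    by_cases hk : k < G.natDegree + 1
    · exact Finset.single_le_sum (f := fun k => |G.coeff k|) (fun _ _ => abs_nonneg _)
        (Finset.mem_range.mpr hk)
    · rw [coeff_eq_zero_of_natDegree_lt (by omega), abs_zero]
      exact Finset.sum_nonneg fun _ _ => abs_nonneg _
  have hg0 : 0 ≤ g := (abs_nonneg _).trans (hg 0)
  obtain ⟨n, hn⟩ : ∃ n : ℕ, 192 * ((1 + g) ^ 3) ^ 4 ≤ (2 : ℤ) ^ n := by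
    refine ⟨(192 * ((1 + g) ^ 3) ^ 4).toNat, ?_⟩
    have h1 : (192 * ((1 + g) ^ 3) ^ 4) ≤ ((192 * ((1 + g) ^ 3) ^ 4).toNat : ℤ) :=
      Int.self_le_toNat _
    refine h1.trans ?_
    exact_mod_cast (Nat.lt_two_pow_self (n := (192 * ((1 + g) ^ 3) ^ 4).toNat)).le
  have hθG : ∀ j, aeval (θ j) G = 0 := by
    intro j
    have h1 : aeval (θ j) G = eval (θ j) (G.map (algebraMap ℤ (𝓞 L))) := by
      rw [eval_map_algebraMap]
    rw [h1, hGθ, eval_prod]
    exact Finset.prod_eq_zero (Finset.mem_univ j) (by simp)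
  refine ⟨n + 4, fun H l1 l2 hH h1 h2 => ⟨(mulMat G l1 l2).det, ?_, ?_, ?_⟩⟩
  · -- Vandermonde
    set V : Matrix (Fin 4) (Fin 4) (𝓞 L)[X] := Matrix.vandermonde fun j => C (θ j) with hV
    have hVM : V * (mulMat G l1 l2).map (mapRingHom (algebraMap ℤ (𝓞 L))) =
        Matrix.diagonal (piPoly θ l1 l2) * V := by
      ext1 j a
      rw [Matrix.diagonal_mul, Matrix.mul_apply]
      simp only [hV, Matrix.vandermonde_apply, Matrix.map_apply, mulMat_apply,
        coe_mapRingHom, Polynomial.map_add, Polynomial.map_mul, Polynomial.map_X,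
        Polynomial.map_intCast, algebraMap_int_eq, eq_intCast]
      have e1 := ell_shp hG hGd (hθG j) a l1
      have e2 := ell_shp hG hGd (hθG j) a l2
      rw [piPoly, add_mul, mul_right_comm, ← C_pow, ← C_mul, ← C_mul, mul_comm (K.ell (θ j) l1),
        mul_comm (K.ell (θ j) l2), ← e1, ← e2, K.ell, K.ell]
      simp only [map_sum, map_mul, map_pow, map_intCast, Finset.sum_mul]
      rw [← Finset.sum_add_distrib]
      refine Finset.sum_congr rfl fun m _ => ?_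
      ring
    have hdet := congrArg Matrix.det hVM
    rw [Matrix.det_mul, Matrix.det_mul, Matrix.det_diagonal, mul_comm] at hdet
    have hV0 : V.det ≠ 0 := by
      rw [hV, Matrix.det_vandermonde_ne_zero_iff]
      exact fun i j h => hθ (C_injective h)
    have h3 := mul_right_cancel₀ hV0 hdet
    rw [← h3, ← coe_mapRingHom, RingHom.map_det]
    rfl
  · refine (natDegree_det_X_add_C_le _ _).trans ?_
    simp
  · intro k
    rw [Matrix.det_apply, finsetSum_coeff]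
    have hb1 : ∀ a j : Fin 4, |shp G a l1 j| ≤ (1 + g) ^ 3 * H := by
      intro a j
      refine (shp_le hg a h1 j).trans ?_
      refine mul_le_mul_of_nonneg_right (pow_le_pow_right₀ (by linarith only [hg0]) ?_) (by positivity)
      have := a.2
      omega
    have hb2 : ∀ a j : Fin 4, |shp G a l2 j| ≤ (1 + g) ^ 3 * H := by
      intro a j
      refine (shp_le hg a h2 j).trans ?_
      refine mul_le_mul_of_nonneg_right (pow_le_pow_right₀ (by linarith only [hg0]) ?_) (by positivity)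
      have := a.2
      omega
    have hterm : ∀ σ : Equiv.Perm (Fin 4),
        |(Equiv.Perm.sign σ • ∏ i, mulMat G l1 l2 (σ i) i).coeff k| ≤
          8 * ((1 + g) ^ 3 * H) ^ 4 := by
      intro σ
      have h5 : |(Equiv.Perm.sign σ • ∏ i, mulMat G l1 l2 (σ i) i).coeff k| =
          |(∏ i, mulMat G l1 l2 (σ i) i).coeff k| := by
        rcases Int.units_eq_one_or (Equiv.Perm.sign σ) with h | h
        · rw [h, one_smul]
        · rw [h, Units.neg_smul, one_smul, coeff_neg, abs_neg]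
      rw [h5]
      simp only [mulMat_apply]
      exact coeff_prod_lin (fun i => hb1 i (σ i)) (fun i => hb2 i (σ i)) k
    refine (Finset.abs_sum_le_sum_abs _ _).trans ((Finset.sum_le_sum fun σ _ => hterm σ).trans ?_)
    rw [Finset.sum_const, Finset.card_univ, Fintype.card_perm, Fintype.card_fin]
    have h24 : (Nat.factorial 4 : ℕ) = 24 := rfl
    rw [h24, nsmul_eq_mul]
    have hH0 : (0 : ℤ) ≤ (H : ℤ) ^ 4 := by positivity
    calc ((24 : ℕ) : ℤ) * (8 * ((1 + g) ^ 3 * H) ^ 4) =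
        (192 * ((1 + g) ^ 3) ^ 4) * (H : ℤ) ^ 4 := by push_cast; ring
      _ ≤ (2 : ℤ) ^ n * (H : ℤ) ^ 4 := mul_le_mul_of_nonneg_right hn hH0
      _ ≤ (H : ℤ) ^ n * (H : ℤ) ^ 4 := by
        refine mul_le_mul_of_nonneg_right (pow_le_pow_left₀ (by norm_num) ?_ n) hH0
        exact_mod_cast hH
      _ = (H : ℤ) ^ (n + 4) := (pow_add _ _ _).symm

end Vale.Agent.P018.Q
end

section

/-! # P018, quartics: existence of the kappa model. -/

namespace Vale.Agent.P018.Q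

open Polynomial NumberField Module

set_option linter.unusedSectionVars false

section lin

variable {d : ℕ}

theorem pA_add (v w : Col d → ℚ) : pA (v + w) = pA v + pA w := by
  simp [pA, add_mul, Finset.sum_add_distrib]

theorem pB_add (v w : Col d → ℚ) : pB (v + w) = pB v + pB w := by
  simp [pB, add_mul, Finset.sum_add_distrib]

theorem pA_smul (c : ℚ) (v : Col d → ℚ) : pA (c • v) = C c * pA v := by
  simp [pA, Finset.mul_sum, mul_assoc]

theorem pB_smul (c : ℚ) (v : Col d → ℚ) : pB (c • v) = C c * pB v := by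
  simp [pB, Finset.mul_sum, mul_assoc]

/-- `A B' - A' B` as a linear map in the first argument. -/
noncomputable def WL {d' : ℕ} (w : Col d' → ℚ) : (Col d → ℚ) →ₗ[ℚ] ℚ[X] where
  toFun v := pA v * pB w - pA w * pB v
  map_add' v v' := by rw [pA_add, pB_add]; ring
  map_smul' c v := by
    rw [pA_smul, pB_smul, RingHom.id_apply, smul_eq_C_mul]; ring

theorem exists_of_span {V : Type*} [AddCommGroup V] [Module ℚ V] {S : Set V}
    (φ : V →ₗ[ℚ] ℚ[X]) {v : V} (hv : v ∈ Submodule.span ℚ S) (hφ : φ v ≠ 0) :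
    ∃ u ∈ S, φ u ≠ 0 := by
  by_contra hcon
  push Not at hcon
  apply hφ
  have h1 : Submodule.span ℚ S ≤ LinearMap.ker φ := by
    rw [Submodule.span_le]
    intro u hu
    exact hcon u hu
  exact h1 hv

theorem pA_cast (u : Col d → ℤ) :
    pA (fun j => (u j : ℚ)) = (pA u).map (Int.castRingHom ℚ) := by
  simp [pA, Polynomial.map_sum]

theorem pB_cast (u : Col d → ℤ) :
    pB (fun j => (u j : ℚ)) = (pB u).map (Int.castRingHom ℚ) := by
  simp [pB, Polynomial.map_sum]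

theorem rw'_cast (G : ℤ[X]) (l1 l2 : Fin 4 → ℤ) (u : Col d → ℤ) (r : Row d) :
    rw' G l1 l2 (fun j => (u j : ℚ)) r = ((rw' G l1 l2 u r : ℤ) : ℚ) := by
  simp [rw']

theorem int_span {G : ℤ[X]} {g h : ℤ} (hg : ∀ k, |G.coeff k| ≤ g) (hh : 1 ≤ h)
    {l1 l2 : Fin 4 → ℤ} (h1 : ∀ j, |l1 j| ≤ h) (h2 : ∀ j, |l2 j| ≤ h) (hd2 : 2 ≤ d) (hd5 : d ≤ 5)
    (v : Col d → ℚ) (hv : ∀ r, rw' G l1 l2 v r = 0) :
    v ∈ Submodule.span ℚ {w : Col d → ℚ | ∃ u : Col d → ℤ, (w = fun j => (u j : ℚ)) ∧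
      (∀ r, rw' G l1 l2 u r = 0) ∧
      ∀ j, |u j| ≤ (28 : ℕ).factorial * (8 * (1 + g) ^ 6 * h ^ 2) ^ 28} := by
  have hg0 : 0 ≤ g := (abs_nonneg _).trans (hg 0)
  have hb1 : (1 : ℤ) ≤ (1 + g) ^ 6 := one_le_pow₀ (by omega)
  have hb2 : (1 : ℤ) ≤ h ^ 2 := one_le_pow₀ hh
  have hone : (1 : ℤ) ≤ 8 * (1 + g) ^ 6 * h ^ 2 := by nlinarith
  have hcard : Fintype.card (Col d) ≤ 28 := by
    simp
    omega
  have h3 := ker_span (Matrix.of (Mx G l1 l2 d)) hone (fun r c => Mx_le hg hh h1 h2 r c) v (by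
    funext r
    have := hv r
    simpa [rw', Matrix.mulVec, dotProduct] using this)
  refine Submodule.span_mono ?_ h3
  rintro w ⟨u, hw, hu, hub⟩
  refine ⟨u, hw, fun r => ?_, fun j => (hub j).trans ?_⟩
  · have := congrFun hu r
    simpa [rw', Matrix.mulVec, dotProduct] using this
  · refine mul_le_mul ?_ (pow_le_pow_right₀ hone hcard) (by positivity) (by positivity)
    exact_mod_cast Nat.factorial_le hcard

end lin

section

variable {L : Type} [Field L] [NumberField L] {θ : Fin 4 → 𝓞 L} {F : Type} [Field F]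
  [NumberField F] {α : F} {σ : Fin 4 → F →+* L} {l1 l2 : Fin 4 → ℤ} {G : ℤ[X]}

theorem exists_int (hF : QF θ F α σ) (hG : G.Monic) (hGd : G.natDegree = 4)
    (hGθ : G.map (algebraMap ℤ (𝓞 L)) = ∏ i, (X - C (θ i))) (hl1 : l1 ≠ 0)
    (hnd : NonDeg θ l1 l2) {g h : ℤ} (hg : ∀ k, |G.coeff k| ≤ g) (hh : 1 ≤ h)
    (h1 : ∀ j, |l1 j| ≤ h) (h2 : ∀ j, |l2 j| ≤ h) :
    ∃ d0 d1 : ℕ, ((d0 = 4 ∧ d1 = 4) ∨ (d0 = 3 ∧ d1 = 5)) ∧
      ∃ (u0 : Col d0 → ℤ) (u1 : Col d1 → ℤ), (∀ r, rw' G l1 l2 u0 r = 0) ∧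
        (∀ r, rw' G l1 l2 u1 r = 0) ∧
        (∀ j, |u0 j| ≤ (28 : ℕ).factorial * (8 * (1 + g) ^ 6 * h ^ 2) ^ 28) ∧
        (∀ j, |u1 j| ≤ (28 : ℕ).factorial * (8 * (1 + g) ^ 6 * h ^ 2) ^ 28) ∧
        pA u0 * pB u1 - pA u1 * pB u0 ≠ 0 := by
  obtain ⟨d0, d1, hd, v0, v1, hv0, hv1, hW⟩ := exists_rat hF hG hGd hGθ hl1 hnd
  refine ⟨d0, d1, hd, ?_⟩
  obtain ⟨w0, ⟨u0, rfl, hu0, hb0⟩, hW0⟩ := exists_of_span (WL v1)
    (int_span hg hh h1 h2 (by omega) (by omega) v0 hv0) hW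
  have hW1 : WL (fun j => (u0 j : ℚ)) v1 ≠ 0 := by
    intro h0
    apply hW0
    show pA _ * pB v1 - pA v1 * pB _ = 0
    have h3 : pA v1 * pB (fun j => (u0 j : ℚ)) - pA (fun j => (u0 j : ℚ)) * pB v1 = 0 := h0
    linear_combination -h3
  obtain ⟨w1, ⟨u1, rfl, hu1, hb1⟩, hW2⟩ := exists_of_span (WL fun j => (u0 j : ℚ))
    (int_span hg hh h1 h2 (by omega) (by omega) v1 hv1) hW1
  refine ⟨u0, u1, hu0, hu1, hb0, hb1, fun h0 => hW2 ?_⟩
  show pA (fun j => (u1 j : ℚ)) * pB (fun j => (u0 j : ℚ)) -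
    pA (fun j => (u0 j : ℚ)) * pB (fun j => (u1 j : ℚ)) = 0
  rw [pA_cast, pB_cast, pA_cast, pB_cast]
  have h3 := congrArg (Polynomial.map (Int.castRingHom ℚ)) h0
  rw [Polynomial.map_sub, Polynomial.map_mul, Polynomial.map_mul, Polynomial.map_zero] at h3
  linear_combination -h3

theorem aeval_theta (hGθ : G.map (algebraMap ℤ (𝓞 L)) = ∏ i, (X - C (θ i))) (j : Fin 4) :
    aeval (θ j) G = 0 := by
  have h1 : (G.map (algebraMap ℤ (𝓞 L))).eval (θ j) = 0 := by
    rw [hGθ, eval_prod]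
    exact Finset.prod_eq_zero (Finset.mem_univ j) (by simp)
  rwa [eval_map_algebraMap] at h1

theorem eq_of_ker {d : ℕ} (hG : G.Monic) (hGd : G.natDegree = 4)
    (hGθ : G.map (algebraMap ℤ (𝓞 L)) = ∏ i, (X - C (θ i))) (hd : 2 ≤ d) {u : Col d → ℤ}
    (hu : ∀ r, rw' G l1 l2 u r = 0) (j : Fin 4) :
    (pB u).map (algebraMap ℤ (𝓞 L)) - C (θ j) * (pA u).map (algebraMap ℤ (𝓞 L)) =
      piPoly θ l1 l2 j ^ 2 *
        ∑ m : Fin 4, (pZ u m).map (algebraMap ℤ (𝓞 L)) * C (θ j ^ (m : ℕ)) := by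
  have h1 := key_eq (F := ℤ) hG hGd (aeval_theta hGθ j) l1 l2 hd u
  simp only [hu, map_zero, zero_mul, Finset.sum_const_zero] at h1
  unfold piPoly
  linear_combination -h1

theorem W_scale (hF : QF θ F α σ) (hl1 : l1 ≠ 0) (hnd : NonDeg θ l1 l2) {Λ : ℤ[X]}
    (hΛ : Λ.map (algebraMap ℤ (𝓞 L)) = ∏ j, piPoly θ l1 l2 j) {W : ℤ[X]} (hW0 : W ≠ 0)
    (hWd : W.natDegree ≤ 8)
    (hW : PF α l1 l2 ^ 2 ∣ (W.map (Int.castRingHom ℚ)).map (algebraMap ℚ F)) :
    C (Λ.coeff 4 ^ 2) * W = C (W.coeff 8) * Λ ^ 2 ∧ W.coeff 8 ≠ 0 ∧ Λ.coeff 4 ≠ 0 := by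
  have hinj : Function.Injective (algebraMap ℤ L) := (algebraMap ℤ L).injective_int
  have hΛL : Λ.map (algebraMap ℤ L) = ∏ j, PL θ l1 l2 j := by
    have h1 := congrArg (Polynomial.map (algebraMap (𝓞 L) L)) hΛ
    rw [Polynomial.map_map, Polynomial.map_prod] at h1
    exact h1
  have hΛd : Λ.natDegree = 4 := by
    have h1 := prod_natDegree (l2 := l2) hF hl1
    rwa [← hΛL, natDegree_map_eq_of_injective hinj] at h1
  have hΛ4 : Λ.coeff 4 ≠ 0 := by
    rw [← hΛd]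
    intro h0
    have h1 := leadingCoeff_eq_zero.1 h0
    rw [h1] at hΛd
    simp at hΛd
  have hWL : (W.map (Int.castRingHom ℚ)).map (algebraMap ℚ L) = W.map (algebraMap ℤ L) := by
    rw [Polynomial.map_map]
    congr 1
    exact RingHom.ext_int _ _
  have hdvd := prod_dvd hF hnd hW
  rw [hWL, ← hΛL] at hdvd
  obtain ⟨q, hq⟩ := hdvd
  have hWL0 : W.map (algebraMap ℤ L) ≠ 0 := (Polynomial.map_ne_zero_iff hinj).2 hW0
  have hq0 : q ≠ 0 := by
    rintro rfl
    rw [mul_zero] at hq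
    exact hWL0 hq
  have hΛL0 : Λ.map (algebraMap ℤ L) ≠ 0 := by
    rw [hΛL]
    exact Finset.prod_ne_zero_iff.2 fun j _ => PL_ne_zero hF hl1 j
  have hqd : q.natDegree = 0 := by
    have h1 := congrArg natDegree hq
    rw [natDegree_mul (pow_ne_zero _ hΛL0) hq0, natDegree_pow,
      natDegree_map_eq_of_injective hinj, natDegree_map_eq_of_injective hinj, hΛd] at h1
    omega
  obtain ⟨q0, rfl⟩ := natDegree_eq_zero.1 hqd
  have hc : ((W.coeff 8 : ℤ) : L) = ((Λ.coeff 4 : ℤ) : L) ^ 2 * q0 := by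
    have h1 := congrArg (fun P : L[X] => P.coeff (2 * 4)) hq
    simp only [coeff_mul_C] at h1
    rw [coeff_pow_of_natDegree_le (by rw [natDegree_map_eq_of_injective hinj, hΛd]), coeff_map,
      coeff_map] at h1
    simpa using h1
  have hq00 : q0 ≠ 0 := by
    rintro rfl
    simp at hq0
  refine ⟨?_, ?_, hΛ4⟩
  · apply Polynomial.map_injective _ hinj
    rw [Polynomial.map_mul, Polynomial.map_mul, map_C, map_C, Polynomial.map_pow, hq]
    simp only [algebraMap_int_eq, eq_intCast, hc, map_mul, map_pow]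
    ring
  · intro h0
    rw [h0, Int.cast_zero] at hc
    have h1 : ((Λ.coeff 4 : ℤ) : L) ≠ 0 := by exact_mod_cast hΛ4
    exact (mul_ne_zero (pow_ne_zero 2 h1) hq00) hc.symm

end

end Vale.Agent.P018.Q
end

section

/-! # P018, quartics: existence of the kappa model, assembly. -/

namespace Vale.Agent.P018.Q

open Polynomial NumberField Module

theorem pow_bound (K : ℤ) (m : ℕ) :
    ∃ C : ℕ, ∀ H : ℕ, 2 ≤ H → K * (H : ℤ) ^ m ≤ (H : ℤ) ^ C := by
  refine ⟨K.toNat + m, fun H hH => ?_⟩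
  rw [pow_add]
  refine mul_le_mul_of_nonneg_right ?_ (by positivity)
  calc K ≤ (K.toNat : ℤ) := Int.self_le_toNat K
    _ ≤ ((2 ^ K.toNat : ℕ) : ℤ) := by exact_mod_cast (Nat.lt_two_pow_self).le
    _ ≤ ((H ^ K.toNat : ℕ) : ℤ) := by exact_mod_cast Nat.pow_le_pow_left hH _
    _ = (H : ℤ) ^ K.toNat := by push_cast; rfl

theorem coeff_bound {n : ℕ} {f : Fin n → ℤ} {U : ℤ} (hU : 0 ≤ U) (hf : ∀ j, |f j| ≤ U) (k : ℕ) :
    |(∑ j : Fin n, C (f j) * X ^ (j : ℕ) : ℤ[X]).coeff k| ≤ U := by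
  rw [coeff_sumC]
  split_ifs with h
  · exact hf _
  · simpa using hU

theorem coeff_mul_bound {P Q : ℤ[X]} {U : ℤ} (hP : ∀ k, |P.coeff k| ≤ U)
    (hQ : ∀ k, |Q.coeff k| ≤ U) : |(P * Q).coeff 8| ≤ 9 * U ^ 2 := by
  have hU : 0 ≤ U := (abs_nonneg _).trans (hP 0)
  rw [coeff_mul]
  refine (Finset.abs_sum_le_sum_abs _ _).trans ?_
  refine (Finset.sum_le_card_nsmul _ _ (U ^ 2) fun x _ => ?_).trans ?_
  · rw [abs_mul, sq]
    exact mul_le_mul (hP _) (hQ _) (abs_nonneg _) hU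
  · rw [Finset.Nat.card_antidiagonal, nsmul_eq_mul]
    norm_num

variable {L : Type} [Field L] [NumberField L]

theorem exists_kappa' (G : ℤ[X]) (hG : G.Monic) (hGd : G.natDegree = 4)
    (hGi : Irreducible (G.map (Int.castRingHom ℚ))) (θ : Fin 4 → 𝓞 L)
    (hθ : Function.Injective θ) (hGθ : G.map (algebraMap ℤ (𝓞 L)) = ∏ i, (X - C (θ i))) :
    ∃ C0 : ℕ, ∀ (H : ℕ) (l1 l2 : Fin 4 → ℤ), 2 ≤ H → l1 ≠ 0 → (∀ j, |l1 j| ≤ H) →
      (∀ j, |l2 j| ≤ H) → NonDeg θ l1 l2 →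
      ∃ (d : Fin 2 → ℕ) (A B : Fin 2 → ℤ[X]) (Z : Fin 2 → Fin 4 → ℤ[X]) (Λ : ℤ[X]) (c : ℤ),
        KData θ l1 l2 d A B Z Λ c ∧ |c| ≤ (H : ℤ) ^ C0 ∧
        (∀ i k, |(A i).coeff k| ≤ (H : ℤ) ^ C0) ∧ (∀ i k, |(B i).coeff k| ≤ (H : ℤ) ^ C0) ∧
        (∀ i m k, |(Z i m).coeff k| ≤ (H : ℤ) ^ C0) ∧ (∀ k, |Λ.coeff k| ≤ (H : ℤ) ^ C0) := by
  obtain ⟨F, _, _, α, σ, hF⟩ := exists_quartic hG hGd hGi hGθ
  obtain ⟨g, hg⟩ : ∃ g : ℤ, ∀ k, |G.coeff k| ≤ g := by
    refine ⟨∑ k ∈ Finset.range (G.natDegree + 1), |G.coeff k|, fun k => ?_⟩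
    by_cases hk : k < G.natDegree + 1
    · exact Finset.single_le_sum (f := fun k => |G.coeff k|) (fun _ _ => abs_nonneg _)
        (Finset.mem_range.mpr hk)
    · rw [coeff_eq_zero_of_natDegree_lt (by omega), abs_zero]
      exact Finset.sum_nonneg fun _ _ => abs_nonneg _
  obtain ⟨C1, hC1⟩ := exists_Lam G hG hGd θ hθ hGθ
  obtain ⟨C2, hC2⟩ := pow_bound ((28 : ℕ).factorial * (8 * (1 + g) ^ 6) ^ 28) 56
  refine ⟨2 * C1 + 2 * C2 + 5, fun H l1 l2 hH hl1 h1 h2 hnd => ?_⟩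
  have hH1 : (1 : ℤ) ≤ H := by exact_mod_cast (by omega : 1 ≤ H)
  obtain ⟨d0, d1, hd, u0, u1, hu0, hu1, hb0, hb1, hW⟩ :=
    exists_int hF hG hGd hGθ hl1 hnd hg hH1 h1 h2
  obtain ⟨Λ, hΛ, hΛd, hΛb⟩ := hC1 H l1 l2 hH h1 h2
  have hU : ((28 : ℕ).factorial : ℤ) * (8 * (1 + g) ^ 6 * (H : ℤ) ^ 2) ^ 28 ≤ (H : ℤ) ^ C2 := by
    refine le_trans (le_of_eq ?_) (hC2 H hH)
    rw [mul_pow _ ((H : ℤ) ^ 2), ← pow_mul, mul_assoc]
  have hb0' : ∀ j, |u0 j| ≤ (H : ℤ) ^ C2 := fun j => (hb0 j).trans hU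
  have hb1' : ∀ j, |u1 j| ≤ (H : ℤ) ^ C2 := fun j => (hb1 j).trans hU
  have hpos : (0 : ℤ) ≤ (H : ℤ) ^ C2 := by positivity
  have hA0 : ∀ k, |(pA u0).coeff k| ≤ (H : ℤ) ^ C2 := coeff_bound hpos fun _ => hb0' _
  have hB0 : ∀ k, |(pB u0).coeff k| ≤ (H : ℤ) ^ C2 := coeff_bound hpos fun _ => hb0' _
  have hZ0 : ∀ m k, |(pZ u0 m).coeff k| ≤ (H : ℤ) ^ C2 := fun m =>
    coeff_bound hpos fun _ => hb0' _
  have hA1 : ∀ k, |(pA u1).coeff k| ≤ (H : ℤ) ^ C2 := coeff_bound hpos fun _ => hb1' _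
  have hB1 : ∀ k, |(pB u1).coeff k| ≤ (H : ℤ) ^ C2 := coeff_bound hpos fun _ => hb1' _
  have hZ1 : ∀ m k, |(pZ u1 m).coeff k| ≤ (H : ℤ) ^ C2 := fun m =>
    coeff_bound hpos fun _ => hb1' _
  have hmono : ∀ {a b : ℕ}, a ≤ b → (H : ℤ) ^ a ≤ (H : ℤ) ^ b := fun h =>
    pow_le_pow_right₀ hH1 h
  have hscale : ∀ x : ℤ, |x| ≤ (H : ℤ) ^ C2 →
      |Λ.coeff 4 ^ 2 * x| ≤ (H : ℤ) ^ (2 * C1 + 2 * C2 + 5) := by
    intro x hx
    rw [abs_mul, abs_pow]
    calc |Λ.coeff 4| ^ 2 * |x| ≤ ((H : ℤ) ^ C1) ^ 2 * (H : ℤ) ^ C2 :=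
          mul_le_mul (pow_le_pow_left₀ (abs_nonneg _) (hΛb 4) 2) hx (abs_nonneg _) (by positivity)
      _ = (H : ℤ) ^ (2 * C1 + C2) := by rw [← pow_mul, ← pow_add, mul_comm C1]
      _ ≤ _ := hmono (by omega)
  have hWd : (pA u0 * pB u1 - pA u1 * pB u0).natDegree ≤ 8 := by
    refine (natDegree_sub_le _ _).trans (max_le ?_ ?_)
    · have e1 := natDegree_pA u0
      have e2 := natDegree_pB u1
      exact natDegree_mul_le.trans (by omega)
    · have e1 := natDegree_pA u1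
      have e2 := natDegree_pB u0
      exact natDegree_mul_le.trans (by omega)
  have hDD0 : DD α l1 l2 ((pA u0).map (Int.castRingHom ℚ)) ((pB u0).map (Int.castRingHom ℚ)) := by
    rw [← pA_cast, ← pB_cast]
    exact DD_of_ker hF hG hGd hGθ (by omega) fun r => by rw [rw'_cast, hu0, Int.cast_zero]
  have hDD1 : DD α l1 l2 ((pA u1).map (Int.castRingHom ℚ)) ((pB u1).map (Int.castRingHom ℚ)) := by
    rw [← pA_cast, ← pB_cast]
    exact DD_of_ker hF hG hGd hGθ (by omega) fun r => by rw [rw'_cast, hu1, Int.cast_zero]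
  have hdvd := W_dvd hDD0 hDD1
  rw [← Polynomial.map_mul, ← Polynomial.map_mul, ← Polynomial.map_sub] at hdvd
  obtain ⟨hdet, hc0, hN0⟩ := W_scale hF hl1 hnd hΛ hW hWd hdvd
  refine ⟨![d0, d1], ![pA u0, C (Λ.coeff 4 ^ 2) * pA u1], ![pB u0, C (Λ.coeff 4 ^ 2) * pB u1],
    ![fun m => pZ u0 m, fun m => C (Λ.coeff 4 ^ 2) * pZ u1 m], Λ,
    (pA u0 * pB u1 - pA u1 * pB u0).coeff 8, ?_, ?_, ?_, ?_, ?_, ?_⟩
  · refine ⟨?_, ?_, ?_, ?_, ?_, hΛ, hc0, ?_⟩
    · simpa using hd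
    · intro i
      fin_cases i
      · exact natDegree_pA u0
      · exact (natDegree_C_mul_le _ _).trans (natDegree_pA u1)
    · intro i
      fin_cases i
      · exact natDegree_pB u0
      · exact (natDegree_C_mul_le _ _).trans (natDegree_pB u1)
    · intro i m
      fin_cases i
      · exact natDegree_pZ (by omega) u0 m
      · exact (Nat.add_le_add_right (natDegree_C_mul_le _ _) 2).trans
          (natDegree_pZ (by omega) u1 m)
    · intro i j
      fin_cases i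
      · exact eq_of_ker hG hGd hGθ (by omega) hu0 j
      · have h3 := eq_of_ker (θ := θ) hG hGd hGθ (by omega) hu1 j
        show (C (Λ.coeff 4 ^ 2) * pB u1).map _ - C (θ j) * (C (Λ.coeff 4 ^ 2) * pA u1).map _ =
          piPoly θ l1 l2 j ^ 2 * ∑ m : Fin 4, (C (Λ.coeff 4 ^ 2) * pZ u1 m).map _ *
            C (θ j ^ (m : ℕ))
        simp only [Polynomial.map_mul, mul_assoc, ← Finset.mul_sum]
        linear_combination ((C (Λ.coeff 4 ^ 2)).map (algebraMap ℤ (𝓞 L))) * h3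
    · show pA u0 * (C (Λ.coeff 4 ^ 2) * pB u1) - (C (Λ.coeff 4 ^ 2) * pA u1) * pB u0 = _
      rw [← hdet]
      ring
  · rw [coeff_sub]
    have e1 := coeff_mul_bound hA0 hB1
    have e2 := coeff_mul_bound hA1 hB0
    have e3 : (18 : ℤ) ≤ (H : ℤ) ^ 5 := by
      have : (2 : ℤ) ^ 5 ≤ (H : ℤ) ^ 5 :=
        pow_le_pow_left₀ (by norm_num) (by exact_mod_cast hH) 5
      norm_num at this
      linarith only [this]
    calc |(pA u0 * pB u1).coeff 8 - (pA u1 * pB u0).coeff 8|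
        ≤ |(pA u0 * pB u1).coeff 8| + |(pA u1 * pB u0).coeff 8| := abs_sub _ _
      _ ≤ 18 * ((H : ℤ) ^ C2) ^ 2 := by linarith only [e2, e1]
      _ ≤ (H : ℤ) ^ 5 * ((H : ℤ) ^ C2) ^ 2 := mul_le_mul_of_nonneg_right e3 (by positivity)
      _ = (H : ℤ) ^ (2 * C2 + 5) := by rw [← pow_mul, ← pow_add]; congr 1; ring
      _ ≤ _ := hmono (by omega)
  · intro i k
    fin_cases i
    · exact (hA0 k).trans (hmono (by omega))
    · show |(C (Λ.coeff 4 ^ 2) * pA u1).coeff k| ≤ _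
      rw [coeff_C_mul]
      exact hscale _ (hA1 k)
  · intro i k
    fin_cases i
    · exact (hB0 k).trans (hmono (by omega))
    · show |(C (Λ.coeff 4 ^ 2) * pB u1).coeff k| ≤ _
      rw [coeff_C_mul]
      exact hscale _ (hB1 k)
  · intro i m k
    fin_cases i
    · exact (hZ0 m k).trans (hmono (by omega))
    · show |(C (Λ.coeff 4 ^ 2) * pZ u1 m).coeff k| ≤ _
      rw [coeff_C_mul]
      exact hscale _ (hZ1 m k)
  · intro k
    exact (hΛb k).trans (hmono (by omega))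

end Vale.Agent.P018.Q
end

section

/-! # P018, quartics: the kappa model of the surface attached to a rank two lattice. -/

namespace Vale.Agent.P018.Q

open Polynomial NumberField

variable {L : Type} [Field L] [NumberField L]

/-- existence of the kappa model, with heights bounded polynomially. -/
theorem exists_kappa (G : ℤ[X]) (hG : G.Monic) (hGd : G.natDegree = 4)
    (hGi : Irreducible (G.map (Int.castRingHom ℚ))) (θ : Fin 4 → 𝓞 L)
    (hθ : Function.Injective θ) (hGθ : G.map (algebraMap ℤ (𝓞 L)) = ∏ i, (X - C (θ i))) :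
    ∃ C0 : ℕ, ∀ (H : ℕ) (l1 l2 : Fin 4 → ℤ), 2 ≤ H → l1 ≠ 0 → (∀ j, |l1 j| ≤ H) →
      (∀ j, |l2 j| ≤ H) → NonDeg θ l1 l2 →
      ∃ (d : Fin 2 → ℕ) (A B : Fin 2 → ℤ[X]) (Z : Fin 2 → Fin 4 → ℤ[X]) (Λ : ℤ[X]) (c : ℤ),
        KData θ l1 l2 d A B Z Λ c ∧ |c| ≤ (H : ℤ) ^ C0 ∧
        (∀ i k, |(A i).coeff k| ≤ (H : ℤ) ^ C0) ∧ (∀ i k, |(B i).coeff k| ≤ (H : ℤ) ^ C0) ∧
        (∀ i m k, |(Z i m).coeff k| ≤ (H : ℤ) ^ C0) ∧ (∀ k, |Λ.coeff k| ≤ (H : ℤ) ^ C0) := by
  exact exists_kappa' G hG hGd hGi θ hθ hGθ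

/-- the point of the kappa model: `N = (B 0 + κ B 1) / (A 0 + κ A 1)` and
`γ = (c k1 / t²) (Z 0 + κ Z 1)` at `σ = s / t`, where `k1 = 1 / (A 0 + κ A 1)`. The case `k1 = 0` is
`A 1 N = B 1`. -/
theorem kappa_point (G : ℤ[X]) (hG : G.Monic) (hGd : G.natDegree = 4)
    (hGi : Irreducible (G.map (Int.castRingHom ℚ))) (θ : Fin 4 → 𝓞 L)
    (hθ : Function.Injective θ) (hGθ : G.map (algebraMap ℤ (𝓞 L)) = ∏ i, (X - C (θ i)))
    {l1 l2 : Fin 4 → ℤ} {d : Fin 2 → ℕ} {A B : Fin 2 → ℤ[X]} {Z : Fin 2 → Fin 4 → ℤ[X]}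
    {Λ : ℤ[X]} {e : ℤ} (hK : KData θ l1 l2 d A B Z Λ e) {N c s t : ℤ} {z : Fin 4 → ℤ}
    (hc : c ≠ 0) (ht : t ≠ 0) (hy : ∀ j, K.ell (θ j) (s • l1 + t • l2) ≠ 0)
    (heq : ∀ i, (c : 𝓞 L) * ((N : 𝓞 L) - θ i) = K.ell (θ i) (s • l1 + t • l2) ^ 2 * K.ell (θ i) z) :
    (aeval ((s : ℚ) / t) (A 1) ≠ 0 ∧
      aeval ((s : ℚ) / t) (A 1) * (N : ℚ) = aeval ((s : ℚ) / t) (B 1)) ∨
    ∃ κ : ℚ, aeval ((s : ℚ) / t) (A 0) + κ * aeval ((s : ℚ) / t) (A 1) ≠ 0 ∧
      (aeval ((s : ℚ) / t) (A 0) + κ * aeval ((s : ℚ) / t) (A 1)) * (N : ℚ) =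
        aeval ((s : ℚ) / t) (B 0) + κ * aeval ((s : ℚ) / t) (B 1) ∧
      ∀ m, (z m : ℚ) * (aeval ((s : ℚ) / t) (A 0) + κ * aeval ((s : ℚ) / t) (A 1)) * t ^ 2 =
        c * (aeval ((s : ℚ) / t) (Z 0 m) + κ * aeval ((s : ℚ) / t) (Z 1 m)) := by
  exact kappa_point' θ hθ hK ht hy heq

/-- nondegeneracy, from `∏ π_j = p c'`. -/
theorem nonDeg_of_dat (G : ℤ[X]) (hG : G.Monic) (hGd : G.natDegree = 4)
    (hGi : Irreducible (G.map (Int.castRingHom ℚ))) (θ : Fin 4 → 𝓞 L)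
    (hθ : Function.Injective θ) (hGθ : G.map (algebraMap ℤ (𝓞 L)) = ∏ i, (X - C (θ i)))
    {l1 l2 : Fin 4 → ℤ} (hl : ∀ a b : ℤ, a • l1 + b • l2 = 0 → a = 0 ∧ b = 0) {s t c' N1 : ℤ} {p : ℕ}
    (hp : p.Prime) (hc' : c' ≠ 0) (hc'p : |c'| < p) (hN1 : ∏ j, K.ell (θ j) l1 = (N1 : 𝓞 L))
    (hN1p : |N1| < p)
    (hprod : ∏ j, K.ell (θ j) (s • l1 + t • l2) = (((p : ℤ) * c' : ℤ) : 𝓞 L)) :
    NonDeg θ l1 l2 ∧ t ≠ 0 :=
  nonDeg_aux G hG hGd hGi θ hθ hGθ hl hp hc' hc'p hN1 hN1p hprod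

end Vale.Agent.P018.Q
end

section

/-! # P018, quartics: the spaces spanned by the functions `x^μ σ^a`. -/

namespace Vale.Agent.P018.Q.Lev

open Polynomial

/-- span of the functions `x^μ σ^a`. -/
noncomputable def W (x : Fin 4 → ℚ[X][X]) (j l : ℕ) : Submodule ℚ ℚ[X][X] :=
  Submodule.span ℚ {Ψ | ∃ (μ : Fin 4 → ℕ) (a : ℕ), ∑ m, μ m = j ∧ a ≤ l ∧
    Ψ = (∏ m, x m ^ μ m) * C (X ^ a)}

theorem W_mono {x : Fin 4 → ℚ[X][X]} {j l l' : ℕ} (h : l ≤ l') : W x j l ≤ W x j l' :=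
  Submodule.span_mono (by rintro _ ⟨μ, a, h1, h2, rfl⟩; exact ⟨μ, a, h1, h2.trans h, rfl⟩)

theorem mul_sigma {x : Fin 4 → ℚ[X][X]} {j l : ℕ} (b : ℕ) {p : ℚ[X][X]} (hp : p ∈ W x j l) :
    p * C (X ^ b) ∈ W x j (l + b) := by
  unfold W at hp
  induction hp using Submodule.span_induction with
  | mem p hp =>
    obtain ⟨μ, a, h1, h2, rfl⟩ := hp
    exact Submodule.subset_span ⟨μ, a + b, h1, by omega, by rw [pow_add, C_mul]; ring⟩
  | zero => rw [zero_mul]; exact zero_mem _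
  | add p q _ _ hp hq => rw [add_mul]; exact add_mem hp hq
  | smul c p _ hp => rw [smul_mul_assoc]; exact Submodule.smul_mem _ _ hp

theorem mul_mon {x : Fin 4 → ℚ[X][X]} {j j' l : ℕ} (ν : Fin 4 → ℕ) (hν : ∑ m, ν m = j')
    {p : ℚ[X][X]} (hp : p ∈ W x j l) : (∏ m, x m ^ ν m) * p ∈ W x (j + j') l := by
  unfold W at hp
  induction hp using Submodule.span_induction with
  | mem p hp =>
    obtain ⟨μ, a, h1, h2, rfl⟩ := hp
    refine Submodule.subset_span ⟨fun m => μ m + ν m, a, ?_, h2, ?_⟩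
    · rw [Finset.sum_add_distrib, h1, hν]
    · simp only [pow_add, Finset.prod_mul_distrib]; ring
  | zero => rw [mul_zero]; exact zero_mem _
  | add p q _ _ hp hq => rw [mul_add]; exact add_mem hp hq
  | smul c p _ hp => rw [mul_smul_comm]; exact Submodule.smul_mem _ _ hp

theorem F_sigma {ε J w b : ℕ} {p : ℚ[X][X]} (hp : p ∈ F ε J w) :
    p * C (X ^ b) ∈ F ε J (w + b) := by
  intro m r h
  rw [coeff_mul_C, coeff_mul_X_pow']
  split_ifs with h1
  · exact hp m (r - b) (by omega)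
  · rfl

theorem F_mono {ε J w w' : ℕ} (h : w ≤ w') : F ε J w ≤ F ε J w' := by
  intro p hp m r h1
  exact hp m r (by omega)

theorem monomial_mem_F {ε J w m r : ℕ} (hm : m < J) (hr : r ≤ w + 2 * ε * m) :
    (monomial m (monomial r (1 : ℚ)) : ℚ[X][X]) ∈ F ε J w := by
  intro m' r' h
  rw [coeff_monomial]
  split_ifs with h1
  · rw [coeff_monomial, if_neg]
    subst h1
    omega
  · simp

theorem mem_F_bound {ε J w : ℕ} {p : ℚ[X][X]} (hp : p ∈ F ε J w) {m r : ℕ}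
    (h : (p.coeff m).coeff r ≠ 0) : m < J ∧ r ≤ w + 2 * ε * m := by
  by_contra h1
  exact h (hp m r (by omega))

theorem step {x : Fin 4 → ℚ[X][X]} {ε j l v : ℕ} (hj : F ε (j + 1) (v + 1) ≤ W x j (l + 1))
    {q : ℚ[X][X]} (hq : q ∈ F ε (j + 1) v) {p : ℚ[X][X]} (hp : p ∈ W x 1 1) :
    p * q ∈ W x (j + 1) (l + 1) := by
  unfold W at hp
  induction hp using Submodule.span_induction with
  | mem p hp =>
    obtain ⟨μ, a, h1, h2, rfl⟩ := hp
    have h3 : q * C (X ^ a) ∈ W x j (l + 1) :=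
      hj (F_mono (by omega) (F_sigma (b := a) hq))
    have h4 := mul_mon μ h1 h3
    rwa [show (∏ m, x m ^ μ m) * (q * C (X ^ a)) = (∏ m, x m ^ μ m) * C (X ^ a) * q by ring] at h4
  | zero => rw [zero_mul]; exact zero_mem _
  | add p q _ _ hp hq => rw [add_mul]; exact add_mem hp hq
  | smul c p _ hp => rw [smul_mul_assoc]; exact Submodule.smul_mem _ _ hp

theorem F_le_W {x : Fin 4 → ℚ[X][X]} {ε c : ℕ} (hb : F ε 2 (c + 1) ≤ W x 1 1) (j : ℕ) :
    ∀ l, F ε (j + 2) (c * (j + 1) + l + 1) ≤ W x (j + 1) (l + 1) := by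
  induction j with
  | zero =>
    intro l p hp
    refine mem_of_monomials _ _ fun m r hmr => ?_
    obtain ⟨h1, h2⟩ := mem_F_bound hp hmr
    by_cases h3 : r ≤ c + 1 + 2 * ε * m
    · exact W_mono (by omega) (hb (monomial_mem_F h1 h3))
    · obtain ⟨b, hb'⟩ := Nat.exists_eq_add_of_le (not_le.1 h3).le
      have h4 := mul_sigma b (hb (monomial_mem_F (r := c + 1 + 2 * ε * m) h1 le_rfl))
      have h5 : (monomial m (monomial (c + 1 + 2 * ε * m) (1 : ℚ)) : ℚ[X][X]) * C (X ^ b) =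
          monomial m (monomial r 1) := by
        rw [monomial_mul_C, monomial_mul_X_pow, hb']
      rw [h5] at h4
      refine W_mono ?_ h4
      simp only [Nat.zero_add, mul_one] at h2
      omega
  | succ j ih =>
    intro l p hp
    refine mem_of_monomials _ _ fun m r hmr => ?_
    obtain ⟨h1, h2⟩ := mem_F_bound hp hmr
    obtain ⟨m1, m2, hm, hm1, hm2⟩ : ∃ m1 m2, m1 + m2 = m ∧ m1 < 2 ∧ m2 < j + 2 := by
      rcases m with _ | m
      · exact ⟨0, 0, rfl, by omega, by omega⟩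
      · exact ⟨1, m, by omega, by omega, by omega⟩
    have e1 : c * (j + 1 + 1) = c * (j + 1) + c := by ring
    have e2 : 2 * ε * m = 2 * ε * m1 + 2 * ε * m2 := by rw [← hm]; ring
    rw [e1, e2] at h2
    obtain ⟨r1, r2, hr, hr1, hr2⟩ : ∃ r1 r2, r1 + r2 = r ∧ r1 ≤ c + 1 + 2 * ε * m1 ∧
        r2 ≤ c * (j + 1) + l + 2 * ε * m2 := by
      by_cases h : r ≤ c + 1 + 2 * ε * m1
      · exact ⟨r, 0, rfl, h, by omega⟩
      · exact ⟨c + 1 + 2 * ε * m1, r - (c + 1 + 2 * ε * m1), by omega, le_rfl, by omega⟩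
    have h3 := step (ih l) (monomial_mem_F (ε := ε) hm2 hr2)
      (hb (monomial_mem_F (ε := ε) hm1 hr1))
    rwa [monomial_mul_monomial, monomial_mul_monomial, hm, hr, mul_one] at h3

/-! ### independence of the first eight functions -/

theorem key {K : Type*} [Field K] (θ : Fin 4 → K) (hθ : Function.Injective θ) (π : Fin 4 → K[X])
    (hπ : ∀ j, (π j).natDegree = 1) (hcop : ∀ i j, i ≠ j → IsCoprime (π i) (π j))
    (A B : Fin 2 → K[X]) (z : Fin 2 → Fin 4 → K[X])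
    (heq : ∀ i j, B i - C (θ j) * A i = π j ^ 2 * ∑ m : Fin 4, z i m * C (θ j ^ (m : ℕ)))
    (hdet : A 0 * B 1 - A 1 * B 0 ≠ 0) (lam : Fin 4 → K[X]) (hlam : ∀ m, (lam m).natDegree ≤ 1)
    (h0 : ∀ i, ∑ m, lam m * z i m = 0) : ∀ m, lam m = 0 := by
  classical
  set V : Matrix (Fin 4) (Fin 4) K[X] := (Matrix.vandermonde θ).map C with hV
  have hVdet : (Matrix.vandermonde θ).det ≠ 0 := Matrix.det_vandermonde_ne_zero_iff.2 hθ
  set U : Matrix (Fin 4) (Fin 4) K[X] := ((Matrix.vandermonde θ)⁻¹).map C with hU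
  have hUV : U * V = 1 := by
    rw [hU, hV, ← Matrix.map_mul, Matrix.nonsing_inv_mul _ (isUnit_iff_ne_zero.2 hVdet)]
    rw [Matrix.map_one _ C_0 C_1]
  -- `z i = U u i`
  set u : Fin 2 → Fin 4 → K[X] := fun i j => ∑ m : Fin 4, z i m * C (θ j ^ (m : ℕ)) with hu
  have hz : ∀ i m, z i m = ∑ j, U m j * u i j := by
    intro i m
    have h1 : u i = V.mulVec (z i) := by
      funext j
      simp only [hu, hV, Matrix.mulVec, dotProduct, Matrix.map_apply, Matrix.vandermonde_apply]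
      exact Finset.sum_congr rfl fun m _ => mul_comm _ _
    have h2 : U.mulVec (u i) = z i := by rw [h1, Matrix.mulVec_mulVec, hUV, Matrix.one_mulVec]
    rw [← h2]
    rfl
  set lj : Fin 4 → K[X] := fun j => ∑ m, lam m * U m j with hlj
  have hsum : ∀ i, ∑ j, lj j * u i j = 0 := by
    intro i
    rw [← h0 i]
    simp only [hz, hlj, Finset.sum_mul, Finset.mul_sum]
    rw [Finset.sum_comm]
    exact Finset.sum_congr rfl fun m _ => Finset.sum_congr rfl fun j _ => by ring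
  have hljdeg : ∀ j, (lj j).natDegree ≤ 1 := by
    intro j
    refine natDegree_sum_le_of_forall_le _ _ fun m _ => ?_
    rw [hU, Matrix.map_apply]
    exact (natDegree_mul_C_le _ _).trans (hlam m)
  set P : Fin 4 → K[X] := fun j => ∏ k ∈ Finset.univ.erase j, π k ^ 2 with hP
  have hPj : ∀ j, π j ^ 2 * P j = ∏ k, π k ^ 2 := by
    intro j
    rw [hP]
    exact Finset.mul_prod_erase Finset.univ (fun k => π k ^ 2) (Finset.mem_univ j)
  have hS : ∀ i, (∑ j, lj j * P j) * B i = (∑ j, C (θ j) * (lj j * P j)) * A i := by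
    intro i
    have h1 : (∏ k, π k ^ 2) * ∑ j, lj j * u i j = 0 := by rw [hsum i, mul_zero]
    have h2 : (∏ k, π k ^ 2) * ∑ j, lj j * u i j =
        ∑ j, lj j * P j * (B i - C (θ j) * A i) := by
      rw [Finset.mul_sum]
      refine Finset.sum_congr rfl fun j _ => ?_
      rw [heq i j, ← hPj j]
      ring
    rw [h2] at h1
    rw [← sub_eq_zero, ← h1, Finset.sum_mul, Finset.sum_mul, ← Finset.sum_sub_distrib]
    exact Finset.sum_congr rfl fun j _ => by ring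
  have hS0 : ∑ j, lj j * P j = 0 := by
    have h1 : (∑ j, lj j * P j) * (A 0 * B 1 - A 1 * B 0) = 0 := by
      have e0 := hS 0
      have e1 := hS 1
      linear_combination A 0 * e1 - A 1 * e0
    rcases mul_eq_zero.1 h1 with h | h
    · exact h
    · exact absurd h hdet
  have hlj0 : ∀ j, lj j = 0 := by
    intro j
    have h1 : π j ^ 2 ∣ lj j * P j := by
      rw [← Finset.add_sum_erase Finset.univ (fun j => lj j * P j) (Finset.mem_univ j)] at hS0
      have h2 : π j ^ 2 ∣ ∑ k ∈ Finset.univ.erase j, lj k * P k := by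
        refine Finset.dvd_sum fun k hk => Dvd.dvd.mul_left ?_ _
        refine Finset.dvd_prod_of_mem (fun k => π k ^ 2) ?_
        rw [Finset.mem_erase]
        exact ⟨(Finset.ne_of_mem_erase hk).symm, Finset.mem_univ _⟩
      rw [eq_neg_of_add_eq_zero_left hS0]
      exact (dvd_neg).2 h2
    have h3 : IsCoprime (π j ^ 2) (P j) := by
      refine IsCoprime.prod_right fun k hk => ?_
      exact (hcop j k (Finset.ne_of_mem_erase hk).symm).pow
    have h4 : π j ^ 2 ∣ lj j := h3.dvd_of_dvd_mul_right h1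
    by_contra h5
    have h6 := natDegree_le_of_dvd h4 h5
    rw [natDegree_pow, hπ j] at h6
    have := hljdeg j
    omega
  intro m
  have h7 : lam m = ∑ j, lj j * V j m := by
    have h8 : Matrix.vecMul lam (U * V) = lam := by rw [hUV, Matrix.vecMul_one]
    rw [← Matrix.vecMul_vecMul] at h8
    rw [← h8]
    simp only [Matrix.vecMul, dotProduct, hlj]
  rw [h7]
  exact Finset.sum_eq_zero fun j _ => by rw [hlj0 j, zero_mul]


theorem smul_eq_CC (c : ℚ) (p : ℚ[X][X]) : c • p = C (C c) * p := by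
  ext m r
  simp

theorem base {K : Type*} [Field K] [Algebra ℚ K] (θ : Fin 4 → K) (hθ : Function.Injective θ)
    (π : Fin 4 → K[X]) (hπ : ∀ j, (π j).natDegree = 1)
    (hcop : ∀ i j, i ≠ j → IsCoprime (π i) (π j))
    (A B : Fin 2 → K[X]) (z : Fin 2 → Fin 4 → ℚ[X])
    (heq : ∀ i j, B i - C (θ j) * A i =
      π j ^ 2 * ∑ m : Fin 4, (z i m).map (algebraMap ℚ K) * C (θ j ^ (m : ℕ)))
    (hdet : A 0 * B 1 - A 1 * B 0 ≠ 0) {ε c : ℕ} (hc : c + ε = 2)
    (hz0 : ∀ m, (z 0 m).natDegree ≤ c) (hz1 : ∀ m, (z 1 m).natDegree ≤ c + 2 * ε) :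
    F ε 2 (c + 1) ≤ W (fun m => C (z 0 m) + C (z 1 m) * X) 1 1 := by
  set x : Fin 4 → ℚ[X][X] := fun m => C (z 0 m) + C (z 1 m) * X with hx
  set v : Fin 4 × Fin 2 → ℚ[X][X] := fun i => x i.1 * C (X ^ (i.2 : ℕ)) with hv
  have hli : LinearIndependent ℚ v := by
    rw [Fintype.linearIndependent_iff]
    intro w hw
    set lam : Fin 4 → ℚ[X] := fun m => C (w (m, 0)) + C (w (m, 1)) * X with hlam
    have h1 : ∑ m, C (lam m) * x m = 0 := by
      rw [← hw, Fintype.sum_prod_type]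
      refine Finset.sum_congr rfl fun m _ => ?_
      simp only [Fin.sum_univ_two, hv, hlam, Fin.val_zero, Fin.val_one, pow_zero, pow_one,
        map_one, mul_one]
      rw [smul_eq_CC, smul_eq_CC]
      simp only [C_add, C_mul]
      ring
    have h2 : ∀ i : Fin 2, ∑ m, lam m * z i m = 0 := by
      intro i
      have h3 : (∑ m, C (lam m) * x m).coeff i = 0 := by rw [h1]; simp
      rw [finsetSum_coeff] at h3
      rw [← h3]
      refine Finset.sum_congr rfl fun m _ => ?_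
      fin_cases i <;> simp [hx]
    have h4 := key θ hθ π hπ hcop A B (fun i m => (z i m).map (algebraMap ℚ K)) heq hdet
      (fun m => (lam m).map (algebraMap ℚ K)) (by
        intro m
        refine natDegree_map_le.trans ?_
        simp only [hlam]
        compute_degree) (by
        intro i
        have := congrArg (Polynomial.map (algebraMap ℚ K)) (h2 i)
        simpa [Polynomial.map_sum] using this)
    have h5 : ∀ m, lam m = 0 := by
      intro m
      exact (Polynomial.map_eq_zero_iff (algebraMap ℚ K).injective).1 (h4 m)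
    rintro ⟨m, a⟩
    have h6 := congrArg (fun p => p.coeff (a : ℕ)) (h5 m)
    fin_cases a <;> simpa [hlam] using h6
  have h7 : Submodule.span ℚ (Set.range v) ≤ F ε 2 (c + 1) := by
    rw [Submodule.span_le]
    rintro _ ⟨⟨m, a⟩, rfl⟩
    have h8 : x m ∈ F ε 2 c := by
      intro n r hnr
      simp only [hx, coeff_add, coeff_C, coeff_C_mul, coeff_X]
      rcases n with _ | _ | n
      · simp
        exact coeff_eq_zero_of_natDegree_lt (by have := hz0 m; omega)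
      · simp
        exact coeff_eq_zero_of_natDegree_lt (by have := hz1 m; omega)
      · simp
    exact F_mono (by have := a.2; omega) (F_sigma (b := (a : ℕ)) h8)
  have h9 : Submodule.span ℚ (Set.range v) = F ε 2 (c + 1) := by
    refine Submodule.eq_of_le_of_finrank_eq h7 ?_
    rw [finrank_span_eq_card hli, finrank_F]
    simp [Finset.sum_range_succ]
    omega
  rw [← h9, Submodule.span_le]
  rintro _ ⟨⟨m, a⟩, rfl⟩
  refine Submodule.subset_span ⟨Pi.single m 1, a, ?_, by have := a.2; omega, ?_⟩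
  · simp
  · rw [Finset.prod_eq_single m]
    · simp [hv]
    · intro b _ hb
      simp [hb]
    · simp

end Vale.Agent.P018.Q.Lev
end

section

/-! # P018, quartics: ranks modulo an irreducible polynomial. -/

namespace Vale.Agent.P018.Q.Lev

open Polynomial

/-- the weighted degree of the modulus is large enough. -/
theorem D_ge {ε : ℕ} (hε : ε ≤ 1) {g : ℚ[X][X]} (hg : Irreducible g) (hg2 : 2 ≤ g.natDegree)
    (hg4 : ε = 0 → ∃ i, 2 ≤ (g.coeff i).natDegree) :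
    2 + 2 * ε * g.natDegree ≤ D ε g + 2 * ε := by
  interval_cases ε
  · obtain ⟨i, hi⟩ := hg4 rfl
    have h1 : (g.coeff i).coeff (g.coeff i).natDegree ≠ 0 := by
      intro h
      have : g.coeff i = 0 := leadingCoeff_eq_zero.1 h
      rw [this] at hi
      simp at hi
    have := coeff_le_D 0 g i _ h1
    omega
  · have h0 : g.coeff 0 ≠ 0 := by
      intro h
      have h1 : (X : ℚ[X][X]) ∣ g := X_dvd_iff.2 h
      have h2 : Associated (X : ℚ[X][X]) g := (irreducible_X).associated_of_dvd hg h1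
      have h3 := natDegree_eq_of_degree_eq (degree_eq_degree_of_associated h2)
      rw [natDegree_X] at h3
      omega
    have h1 : (g.coeff 0).coeff (g.coeff 0).natDegree ≠ 0 := by
      intro h
      exact h0 (leadingCoeff_eq_zero.1 h)
    have := coeff_le_D 1 g 0 _ h1
    omega

theorem finite_W (x : Fin 4 → ℚ[X][X]) (j l : ℕ) : FiniteDimensional ℚ (W x j l) := by
  refine FiniteDimensional.span_of_finite ℚ ?_
  refine Set.Finite.subset (((Set.finite_Iic (fun _ : Fin 4 => j)).prod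
    (Set.finite_Iic l)).image fun p => (∏ m, x m ^ p.1 m) * C (X ^ p.2)) ?_
  rintro _ ⟨μ, a, h1, h2, rfl⟩
  refine ⟨(μ, a), ⟨?_, h2⟩, rfl⟩
  intro m
  rw [← h1]
  exact Finset.single_le_sum (fun _ _ => Nat.zero_le _) (Finset.mem_univ m)

theorem rank_W {ε c : ℕ} (hc : c + ε = 2) {x : Fin 4 → ℚ[X][X]} (hb : F ε 2 (c + 1) ≤ W x 1 1)
    {g : ℚ[X][X]} (hg : Irreducible g) (hg2 : 2 ≤ g.natDegree)
    (hg4 : ε = 0 → ∃ i, 2 ≤ (g.coeff i).natDegree) {j l : ℕ} (hj : 1 ≤ j) (hl : 1 ≤ l)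
    (hε : ε ≤ 1) :
    6 * j + 2 * l ≤ Module.finrank ℚ (Submodule.map (Submodule.mkQ
        ((Ideal.span {g}).restrictScalars ℚ)) (W x j l)) := by
  obtain ⟨j, rfl⟩ := Nat.exists_eq_add_of_le' hj
  obtain ⟨l, rfl⟩ := Nat.exists_eq_add_of_le' hl
  have h1 := F_le_W hb j l
  have := finite_W x (j + 1) (l + 1)
  have h2 : Module.finrank ℚ (Submodule.map (Submodule.mkQ
        ((Ideal.span {g}).restrictScalars ℚ)) (F ε (j + 2) (c * (j + 1) + l + 1))) ≤
      Module.finrank ℚ (Submodule.map (Submodule.mkQ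
        ((Ideal.span {g}).restrictScalars ℚ)) (W x (j + 1) (l + 1))) :=
    Submodule.finrank_mono (Submodule.map_mono h1)
  refine le_trans ?_ h2
  obtain ⟨w', hw'⟩ : ∃ w', w' + 2 = c * (j + 1) + l + 1 + 2 * ε := by
    refine ⟨c * (j + 1) + l + 1 + 2 * ε - 2, ?_⟩
    have : c * (j + 1) = c * j + c := by ring
    omega
  have h3 := finrank_quot (ε := ε) (j := j + 1) (w := c * (j + 1) + l + 1) (w' := w') hε hw' hg2
    (D_ge hε hg hg2 hg4)
  have h4 := finrank_F' ε (j + 1 + 1) (c * (j + 1) + l + 1)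
  have h5 := finrank_F' ε (j + 1 - 1) w'
  rw [Nat.add_sub_cancel] at h5 h3
  have h6 : j + 2 = j + 1 + 1 := rfl
  rw [h6]
  generalize Module.finrank ℚ (F ε (j + 1 + 1) (c * (j + 1) + l + 1)) = f1 at *
  generalize Module.finrank ℚ (F ε j w') = f2 at *
  generalize Module.finrank ℚ (Submodule.map (Submodule.mkQ
        ((Ideal.span {g}).restrictScalars ℚ)) (F ε (j + 1 + 1) (c * (j + 1) + l + 1))) = f3 at *
  interval_cases ε
  · obtain rfl : c = 2 := by omega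
    nlinarith
  · obtain rfl : c = 1 := by omega
    nlinarith

/-- choosing independent elements level by level. -/
theorem choose_levels {Q : Type*} [AddCommGroup Q] [Module ℚ Q] (S : ℕ → Set Q) (N : ℕ)
    (hS : ∀ k < N, k < Module.finrank ℚ (Submodule.span ℚ (S k))) :
    ∃ v : ℕ → Q, (∀ k < N, v k ∈ S k) ∧
      ∀ w : ℕ → ℚ, ∑ k ∈ Finset.range N, w k • v k = 0 → ∀ k < N, w k = 0 := by
  classical
  induction N with
  | zero => exact ⟨fun _ => 0, by simp, by simp⟩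
  | succ N ih =>
    obtain ⟨v, hv1, hv2⟩ := ih (fun k hk => hS k (by omega))
    obtain ⟨s, hs1, hs2⟩ : ∃ s ∈ S N, s ∉ Submodule.span ℚ (v '' (Finset.range N : Set ℕ)) := by
      by_contra h
      push Not at h
      have h1 : Submodule.span ℚ (S N) ≤ Submodule.span ℚ (v '' (Finset.range N : Set ℕ)) :=
        Submodule.span_le.2 h
      have hfin : (v '' (Finset.range N : Set ℕ)).Finite := (Finset.finite_toSet _).image _
      have := FiniteDimensional.span_of_finite ℚ hfin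
      have h2 := Submodule.finrank_mono h1
      have h3 : Module.finrank ℚ (Submodule.span ℚ (v '' (Finset.range N : Set ℕ))) ≤ N := by
        rw [← Finset.coe_image]
        exact (finrank_span_finset_le_card _).trans
          (Finset.card_image_le.trans (by simp))
      have := hS N (by omega)
      omega
    refine ⟨Function.update v N s, ?_, ?_⟩
    · intro k hk
      by_cases h : k = N
      · subst h; simpa using hs1
      · rw [Function.update_of_ne h]; exact hv1 k (by omega)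
    · intro w hw
      rw [Finset.sum_range_succ, Function.update_self] at hw
      have h1 : ∑ k ∈ Finset.range N, w k • Function.update v N s k =
          ∑ k ∈ Finset.range N, w k • v k := by
        refine Finset.sum_congr rfl fun k hk => ?_
        rw [Function.update_of_ne (by have := Finset.mem_range.1 hk; omega)]
      rw [h1] at hw
      have hN : w N = 0 := by
        by_contra hne
        apply hs2
        have h2 : s = ∑ k ∈ Finset.range N, (-(w N)⁻¹ * w k) • v k := by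
          have h3 : w N • s = - ∑ k ∈ Finset.range N, w k • v k :=
            eq_neg_of_add_eq_zero_right hw
          have h4 : s = (w N)⁻¹ • (w N • s) := by rw [smul_smul, inv_mul_cancel₀ hne, one_smul]
          rw [h4, h3, smul_neg, Finset.smul_sum, ← Finset.sum_neg_distrib]
          refine Finset.sum_congr rfl fun k _ => ?_
          rw [smul_smul, neg_mul, neg_smul]
        rw [h2]
        refine Submodule.sum_mem _ fun k hk => Submodule.smul_mem _ _ (Submodule.subset_span ?_)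
        exact ⟨k, by simpa using hk, rfl⟩
      rw [hN, zero_smul, add_zero] at hw
      intro k hk
      by_cases h : k = N
      · rw [h]; exact hN
      · exact hv2 w hw k (by omega)

end Vale.Agent.P018.Q.Lev
end

section

/-! # P018, quartics: ranks of the functions `γ^j σ^l` on curves of the kappa model. -/

namespace Vale.Agent.P018.Q

open Polynomial NumberField

/-- the polynomial in `κ` (outer variable) and `σ` (inner variable) attached to
`z^μ s^a t^(...)` at level `t'`. -/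
noncomputable def psi (A : Fin 2 → ℤ[X]) (Z : Fin 2 → Fin 4 → ℤ[X]) (R t' : ℕ) (μ : Fin 4 → ℕ)
    (a : ℕ) : ℤ[X][X] :=
  (C (A 0) + C (A 1) * X) ^ (R - t') * (∏ m, (C (Z 0 m) + C (Z 1 m) * X) ^ μ m) * C (X ^ a)

/-- the level of the `k`-th function. -/
def lev (i k : ℕ) : ℕ := if k < 6 * i + 2 then 0 else (k - (6 * i + 2)) / 10 + 1

variable {L : Type} [Field L] [NumberField L]

namespace Lev

/-- the functions `x_m`. -/
noncomputable def xf (Z : Fin 2 → Fin 4 → ℤ[X]) (m : Fin 4) : ℚ[X][X] :=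
  C ((Z 0 m).map (Int.castRingHom ℚ)) + C ((Z 1 m).map (Int.castRingHom ℚ)) * X

theorem psi_map (A : Fin 2 → ℤ[X]) (Z : Fin 2 → Fin 4 → ℤ[X]) (R t' : ℕ) (μ : Fin 4 → ℕ)
    (a : ℕ) : (psi A Z R t' μ a).map (mapRingHom (Int.castRingHom ℚ)) =
      (C ((A 0).map (Int.castRingHom ℚ)) + C ((A 1).map (Int.castRingHom ℚ)) * X) ^ (R - t') *
        ((∏ m, xf Z m ^ μ m) * C (X ^ a)) := by
  simp only [psi, xf, Polynomial.map_mul, Polynomial.map_pow, Polynomial.map_add, map_C, map_X,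
    Polynomial.map_prod, coe_mapRingHom, mul_assoc]

omit [NumberField L] in
theorem Lam_ne_zero {θ : Fin 4 → 𝓞 L} {l1 l2 : Fin 4 → ℤ}
    {d : Fin 2 → ℕ} {A B : Fin 2 → ℤ[X]} {Z : Fin 2 → Fin 4 → ℤ[X]} {Λ : ℤ[X]} {e : ℤ}
    (hl1 : ∀ j, K.ell (θ j) l1 ≠ 0) (hK : KData θ l1 l2 d A B Z Λ e) : Λ ≠ 0 := by
  rintro rfl
  have h := hK.hΛ
  rw [Polynomial.map_zero] at h
  obtain ⟨j, -, hj⟩ := Finset.prod_eq_zero_iff.1 h.symm
  have h1 := congrArg (fun p => p.coeff 1) hj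
  simp [piPoly] at h1
  exact hl1 j h1

omit [NumberField L] in
theorem det_ne_zero {θ : Fin 4 → 𝓞 L} {l1 l2 : Fin 4 → ℤ}
    {d : Fin 2 → ℕ} {A B : Fin 2 → ℤ[X]} {Z : Fin 2 → Fin 4 → ℤ[X]} {Λ : ℤ[X]} {e : ℤ}
    (hl1 : ∀ j, K.ell (θ j) l1 ≠ 0) (hK : KData θ l1 l2 d A B Z Λ e) :
    A 0 * B 1 - A 1 * B 0 ≠ 0 := by
  rw [hK.det]
  exact mul_ne_zero (C_ne_zero.2 hK.c0) (pow_ne_zero _ (Lam_ne_zero hl1 hK))

/-- the base case. -/
theorem base_K {θ : Fin 4 → 𝓞 L} (hθ : Function.Injective θ) {l1 l2 : Fin 4 → ℤ}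
    {d : Fin 2 → ℕ} {A B : Fin 2 → ℤ[X]} {Z : Fin 2 → Fin 4 → ℤ[X]} {Λ : ℤ[X]} {e : ℤ}
    (hl1 : ∀ j, K.ell (θ j) l1 ≠ 0) (hnd : NonDeg θ l1 l2) (hK : KData θ l1 l2 d A B Z Λ e) :
    ∃ ε c : ℕ, ε ≤ 1 ∧ c + ε = 2 ∧ (ε = 0 → d 0 = 4) ∧ F ε 2 (c + 1) ≤ W (xf Z) 1 1 := by
  obtain ⟨ε, c, hε, hc, hε4, hz0, hz1⟩ : ∃ ε c : ℕ, ε ≤ 1 ∧ c + ε = 2 ∧ (ε = 0 → d 0 = 4) ∧
      (∀ m, (Z 0 m).natDegree ≤ c) ∧ (∀ m, (Z 1 m).natDegree ≤ c + 2 * ε) := by
    have hd := hK.dZ
    rcases hK.dd with ⟨h0, h1⟩ | ⟨h0, h1⟩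
    · refine ⟨0, 2, by omega, rfl, fun _ => h0, fun m => ?_, fun m => ?_⟩
      · have := hd 0 m; omega
      · have := hd 1 m; omega
    · refine ⟨1, 1, le_rfl, rfl, fun h => absurd h (by omega), fun m => ?_, fun m => ?_⟩
      · have := hd 0 m; omega
      · have := hd 1 m; omega
  refine ⟨ε, c, hε, hc, hε4, ?_⟩
  have hinj : Function.Injective (algebraMap (𝓞 L) L) := FaithfulSMul.algebraMap_injective _ _
  have hp : ∀ j, (piPoly θ l1 l2 j).map (algebraMap (𝓞 L) L) =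
      C (algebraMap (𝓞 L) L (K.ell (θ j) l1)) * X + C (algebraMap (𝓞 L) L (K.ell (θ j) l2)) := by
    intro j
    simp [piPoly]
  have hcomp : ∀ p : ℤ[X], (p.map (algebraMap ℤ (𝓞 L))).map (algebraMap (𝓞 L) L) =
      p.map (algebraMap ℤ L) := by
    intro p
    rw [Polynomial.map_map]
    congr 1
  have hcomp2 : ∀ p : ℤ[X], (p.map (Int.castRingHom ℚ)).map (algebraMap ℚ L) =
      p.map (algebraMap ℤ L) := by
    intro p
    rw [Polynomial.map_map]
    congr 1
    exact RingHom.ext_int _ _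
  refine base (K := L) (fun j => algebraMap (𝓞 L) L (θ j)) (fun i j h => hθ (hinj h))
    (fun j => (piPoly θ l1 l2 j).map (algebraMap (𝓞 L) L)) ?_ ?_
    (fun i => (A i).map (algebraMap ℤ L)) (fun i => (B i).map (algebraMap ℤ L))
    (fun i m => (Z i m).map (Int.castRingHom ℚ)) ?_ ?_ hc ?_ ?_
  · intro j
    rw [hp j]
    exact natDegree_linear ((map_ne_zero_iff _ hinj).2 (hl1 j))
  · intro i j hij
    have hne := hnd i j hij
    set a := algebraMap (𝓞 L) L (K.ell (θ i) l1)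
    set b := algebraMap (𝓞 L) L (K.ell (θ i) l2)
    set a' := algebraMap (𝓞 L) L (K.ell (θ j) l1)
    set b' := algebraMap (𝓞 L) L (K.ell (θ j) l2)
    have hne' : a' * b - a * b' ≠ 0 := by
      intro h
      apply hne
      apply hinj
      rw [map_mul, map_mul]
      linear_combination -h
    refine ⟨C ((a' * b - a * b')⁻¹ * a'), C (-(a' * b - a * b')⁻¹ * a), ?_⟩
    rw [hp i, hp j]
    have h1 : C ((a' * b - a * b')⁻¹ * a') * (C a * X + C b) +
        C (-(a' * b - a * b')⁻¹ * a) * (C a' * X + C b') =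
        C ((a' * b - a * b')⁻¹ * (a' * b - a * b')) := by
      simp only [C_mul, C_neg, C_sub]
      ring
    rw [h1, inv_mul_cancel₀ hne', C_1]
  · intro i j
    have h1 := congrArg (Polynomial.map (algebraMap (𝓞 L) L)) (hK.eq i j)
    simp only [Polynomial.map_sub, Polynomial.map_mul, Polynomial.map_pow, Polynomial.map_sum,
      map_C, hcomp] at h1
    simp only [hcomp2]
    rw [h1]
    simp [map_pow]
  · have h1 := det_ne_zero hl1 hK
    have hinj2 : Function.Injective (algebraMap ℤ L) := FaithfulSMul.algebraMap_injective _ _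
    have h2 := (Polynomial.map_ne_zero_iff hinj2).2 h1
    simpa only [Polynomial.map_sub, Polynomial.map_mul] using h2
  · intro m
    exact natDegree_map_le.trans (hz0 m)
  · intro m
    exact natDegree_map_le.trans (hz1 m)

end Lev

/-- an independent family modulo `g`, with `6 i + 10 t + 2` elements of level `≤ t`. -/
theorem exists_levels {θ : Fin 4 → 𝓞 L} (hθ : Function.Injective θ) {l1 l2 : Fin 4 → ℤ}
    {d : Fin 2 → ℕ} {A B : Fin 2 → ℤ[X]} {Z : Fin 2 → Fin 4 → ℤ[X]} {Λ : ℤ[X]} {e : ℤ}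
    (hl1 : ∀ j, K.ell (θ j) l1 ≠ 0) (hnd : NonDeg θ l1 l2) (hK : KData θ l1 l2 d A B Z Λ e)
    (g : ℚ[X][X]) (hg : Irreducible g) (hg2 : 2 ≤ g.natDegree)
    (hg4 : d 0 = 4 → ∃ i, 2 ≤ (g.coeff i).natDegree) (i R : ℕ) (hi : 1 ≤ i) :
    ∃ (μ : ℕ → Fin 4 → ℕ) (a : ℕ → ℕ),
      (∀ k < 6 * i + 10 * R + 2, ∑ m, μ k m = i + lev i k ∧ a k ≤ 1 + 2 * lev i k) ∧
      ∀ w : ℕ → ℚ, g ∣ ∑ k ∈ Finset.range (6 * i + 10 * R + 2),
          C (C (w k)) * (psi A Z R (lev i k) (μ k) (a k)).map (mapRingHom (Int.castRingHom ℚ)) →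
        ∀ k < 6 * i + 10 * R + 2, w k = 0 := by
  obtain ⟨ε, c, hε, hc, hε4, hb⟩ := Lev.base_K hθ hl1 hnd hK
  set I : Submodule ℚ ℚ[X][X] := (Ideal.span {g}).restrictScalars ℚ with hI
  set α : ℚ[X][X] := C ((A 0).map (Int.castRingHom ℚ)) + C ((A 1).map (Int.castRingHom ℚ)) * X
    with hα
  have hαg : ¬ g ∣ α := by
    intro h
    have hα0 : α ≠ 0 := by
      intro h0
      have hi : Function.Injective (Int.castRingHom ℚ) := Int.cast_injective
      have h1 : A 0 = 0 := by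
        have := congrArg (fun p => p.coeff 0) h0
        simp [hα] at this
        exact (Polynomial.map_eq_zero_iff hi).1 this
      have h2 : A 1 = 0 := by
        have := congrArg (fun p => p.coeff 1) h0
        simp [hα] at this
        exact (Polynomial.map_eq_zero_iff hi).1 this
      apply Lev.det_ne_zero hl1 hK
      rw [h1, h2]; simp
    have h1 := natDegree_le_of_dvd h hα0
    have h2 : α.natDegree ≤ 1 := by
      rw [hα]
      compute_degree
    omega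
  have hgp : Prime g := hg.prime
  have hcancel : ∀ n (p : ℚ[X][X]), g ∣ α ^ n * p → g ∣ p := by
    intro n p h
    rcases hgp.dvd_or_dvd h with h | h
    · exact absurd (hgp.dvd_of_dvd_pow h) hαg
    · exact h
  set S : ℕ → Set (ℚ[X][X] ⧸ I) := fun k => I.mkQ '' {Ψ | ∃ (μ : Fin 4 → ℕ) (a : ℕ),
    ∑ m, μ m = i + lev i k ∧ a ≤ 1 + 2 * lev i k ∧
      Ψ = (psi A Z R (lev i k) μ a).map (mapRingHom (Int.castRingHom ℚ))} with hS
  obtain ⟨v, hv1, hv2⟩ := Lev.choose_levels S (6 * i + 10 * R + 2) (by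
    intro k hk
    have hrank := Lev.rank_W hc hb hg hg2 (fun h => hg4 (hε4 h)) (j := i + lev i k)
      (l := 1 + 2 * lev i k) (by omega) (by omega) hε
    have hk' : k < 6 * (i + lev i k) + 2 * (1 + 2 * lev i k) := by
      unfold lev
      split_ifs with h
      · omega
      · omega
    refine lt_of_lt_of_le hk' (hrank.trans ?_)
    set n := R - lev i k
    have hspan : Submodule.span ℚ (S k) = Submodule.map I.mkQ
        (Submodule.map (LinearMap.mulLeft ℚ (α ^ n))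
          (Lev.W (Lev.xf Z) (i + lev i k) (1 + 2 * lev i k))) := by
      have hset : {Ψ | ∃ (μ : Fin 4 → ℕ) (a : ℕ), ∑ m, μ m = i + lev i k ∧
          a ≤ 1 + 2 * lev i k ∧
          Ψ = (psi A Z R (lev i k) μ a).map (mapRingHom (Int.castRingHom ℚ))} =
          (LinearMap.mulLeft ℚ (α ^ n)) '' {Ψ | ∃ (μ : Fin 4 → ℕ) (a : ℕ),
            ∑ m, μ m = i + lev i k ∧ a ≤ 1 + 2 * lev i k ∧
            Ψ = (∏ m, Lev.xf Z m ^ μ m) * C (X ^ a)} := by
        ext Ψ
        constructor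
        · rintro ⟨μ, a, h1, h2, rfl⟩
          exact ⟨_, ⟨μ, a, h1, h2, rfl⟩, by rw [Lev.psi_map]; rfl⟩
        · rintro ⟨_, ⟨μ, a, h1, h2, rfl⟩, rfl⟩
          exact ⟨μ, a, h1, h2, by rw [Lev.psi_map]; rfl⟩
      simp only [hS]
      rw [hset, Lev.W, Submodule.map_span, Submodule.map_span]
    have hle : I ≤ I.comap (LinearMap.mulLeft ℚ (α ^ n)) := by
      intro p hp
      rw [hI, Submodule.restrictScalars_mem, Ideal.mem_span_singleton] at hp
      rw [Submodule.mem_comap, hI, Submodule.restrictScalars_mem, Ideal.mem_span_singleton]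
      exact Dvd.dvd.mul_left hp _
    set M : (ℚ[X][X] ⧸ I) →ₗ[ℚ] (ℚ[X][X] ⧸ I) := I.mapQ I (LinearMap.mulLeft ℚ (α ^ n)) hle
      with hM
    have hMinj : Function.Injective M := by
      rw [injective_iff_map_eq_zero]
      intro y hy
      obtain ⟨p, rfl⟩ := I.mkQ_surjective y
      rw [Submodule.mkQ_apply, hM, Submodule.mapQ_apply, Submodule.Quotient.mk_eq_zero, hI,
        Submodule.restrictScalars_mem, Ideal.mem_span_singleton] at hy
      rw [Submodule.mkQ_apply, Submodule.Quotient.mk_eq_zero, hI,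
        Submodule.restrictScalars_mem, Ideal.mem_span_singleton]
      exact hcancel n p hy
    have hmap : Submodule.map I.mkQ
        (Submodule.map (LinearMap.mulLeft ℚ (α ^ n))
          (Lev.W (Lev.xf Z) (i + lev i k) (1 + 2 * lev i k))) =
        Submodule.map M (Submodule.map I.mkQ
          (Lev.W (Lev.xf Z) (i + lev i k) (1 + 2 * lev i k))) := by
      rw [← Submodule.map_comp, ← Submodule.map_comp]
      congr 1
    rw [hspan, hmap]
    rw [← LinearEquiv.finrank_eq (Submodule.equivMapOfInjective M hMinj _)])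
  choose! Φ hΦ hΦv using hv1
  choose! μ a hμ ha hΦe using hΦ
  refine ⟨μ, a, fun k hk => ⟨hμ k hk, ha k hk⟩, fun w hw k hk => hv2 w ?_ k hk⟩
  have h1 : ∑ k ∈ Finset.range (6 * i + 10 * R + 2), w k • v k =
      I.mkQ (∑ k ∈ Finset.range (6 * i + 10 * R + 2),
          C (C (w k)) * (psi A Z R (lev i k) (μ k) (a k)).map (mapRingHom (Int.castRingHom ℚ))) := by
    rw [map_sum]
    refine Finset.sum_congr rfl fun k hk => ?_
    have hk' := Finset.mem_range.1 hk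
    rw [← Lev.smul_eq_CC, map_smul, ← hΦe k hk', hΦv k hk']
  rw [h1, Submodule.mkQ_apply, Submodule.Quotient.mk_eq_zero, hI,
        Submodule.restrictScalars_mem, Ideal.mem_span_singleton]
  exact hw

end Vale.Agent.P018.Q
end

section

/-! # P018, quartics: evaluations for the curve step. -/

namespace Vale.Agent.P018.Q

open Polynomial NumberField Finset

section evr

variable {R R' : Type*} [CommRing R] [CommRing R']

theorem cehom_mul (D : ℕ) {A : ℤ[X]} (h : A.natDegree ≤ D) (x t : R) :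
    hom D A (x * t) t = t ^ D * aeval x A := by
  unfold hom
  rw [aeval_eq_sum_range' (n := D + 1) (by omega), Finset.mul_sum]
  refine Finset.sum_congr rfl fun i hi => ?_
  have hi' : i ≤ D := Nat.lt_succ_iff.1 (Finset.mem_range.1 hi)
  rw [mul_pow, zsmul_eq_mul]
  calc (A.coeff i : R) * (x ^ i * t ^ i) * t ^ (D - i) =
      (A.coeff i : R) * x ^ i * (t ^ i * t ^ (D - i)) := by ring
    _ = _ := by rw [← pow_add, Nat.add_sub_cancel' hi']; ring

theorem cehom_map (f : R →+* R') (D : ℕ) (A : ℤ[X]) (s t : R) :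
    f (hom D A s t) = hom D A (f s) (f t) := by
  simp [hom, map_sum]

/-- evaluation of an integral polynomial at a point of a ring: `x` inner, `y` outer variable. -/
noncomputable def evr (P : ℤ[X][X]) (x y : R) : R :=
  eval₂ ((aeval x : ℤ[X] →ₐ[ℤ] R) : ℤ[X] →+* R) y P

theorem evr_int (P : ℤ[X][X]) (x y : ℤ) : evr P x y = ev2 P x y := by
  unfold evr ev2
  rw [eval_map]
  congr 1

theorem evr_map (f : R →+* R') (P : ℤ[X][X]) (x y : R) : f (evr P x y) = evr P (f x) (f y) := by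
  unfold evr
  rw [hom_eval₂]
  congr 1
  refine Polynomial.ringHom_ext (fun a => by simp) (by simp)

theorem evr_rat (P : ℤ[X][X]) (σ κ : ℚ) :
    evr P σ κ = ev (P.map (mapRingHom (Int.castRingHom ℚ))) κ σ := by
  unfold evr ev
  rw [eval_map, eval₂_map]
  congr 1
  refine Polynomial.ringHom_ext (fun a => by simp) (by simp)

@[simp] theorem evr_C (A : ℤ[X]) (x y : R) : evr (C A) x y = aeval x A := by
  simp [evr]

@[simp] theorem evr_X (x y : R) : evr (X : ℤ[X][X]) x y = y := by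
  simp [evr]

@[simp] theorem evr_mul (P Q : ℤ[X][X]) (x y : R) : evr (P * Q) x y = evr P x y * evr Q x y := by
  simp [evr, eval₂_mul]

@[simp] theorem evr_add (P Q : ℤ[X][X]) (x y : R) : evr (P + Q) x y = evr P x y + evr Q x y := by
  simp [evr, eval₂_add]

@[simp] theorem evr_pow (P : ℤ[X][X]) (n : ℕ) (x y : R) : evr (P ^ n) x y = evr P x y ^ n := by
  simp [evr, eval₂_pow]

@[simp] theorem evr_prod {ι : Type*} (s : Finset ι) (P : ι → ℤ[X][X]) (x y : R) :
    evr (∏ i ∈ s, P i) x y = ∏ i ∈ s, evr (P i) x y := by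
  simp [evr, eval₂_finsetProd]

theorem evr_psi (A : Fin 2 → ℤ[X]) (Z : Fin 2 → Fin 4 → ℤ[X]) (R0 t' : ℕ) (μ : Fin 4 → ℕ)
    (a : ℕ) (x y : R) : evr (psi A Z R0 t' μ a) x y =
      (aeval x (A 0) + aeval x (A 1) * y) ^ (R0 - t') *
        (∏ m, (aeval x (Z 0 m) + aeval x (Z 1 m) * y) ^ μ m) * x ^ a := by
  simp [psi]

/-- homogenisation of a polynomial in two variables. -/
noncomputable def hom2 (D : ℕ) (P : ℤ[X][X]) (kn kd s t : R) : R :=
  ∑ i ∈ range (D + 1), hom D (P.coeff i) s t * kn ^ i * kd ^ (D - i)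

theorem hom2_map (f : R →+* R') (D : ℕ) (P : ℤ[X][X]) (kn kd s t : R) :
    f (hom2 D P kn kd s t) = hom2 D P (f kn) (f kd) (f s) (f t) := by
  simp [hom2, map_sum, cehom_map]

theorem hom2_mul (D : ℕ) {P : ℤ[X][X]} (h : BiDeg D D P) (x y kd t : R) :
    hom2 D P (y * kd) kd (x * t) t = kd ^ D * t ^ D * evr P x y := by
  unfold hom2 evr
  rw [eval₂_eq_sum_range' _ (n := D + 1) (by have := h.1; omega), Finset.mul_sum]
  refine Finset.sum_congr rfl fun i hi => ?_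
  have hi' : i ≤ D := Nat.lt_succ_iff.1 (Finset.mem_range.1 hi)
  rw [cehom_mul D (h.2 i), mul_pow]
  calc t ^ D * aeval x (P.coeff i) * (y ^ i * kd ^ i) * kd ^ (D - i) =
      t ^ D * aeval x (P.coeff i) * y ^ i * (kd ^ i * kd ^ (D - i)) := by ring
    _ = _ := by
      rw [← pow_add, Nat.add_sub_cancel' hi']
      simp only [RingHom.coe_coe]
      ring

end evr

end Vale.Agent.P018.Q
end

section

/-! # P018, quartics: reduction of one point modulo `q ^ ν`. -/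

namespace Vale.Agent.P018.Q

open Polynomial NumberField Finset

theorem exists_quot {q : ℕ} {ν : ℕ} {t : ℤ} (s : ℤ) (ht : IsCoprime t (q : ℤ)) :
    ∃ x : ℤ, (q : ℤ) ^ ν ∣ s - x * t := by
  obtain ⟨a, b, h⟩ := ht.pow_right (n := ν)
  refine ⟨s * a, s * b, ?_⟩
  linear_combination (-s) * h

theorem isUnit_zmod {q : ℕ} {ν : ℕ} {t : ℤ} (ht : IsCoprime t (q : ℤ)) :
    IsUnit (t : ZMod (q ^ ν)) := by
  obtain ⟨a, b, h⟩ := ht.pow_right (n := ν)
  refine IsUnit.of_mul_eq_one (a : ZMod (q ^ ν)) ?_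
  have h1 := congrArg (fun n : ℤ => (n : ZMod (q ^ ν))) h
  have h2 : (((q : ℤ) ^ ν : ℤ) : ZMod (q ^ ν)) = 0 := by
    rw [ZMod.intCast_zmod_eq_zero_iff_dvd]
    push_cast
    exact dvd_rfl
  push_cast at h1 h2
  rw [h2, mul_zero, add_zero] at h1
  rw [mul_comm]
  exact h1

theorem coprime_of_isUnit {q : ℕ} {ν : ℕ} (hν : 1 ≤ ν) {t : ℤ} (h : IsUnit (t : ZMod (q ^ ν))) :
    IsCoprime t (q : ℤ) := by
  obtain ⟨a, ha⟩ := h.exists_right_inv
  obtain ⟨b, rfl⟩ := ZMod.intCast_surjective a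
  have h1 : ((t * b - 1 : ℤ) : ZMod (q ^ ν)) = 0 := by
    push_cast
    rw [ha, sub_self]
  rw [ZMod.intCast_zmod_eq_zero_iff_dvd] at h1
  have h2 : (q : ℤ) ∣ t * b - 1 := by
    refine dvd_trans ?_ h1
    push_cast
    exact dvd_pow_self _ (by omega)
  obtain ⟨e, he⟩ := h2
  exact ⟨b, -e, by linear_combination he⟩

theorem cast_eq {q : ℕ} {ν : ℕ} {a b : ℤ} :
    (a : ZMod (q ^ ν)) = b ↔ (q : ℤ) ^ ν ∣ a - b := by
  rw [← sub_eq_zero, ← Int.cast_sub, ZMod.intCast_zmod_eq_zero_iff_dvd]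
  push_cast
  rfl

/-- reduction of one point modulo `q ^ ν`. -/
theorem point_red {q : ℕ} {ν : ℕ} (hν : 1 ≤ ν) {Dg : ℕ} {g : ℤ[X][X]}
    (hgd : BiDeg Dg Dg g) {A : Fin 2 → ℤ[X]} {Z : Fin 2 → Fin 4 → ℤ[X]}
    (hA : ∀ i, (A i).natDegree ≤ 5) (hZ : ∀ i m, (Z i m).natDegree ≤ 5)
    {c s t kn kd : ℤ} {z : Fin 4 → ℤ} {x0 y0 : ℤ}
    (ht : IsCoprime t (q : ℤ)) (hkd : IsCoprime kd (q : ℤ)) (ht0 : t ≠ 0) (hkd0 : kd ≠ 0)
    (hs : (q : ℤ) ∣ s - x0 * t) (hkn : (q : ℤ) ∣ kn - y0 * kd)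
    (hg0 : ev (g.map (mapRingHom (Int.castRingHom ℚ))) ((kn : ℚ) / kd) ((s : ℚ) / t) = 0)
    (hM : IsCoprime (kd * hom 5 (A 0) s t + kn * hom 5 (A 1) s t) (q : ℤ))
    (hz : ∀ m, (z m : ℚ) *
        (kd * aeval ((s : ℚ) / t) (A 0) + kn * aeval ((s : ℚ) / t) (A 1)) * t ^ 2 =
        c * (kd * aeval ((s : ℚ) / t) (Z 0 m) + kn * aeval ((s : ℚ) / t) (Z 1 m))) :
    ∃ x y : ℤ, (q : ℤ) ^ ν ∣ s - x * t ∧ (q : ℤ) ∣ x - x0 ∧ (q : ℤ) ∣ y - y0 ∧
      (q : ℤ) ^ ν ∣ ev2 g x y ∧ IsCoprime (aeval x (A 0) + aeval x (A 1) * y) (q : ℤ) ∧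
      ∀ m, (q : ℤ) ^ ν ∣ z m * (aeval x (A 0) + aeval x (A 1) * y) * t ^ 2 -
        c * (aeval x (Z 0 m) + aeval x (Z 1 m) * y) := by
  obtain ⟨x, hx⟩ := exists_quot (ν := ν) s ht
  obtain ⟨y, hy⟩ := exists_quot (ν := ν) kn hkd
  have hqν : (q : ℤ) ∣ (q : ℤ) ^ ν := dvd_pow_self _ (by omega)
  have htQ : (t : ℚ) ≠ 0 := by exact_mod_cast ht0
  have hkdQ : (kd : ℚ) ≠ 0 := by exact_mod_cast hkd0
  have hsQ : (s : ℚ) = (s : ℚ) / t * t := by field_simp
  have hknQ : (kn : ℚ) = (kn : ℚ) / kd * kd := by field_simp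
  -- the ring `ZMod (q ^ ν)`
  have hsR : (s : ZMod (q ^ ν)) = (x : ZMod (q ^ ν)) * t := by
    have := (cast_eq (q := q) (ν := ν) (a := s) (b := x * t)).2 hx
    exact_mod_cast this
  have hkR : (kn : ZMod (q ^ ν)) = (y : ZMod (q ^ ν)) * kd := by
    have := (cast_eq (q := q) (ν := ν) (a := kn) (b := y * kd)).2 hy
    exact_mod_cast this
  have hut : IsUnit (t : ZMod (q ^ ν)) := isUnit_zmod ht
  have huk : IsUnit (kd : ZMod (q ^ ν)) := isUnit_zmod hkd
  have hcQ : ∀ (D : ℕ) (P : ℤ[X]), P.natDegree ≤ D →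
      ((hom D P s t : ℤ) : ℚ) = (t : ℚ) ^ D * aeval ((s : ℚ) / t) P := by
    intro D P hP
    have h1 := cehom_map (Int.castRingHom ℚ) D P s t
    simp only [eq_intCast] at h1
    rw [h1]
    conv_lhs => rw [hsQ]
    rw [cehom_mul D hP]
  have hcR : ∀ (D : ℕ) (P : ℤ[X]), P.natDegree ≤ D →
      ((hom D P s t : ℤ) : ZMod (q ^ ν)) = (t : ZMod (q ^ ν)) ^ D * ((aeval x P : ℤ) : ZMod (q ^ ν)) := by
    intro D P hP
    have h1 := cehom_map (Int.castRingHom (ZMod (q ^ ν))) D P s t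
    simp only [eq_intCast] at h1
    rw [h1, hsR, cehom_mul D hP]
    congr 1
    have h2 := evr_map (Int.castRingHom (ZMod (q ^ ν))) (C P) x y
    simp only [evr_C, eq_intCast] at h2
    exact h2.symm
  have hcancel : ∀ a b w : ℤ, IsCoprime a (q : ℤ) → (q : ℤ) ∣ a * w → (q : ℤ) ∣ w := by
    intro a b w h1 h2
    exact h1.symm.dvd_of_dvd_mul_left h2
  refine ⟨x, y, hx, ?_, ?_, ?_, ?_, ?_⟩
  · refine hcancel t 0 _ ht ?_
    have : t * (x - x0) = (s - x0 * t) - (s - x * t) := by ring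
    rw [this]
    exact dvd_sub hs (hqν.trans hx)
  · refine hcancel kd 0 _ hkd ?_
    have : kd * (y - y0) = (kn - y0 * kd) - (kn - y * kd) := by ring
    rw [this]
    exact dvd_sub hkn (hqν.trans hy)
  · -- the curve
    have h1 : ((hom2 Dg g kn kd s t : ℤ) : ℚ) = 0 := by
      have h2 := hom2_map (Int.castRingHom ℚ) Dg g kn kd s t
      simp only [eq_intCast] at h2
      rw [h2]
      conv_lhs => rw [hsQ, hknQ]
      rw [hom2_mul Dg hgd, evr_rat, hg0, mul_zero]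
    have h3 : hom2 Dg g kn kd s t = 0 := by exact_mod_cast h1
    have h4 := hom2_map (Int.castRingHom (ZMod (q ^ ν))) Dg g kn kd s t
    simp only [eq_intCast] at h4
    rw [h3, hsR, hkR, hom2_mul Dg hgd] at h4
    have h5 : evr g (x : ZMod (q ^ ν)) (y : ZMod (q ^ ν)) = 0 := by
      have h6 : IsUnit ((kd : ZMod (q ^ ν)) ^ Dg * (t : ZMod (q ^ ν)) ^ Dg) :=
        (huk.pow _).mul (hut.pow _)
      rw [Int.cast_zero] at h4
      exact (h6.mul_right_eq_zero).1 h4.symm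
    have h7 := evr_map (Int.castRingHom (ZMod (q ^ ν))) g x y
    simp only [eq_intCast] at h7
    rw [h5, evr_int] at h7
    have h8 := (ZMod.intCast_zmod_eq_zero_iff_dvd _ _).1 h7
    simpa using h8
  · -- the unit
    have h1 := isUnit_zmod (ν := ν) hM
    have h2 : ((kd * hom 5 (A 0) s t + kn * hom 5 (A 1) s t : ℤ) : ZMod (q ^ ν)) =
        (kd : ZMod (q ^ ν)) * (t : ZMod (q ^ ν)) ^ 5 *
          ((aeval x (A 0) + aeval x (A 1) * y : ℤ) : ZMod (q ^ ν)) := by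
      rw [Int.cast_add, Int.cast_mul, Int.cast_mul, hcR 5 _ (hA 0), hcR 5 _ (hA 1), hkR]
      push_cast
      ring
    rw [h2] at h1
    exact coprime_of_isUnit hν (isUnit_of_mul_isUnit_right h1)
  · intro m
    rw [← cast_eq]
    have h1 : z m * (kd * hom 5 (A 0) s t + kn * hom 5 (A 1) s t) * t ^ 2 =
        c * (kd * hom 5 (Z 0 m) s t + kn * hom 5 (Z 1 m) s t) := by
      have h2 : ((z m * (kd * hom 5 (A 0) s t + kn * hom 5 (A 1) s t) * t ^ 2 : ℤ) : ℚ) =
          ((c * (kd * hom 5 (Z 0 m) s t + kn * hom 5 (Z 1 m) s t) : ℤ) : ℚ) := by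
        push_cast
        rw [hcQ 5 _ (hA 0), hcQ 5 _ (hA 1), hcQ 5 _ (hZ 0 m), hcQ 5 _ (hZ 1 m)]
        linear_combination (t : ℚ) ^ 5 * hz m
      exact_mod_cast h2
    have h3 := congrArg (fun n : ℤ => (n : ZMod (q ^ ν))) h1
    simp only [Int.cast_mul, Int.cast_add, Int.cast_pow] at h3
    rw [hcR 5 _ (hA 0), hcR 5 _ (hA 1), hcR 5 _ (hZ 0 m), hcR 5 _ (hZ 1 m), hkR] at h3
    have h4 : IsUnit ((kd : ZMod (q ^ ν)) * (t : ZMod (q ^ ν)) ^ 5) := huk.mul (hut.pow _)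
    refine h4.mul_left_cancel ?_
    push_cast
    linear_combination h3

end Vale.Agent.P018.Q
end

section

/-! # P018, quartics: the pigeonhole step modulo `q ^ ν`, Newton iteration for approximate zeros. -/

set_option linter.all false

namespace Vale.Agent.P018.Q

open Polynomial Finset

/-- a polynomial whose Taylor coefficients at `x0` are divisible by `q ^ (ν - j)` is divisible by
`q ^ ν` at all points congruent to `x0` modulo `q`. -/
theorem taylor_dvd {q : ℤ} {ν : ℕ} (Φ : ℤ[X]) {x0 x : ℤ}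
    (hc : ∀ j < ν, q ^ (ν - j) ∣ (taylor x0 Φ).coeff j) (hx : q ∣ x - x0) :
    q ^ ν ∣ Φ.eval x := by
  have h1 : Φ.eval x = (taylor x0 Φ).eval (x - x0) := by
    rw [taylor_eval, sub_add_cancel]
  rw [h1, eval_eq_sum_range]
  refine Finset.dvd_sum fun i _ => ?_
  have h2 : q ^ i ∣ (x - x0) ^ i := pow_dvd_pow_of_dvd hx i
  rcases lt_or_ge i ν with hi | hi
  · have h3 := mul_dvd_mul (hc i hi) h2
    rwa [← pow_add, Nat.sub_add_cancel hi.le] at h3
  · exact ((pow_dvd_pow q hi).trans h2).mul_left _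

/-- abstract pigeonhole step: functions `f k` which are congruent to polynomials in one parameter. -/
theorem siegel_class {ι : Type} (n ν : ℕ) (q : ℤ) (hq : 2 ≤ q) (S : Set ι) (f : ℕ → ι → ℤ)
    (φ : ℕ → ℤ[X]) (u x : ι → ℤ) (x0 : ℤ) (Sz W : ℕ → ℝ) (hW : ∀ k, 0 ≤ W k)
    (hu : ∀ P ∈ S, IsCoprime (u P) q) (hx : ∀ P ∈ S, q ∣ x P - x0)
    (hf : ∀ P ∈ S, ∀ k < n, q ^ ν ∣ u P * f k P - (φ k).eval (x P))
    (hSz : ∀ P ∈ S, ∀ k < n, |(f k P : ℝ)| ≤ Sz k)
    (hbig : (q : ℝ) ^ (ν * (ν + 1) / 2) < ∏ k ∈ range n, ((⌊W k⌋₊ : ℝ) + 1))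
    (hval : ∑ k ∈ range n, W k * Sz k < (q : ℝ) ^ ν) :
    ∃ w : ℕ → ℤ, (∃ k < n, w k ≠ 0) ∧ (∀ k, |(w k : ℝ)| ≤ W k) ∧
      ∀ P ∈ S, ∑ k ∈ range n, w k * f k P = 0 := by
  obtain ⟨Q, rfl⟩ : ∃ Q : ℕ, q = (Q : ℤ) := ⟨q.toNat, by rw [Int.toNat_of_nonneg (by linarith)]⟩
  have hQ2 : 2 ≤ Q := by exact_mod_cast hq
  -- the linear forms
  set c : (Fin n → ℕ) → ℕ → ℤ := fun w j =>
    ∑ k : Fin n, (w k : ℤ) * (taylor x0 (φ k)).coeff j with hc
  set dom : Finset (Fin n → ℕ) := Fintype.piFinset fun k : Fin n => range (⌊W k⌋₊ + 1) with hdom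
  set cod : Finset (Fin ν → ℕ) := Fintype.piFinset fun j : Fin ν => range (Q ^ (ν - (j : ℕ)))
    with hcod
  set F : (Fin n → ℕ) → Fin ν → ℕ := fun w j => (c w j % ((Q : ℤ) ^ (ν - (j : ℕ)))).toNat with hF
  have hQpos : ∀ k : ℕ, (0 : ℤ) < (Q : ℤ) ^ k := fun k => by positivity
  have hcardd : dom.card = ∏ k ∈ range n, (⌊W k⌋₊ + 1) := by
    rw [hdom, Fintype.card_piFinset]
    simp only [card_range]
    exact Fin.prod_univ_eq_prod_range (fun k => ⌊W k⌋₊ + 1) n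
  have hcardc : cod.card = Q ^ (ν * (ν + 1) / 2) := by
    rw [hcod, Fintype.card_piFinset]
    simp only [card_range]
    rw [Fin.prod_univ_eq_prod_range (fun j => Q ^ (ν - j)) ν, Finset.prod_pow_eq_pow_sum]
    congr 1
    have h1 : ∑ j ∈ range ν, (ν - j) = ∑ j ∈ range ν, (j + 1) := by
      rw [← Finset.sum_range_reflect]
      refine Finset.sum_congr rfl fun j hj => ?_
      have := Finset.mem_range.1 hj
      omega
    have h2 : ∑ j ∈ range ν, (j + 1) = ∑ j ∈ range (ν + 1), j := by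
      rw [Finset.sum_range_succ' (fun j => j) ν, add_zero]
    rw [h1, h2, Finset.sum_range_id, Nat.add_sub_cancel, mul_comm]
  have hlt : cod.card < dom.card := by
    rw [hcardd, hcardc]
    have : ((Q ^ (ν * (ν + 1) / 2) : ℕ) : ℝ) < ((∏ k ∈ range n, (⌊W k⌋₊ + 1) : ℕ) : ℝ) := by
      push_cast
      exact_mod_cast hbig
    exact_mod_cast this
  have hmaps : ∀ w ∈ dom, F w ∈ cod := by
    intro w _
    rw [hcod, Fintype.mem_piFinset]
    intro j
    rw [Finset.mem_range, hF]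
    have h1 := Int.emod_lt_of_pos (c w j) (hQpos (ν - (j : ℕ)))
    have h2 := Int.emod_nonneg (c w j) (hQpos (ν - (j : ℕ))).ne'
    have h3 : (((c w j % ((Q : ℤ) ^ (ν - (j : ℕ)))).toNat : ℕ) : ℤ) <
        ((Q ^ (ν - (j : ℕ)) : ℕ) : ℤ) := by
      rw [Int.toNat_of_nonneg h2]
      push_cast
      exact h1
    exact_mod_cast h3
  obtain ⟨w1, hw1, w2, hw2, hne, heq⟩ :=
    Finset.exists_ne_map_eq_of_card_lt_of_maps_to hlt hmaps
  -- the difference
  have hdvd : ∀ j < ν, (Q : ℤ) ^ (ν - j) ∣ c w1 j - c w2 j := by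
    intro j hj
    have h1 := congrFun heq ⟨j, hj⟩
    simp only [hF] at h1
    have a1 := Int.emod_nonneg (c w1 j) (hQpos (ν - j)).ne'
    have a2 := Int.emod_nonneg (c w2 j) (hQpos (ν - j)).ne'
    have h2 : c w1 j % (Q : ℤ) ^ (ν - j) = c w2 j % (Q : ℤ) ^ (ν - j) := by
      rw [← Int.toNat_of_nonneg a1, ← Int.toNat_of_nonneg a2, h1]
    exact Int.ModEq.dvd (Int.ModEq.symm h2)
  set w : ℕ → ℤ := fun k => if h : k < n then (w1 ⟨k, h⟩ : ℤ) - w2 ⟨k, h⟩ else 0 with hw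
  have hwk : ∀ k : Fin n, w k = (w1 k : ℤ) - w2 k := fun k => by
    simp [hw]
  have hwW : ∀ k, |(w k : ℝ)| ≤ W k := by
    intro k
    by_cases hk : k < n
    · have e : w k = (w1 ⟨k, hk⟩ : ℤ) - w2 ⟨k, hk⟩ := by simp [hw, hk]
      rw [hdom, Fintype.mem_piFinset] at hw1 hw2
      have b1 := Finset.mem_range.1 (hw1 ⟨k, hk⟩)
      have b2 := Finset.mem_range.1 (hw2 ⟨k, hk⟩)
      have b3 : |w k| ≤ (⌊W k⌋₊ : ℤ) := by
        rw [e, abs_le]
        constructor <;> simp only at b1 b2 ⊢ <;> omega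
      have b4 : ((⌊W k⌋₊ : ℕ) : ℝ) ≤ W k := Nat.floor_le (hW k)
      have b5 : |(w k : ℝ)| ≤ ((⌊W k⌋₊ : ℕ) : ℝ) := by exact_mod_cast b3
      exact b5.trans b4
    · have e : w k = 0 := by simp [hw, hk]
      rw [e]
      simpa using hW k
  refine ⟨w, ?_, hwW, ?_⟩
  · by_contra hcon
    push Not at hcon
    apply hne
    funext k
    have h1 := hcon k k.2
    rw [hwk k] at h1
    omega
  · intro P hP
    -- the polynomial
    set Φ : ℤ[X] := ∑ k ∈ range n, C (w k) * φ k with hΦ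
    have hcoef : ∀ j, (taylor x0 Φ).coeff j = c w1 j - c w2 j := by
      intro j
      rw [hΦ, map_sum, finset_sum_coeff]
      have h1 : ∀ k ∈ range n, (taylor x0 (C (w k) * φ k)).coeff j =
          w k * (taylor x0 (φ k)).coeff j := by
        intro k _
        rw [taylor_mul, taylor_C, coeff_C_mul]
      rw [Finset.sum_congr rfl h1, ← Fin.sum_univ_eq_sum_range
        (fun k => w k * (taylor x0 (φ k)).coeff j) n, hc, ← Finset.sum_sub_distrib]
      refine Finset.sum_congr rfl fun k _ => ?_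
      rw [hwk k]
      ring
    have h1 : (Q : ℤ) ^ ν ∣ Φ.eval (x P) :=
      taylor_dvd Φ (fun j hj => by rw [hcoef j]; exact hdvd j hj) (hx P hP)
    have h2 : (Q : ℤ) ^ ν ∣ u P * ∑ k ∈ range n, w k * f k P := by
      have h3 : u P * ∑ k ∈ range n, w k * f k P =
          (∑ k ∈ range n, w k * (u P * f k P - (φ k).eval (x P))) + Φ.eval (x P) := by
        rw [hΦ, eval_finset_sum, Finset.mul_sum, ← Finset.sum_add_distrib]
        refine Finset.sum_congr rfl fun k _ => ?_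
        rw [eval_mul, eval_C]
        ring
      rw [h3]
      refine dvd_add (Finset.dvd_sum fun k hk => ?_) h1
      exact (hf P hP k (Finset.mem_range.1 hk)).mul_left _
    have h4 : (Q : ℤ) ^ ν ∣ ∑ k ∈ range n, w k * f k P :=
      (IsCoprime.pow_right (hu P hP)).symm.dvd_of_dvd_mul_left h2
    have h5 : |((∑ k ∈ range n, w k * f k P : ℤ) : ℝ)| < ((Q : ℝ)) ^ ν := by
      refine lt_of_le_of_lt ?_ (by exact_mod_cast hval)
      push_cast
      refine (Finset.abs_sum_le_sum_abs _ _).trans (Finset.sum_le_sum fun k hk => ?_)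
      rw [abs_mul]
      exact mul_le_mul (hwW k) (hSz P hP k (Finset.mem_range.1 hk)) (abs_nonneg _) (hW k)
    have h6 : |∑ k ∈ range n, w k * f k P| < (Q : ℤ) ^ ν := by exact_mod_cast h5
    exact Int.eq_zero_of_abs_lt_dvd h4 h6

/-- Newton iteration with polynomials, for approximate zeros. -/
theorem hensel_poly' (P : ℤ[X][X]) {l x0 y0 v : ℤ} (hv : l ∣ 1 - v * ev2 (derivative P) x0 y0)
    (j : ℕ) : ∃ φ : ℤ[X], ∀ x y : ℤ, l ∣ x - x0 → l ∣ y - y0 → l ^ (j + 1) ∣ ev2 P x y →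
      l ^ (j + 1) ∣ y - φ.eval x := by
  induction j with
  | zero => exact ⟨C y0, fun x y _ hy _ => by simpa using hy⟩
  | succ j ih =>
    obtain ⟨φ, hφ⟩ := ih
    refine ⟨φ - C v * P.eval φ, fun x y hx hy hP => ?_⟩
    have h0 := hφ x y hx hy ((pow_dvd_pow l (Nat.le_succ (j + 1))).trans hP)
    obtain ⟨k, hk⟩ := (P.map (evalRingHom x)).binomExpansion y (φ.eval x - y)
    have h1 : ev2 P x (φ.eval x) = ev2 P x y + ev2 (derivative P) x y * (φ.eval x - y) +
        k * (φ.eval x - y) ^ 2 := by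
      rw [add_sub_cancel] at hk
      rw [ev2, hk, derivative_map]
      rfl
    have h3 : l ∣ 1 - v * ev2 (derivative P) x y - v * k * (φ.eval x - y) := by
      have h4 := ev2_dvd (derivative P) hx hy
      have h5 : l ∣ φ.eval x - y := by
        rw [← dvd_neg, neg_sub]
        exact (dvd_pow_self l (Nat.succ_ne_zero j)).trans h0
      have h6 : 1 - v * ev2 (derivative P) x y - v * k * (φ.eval x - y) =
        (1 - v * ev2 (derivative P) x0 y0) - v * (ev2 (derivative P) x y - ev2 (derivative P) x0 y0)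
          - v * k * (φ.eval x - y) := by ring
      rw [h6]
      exact dvd_sub (dvd_sub hv (h4.mul_left v)) (h5.mul_left _)
    have h7 : y - (φ - C v * P.eval φ).eval x =
        (y - φ.eval x) * (1 - v * ev2 (derivative P) x y - v * k * (φ.eval x - y)) +
          v * ev2 P x y := by
      rw [eval_sub, eval_mul, eval_C, ev2_eval, h1]
      ring
    rw [h7]
    refine dvd_add ?_ (hP.mul_left v)
    rw [pow_succ l (j + 1)]
    exact mul_dvd_mul h0 h3

end Vale.Agent.P018.Q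
end

section

/-! # P018, quartics: the curve step (pigeonhole principle on a curve). -/

set_option linter.unusedVariables false

namespace Vale.Agent.P018.Q

open Polynomial NumberField Finset

section bideg

variable {R : Type*} [CommRing R]

theorem BiDeg.mono {j m j' m' : ℕ} {P : R[X][X]} (h : BiDeg j m P) (h1 : j ≤ j') (h2 : m ≤ m') :
    BiDeg j' m' P := ⟨h.1.trans h1, fun i => (h.2 i).trans h2⟩

theorem BiDeg.add {j m : ℕ} {P Q : R[X][X]} (h : BiDeg j m P) (h' : BiDeg j m Q) :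
    BiDeg j m (P + Q) :=
  ⟨natDegree_add_le_of_degree_le h.1 h'.1, fun i => by
    rw [coeff_add]
    exact natDegree_add_le_of_degree_le (h.2 i) (h'.2 i)⟩

theorem BiDeg.sum {ι : Type*} {j m : ℕ} (s : Finset ι) {P : ι → R[X][X]}
    (h : ∀ i ∈ s, BiDeg j m (P i)) : BiDeg j m (∑ i ∈ s, P i) := by
  refine ⟨natDegree_sum_le_of_forall_le _ _ fun i hi => (h i hi).1, fun i => ?_⟩
  rw [finsetSum_coeff]
  exact natDegree_sum_le_of_forall_le _ _ fun k hk => (h k hk).2 i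

theorem BiDeg.mul {j m j' m' : ℕ} {P Q : R[X][X]} (h : BiDeg j m P) (h' : BiDeg j' m' Q) :
    BiDeg (j + j') (m + m') (P * Q) := by
  refine ⟨natDegree_mul_le.trans (add_le_add h.1 h'.1), fun i => ?_⟩
  rw [coeff_mul]
  exact natDegree_sum_le_of_forall_le _ _ fun k _ =>
    natDegree_mul_le.trans (add_le_add (h.2 _) (h'.2 _))

theorem BiDeg.one : BiDeg 0 0 (1 : R[X][X]) := by
  refine ⟨by simp, fun i => ?_⟩
  rw [coeff_one]
  split_ifs <;> simp

theorem BiDeg.pow {j m : ℕ} {P : R[X][X]} (h : BiDeg j m P) (n : ℕ) :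
    BiDeg (n * j) (n * m) (P ^ n) := by
  induction n with
  | zero => simpa using BiDeg.one
  | succ n ih =>
    rw [pow_succ, Nat.succ_mul, Nat.succ_mul]
    exact ih.mul h

theorem BiDeg.prod {ι : Type*} (s : Finset ι) {P : ι → R[X][X]} {j m : ι → ℕ}
    (h : ∀ i ∈ s, BiDeg (j i) (m i) (P i)) :
    BiDeg (∑ i ∈ s, j i) (∑ i ∈ s, m i) (∏ i ∈ s, P i) := by
  classical
  induction s using Finset.induction_on with
  | empty => simpa using BiDeg.one
  | insert a s ha ih =>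
    rw [Finset.sum_insert ha, Finset.sum_insert ha, Finset.prod_insert ha]
    exact (h a (Finset.mem_insert_self _ _)).mul
      (ih fun i hi => h i (Finset.mem_insert_of_mem hi))

theorem BiDeg.C_le {m : ℕ} {A : R[X]} (h : A.natDegree ≤ m) : BiDeg 0 m (C A) := by
  refine ⟨by simp, fun i => ?_⟩
  rw [coeff_C]
  split_ifs
  · exact h
  · simp

theorem BiDeg.lin {m : ℕ} {A A' : R[X]} (h : A.natDegree ≤ m) (h' : A'.natDegree ≤ m) :
    BiDeg 1 m (C A + C A' * X) := by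
  refine BiDeg.add ((BiDeg.C_le h).mono (Nat.zero_le _) le_rfl) ?_
  have hX : BiDeg 1 0 (X : R[X][X]) := by
    refine ⟨natDegree_X_le, fun i => ?_⟩
    rw [coeff_X]
    split_ifs <;> simp
  have := (BiDeg.C_le h').mul hX
  simpa using this

theorem BiDeg.map {S : Type*} [CommRing S] (f : R →+* S) {j m : ℕ} {P : R[X][X]}
    (h : BiDeg j m P) : BiDeg j m (P.map (mapRingHom f)) := by
  refine ⟨natDegree_map_le.trans h.1, fun i => ?_⟩
  rw [coeff_map]
  exact natDegree_map_le.trans (h.2 i)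

end bideg

theorem biDeg_psi {A : Fin 2 → ℤ[X]} {Z : Fin 2 → Fin 4 → ℤ[X]} (hA : ∀ i, (A i).natDegree ≤ 5)
    (hZ : ∀ i m, (Z i m).natDegree ≤ 5) (R t' : ℕ) (μ : Fin 4 → ℕ) (a : ℕ) :
    BiDeg (R - t' + ∑ m, μ m) ((R - t') * 5 + (∑ m, μ m) * 5 + a) (psi A Z R t' μ a) := by
  unfold psi
  have h1 := (BiDeg.lin (hA 0) (hA 1)).pow (R - t')
  have h2 : BiDeg (∑ m, μ m) (∑ m, μ m * 5) (∏ m, (C (Z 0 m) + C (Z 1 m) * X) ^ μ m) := by
    have := BiDeg.prod (s := (univ : Finset (Fin 4))) (j := fun m => μ m * 1) (m := fun m => μ m * 5)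
      (P := fun m => (C (Z 0 m) + C (Z 1 m) * X) ^ μ m)
      (fun m _ => (BiDeg.lin (hZ 0 m) (hZ 1 m)).pow (μ m))
    simpa using this
  have h3 : BiDeg 0 a (C (X ^ a) : ℤ[X][X]) := BiDeg.C_le (natDegree_X_pow_le a)
  have h4 := (h1.mul h2).mul h3
  rw [← Finset.sum_mul] at h4
  simpa using h4

theorem alg_id {K : Type*} [CommRing K] {i lv R a : ℕ} (hi : 1 ≤ i) (hlev : lv ≤ R)
    (ha : a ≤ 1 + 2 * lv) (μ : Fin 4 → ℕ) (hμ : ∑ m, μ m = i + lv) (z ζ : Fin 4 → K)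
    {c w t s x : K} (hz : ∀ m, z m * w * t ^ 2 = c * ζ m) (hs : s = x * t) :
    t ^ (2 * i - 1) * w ^ (R + i) * ((∏ m, z m ^ μ m) * s ^ a * t ^ (1 + 2 * lv - a)) =
      c ^ (i + lv) * (w ^ (R - lv) * (∏ m, ζ m ^ μ m) * x ^ a) := by
  have h1 : (∏ m, z m ^ μ m) * (w ^ (i + lv) * t ^ (2 * (i + lv))) =
      c ^ (i + lv) * ∏ m, ζ m ^ μ m := by
    have h2 : ∏ m, (z m * w * t ^ 2) ^ μ m = ∏ m, (c * ζ m) ^ μ m :=
      Finset.prod_congr rfl fun m _ => by rw [hz m]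
    simp only [mul_pow, Finset.prod_mul_distrib] at h2
    rw [Finset.prod_pow_eq_pow_sum, Finset.prod_pow_eq_pow_sum, Finset.prod_pow_eq_pow_sum,
      hμ] at h2
    rw [← h2, ← pow_mul]
    ring
  have h4 : t ^ (2 * (i + lv)) = t ^ (2 * i - 1) * t ^ (1 + 2 * lv - a) * t ^ a := by
    rw [← pow_add, ← pow_add]
    congr 1
    omega
  have h5 : w ^ (R + i) = w ^ (R - lv) * w ^ (i + lv) := by
    rw [← pow_add]
    congr 1
    omega
  calc t ^ (2 * i - 1) * w ^ (R + i) * ((∏ m, z m ^ μ m) * s ^ a * t ^ (1 + 2 * lv - a)) =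
      w ^ (R - lv) * x ^ a * ((∏ m, z m ^ μ m) * (w ^ (i + lv) *
        (t ^ (2 * i - 1) * t ^ (1 + 2 * lv - a) * t ^ a))) := by
        rw [h5, hs, mul_pow]
        ring
    _ = _ := by
        rw [← h4, h1]
        ring

theorem lev_le {i R k : ℕ} (hk : k < 6 * i + 10 * R + 2) : lev i k ≤ R := by
  unfold lev
  split_ifs with h
  · exact Nat.zero_le _
  · omega

variable {L : Type} [Field L] [NumberField L]

/-- the curve step of family (A). The points have rational coordinates `σ = s / t`,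
`κ = kn / kd`; all of them are in one residue class modulo `q`, on the curve `g = 0`, and smooth
modulo all primes dividing `q`. -/
theorem curve_step (i R Dg : ℕ) (hi : 1 ≤ i) : ∃ C1 : ℕ, ∀ {θ : Fin 4 → 𝓞 L}
    (hθ : Function.Injective θ) {l1 l2 : Fin 4 → ℤ}
    {d : Fin 2 → ℕ} {A B : Fin 2 → ℤ[X]} {Z : Fin 2 → Fin 4 → ℤ[X]} {Λ : ℤ[X]} {e : ℤ}
    (hl1 : ∀ j, K.ell (θ j) l1 ≠ 0) (hnd : NonDeg θ l1 l2) (hK : KData θ l1 l2 d A B Z Λ e)
    (g : ℤ[X][X]) (hg : Irreducible (g.map (mapRingHom (Int.castRingHom ℚ))))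
    (hgd : BiDeg Dg Dg g) (hg2 : 2 ≤ g.natDegree)
    (hg4 : d 0 = 4 → ∃ i, 2 ≤ (g.coeff i).natDegree)
    (q : ℕ) (hq : 2 ≤ q) (ν : ℕ) (hν : 1 ≤ ν) (c : ℤ) (hc : c ≠ 0) (Gz Sg : ℝ) (W : ℕ → ℝ)
    (hW : ∀ k, 0 ≤ W k)
    (S : Finset ℤ) (s t kn kd : ℤ → ℤ) (z : ℤ → Fin 4 → ℤ) (x0 y0 v : ℤ)
    (hS : ∀ N ∈ S, IsCoprime (t N) (q : ℤ) ∧ IsCoprime (kd N) (q : ℤ) ∧ t N ≠ 0 ∧
      (q : ℤ) ∣ s N - x0 * t N ∧ (q : ℤ) ∣ kn N - y0 * kd N ∧
      ev (g.map (mapRingHom (Int.castRingHom ℚ))) ((kn N : ℚ) / kd N) ((s N : ℚ) / t N) = 0 ∧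
      IsCoprime (kd N * hom 5 (A 0) (s N) (t N) + kn N * hom 5 (A 1) (s N) (t N)) (q : ℤ) ∧
      (kd N * aeval ((s N : ℚ) / t N) (A 0) + kn N * aeval ((s N : ℚ) / t N) (A 1)) * (N : ℚ) =
        kd N * aeval ((s N : ℚ) / t N) (B 0) + kn N * aeval ((s N : ℚ) / t N) (B 1) ∧
      (∀ m, (z N m : ℚ) *
        (kd N * aeval ((s N : ℚ) / t N) (A 0) + kn N * aeval ((s N : ℚ) / t N) (A 1)) * t N ^ 2 =
        c * (kd N * aeval ((s N : ℚ) / t N) (Z 0 m) + kn N * aeval ((s N : ℚ) / t N) (Z 1 m))) ∧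
      (∀ m, |(z N m : ℝ)| ≤ Gz) ∧ |(s N : ℝ)| ≤ Sg ∧ |(t N : ℝ)| ≤ Sg)
    (hv : (q : ℤ) ∣ 1 - v * ev2 (derivative g) x0 y0)
    (hbig : (q : ℝ) ^ (ν * (ν + 1) / 2) <
      ∏ k ∈ range (6 * i + 10 * R + 2), ((⌊W k⌋₊ : ℝ) + 1))
    (hval : ∑ k ∈ range (6 * i + 10 * R + 2), W k * (Gz ^ (i + lev i k) * Sg ^ (1 + 2 * lev i k)) <
      (q : ℝ) ^ ν),
    S.card ≤ C1 := by
  obtain ⟨C1, hC1⟩ := bezout2 Dg (10 * (i + R) + 3)
  refine ⟨C1, ?_⟩
  intro θ hθ l1 l2 d A B Z Λ e hl1 hnd hK g hg hgd hg2 hg4 q hq ν hν c hc Gz Sg W hW S s t kn kd z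
    x0 y0 v hS hv hbig hval
  have hinj : Function.Injective (mapRingHom (Int.castRingHom ℚ)) :=
    map_injective _ (RingHom.injective_int _)
  have hg2' : 2 ≤ (g.map (mapRingHom (Int.castRingHom ℚ))).natDegree := by
    rwa [natDegree_map_eq_of_injective hinj]
  have hg4' : d 0 = 4 → ∃ i, 2 ≤ ((g.map (mapRingHom (Int.castRingHom ℚ))).coeff i).natDegree := by
    intro h
    obtain ⟨j, hj⟩ := hg4 h
    refine ⟨j, ?_⟩
    rw [coeff_map, coe_mapRingHom, natDegree_map_eq_of_injective (RingHom.injective_int _)]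
    exact hj
  obtain ⟨μ, a, hμa, hind⟩ := exists_levels hθ hl1 hnd hK _ hg hg2' hg4' i R hi
  have hd5 : ∀ j, d j ≤ 5 := by
    intro j
    rcases hK.dd with h | h <;> fin_cases j <;> simp [h.1, h.2]
  have hA5 : ∀ j, (A j).natDegree ≤ 5 := fun j => (hK.dA j).trans (hd5 j)
  have hZ5 : ∀ j m, (Z j m).natDegree ≤ 5 := fun j m => by
    have h1 := hK.dZ j m
    have h2 := hd5 j
    omega
  obtain ⟨φ, hφ⟩ := hensel_poly' g hv (ν - 1)
  rw [Nat.sub_add_cancel hν] at hφ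
  have hkd0 : ∀ N ∈ S, kd N ≠ 0 := by
    intro N hN h0
    have h1 := (hS N hN).2.1
    rw [h0, isCoprime_zero_left, Int.isUnit_iff] at h1
    omega
  have hpt : ∀ N : ℤ, ∃ x y : ℤ, N ∈ S → (q : ℤ) ^ ν ∣ s N - x * t N ∧ (q : ℤ) ∣ x - x0 ∧
      (q : ℤ) ∣ y - y0 ∧
      (q : ℤ) ^ ν ∣ ev2 g x y ∧ IsCoprime (aeval x (A 0) + aeval x (A 1) * y) (q : ℤ) ∧
      ∀ m, (q : ℤ) ^ ν ∣ z N m * (aeval x (A 0) + aeval x (A 1) * y) * t N ^ 2 -
        c * (aeval x (Z 0 m) + aeval x (Z 1 m) * y) := by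
    intro N
    by_cases hN : N ∈ S
    · obtain ⟨h1, h2, h3, h4, h5, h6, h7, -, h9, -⟩ := hS N hN
      obtain ⟨x, y, h⟩ := point_red hν hgd hA5 hZ5 h1 h2 h3 (hkd0 N hN) h4 h5 h6 h7 h9
      exact ⟨x, y, fun _ => h⟩
    · exact ⟨0, 0, fun h => absurd h hN⟩
  choose x y hxy using hpt
  set n := 6 * i + 10 * R + 2 with hn
  set f : ℕ → ℤ → ℤ := fun k N =>
    (∏ m, z N m ^ μ k m) * s N ^ a k * t N ^ (1 + 2 * lev i k - a k) with hf
  set u : ℤ → ℤ := fun N =>
    t N ^ (2 * i - 1) * (aeval (x N) (A 0) + aeval (x N) (A 1) * y N) ^ (R + i) with hu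
  set Φ : ℕ → ℤ[X] := fun k =>
    C (c ^ (i + lev i k)) * (psi A Z R (lev i k) (μ k) (a k)).eval φ with hΦ
  obtain ⟨w, ⟨k0, hk0, hwk0⟩, -, hzero⟩ := siegel_class n ν (q : ℤ) (by exact_mod_cast hq)
    (S : Set ℤ) f Φ u x x0 (fun k => Gz ^ (i + lev i k) * Sg ^ (1 + 2 * lev i k)) W hW
    (by
      intro N hN
      have h := hxy N (Finset.mem_coe.1 hN)
      exact ((hS N (Finset.mem_coe.1 hN)).1.pow_left).mul_left (h.2.2.2.2.1.pow_left))
    (fun N hN => (hxy N (Finset.mem_coe.1 hN)).2.1)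
    (by
      intro N hN k hk
      obtain ⟨h1, h2, h3, h4, h5, h6⟩ := hxy N (Finset.mem_coe.1 hN)
      obtain ⟨hm1, hm2⟩ := hμa k hk
      have h7 : (q : ℤ) ^ ν ∣ ev2 (psi A Z R (lev i k) (μ k) (a k)) (x N) (y N) -
          ev2 (psi A Z R (lev i k) (μ k) (a k)) (x N) (φ.eval (x N)) :=
        ev2_dvd _ (by simp) (hφ _ _ h2 h3 h4)
      have h8 : (q : ℤ) ^ ν ∣ u N * f k N -
          c ^ (i + lev i k) * ev2 (psi A Z R (lev i k) (μ k) (a k)) (x N) (y N) := by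
        rw [← cast_eq, ← evr_int, evr_psi]
        have h9 := alg_id (K := ZMod (q ^ ν)) hi (lev_le hk) hm2 (μ k) hm1
          (fun m => ((z N m : ℤ) : ZMod (q ^ ν)))
          (fun m => ((aeval (x N) (Z 0 m) + aeval (x N) (Z 1 m) * y N : ℤ) : ZMod (q ^ ν)))
          (c := (c : ZMod (q ^ ν)))
          (w := ((aeval (x N) (A 0) + aeval (x N) (A 1) * y N : ℤ) : ZMod (q ^ ν)))
          (t := (t N : ZMod (q ^ ν))) (s := (s N : ZMod (q ^ ν))) (x := (x N : ZMod (q ^ ν)))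
          (fun m => by
            have := (cast_eq (q := q) (ν := ν)).2 (h6 m)
            push_cast at this ⊢
            exact this)
          (by
            have := (cast_eq (q := q) (ν := ν)).2 h1
            push_cast at this
            exact this)
        simp only [hu, hf]
        push_cast at h9 ⊢
        exact h9
      have h10 : u N * f k N - (Φ k).eval (x N) = (u N * f k N -
          c ^ (i + lev i k) * ev2 (psi A Z R (lev i k) (μ k) (a k)) (x N) (y N)) +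
          c ^ (i + lev i k) * (ev2 (psi A Z R (lev i k) (μ k) (a k)) (x N) (y N) -
          ev2 (psi A Z R (lev i k) (μ k) (a k)) (x N) (φ.eval (x N))) := by
        simp only [hΦ]
        rw [eval_mul, eval_C, ev2_eval]
        ring
      rw [h10]
      exact dvd_add h8 (h7.mul_left _))
    (by
      intro N hN k hk
      obtain ⟨-, -, -, -, -, -, -, -, -, hz, hs, ht⟩ := hS N (Finset.mem_coe.1 hN)
      obtain ⟨hm1, hm2⟩ := hμa k hk
      have hG : 0 ≤ Gz := (abs_nonneg _).trans (hz 0)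
      have hSg : 0 ≤ Sg := (abs_nonneg _).trans hs
      simp only [hf]
      push_cast
      rw [abs_mul, abs_mul, Finset.abs_prod]
      have e1 : ∏ m, |(z N m : ℝ) ^ μ k m| ≤ Gz ^ (i + lev i k) := by
        rw [← hm1, ← Finset.prod_pow_eq_pow_sum]
        refine Finset.prod_le_prod (fun m _ => abs_nonneg _) fun m _ => ?_
        rw [abs_pow]
        exact pow_le_pow_left₀ (abs_nonneg _) (hz m) _
      have e2 : |(s N : ℝ) ^ a k| * |(t N : ℝ) ^ (1 + 2 * lev i k - a k)| ≤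
          Sg ^ (1 + 2 * lev i k) := by
        have e3 : Sg ^ (1 + 2 * lev i k) = Sg ^ a k * Sg ^ (1 + 2 * lev i k - a k) := by
          rw [← pow_add]
          congr 1
          omega
        rw [e3, abs_pow, abs_pow]
        exact mul_le_mul (pow_le_pow_left₀ (abs_nonneg _) hs _)
          (pow_le_pow_left₀ (abs_nonneg _) ht _) (by (clear * -; positivity)) (by (clear * - hSg; positivity))
      rw [mul_assoc]
      exact mul_le_mul e1 e2 (by (clear * -; positivity)) (by (clear * - hG; positivity)))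
    (by exact_mod_cast hbig) (by exact_mod_cast hval)
  -- the second curve
  set Ψ : ℚ[X][X] := ∑ k ∈ range n, C (C ((w k : ℚ) * (c : ℚ) ^ (i + lev i k))) *
    (psi A Z R (lev i k) (μ k) (a k)).map (mapRingHom (Int.castRingHom ℚ)) with hΨ
  have hndvd : ¬ g.map (mapRingHom (Int.castRingHom ℚ)) ∣ Ψ := by
    intro h
    have h1 := hind (fun k => (w k : ℚ) * (c : ℚ) ^ (i + lev i k)) h k0 hk0
    have h2 : (c : ℚ) ≠ 0 := by exact_mod_cast hc
    have h3 : (w k0 : ℚ) ≠ 0 := by exact_mod_cast hwk0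
    exact mul_ne_zero h3 (pow_ne_zero _ h2) h1
  have hΨd : BiDeg (10 * (i + R) + 3) (10 * (i + R) + 3) Ψ := by
    refine BiDeg.sum _ fun k hk => ?_
    have hk' := Finset.mem_range.1 hk
    obtain ⟨hm1, hm2⟩ := hμa k hk'
    have hl := lev_le hk'
    have h1 := (biDeg_psi hA5 hZ5 R (lev i k) (μ k) (a k)).map (Int.castRingHom ℚ)
    have h2 : BiDeg 0 0 (C (C ((w k : ℚ) * (c : ℚ) ^ (i + lev i k))) : ℚ[X][X]) :=
      BiDeg.C_le (natDegree_C _).le
    refine (h2.mul h1).mono ?_ ?_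
    · rw [hm1]
      omega
    · rw [hm1]
      omega
  -- evaluation at the points
  have hval' : ∀ N ∈ S, (t N : ℚ) ≠ 0 ∧ (kd N : ℚ) ≠ 0 ∧
      (aeval ((s N : ℚ) / t N) (A 0) + aeval ((s N : ℚ) / t N) (A 1) * ((kn N : ℚ) / kd N)) ≠ 0 := by
    intro N hN
    obtain ⟨h1, h2, h3, h4, h5, h6, h7, -⟩ := hS N hN
    have ht : (t N : ℚ) ≠ 0 := by exact_mod_cast h3
    have hk : (kd N : ℚ) ≠ 0 := by exact_mod_cast hkd0 N hN
    refine ⟨ht, hk, fun h0 => ?_⟩
    have h8 : ((kd N * hom 5 (A 0) (s N) (t N) + kn N * hom 5 (A 1) (s N) (t N) : ℤ) : ℚ) = 0 := by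
      have e1 : ∀ j, ((hom 5 (A j) (s N) (t N) : ℤ) : ℚ) =
          (t N : ℚ) ^ 5 * aeval ((s N : ℚ) / t N) (A j) := by
        intro j
        have e2 := cehom_map (Int.castRingHom ℚ) 5 (A j) (s N) (t N)
        simp only [eq_intCast] at e2
        have e3 : (s N : ℚ) = (s N : ℚ) / t N * t N := by field_simp
        rw [e2]
        conv_lhs => rw [e3]
        rw [cehom_mul 5 (hA5 j)]
      rw [Int.cast_add, Int.cast_mul, Int.cast_mul, e1, e1]
      have e4 : (kn N : ℚ) = (kn N : ℚ) / kd N * kd N := by field_simp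
      calc (kd N : ℚ) * ((t N : ℚ) ^ 5 * aeval ((s N : ℚ) / t N) (A 0)) +
          kn N * ((t N : ℚ) ^ 5 * aeval ((s N : ℚ) / t N) (A 1)) =
          (kd N : ℚ) * ((t N : ℚ) ^ 5 * aeval ((s N : ℚ) / t N) (A 0)) +
          ((kn N : ℚ) / kd N * kd N) * ((t N : ℚ) ^ 5 * aeval ((s N : ℚ) / t N) (A 1)) := by
            rw [← e4]
        _ = (kd N : ℚ) * (t N : ℚ) ^ 5 * (aeval ((s N : ℚ) / t N) (A 0) +
            aeval ((s N : ℚ) / t N) (A 1) * ((kn N : ℚ) / kd N)) := by ring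
        _ = 0 := by rw [h0, mul_zero]
    have h9 : kd N * hom 5 (A 0) (s N) (t N) + kn N * hom 5 (A 1) (s N) (t N) = 0 := by
      exact_mod_cast h8
    rw [h9, isCoprime_zero_left, Int.isUnit_iff] at h7
    omega
  have hev : ∀ N ∈ S, ev Ψ ((kn N : ℚ) / kd N) ((s N : ℚ) / t N) = 0 := by
    intro N hN
    obtain ⟨ht, hk, hA0⟩ := hval' N hN
    obtain ⟨-, -, -, -, -, -, -, -, h9, -⟩ := hS N hN
    have e1 : ev Ψ ((kn N : ℚ) / kd N) ((s N : ℚ) / t N) = ∑ k ∈ range n,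
        ((w k : ℚ) * (c : ℚ) ^ (i + lev i k)) *
          evr (psi A Z R (lev i k) (μ k) (a k)) ((s N : ℚ) / t N) ((kn N : ℚ) / kd N) := by
      simp only [evr_rat]
      rw [hΨ]
      unfold ev
      rw [Polynomial.map_sum, eval_finsetSum]
      refine Finset.sum_congr rfl fun k _ => ?_
      rw [Polynomial.map_mul, eval_mul, map_C, eval_C]
      simp
    have e2 : ∀ k ∈ range n, ((w k : ℚ) * (c : ℚ) ^ (i + lev i k)) *
          evr (psi A Z R (lev i k) (μ k) (a k)) ((s N : ℚ) / t N) ((kn N : ℚ) / kd N) =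
        ((t N : ℚ) ^ (2 * i - 1) * (aeval ((s N : ℚ) / t N) (A 0) +
          aeval ((s N : ℚ) / t N) (A 1) * ((kn N : ℚ) / kd N)) ^ (R + i)) *
          ((w k * f k N : ℤ) : ℚ) := by
      intro k hk'
      have hk'' := Finset.mem_range.1 hk'
      obtain ⟨hm1, hm2⟩ := hμa k hk''
      have e3 := alg_id (K := ℚ) hi (lev_le hk'') hm2 (μ k) hm1
          (fun m => (z N m : ℚ))
          (fun m => aeval ((s N : ℚ) / t N) (Z 0 m) +
            aeval ((s N : ℚ) / t N) (Z 1 m) * ((kn N : ℚ) / kd N))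
          (c := (c : ℚ))
          (w := (aeval ((s N : ℚ) / t N) (A 0) +
            aeval ((s N : ℚ) / t N) (A 1) * ((kn N : ℚ) / kd N)))
          (t := (t N : ℚ)) (s := (s N : ℚ)) (x := (s N : ℚ) / t N)
          (fun m => by
            have e4 := h9 m
            have e5 : (kn N : ℚ) = (kn N : ℚ) / kd N * kd N := by field_simp
            refine mul_left_cancel₀ hk ?_
            calc (kd N : ℚ) * ((z N m : ℚ) * (aeval ((s N : ℚ) / t N) (A 0) +
                aeval ((s N : ℚ) / t N) (A 1) * ((kn N : ℚ) / kd N)) * (t N : ℚ) ^ 2) =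
                (z N m : ℚ) * (kd N * aeval ((s N : ℚ) / t N) (A 0) +
                ((kn N : ℚ) / kd N * kd N) * aeval ((s N : ℚ) / t N) (A 1)) * (t N : ℚ) ^ 2 := by
                  ring
              _ = c * (kd N * aeval ((s N : ℚ) / t N) (Z 0 m) +
                ((kn N : ℚ) / kd N * kd N) * aeval ((s N : ℚ) / t N) (Z 1 m)) := by
                  rw [← e5]
                  exact e4
              _ = _ := by ring)
          (by field_simp)
      rw [evr_psi]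
      simp only [hf]
      push_cast
      linear_combination (-(w k : ℚ)) * e3
    rw [e1, Finset.sum_congr rfl e2, ← Finset.mul_sum]
    have e6 := hzero N (Finset.mem_coe.2 hN)
    have e7 : (∑ k ∈ range n, ((w k * f k N : ℤ) : ℚ)) = 0 := by
      rw [← Int.cast_sum, e6, Int.cast_zero]
    rw [e7, mul_zero]
  have hcard := hC1 (g.map (mapRingHom (Int.castRingHom ℚ))) Ψ hg hndvd
    (hgd.map (Int.castRingHom ℚ)) hΨd
    (S.image fun N => ((kn N : ℚ) / kd N, (s N : ℚ) / t N)) (by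
      intro p hp
      obtain ⟨N, hN, rfl⟩ := Finset.mem_image.1 hp
      exact ⟨(hS N hN).2.2.2.2.2.1, hev N hN⟩)
  rw [Finset.card_image_of_injOn] at hcard
  · exact hcard
  · intro N hN N' hN' h
    simp only [Prod.mk.injEq] at h
    obtain ⟨h1, h2⟩ := h
    have key : ∀ N ∈ S, (aeval ((s N : ℚ) / t N) (A 0) +
        aeval ((s N : ℚ) / t N) (A 1) * ((kn N : ℚ) / kd N)) * (N : ℚ) =
        aeval ((s N : ℚ) / t N) (B 0) + aeval ((s N : ℚ) / t N) (B 1) * ((kn N : ℚ) / kd N) := by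
      intro N hN
      obtain ⟨ht, hk, hA0⟩ := hval' N hN
      obtain ⟨-, -, -, -, -, -, -, h8, -⟩ := hS N hN
      have e5 : (kn N : ℚ) = (kn N : ℚ) / kd N * kd N := by field_simp
      refine mul_left_cancel₀ hk ?_
      calc (kd N : ℚ) * ((aeval ((s N : ℚ) / t N) (A 0) +
          aeval ((s N : ℚ) / t N) (A 1) * ((kn N : ℚ) / kd N)) * (N : ℚ)) =
          (kd N * aeval ((s N : ℚ) / t N) (A 0) +
          ((kn N : ℚ) / kd N * kd N) * aeval ((s N : ℚ) / t N) (A 1)) * (N : ℚ) := by ring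
        _ = kd N * aeval ((s N : ℚ) / t N) (B 0) +
          ((kn N : ℚ) / kd N * kd N) * aeval ((s N : ℚ) / t N) (B 1) := by
            rw [← e5]
            exact h8
        _ = _ := by ring
    have k1 := key N hN
    have k2 := key N' hN'
    rw [← h1, ← h2] at k2
    have h3 := (hval' N hN).2.2
    have h4 : (N : ℚ) = N' := mul_left_cancel₀ h3 (k1.trans k2.symm)
    exact_mod_cast h4

end Vale.Agent.P018.Q
end

section

/-! # P018, quartics: the curve step (pigeonhole principle on a curve), Bezout.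

`ev`, `bezout2`: `Bezout2.lean`; `siegel_class`, `hensel_poly'`: `Siegel.lean`; `curve_step`:
`CurveStep.lean`. -/
end

section

/-! # P018, quartics, family (A): points over a fixed reduced pair; numerical conditions. -/

namespace Vale.Agent.P018.Q

open Polynomial NumberField Finset

/-- the common hypotheses on the number field and the conjugates. -/
structure Fld {L : Type} [Field L] [NumberField L] (G : ℤ[X]) (θ : Fin 4 → 𝓞 L) : Prop where
  monic : G.Monic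
  deg : G.natDegree = 4
  irr : Irreducible (G.map (Int.castRingHom ℚ))
  inj : Function.Injective θ
  split : G.map (algebraMap ℤ (𝓞 L)) = ∏ i, (X - C (θ i))

/-- the point `N` over the pair `(l1, l2)`. -/
structure Pt {L : Type} [Field L] [NumberField L] (θ : Fin 4 → 𝓞 L) (C : ℕ) (X T : ℝ)
    (l1 l2 : Fin 4 → ℤ) (N : ℤ) (p : ℕ) (c : ℤ) (z : Fin 4 → ℤ) (s t : ℤ) : Prop where
  dat : Dat θ C X T N p c (s • l1 + t • l2) z
  hs : (s : ℝ) ^ 2 * dot l1 l1 ≤ C * T ^ 2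
  ht : (t : ℝ) ^ 2 * dot l2 l2 ≤ C * T ^ 2

/-- the identities of a point `(κ, σ) = (kn / kd, s / t)` of the kappa model. -/
structure KP (A B : Fin 2 → ℤ[X]) (Z : Fin 2 → Fin 4 → ℤ[X]) (N c s t kn kd : ℤ)
    (z : Fin 4 → ℤ) : Prop where
  t0 : t ≠ 0
  k0 : kd ≠ 0
  cop : IsCoprime kn kd
  den : (kd * aeval ((s : ℚ) / t) (A 0) + kn * aeval ((s : ℚ) / t) (A 1)) ≠ 0
  eqN : (kd * aeval ((s : ℚ) / t) (A 0) + kn * aeval ((s : ℚ) / t) (A 1)) * (N : ℚ) =
    kd * aeval ((s : ℚ) / t) (B 0) + kn * aeval ((s : ℚ) / t) (B 1)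
  eqz : ∀ m, (z m : ℚ) *
    (kd * aeval ((s : ℚ) / t) (A 0) + kn * aeval ((s : ℚ) / t) (A 1)) * t ^ 2 =
    c * (kd * aeval ((s : ℚ) / t) (Z 0 m) + kn * aeval ((s : ℚ) / t) (Z 1 m))

/-- the numerical condition of the relation step at the exponents `T = X^w`, `|l1| = X^m1`,
`|l2| = X^m2`, `q = X^β`. -/
def NumRel (w m1 m2 β : ℝ) : Prop :=
  ∃ (M D Nd ν : ℕ) (ω : ℕ → ℝ) (δ : ℝ), 1 ≤ M ∧ 0 < δ ∧
    (∀ a ≤ Nd, ∀ a' ≤ a, ω a ≤ ω a') ∧
    (∀ a ≤ Nd, ω a + a + D * w + δ ≤ 4 * w * M + β * ν) ∧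
    4 * ∑ α ∈ range (Nd + 1), ∑ b ∈ (range (D + 1)).filter (fun b => 2 * α + b < M),
        max 0 (ω α + D * (m1 + m2) - b * m1) + β * ((Nd + 1) * (ν * (ν + 1) / 2)) + δ ≤
      ∑ a ∈ range (Nd + 1), ((D + 1) * ω a + D * (D + 1) / 2 * (m1 + m2))

/-- the numerical condition of the curve step (`R = 1.1 i`). -/
def NumCurve (w m1 β : ℝ) : Prop :=
  23.05 * (1 - 2 * w) + 12.1 * (w - m1) < 144.5 * β

end Vale.Agent.P018.Q
end

section

/-! # P018, quartics: conjugates and norm of `ell (θ j) l`. -/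

namespace Vale.Agent.P018.Q

open Polynomial NumberField Finset

variable {L : Type} [Field L] [NumberField L]

/-- bounds for the conjugates. -/
theorem ell_bound (θ : Fin 4 → 𝓞 L) : ∃ K1 : ℝ, 1 ≤ K1 ∧ ∀ (l : Fin 4 → ℤ) (φ : L →+* ℂ) (j : Fin 4),
    ‖φ (K.ell (θ j) l : 𝓞 L)‖ ^ 2 ≤ K1 * dot l l := by
  classical
  refine ⟨1 + ∑ φ : L →+* ℂ, ∑ j : Fin 4, ∑ i : Fin 4, (‖φ (θ j : 𝓞 L)‖ ^ (i : ℕ)) ^ 2, ?_, ?_⟩
  · have : 0 ≤ ∑ φ : L →+* ℂ, ∑ j : Fin 4, ∑ i : Fin 4, (‖φ (θ j : 𝓞 L)‖ ^ (i : ℕ)) ^ 2 :=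
      Finset.sum_nonneg fun φ _ => Finset.sum_nonneg fun j _ => Finset.sum_nonneg fun i _ =>
        by positivity
    linarith
  · intro l φ j
    have h1 : φ ((K.ell (θ j) l : 𝓞 L) : L) =
        ∑ i : Fin 4, (l i : ℂ) * φ (θ j : 𝓞 L) ^ (i : ℕ) := by
      unfold K.ell
      simp
    have h2 : ‖φ ((K.ell (θ j) l : 𝓞 L) : L)‖ ≤
        ∑ i : Fin 4, |(l i : ℝ)| * ‖φ (θ j : 𝓞 L)‖ ^ (i : ℕ) := by
      rw [h1]
      refine (norm_sum_le _ _).trans (le_of_eq (Finset.sum_congr rfl fun i _ => ?_))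
      rw [norm_mul, norm_pow, Complex.norm_intCast]
    have h3 : (∑ i : Fin 4, |(l i : ℝ)| * ‖φ (θ j : 𝓞 L)‖ ^ (i : ℕ)) ^ 2 ≤
        (∑ i : Fin 4, |(l i : ℝ)| ^ 2) * ∑ i : Fin 4, (‖φ (θ j : 𝓞 L)‖ ^ (i : ℕ)) ^ 2 :=
      Finset.sum_mul_sq_le_sq_mul_sq _ _ _
    have h4 : (∑ i : Fin 4, |(l i : ℝ)| ^ 2) = (dot l l : ℝ) := by
      unfold dot
      push_cast
      refine Finset.sum_congr rfl fun i _ => ?_
      rw [sq_abs, sq]
    have h5 : (∑ i : Fin 4, (‖φ (θ j : 𝓞 L)‖ ^ (i : ℕ)) ^ 2) ≤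
        1 + ∑ φ : L →+* ℂ, ∑ j : Fin 4, ∑ i : Fin 4, (‖φ (θ j : 𝓞 L)‖ ^ (i : ℕ)) ^ 2 := by
      have h6 : (∑ i : Fin 4, (‖φ (θ j : 𝓞 L)‖ ^ (i : ℕ)) ^ 2) ≤
          ∑ j : Fin 4, ∑ i : Fin 4, (‖φ (θ j : 𝓞 L)‖ ^ (i : ℕ)) ^ 2 :=
        Finset.single_le_sum (f := fun j => ∑ i : Fin 4, (‖φ (θ j : 𝓞 L)‖ ^ (i : ℕ)) ^ 2)
          (fun j _ => Finset.sum_nonneg fun i _ => by positivity) (Finset.mem_univ j)
      have h7 : (∑ j : Fin 4, ∑ i : Fin 4, (‖φ (θ j : 𝓞 L)‖ ^ (i : ℕ)) ^ 2) ≤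
          ∑ φ : L →+* ℂ, ∑ j : Fin 4, ∑ i : Fin 4, (‖φ (θ j : 𝓞 L)‖ ^ (i : ℕ)) ^ 2 :=
        Finset.single_le_sum
          (f := fun φ : L →+* ℂ => ∑ j : Fin 4, ∑ i : Fin 4, (‖φ (θ j : 𝓞 L)‖ ^ (i : ℕ)) ^ 2)
          (fun φ _ => Finset.sum_nonneg fun j _ => Finset.sum_nonneg fun i _ => by positivity)
          (Finset.mem_univ φ)
      linarith
    have h8 : (0 : ℝ) ≤ dot l l := by
      rw [← h4]
      (clear * -; positivity)
    calc ‖φ ((K.ell (θ j) l : 𝓞 L) : L)‖ ^ 2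
        ≤ (∑ i : Fin 4, |(l i : ℝ)| * ‖φ (θ j : 𝓞 L)‖ ^ (i : ℕ)) ^ 2 :=
          pow_le_pow_left₀ (norm_nonneg _) h2 2
      _ ≤ (dot l l : ℝ) * ∑ i : Fin 4, (‖φ (θ j : 𝓞 L)‖ ^ (i : ℕ)) ^ 2 := by
          rw [← h4]
          exact h3
      _ ≤ (dot l l : ℝ) * (1 + ∑ φ : L →+* ℂ, ∑ j : Fin 4, ∑ i : Fin 4,
          (‖φ (θ j : 𝓞 L)‖ ^ (i : ℕ)) ^ 2) := mul_le_mul_of_nonneg_left h5 h8
      _ = _ := mul_comm _ _

/-- the norm of `ell (θ j) l` is a rational integer. -/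
theorem norm_int {G : ℤ[X]} {θ : Fin 4 → 𝓞 L} (hF : Fld G θ) : ∃ K1 : ℝ, 1 ≤ K1 ∧
    ∀ l : Fin 4 → ℤ, l ≠ 0 → ∃ N1 : ℤ, N1 ≠ 0 ∧ ∏ j, K.ell (θ j) l = (N1 : 𝓞 L) ∧
      |(N1 : ℝ)| ≤ K1 * (dot l l : ℝ) ^ 2 := by
  obtain ⟨K1, hK1, hK⟩ := ell_bound θ
  obtain ⟨φ⟩ : Nonempty (L →+* ℂ) := inferInstance
  refine ⟨K1 ^ 2, one_le_pow₀ hK1, ?_⟩
  intro l hl
  have h1 := K.sm_resultant hF.deg θ hF.split (K.smPoly l)
  simp only [K.sm_eval] at h1
  have h2 := K.sm_resultant_ne hF.deg hF.irr (K.sm_ne_zero hl) (K.sm_degree l)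
  refine ⟨_, h2, h1.symm, ?_⟩
  have h3 : ‖φ ((∏ j, K.ell (θ j) l : 𝓞 L) : L)‖ =
      |((resultant G (K.smPoly l) G.natDegree (K.smPoly l).natDegree : ℤ) : ℝ)| := by
    rw [← h1]
    simp
  have h4 : ‖φ ((∏ j, K.ell (θ j) l : 𝓞 L) : L)‖ = ∏ j, ‖φ ((K.ell (θ j) l : 𝓞 L) : L)‖ := by
    have h5 : ∀ x : 𝓞 L, φ (x : L) = (φ.comp (algebraMap (𝓞 L) L)) x := fun _ => rfl
    simp only [h5]
    rw [map_prod, norm_prod]
  rw [← h3, h4]
  have h6 : (∏ j, ‖φ ((K.ell (θ j) l : 𝓞 L) : L)‖) ^ 2 ≤ (K1 * dot l l) ^ 4 := by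
    rw [← Finset.prod_pow]
    calc ∏ j : Fin 4, ‖φ ((K.ell (θ j) l : 𝓞 L) : L)‖ ^ 2 ≤ ∏ _j : Fin 4, (K1 * dot l l : ℝ) :=
          Finset.prod_le_prod (fun j _ => by (clear * -; positivity)) fun j _ => hK l φ j
      _ = (K1 * dot l l) ^ 4 := by simp
  have h7 : (0 : ℝ) ≤ K1 * dot l l :=
    (by (clear * -; positivity) : (0 : ℝ) ≤ ‖φ ((K.ell (θ 0) l : 𝓞 L) : L)‖ ^ 2).trans (hK l φ 0)
  have h8 : (∏ j, ‖φ ((K.ell (θ j) l : 𝓞 L) : L)‖) ^ 2 ≤ ((K1 * dot l l) ^ 2) ^ 2 := by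
    rw [← pow_mul]
    exact h6
  have h9 := abs_le_of_sq_le_sq' h8 (by (clear * -; positivity))
  calc _ ≤ (K1 * dot l l : ℝ) ^ 2 := h9.2
    _ = _ := by ring

end Vale.Agent.P018.Q
end
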