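import Mathlib
import Vale.Agent.P018.Bdl.B1
import Vale.Agent.P018.Bdl.B2

set_option linter.all false

section

/-! # P018, K-method, module K9b: numerical verification of admissibility for `2 k ≥ d`, `d ≥ 12`. -/

namespace Vale.Agent.P018.K

open MeasureTheory

/-- the polynomial value of the integral for `r = 4`. -/
noncomputable def numB_P (m s : ℝ) : ℝ :=
  7 / 15 * s ^ 5 + 7 / 8 * m * s ^ 4 + 1 / 2 * m ^ 2 * s ^ 3 + 1 / 12 * m ^ 3 * s ^ 2

end Vale.Agent.P018.K
end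

section

/-! # P018, Module M5: few integer points on `A(t) n = B(t)` with `A` not constant. -/

namespace Vale.Agent.P018

open Polynomial Finset

/-- The divisor bound. -/
theorem divisor_bound (ε : ℝ) (hε : 0 < ε) :
    ∃ C : ℝ, 1 ≤ C ∧ ∀ n : ℕ, n ≠ 0 → (n.divisors.card : ℝ) ≤ C * (n : ℝ) ^ ε := by
  have hlog2 : 0 < Real.log 2 := Real.log_pos (by norm_num)
  set K : ℝ := 1 + 1 / (ε * Real.log 2) with hK
  have hK1 : 1 ≤ K := by
    have : 0 ≤ 1 / (ε * Real.log 2) := by positivity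
    linarith only [this]
  set P0 : ℕ := ⌈(2 : ℝ) ^ (1 / ε)⌉₊ with hP0
  refine ⟨K ^ P0, one_le_pow₀ hK1, ?_⟩
  intro n hn
  rw [Nat.card_divisors hn]
  have hn' : (n : ℝ) ^ ε = ∏ p ∈ n.primeFactors, ((p : ℝ) ^ ε) ^ (n.factorization p) := by
    conv_lhs => rw [← Nat.prod_factorization_pow_eq_self hn]
    rw [Nat.prod_factorization_eq_prod_primeFactors]
    push_cast
    rw [← Real.finsetProd_rpow _ _ (fun p _ => by positivity)]
    refine prod_congr rfl fun p _ => ?_
    rw [← Real.rpow_natCast, ← Real.rpow_natCast, ← Real.rpow_mul (by positivity),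
      ← Real.rpow_mul (by positivity), mul_comm]
  have hfac : ∀ p ∈ n.primeFactors, ((n.factorization p : ℝ) + 1) ≤
      (if p < P0 then K else 1) * ((p : ℝ) ^ ε) ^ (n.factorization p) := by
    intro p hp
    have hpp : p.Prime := Nat.prime_of_mem_primeFactors hp
    set a := n.factorization p with ha
    have hp2 : (2 : ℝ) ≤ p := by exact_mod_cast hpp.two_le
    split_ifs with h
    · have h1 : 1 + ε * Real.log 2 * a ≤ ((p : ℝ) ^ ε) ^ a := by
        have h2 : ((2 : ℝ) ^ ε) ^ a ≤ ((p : ℝ) ^ ε) ^ a :=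
          pow_le_pow_left₀ (by positivity) (Real.rpow_le_rpow (by norm_num) hp2 hε.le) _
        refine le_trans ?_ h2
        rw [Real.rpow_def_of_pos (by norm_num : (0 : ℝ) < 2), ← Real.exp_nat_mul]
        have := Real.add_one_le_exp ((a : ℝ) * (Real.log 2 * ε))
        linarith only [this]
      have h3 : K * (1 + ε * Real.log 2 * a) = K + K * (ε * Real.log 2) * a := by ring
      have h4 : K * (ε * Real.log 2) = ε * Real.log 2 + 1 := by
        rw [hK]; field_simp
      calc (a : ℝ) + 1 ≤ K * (1 + ε * Real.log 2 * a) := by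
            rw [h3, h4]
            have : 0 ≤ ε * Real.log 2 * (a : ℝ) := by (clear * - hε; positivity)
            linarith only [this, hK1]
        _ ≤ K * ((p : ℝ) ^ ε) ^ a := mul_le_mul_of_nonneg_left h1 (by linarith only [hK1])
    · rw [one_mul]
      have h1 : (2 : ℝ) ≤ (p : ℝ) ^ ε := by
        have h2 : (2 : ℝ) ^ (1 / ε) ≤ p := by
          refine (Nat.le_ceil _).trans ?_
          exact_mod_cast not_lt.1 h
        calc (2 : ℝ) = ((2 : ℝ) ^ (1 / ε)) ^ ε := by
              rw [← Real.rpow_mul (by norm_num), one_div, inv_mul_cancel₀ hε.ne', Real.rpow_one]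
          _ ≤ (p : ℝ) ^ ε := Real.rpow_le_rpow (by positivity) h2 hε.le
      have h3 : a + 1 ≤ 2 ^ a := Nat.lt_two_pow_self
      calc (a : ℝ) + 1 ≤ (2 : ℝ) ^ a := by exact_mod_cast h3
        _ ≤ _ := pow_le_pow_left₀ (by norm_num) h1 _
  push_cast
  calc ∏ p ∈ n.primeFactors, ((n.factorization p : ℝ) + 1)
      ≤ ∏ p ∈ n.primeFactors, ((if p < P0 then K else 1) * ((p : ℝ) ^ ε) ^ (n.factorization p)) :=
        prod_le_prod (fun p _ => by (clear * -; positivity)) hfac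
    _ = (∏ p ∈ n.primeFactors, (if p < P0 then K else 1)) * (n : ℝ) ^ ε := by
        rw [prod_mul_distrib, ← hn']
    _ ≤ K ^ P0 * (n : ℝ) ^ ε := by
        refine mul_le_mul_of_nonneg_right ?_ (by positivity)
        rw [prod_ite, prod_const, prod_const_one, mul_one]
        refine pow_le_pow_right₀ hK1 ?_
        calc (n.primeFactors.filter fun p => p < P0).card ≤ (range P0).card := by
              refine card_le_card fun p hp => ?_
              exact mem_range.2 (mem_filter.1 hp).2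
          _ = P0 := card_range _

/-- polynomial with given coefficients -/
noncomputable def polyFin {m : ℕ} (t : Fin m → ℤ) : ℤ[X] := ∑ i : Fin m, monomial (i : ℕ) (t i)

theorem polyFin_coeff {m : ℕ} (t : Fin m → ℤ) (j : ℕ) :
    (polyFin t).coeff j = if h : j < m then t ⟨j, h⟩ else 0 := by
  unfold polyFin
  rw [finsetSum_coeff]
  simp only [coeff_monomial]
  split_ifs with h
  · rw [Finset.sum_eq_single (⟨j, h⟩ : Fin m)]
    · simp
    · intro b _ hb
      rw [if_neg]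
      intro hbj
      exact hb (Fin.ext hbj)
    · simp
  · apply Finset.sum_eq_zero
    intro b _
    rw [if_neg]
    intro hbj
    exact h (hbj ▸ b.2)

theorem polyFin_natDegree {m : ℕ} (t : Fin (m + 1) → ℤ) : (polyFin t).natDegree ≤ m := by
  rw [natDegree_le_iff_coeff_eq_zero]
  intro j hj
  rw [polyFin_coeff, dif_neg (by omega)]

theorem polyFin_eval {m : ℕ} (t : Fin m → ℤ) (x : ℤ) :
    (polyFin t).eval x = ∑ i : Fin m, t i * x ^ (i : ℕ) := by
  unfold polyFin
  rw [eval_finsetSum]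
  simp [eval_monomial]

open Matrix in
attribute [local instance] Matrix.seminormedAddCommGroup in
/-- Siegel's lemma for the curve `n A'(t) = B'(t)`. -/
theorem siegel_rational (a b T C : ℕ) (hT : 2 ≤ T) (Z : Finset (ℤ × ℤ)) (hZ : Z.card = a + b + 1)
    (hbox : ∀ z ∈ Z, |z.1| ≤ T ∧ |z.2| ≤ (T : ℤ) ^ C) :
    ∃ (t : Fin (a + 1) → ℤ) (s : Fin (b + 1) → ℤ), (t ≠ 0 ∨ s ≠ 0) ∧
      (∀ z ∈ Z, z.2 * (polyFin t).eval z.1 = (polyFin s).eval z.1) ∧
      (∀ i, |t i| ≤ (T : ℤ) ^ ((a + b + 2 + (C + a + b)) * (a + b + 1))) ∧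
      (∀ i, |s i| ≤ (T : ℤ) ^ ((a + b + 2 + (C + a + b)) * (a + b + 1))) := by
  classical
  let A : Matrix Z (Fin (a + 1) ⊕ Fin (b + 1)) ℤ := fun z m =>
    Sum.elim (fun i : Fin (a + 1) => z.1.2 * z.1.1 ^ (i : ℕ))
      (fun j : Fin (b + 1) => - z.1.1 ^ (j : ℕ)) m
  have hcardZ : Fintype.card Z = a + b + 1 := (Fintype.card_coe Z).trans hZ
  have hcardI : Fintype.card (Fin (a + 1) ⊕ Fin (b + 1)) = a + b + 2 := by
    simp
    ring
  obtain ⟨t, ht0, htA, htn⟩ := Int.Matrix.exists_ne_zero_int_vec_norm_le A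
    (by rw [hcardZ, hcardI]; omega) (by rw [hcardZ]; omega)
  have hT1 : (1 : ℝ) ≤ T := by exact_mod_cast (by omega : 1 ≤ T)
  have hT1' : (1 : ℤ) ≤ T := by exact_mod_cast (by omega : 1 ≤ T)
  have hAnorm : ‖A‖ ≤ (T : ℝ) ^ (C + a + b) := by
    rw [Matrix.norm_le_iff (by positivity)]
    intro z m
    rw [Int.norm_eq_abs]
    have hb := hbox z.1 z.2
    have h1 : |A z m| ≤ (T : ℤ) ^ (C + a + b) := by
      rcases m with i | j
      · show |z.1.2 * z.1.1 ^ (i : ℕ)| ≤ _
        rw [abs_mul, abs_pow]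
        calc |z.1.2| * |z.1.1| ^ (i : ℕ) ≤ (T : ℤ) ^ C * (T : ℤ) ^ (i : ℕ) := by
              gcongr
              · exact hb.2
              · exact hb.1
          _ = (T : ℤ) ^ (C + i) := by rw [pow_add]
          _ ≤ (T : ℤ) ^ (C + a + b) := pow_le_pow_right₀ hT1' (by omega)
      · show |- z.1.1 ^ (j : ℕ)| ≤ _
        rw [abs_neg, abs_pow]
        calc |z.1.1| ^ (j : ℕ) ≤ (T : ℤ) ^ (j : ℕ) := by
              gcongr
              exact hb.1
          _ ≤ (T : ℤ) ^ (C + a + b) := pow_le_pow_right₀ hT1' (by omega)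
    exact_mod_cast h1
  have hmax : max 1 ‖A‖ ≤ (T : ℝ) ^ (C + a + b) := max_le (one_le_pow₀ hT1) hAnorm
  have hNX : ((a + b + 2 : ℕ) : ℝ) ≤ (T : ℝ) ^ (a + b + 2) := by
    have h1 : a + b + 2 ≤ 2 ^ (a + b + 2) := (Nat.lt_two_pow_self).le
    have h2 : 2 ^ (a + b + 2) ≤ T ^ (a + b + 2) := Nat.pow_le_pow_left hT _
    exact_mod_cast h1.trans h2
  have hbase : ((a + b + 2 : ℕ) : ℝ) * max 1 ‖A‖ ≤ (T : ℝ) ^ (a + b + 2 + (C + a + b)) := by
    rw [pow_add]
    exact mul_le_mul hNX hmax (le_trans zero_le_one (le_max_left _ _)) (by positivity)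
  have hfinal : ‖t‖ ≤ (T : ℝ) ^ ((a + b + 2 + (C + a + b)) * (a + b + 1)) := by
    rw [hcardZ, hcardI] at htn
    refine htn.trans ?_
    have hexp : ((a + b + 1 : ℕ) : ℝ) / (((a + b + 2 : ℕ) : ℝ) - ((a + b + 1 : ℕ) : ℝ)) =
        ((a + b + 1 : ℕ) : ℝ) := by
      push_cast
      rw [show ((a : ℝ) + b + 2 - (a + b + 1)) = 1 by ring, div_one]
    rw [hexp, Real.rpow_natCast, pow_mul]
    exact pow_le_pow_left₀ (by (clear * -; positivity)) hbase _
  have hcoord : ∀ m, |t m| ≤ (T : ℤ) ^ ((a + b + 2 + (C + a + b)) * (a + b + 1)) := by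
    intro m
    have h3 := (norm_le_pi_norm t m).trans hfinal
    rw [Int.norm_eq_abs] at h3
    exact_mod_cast h3
  refine ⟨fun i => t (Sum.inl i), fun j => t (Sum.inr j), ?_, ?_, fun i => hcoord _,
    fun i => hcoord _⟩
  · by_contra hcon
    push Not at hcon
    apply ht0
    funext m
    rcases m with i | j
    · exact congrFun hcon.1 i
    · exact congrFun hcon.2 j
  · intro z hz
    have h1 : (A *ᵥ t) ⟨z, hz⟩ = 0 := by rw [htA]; rfl
    have h2 : (A *ᵥ t) ⟨z, hz⟩ = ∑ i : Fin (a + 1), z.2 * z.1 ^ (i : ℕ) * t (Sum.inl i) +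
        ∑ j : Fin (b + 1), (- z.1 ^ (j : ℕ)) * t (Sum.inr j) := by
      show ∑ m, A ⟨z, hz⟩ m * t m = _
      rw [Fintype.sum_sum_type]
      rfl
    rw [h2] at h1
    rw [polyFin_eval, polyFin_eval, mul_sum]
    have h3 : ∑ j : Fin (b + 1), (- z.1 ^ (j : ℕ)) * t (Sum.inr j) =
        - ∑ j : Fin (b + 1), t (Sum.inr j) * z.1 ^ (j : ℕ) := by
      rw [← sum_neg_distrib]
      exact sum_congr rfl fun j _ => by ring
    have h4 : ∑ i : Fin (a + 1), z.2 * z.1 ^ (i : ℕ) * t (Sum.inl i) =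
        ∑ i : Fin (a + 1), z.2 * (t (Sum.inl i) * z.1 ^ (i : ℕ)) :=
      sum_congr rfl fun j _ => by ring
    rw [h3, h4] at h1
    linarith


theorem polyFin_coeff_abs_le {m : ℕ} (t : Fin m → ℤ) (H : ℤ) (hH : 0 ≤ H) (ht : ∀ i, |t i| ≤ H)
    (j : ℕ) : |(polyFin t).coeff j| ≤ H := by
  rw [polyFin_coeff]
  split_ifs with h
  · exact ht _
  · simpa using hH

theorem polyFin_ne_zero {m : ℕ} (t : Fin m → ℤ) (ht : t ≠ 0) : polyFin t ≠ 0 := by
  intro h
  apply ht
  funext i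
  have h1 := polyFin_coeff t i
  rw [h, coeff_zero, dif_pos i.2] at h1
  exact h1.symm

/-- the curve `A(t) n = B(t)` is defined by integer polynomials of small height. -/
theorem rational_height (T C1 : ℕ) (hT : 2 ≤ T) (A B : ℚ[X]) (hAB : IsCoprime A B)
    (hA : 1 ≤ A.natDegree) (Z : Finset (ℤ × ℤ)) (hinj : Set.InjOn Prod.fst (Z : Set (ℤ × ℤ)))
    (hZ : ∀ z ∈ Z, |z.1| ≤ T ∧ |z.2| ≤ (T : ℤ) ^ C1 ∧
        (z.2 : ℚ) * A.eval (z.1 : ℚ) = B.eval (z.1 : ℚ))
    (hcard : Z.card = A.natDegree + B.natDegree + 1) :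
    ∃ (A' B' : ℤ[X]) (c : ℚ), c ≠ 0 ∧ A'.map (Int.castRingHom ℚ) = C c * A ∧
      B'.map (Int.castRingHom ℚ) = C c * B ∧
      ∀ i, |A'.coeff i| ≤ (T : ℤ) ^ ((A.natDegree + B.natDegree + 2 +
        (C1 + A.natDegree + B.natDegree)) * (A.natDegree + B.natDegree + 1)) ∧
        |B'.coeff i| ≤ (T : ℤ) ^ ((A.natDegree + B.natDegree + 2 +
        (C1 + A.natDegree + B.natDegree)) * (A.natDegree + B.natDegree + 1)) := by
  classical
  obtain ⟨t, s, hts, hz, ht, hs⟩ := siegel_rational A.natDegree B.natDegree T C1 hT Z hcard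
    (fun z hz => ⟨(hZ z hz).1, (hZ z hz).2.1⟩)
  have hinjZ : Function.Injective (Int.castRingHom ℚ) := Int.cast_injective
  have hA0 : A ≠ 0 := by
    rintro rfl
    simp at hA
  have hdA : ((polyFin t).map (Int.castRingHom ℚ)).natDegree ≤ A.natDegree :=
    natDegree_map_le.trans (polyFin_natDegree t)
  have hdB : ((polyFin s).map (Int.castRingHom ℚ)).natDegree ≤ B.natDegree :=
    natDegree_map_le.trans (polyFin_natDegree s)
  have hzero : (polyFin t).map (Int.castRingHom ℚ) * B - A * (polyFin s).map (Int.castRingHom ℚ)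
      = 0 := by
    apply eq_zero_of_natDegree_lt_card_of_eval_eq_zero' _ (Z.image fun z => (z.1 : ℚ))
    · intro i hi
      obtain ⟨z, hzZ, rfl⟩ := mem_image.1 hi
      have h1 := hz z hzZ
      have h2 := (hZ z hzZ).2.2
      rw [eval_sub, eval_mul, eval_mul, eval_intCast_map, eval_intCast_map, Int.cast_id, ← h1,
        ← h2]
      simp only [eq_intCast]
      push_cast
      ring
    · have h1 : (Z.image fun z => (z.1 : ℚ)).card = Z.card := by
        apply card_image_of_injOn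
        intro z hz w hw hzw
        exact hinj hz hw (Int.cast_injective (α := ℚ) hzw)
      rw [h1, hcard]
      refine lt_of_le_of_lt (natDegree_sub_le _ _) ?_
      refine lt_of_le_of_lt (max_le (natDegree_mul_le.trans (Nat.add_le_add_right hdA _))
        (natDegree_mul_le.trans (Nat.add_le_add_left hdB _))) (Nat.lt_succ_self _)
  have heq := sub_eq_zero.1 hzero
  have hdvd : A ∣ (polyFin t).map (Int.castRingHom ℚ) :=
    hAB.dvd_of_dvd_mul_right (Dvd.intro _ heq.symm)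
  obtain ⟨u, hu⟩ := hdvd
  have hBu : (polyFin s).map (Int.castRingHom ℚ) = u * B := by
    rw [hu, mul_assoc] at heq
    exact (mul_left_cancel₀ hA0 heq).symm
  have hu0 : u ≠ 0 := by
    rintro rfl
    rw [mul_zero] at hu
    rw [zero_mul] at hBu
    have h1 : polyFin t = 0 := (Polynomial.map_eq_zero_iff hinjZ).1 hu
    have h2 : polyFin s = 0 := (Polynomial.map_eq_zero_iff hinjZ).1 hBu
    rcases hts with h | h
    · exact polyFin_ne_zero t h h1
    · exact polyFin_ne_zero s h h2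
  have hud : u.natDegree = 0 := by
    have h1 := natDegree_mul hA0 hu0
    rw [← hu] at h1
    omega
  obtain ⟨c, rfl⟩ := natDegree_eq_zero.1 hud
  have hT0 : (0 : ℤ) ≤ T := by positivity
  refine ⟨polyFin t, polyFin s, c, ?_, ?_, hBu, fun i => ⟨?_, ?_⟩⟩
  · rintro rfl
    exact hu0 (by simp)
  · rw [hu, mul_comm]
  · exact polyFin_coeff_abs_le t _ (by positivity) ht i
  · exact polyFin_coeff_abs_le s _ (by positivity) hs i

/-- the number of `t` for which `|A(t)|` is given. -/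
theorem card_fiber_le (A : ℤ[X]) (hA : A.natDegree ≠ 0) (Z : Finset ℤ) (m : ℕ)
    (hZ : ∀ t ∈ Z, (A.eval t).natAbs = m) : Z.card ≤ 2 * A.natDegree := by
  have hdeg : (A ^ 2 - C ((m : ℤ) ^ 2)).natDegree = 2 * A.natDegree := by
    rw [natDegree_sub_C, natDegree_pow]
  have hne : A ^ 2 - C ((m : ℤ) ^ 2) ≠ 0 := by
    intro h
    rw [h, natDegree_zero] at hdeg
    omega
  calc Z.card ≤ (A ^ 2 - C ((m : ℤ) ^ 2)).roots.toFinset.card := by
        refine card_le_card fun t ht => ?_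
        rw [Multiset.mem_toFinset, mem_roots hne, IsRoot.def]
        have h1 := hZ t ht
        have h2 : (A.eval t) ^ 2 = (m : ℤ) ^ 2 := by
          rw [← h1, Int.natCast_natAbs, sq_abs]
        simp [h2]
    _ ≤ Multiset.card (A ^ 2 - C ((m : ℤ) ^ 2)).roots := Multiset.toFinset_card_le _
    _ ≤ (A ^ 2 - C ((m : ℤ) ^ 2)).natDegree := card_roots' _
    _ = 2 * A.natDegree := hdeg

/-- Module M5. Few integer points on `A(t) n = B(t)` with `A` not constant. -/
theorem rational_case (D0 C1 : ℕ) (ε : ℝ) (hε : 0 < ε) :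
    ∃ K : ℝ, 0 < K ∧ ∀ T : ℕ, 2 ≤ T → ∀ A B : ℚ[X], IsCoprime A B → A.natDegree ≤ D0 →
      B.natDegree ≤ D0 → 1 ≤ A.natDegree → ∀ S : Finset (ℤ × ℤ),
      Set.InjOn Prod.fst (S : Set (ℤ × ℤ)) →
      (∀ z ∈ S, |z.1| ≤ T ∧ |z.2| ≤ (T : ℤ) ^ C1 ∧
        (z.2 : ℚ) * A.eval (z.1 : ℚ) = B.eval (z.1 : ℚ)) →
      (S.card : ℝ) ≤ K * (T : ℝ) ^ ε := by
  classical
  set E0 : ℕ := (D0 + D0 + 2 + (C1 + D0 + D0)) * (D0 + D0 + 1) with hE0
  set K1 : ℕ := E0 * (D0 + D0) with hK1
  obtain ⟨Cd, hCd1, hCd⟩ := divisor_bound (ε / (K1 + 1)) (by (clear * - hε; positivity))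
  set F : ℝ := (((D0 + D0).factorial : ℕ) : ℝ) ^ (ε / (K1 + 1)) with hF
  have hF0 : 0 ≤ F := by positivity
  refine ⟨(2 * D0 + 1) + 2 * D0 * (Cd * F), by (clear * - hCd1; positivity), ?_⟩
  intro T hT A B hAB hAD hBD hA1 S hinj hS
  have hT1 : (1 : ℝ) ≤ T := by exact_mod_cast (by omega : 1 ≤ T)
  have hT1' : (1 : ℤ) ≤ T := by exact_mod_cast (by omega : 1 ≤ T)
  have hTe : 1 ≤ (T : ℝ) ^ ε := Real.one_le_rpow hT1 hε.le
  by_cases hcard : S.card ≤ 2 * D0 + 1
  · calc (S.card : ℝ) ≤ (2 * D0 + 1 : ℝ) := by exact_mod_cast hcard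
      _ ≤ (2 * D0 + 1) + 2 * D0 * (Cd * F) := by
          have : 0 ≤ 2 * (D0 : ℝ) * (Cd * F) := by (clear * - hCd1; positivity)
          linarith only [this]
      _ ≤ ((2 * D0 + 1) + 2 * D0 * (Cd * F)) * (T : ℝ) ^ ε :=
          le_mul_of_one_le_right (by (clear * - hCd1; positivity)) hTe
  obtain ⟨Z, hZS, hZcard⟩ := exists_subset_card_eq
    (by omega : A.natDegree + B.natDegree + 1 ≤ S.card)
  obtain ⟨A', B', c, hc0, hA', hB', hcoef⟩ := rational_height T C1 hT A B hAB hA1 Z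
    (hinj.mono (by exact_mod_cast hZS)) (fun z hz => hS z (hZS hz)) hZcard
  have hinjZ : Function.Injective (Int.castRingHom ℚ) := Int.cast_injective
  have hdegA : A'.natDegree = A.natDegree := by
    rw [← natDegree_map_eq_of_injective hinjZ, hA', natDegree_C_mul hc0]
  have hdegB : B'.natDegree = B.natDegree := by
    rw [← natDegree_map_eq_of_injective hinjZ, hB', natDegree_C_mul hc0]
  have hcop : IsCoprime (A'.map (Int.castRingHom ℚ)) (B'.map (Int.castRingHom ℚ)) := by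
    have hu : IsUnit (C c : ℚ[X]) := isUnit_C.2 (isUnit_iff_ne_zero.2 hc0)
    rw [hA', hB', isCoprime_mul_unit_left hu]
    exact hAB
  have hRne : resultant A' B' A'.natDegree B'.natDegree ≠ 0 := by
    have h := resultant_ne_zero _ _ hcop
    rw [natDegree_map_eq_of_injective hinjZ, natDegree_map_eq_of_injective hinjZ,
      resultant_map_map] at h
    exact fun h0 => h (by rw [h0, map_zero])
  obtain ⟨u, v, -, -, huv⟩ := exists_mul_add_mul_eq_C_resultant A' B' le_rfl le_rfl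
    (Or.inl (by omega))
  set R := resultant A' B' A'.natDegree B'.natDegree with hR
  have hcurve : ∀ z ∈ S, z.2 * A'.eval z.1 = B'.eval z.1 := by
    intro z hz
    have h1 := (hS z hz).2.2
    have h2 : ((A'.eval z.1 : ℤ) : ℚ) = c * A.eval (z.1 : ℚ) := by
      have h := eval_intCast_map (Int.castRingHom ℚ) A' z.1
      rw [hA', eval_mul, eval_C] at h
      exact h.symm
    have h3 : ((B'.eval z.1 : ℤ) : ℚ) = c * B.eval (z.1 : ℚ) := by
      have h := eval_intCast_map (Int.castRingHom ℚ) B' z.1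
      rw [hB', eval_mul, eval_C] at h
      exact h.symm
    have h4 : ((z.2 * A'.eval z.1 : ℤ) : ℚ) = ((B'.eval z.1 : ℤ) : ℚ) := by
      push_cast
      rw [h2, h3, ← h1]
      ring
    exact_mod_cast h4
  have hdvd : ∀ z ∈ S, A'.eval z.1 ∣ R := by
    intro z hz
    have h8 := congrArg (fun g => g.eval z.1) huv
    simp only [eval_add, eval_mul, eval_C] at h8
    rw [← h8, ← hcurve z hz]
    exact dvd_add (Dvd.intro _ rfl) (Dvd.intro_left (z.2 * v.eval z.1) (by ring))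
  -- size of `R`
  have hEle : (A.natDegree + B.natDegree + 2 + (C1 + A.natDegree + B.natDegree)) *
      (A.natDegree + B.natDegree + 1) ≤ E0 := Nat.mul_le_mul (by omega) (by omega)
  have hTE : (T : ℤ) ^ ((A.natDegree + B.natDegree + 2 + (C1 + A.natDegree + B.natDegree)) *
      (A.natDegree + B.natDegree + 1)) ≤ (T : ℤ) ^ E0 := pow_le_pow_right₀ hT1' hEle
  have hRle : |R| ≤ ((D0 + D0).factorial : ℤ) * (T : ℤ) ^ K1 := by
    have h1 := resultant_abs_le A' B' ((T : ℤ) ^ E0) (by positivity)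
      (fun i => (hcoef i).1.trans hTE) (fun i => (hcoef i).2.trans hTE) A'.natDegree B'.natDegree
    refine h1.trans ?_
    have h2 : ((A'.natDegree + B'.natDegree).factorial : ℤ) ≤ ((D0 + D0).factorial : ℤ) := by
      exact_mod_cast Nat.factorial_le (by omega)
    refine mul_le_mul h2 ?_ (by positivity) (by positivity)
    rw [← pow_mul]
    exact pow_le_pow_right₀ hT1' (Nat.mul_le_mul_left _ (by omega))
  have hRn : R.natAbs ≠ 0 := by
    rwa [Ne, Int.natAbs_eq_zero]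
  have hRreal : (R.natAbs : ℝ) ≤ ((D0 + D0).factorial : ℝ) * (T : ℝ) ^ K1 := by
    rw [Int.abs_eq_natAbs] at hRle
    exact_mod_cast hRle
  have hdivle : (R.natAbs.divisors.card : ℝ) ≤ Cd * F * (T : ℝ) ^ ε := by
    refine (hCd _ hRn).trans ?_
    rw [mul_assoc]
    refine mul_le_mul_of_nonneg_left ?_ (by linarith only [hCd1])
    calc (R.natAbs : ℝ) ^ (ε / (K1 + 1))
        ≤ (((D0 + D0).factorial : ℝ) * (T : ℝ) ^ K1) ^ (ε / (K1 + 1)) :=
          Real.rpow_le_rpow (by (clear * - hRne; positivity)) hRreal (by (clear * - hε; positivity))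
      _ = F * ((T : ℝ) ^ K1) ^ (ε / (K1 + 1)) := by
          rw [Real.mul_rpow (by positivity) (by positivity)]
      _ ≤ F * (T : ℝ) ^ ε := by
          refine mul_le_mul_of_nonneg_left ?_ hF0
          rw [← Real.rpow_natCast, ← Real.rpow_mul (by positivity)]
          refine Real.rpow_le_rpow_of_exponent_le hT1 ?_
          rw [mul_div_assoc', div_le_iff₀ (by (clear * -; positivity))]
          linarith only [hε]
  have himg : S.image (fun z => (A'.eval z.1).natAbs) ⊆ R.natAbs.divisors := by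
    intro m hm
    obtain ⟨z, hz, rfl⟩ := mem_image.1 hm
    exact Nat.mem_divisors.2 ⟨Int.natAbs_dvd_natAbs.2 (hdvd z hz), hRn⟩
  have hfib : ∀ b ∈ S.image (fun z => (A'.eval z.1).natAbs),
      (S.filter fun z => (A'.eval z.1).natAbs = b).card ≤ 2 * D0 := by
    intro b _
    have hinj' : Set.InjOn Prod.fst
        ((S.filter fun z => (A'.eval z.1).natAbs = b : Finset (ℤ × ℤ)) : Set (ℤ × ℤ)) :=
      hinj.mono (by
        intro z hz
        simp only [coe_filter, Set.mem_ofPred_eq] at hz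
        exact hz.1)
    rw [← card_image_of_injOn hinj']
    refine (card_fiber_le A' (by omega) _ b ?_).trans (by omega)
    intro t ht
    obtain ⟨z, hz, rfl⟩ := mem_image.1 ht
    exact (mem_filter.1 hz).2
  have hfinal : S.card ≤ 2 * D0 * R.natAbs.divisors.card :=
    (card_le_mul_card_image S (2 * D0) hfib).trans (Nat.mul_le_mul_left _ (card_le_card himg))
  calc (S.card : ℝ) ≤ 2 * D0 * (R.natAbs.divisors.card : ℝ) := by exact_mod_cast hfinal
    _ ≤ 2 * D0 * (Cd * F * (T : ℝ) ^ ε) := mul_le_mul_of_nonneg_left hdivle (by (clear * -; positivity))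
    _ = 2 * D0 * (Cd * F) * (T : ℝ) ^ ε := by ring
    _ ≤ ((2 * D0 + 1) + 2 * D0 * (Cd * F)) * (T : ℝ) ^ ε := by
        refine mul_le_mul_of_nonneg_right ?_ (by positivity)
        have : (0 : ℝ) ≤ 2 * D0 + 1 := by (clear * -; positivity)
        linarith only [this]

end Vale.Agent.P018
end

section

/-! # P018, quartics: local part of the gap lemma. -/

namespace Vale.Agent.P018.Q.Gap

open Polynomial

/-- the wedge product of two integer vectors -/
def wd (k l : ℤ × ℤ) : ℤ := k.1 * l.2 - l.1 * k.2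

section hom

variable {R : Type*} [CommRing R]

theorem hom_map {R' : Type*} [CommRing R'] (φ : R →+* R') (D : ℕ) (A : ℤ[X]) (s t : R) :
    φ (hom D A s t) = hom D A (φ s) (φ t) := by
  simp [hom, map_sum, map_mul, map_pow]

theorem hom_add (D : ℕ) (A B : ℤ[X]) (s t : R) :
    hom D (A + B) s t = hom D A s t + hom D B s t := by
  simp only [hom, ← Finset.sum_add_distrib]
  refine Finset.sum_congr rfl fun i _ => ?_
  rw [coeff_add]; push_cast; ring

theorem hom_sub (D : ℕ) (A B : ℤ[X]) (s t : R) :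
    hom D (A - B) s t = hom D A s t - hom D B s t := by
  simp only [hom, ← Finset.sum_sub_distrib]
  refine Finset.sum_congr rfl fun i _ => ?_
  rw [coeff_sub]; push_cast; ring

theorem hom_zero (D : ℕ) (s t : R) : hom D (0 : ℤ[X]) s t = 0 := by
  simp [hom]

theorem hom_sum {ι : Type*} (D : ℕ) (S : Finset ι) (f : ι → ℤ[X]) (s t : R) :
    hom D (∑ i ∈ S, f i) s t = ∑ i ∈ S, hom D (f i) s t := by
  classical
  induction S using Finset.induction_on with
  | empty => simp [hom_zero]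
  | insert a S ha ih => rw [Finset.sum_insert ha, Finset.sum_insert ha, hom_add, ih]

theorem hom_monomial (D i : ℕ) (hi : i ≤ D) (a : ℤ) (s t : R) :
    hom D (monomial i a) s t = (a : R) * s ^ i * t ^ (D - i) := by
  unfold hom
  rw [Finset.sum_eq_single i]
  · simp
  · intro j _ hj
    simp [coeff_monomial, hj.symm]
  · intro h; exact absurd (Finset.mem_range.2 (by omega)) h

theorem hom_succ (D : ℕ) (A : ℤ[X]) (hA : A.natDegree ≤ D) (s t : R) :
    hom (D + 1) A s t = t * hom D A s t := by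
  unfold hom
  rw [Finset.sum_range_succ, coeff_eq_zero_of_natDegree_lt (by omega), Finset.mul_sum]
  simp only [Int.cast_zero, zero_mul, add_zero]
  refine Finset.sum_congr rfl fun i hi => ?_
  have : i ≤ D := by have := Finset.mem_range.1 hi; omega
  rw [show D + 1 - i = (D - i) + 1 by omega, pow_succ]
  ring

theorem hom_mul (m n : ℕ) (A B : ℤ[X]) (hA : A.natDegree ≤ m) (hB : B.natDegree ≤ n) (s t : R) :
    hom (m + n) (A * B) s t = hom m A s t * hom n B s t := by
  have h1 : A * B = ∑ i ∈ Finset.range (m + 1), ∑ j ∈ Finset.range (n + 1),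
      monomial (i + j) (A.coeff i * B.coeff j) := by
    conv_lhs => rw [as_sum_range' A (m + 1) (by omega), as_sum_range' B (n + 1) (by omega)]
    rw [Finset.sum_mul_sum]
    refine Finset.sum_congr rfl fun i _ => Finset.sum_congr rfl fun j _ => ?_
    rw [monomial_mul_monomial]
  rw [h1, hom_sum]
  simp only [hom_sum]
  rw [show hom m A s t * hom n B s t = ∑ i ∈ Finset.range (m + 1), ∑ j ∈ Finset.range (n + 1),
    ((A.coeff i : R) * s ^ i * t ^ (m - i)) * ((B.coeff j : R) * s ^ j * t ^ (n - j)) from by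
      rw [hom, hom, Finset.sum_mul_sum]]
  refine Finset.sum_congr rfl fun i hi => Finset.sum_congr rfl fun j hj => ?_
  have hi' : i ≤ m := by have := Finset.mem_range.1 hi; omega
  have hj' : j ≤ n := by have := Finset.mem_range.1 hj; omega
  rw [hom_monomial _ _ (by omega), show m + n - (i + j) = (m - i) + (n - j) by omega, pow_add,
    pow_add]
  push_cast
  ring

/-- derivative in the second variable -/
def dt (d : ℕ) (A : ℤ[X]) (s t : R) : R :=
  ∑ i ∈ Finset.range (d + 1), (A.coeff i : R) * ((d + 1 - i : ℕ) : R) * s ^ i * t ^ (d - i)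

theorem dt_map {R' : Type*} [CommRing R'] (φ : R →+* R') (D : ℕ) (A : ℤ[X]) (s t : R) :
    φ (dt D A s t) = dt D A (φ s) (φ t) := by
  simp [dt, map_sum, map_mul, map_pow]

/-- Euler -/
theorem euler (d : ℕ) (A : ℤ[X]) (s t : R) :
    s * hom d (derivative A) s t + t * dt d A s t = ((d + 1 : ℕ) : R) * hom (d + 1) A s t := by
  have h1 : s * hom d (derivative A) s t
      = ∑ i ∈ Finset.range (d + 2), (i : R) * (A.coeff i : R) * s ^ i * t ^ (d + 1 - i) := by
    rw [Finset.sum_range_succ']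
    simp only [hom, Finset.mul_sum, Nat.cast_zero, zero_mul, add_zero]
    refine Finset.sum_congr rfl fun i hi => ?_
    rw [coeff_derivative, show d + 1 - (i + 1) = d - i by omega]
    push_cast
    ring
  have h2 : t * dt d A s t
      = ∑ i ∈ Finset.range (d + 2), ((d + 1 - i : ℕ) : R) * (A.coeff i : R) * s ^ i
        * t ^ (d + 1 - i) := by
    rw [Finset.sum_range_succ]
    simp only [dt, Finset.mul_sum, Nat.sub_self, Nat.cast_zero, zero_mul, add_zero]
    refine Finset.sum_congr rfl fun i hi => ?_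
    have : i ≤ d := by have := Finset.mem_range.1 hi; omega
    rw [show (d + 1 - i) = (d - i) + 1 by omega, pow_succ]
    ring
  rw [h1, h2, ← Finset.sum_add_distrib, hom, Finset.mul_sum]
  refine Finset.sum_congr rfl fun i hi => ?_
  have : i ≤ d + 1 := by have := Finset.mem_range.1 hi; omega
  rw [Nat.cast_sub this]
  ring

theorem natDegree_wr (d : ℕ) (A B : ℤ[X]) (hA : A.natDegree ≤ d + 1) (hB : B.natDegree ≤ d + 1) :
    (wr A B).natDegree ≤ 2 * d := by
  have hA' : (derivative A).natDegree ≤ d := (natDegree_derivative_le A).trans (by omega)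
  have hB' : (derivative B).natDegree ≤ d := (natDegree_derivative_le B).trans (by omega)
  rw [natDegree_le_iff_coeff_eq_zero]
  intro N hN
  rcases Nat.lt_or_ge (2 * d + 1) N with h | h
  · rw [wr, coeff_sub, coeff_eq_zero_of_natDegree_lt, coeff_eq_zero_of_natDegree_lt, sub_self]
    · exact lt_of_le_of_lt (natDegree_mul_le) (by omega)
    · exact lt_of_le_of_lt (natDegree_mul_le) (by omega)
  · have hN' : N = 2 * d + 1 := by omega
    subst hN'
    rw [wr, coeff_sub, show 2 * d + 1 = (d + 1) + d by omega,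
      coeff_mul_add_eq_of_natDegree_le hA hB', show (d + 1) + d = d + (d + 1) by omega,
      coeff_mul_add_eq_of_natDegree_le hA' hB, coeff_derivative, coeff_derivative]
    ring

theorem wr1 (d : ℕ) (A B : ℤ[X]) (hA : A.natDegree ≤ d + 1) (hB : B.natDegree ≤ d + 1) (s t : R) :
    hom (d + 1) A s t * hom d (derivative B) s t - hom d (derivative A) s t * hom (d + 1) B s t
      = t * hom (2 * d) (wr A B) s t := by
  have hA' : (derivative A).natDegree ≤ d := (natDegree_derivative_le A).trans (by omega)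
  have hB' : (derivative B).natDegree ≤ d := (natDegree_derivative_le B).trans (by omega)
  rw [← hom_succ (2 * d) _ (natDegree_wr d A B hA hB), wr, hom_sub,
    show 2 * d + 1 = (d + 1) + d by omega, hom_mul (d + 1) d A _ hA hB',
    show (d + 1) + d = d + (d + 1) by omega, hom_mul d (d + 1) _ B hA' hB]

theorem wr2' (d : ℕ) (A B : ℤ[X]) (hA : A.natDegree ≤ d + 1) (hB : B.natDegree ≤ d + 1)
    (s t : R) :
    t * (hom (d + 1) A s t * dt d B s t - dt d A s t * hom (d + 1) B s t)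
      = t * (- s * hom (2 * d) (wr A B) s t) := by
  have e1 := euler d A s t
  have e2 := euler d B s t
  have e3 := wr1 d A B hA hB s t
  linear_combination (hom (d + 1) A s t) * e2 - (hom (d + 1) B s t) * e1 - s * e3

theorem wr2 (d : ℕ) (A B : ℤ[X]) (hA : A.natDegree ≤ d + 1) (hB : B.natDegree ≤ d + 1)
    (s t : ℤ) :
    hom (d + 1) A s t * dt d B s t - dt d A s t * hom (d + 1) B s t
      = - s * hom (2 * d) (wr A B) s t := by
  have h := mul_left_cancel₀ (X_ne_zero (R := ℤ))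
    (wr2' (R := ℤ[X]) d A B hA hB (C s) X)
  have h2 := congrArg (evalRingHom t) h
  simp only [map_sub, map_mul, map_neg, hom_map, dt_map, coe_evalRingHom, eval_C, eval_X] at h2
  exact h2

end hom

section lin

/-- the restriction of a form to a line -/
noncomputable def lin (D : ℕ) (A : ℤ[X]) (s t a b : ℤ) : ℤ[X] :=
  hom D A (C s + C a * X) (C t + C b * X)

theorem eval_lin (D : ℕ) (A : ℤ[X]) (s t a b x : ℤ) :
    (lin D A s t a b).eval x = hom D A (s + a * x) (t + b * x) := by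
  have := hom_map (evalRingHom x) D A (C s + C a * X) (C t + C b * X)
  simpa [lin] using this

theorem natDegree_lin (D : ℕ) (A : ℤ[X]) (s t a b : ℤ) : (lin D A s t a b).natDegree ≤ D := by
  unfold lin hom
  refine natDegree_sum_le_of_forall_le _ _ fun i hi => ?_
  have hi' : i ≤ D := by have := Finset.mem_range.1 hi; omega
  have h1 : ∀ u v : ℤ, (C u + C v * X : ℤ[X]).natDegree ≤ 1 := by
    intro u v
    refine (natDegree_add_le _ _).trans ?_
    simp only [natDegree_C, Nat.zero_max]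
    exact (natDegree_C_mul_le _ _).trans natDegree_X_le
  have h2 : ∀ (u v : ℤ) (n : ℕ), ((C u + C v * X : ℤ[X]) ^ n).natDegree ≤ n := by
    intro u v n
    refine natDegree_pow_le.trans ?_
    calc n * (C u + C v * X : ℤ[X]).natDegree ≤ n * 1 := Nat.mul_le_mul_left _ (h1 u v)
      _ = n := by ring
  have h3 : (((A.coeff i : ℤ) : ℤ[X])).natDegree = 0 := natDegree_intCast _
  refine natDegree_mul_le.trans ?_
  have h4 := natDegree_mul_le (p := ((A.coeff i : ℤ) : ℤ[X])) (q := (C s + C a * X : ℤ[X]) ^ i)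
  have h5 := h2 s a i
  have h6 := h2 t b (D - i)
  omega

theorem derivative_lin (d : ℕ) (A : ℤ[X]) (s t a b : ℤ) :
    (derivative (lin (d + 1) A s t a b)).eval 0
      = a * hom d (derivative A) s t + b * dt d A s t := by
  have h1 : a * hom d (derivative A) s t
      = ∑ i ∈ Finset.range (d + 2), A.coeff i * (i : ℤ) * s ^ (i - 1) * a * t ^ (d + 1 - i) := by
    rw [Finset.sum_range_succ']
    simp only [hom, Finset.mul_sum, Nat.cast_zero, mul_zero, zero_mul, add_zero, Int.cast_id]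
    refine Finset.sum_congr rfl fun i hi => ?_
    rw [coeff_derivative, show d + 1 - (i + 1) = d - i by omega, Nat.add_sub_cancel]
    push_cast
    ring
  have h2 : b * dt d A s t
      = ∑ i ∈ Finset.range (d + 2), A.coeff i * s ^ i * (((d + 1 - i : ℕ) : ℤ)
        * t ^ (d + 1 - i - 1) * b) := by
    rw [Finset.sum_range_succ]
    simp only [dt, Finset.mul_sum, Nat.sub_self, Nat.cast_zero, zero_mul, mul_zero, add_zero,
      Int.cast_id]
    refine Finset.sum_congr rfl fun i hi => ?_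
    have : i ≤ d := by have := Finset.mem_range.1 hi; omega
    rw [show d + 1 - i - 1 = d - i by omega]
    ring
  rw [h1, h2, ← Finset.sum_add_distrib, lin, hom, derivative_sum, eval_finsetSum]
  refine Finset.sum_congr rfl fun i hi => ?_
  simp only [derivative_mul, derivative_pow, derivative_intCast, derivative_add, derivative_C,
    derivative_X, zero_add, zero_mul, mul_one, eval_add, eval_mul, eval_pow, eval_C, eval_X,
    eval_intCast, mul_zero, add_zero, Int.cast_id]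
  ring

theorem fd (D : ℕ) (hD : 1 ≤ D) (f : ℤ[X]) (hf : f.natDegree ≤ D) (m : ℤ)
    (h : ∀ x : ℤ, m ∣ f.eval x) : m ∣ (D.factorial : ℤ) * (derivative f).eval 0 := by
  set g := divX f with hg
  have hfg : f = X * g + C (f.coeff 0) := by rw [hg, mul_comm]; exact (divX_mul_X_add f).symm
  have hgd : g.natDegree < D := by
    rw [hg, natDegree_divX_eq_natDegree_tsub_one]; omega
  have hg0 : (derivative f).eval 0 = g.eval 0 := by
    conv_lhs => rw [hfg]
    simp
  have hk : ∀ k : ℕ, ((k : ℤ) + 1) * g.eval ((k : ℤ) + 1) = f.eval ((k : ℤ) + 1) - f.eval 0 := by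
    intro k
    conv_rhs => rw [hfg]
    simp
  have h0 := congrFun (Polynomial.fwdDiff_iter_eq_zero_of_degree_lt (P := g) (n := D) hgd) 0
  rw [fwdDiff_iter_eq_sum_shift, Finset.sum_range_succ'] at h0
  simp only [Pi.zero_apply, zero_add, Nat.sub_zero, Nat.choose_zero_right, Nat.cast_one, mul_one,
    zero_smul, smul_eq_mul, nsmul_eq_mul, Nat.cast_add] at h0
  have h1 : m ∣ (D.factorial : ℤ) * ∑ k ∈ Finset.range D,
      ((-1) ^ (D - (k + 1)) * (D.choose (k + 1) : ℤ)) * g.eval ((k : ℤ) + 1) := by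
    rw [Finset.mul_sum]
    refine Finset.dvd_sum fun k hk' => ?_
    have hkD : k + 1 ≤ D := by have := Finset.mem_range.1 hk'; omega
    obtain ⟨r, hr⟩ : (k + 1) ∣ D.factorial := Nat.dvd_factorial (by omega) hkD
    rw [hr]
    push_cast
    rw [show ((k : ℤ) + 1) * (r : ℤ) * ((-1) ^ (D - (k + 1)) * (D.choose (k + 1) : ℤ)
      * g.eval ((k : ℤ) + 1)) = ((r : ℤ) * ((-1) ^ (D - (k + 1)) * (D.choose (k + 1) : ℤ)))
      * (((k : ℤ) + 1) * g.eval ((k : ℤ) + 1)) by ring, hk k]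
    exact Dvd.dvd.mul_left (dvd_sub (h _) (h _)) _
  rw [hg0]
  have h2 : (D.factorial : ℤ) * g.eval 0
      = - ((-1) ^ D * ((D.factorial : ℤ) * ∑ k ∈ Finset.range D,
      ((-1) ^ (D - (k + 1)) * (D.choose (k + 1) : ℤ)) * g.eval ((k : ℤ) + 1))) := by
    have h3 : ∑ k ∈ Finset.range D,
      ((-1) ^ (D - (k + 1)) * (D.choose (k + 1) : ℤ)) * g.eval ((k : ℤ) + 1)
        = - ((-1) ^ D * g.eval 0) := by
      linarith
    rw [h3]
    have h4 : ((-1 : ℤ) ^ D) * (-1) ^ D = 1 := by rw [← mul_pow]; simp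
    linear_combination (- (D.factorial : ℤ) * g.eval 0) * h4
  rw [h2]
  exact (dvd_neg.2 (Dvd.dvd.mul_left h1 _))

end lin

section loc

/-- primitive at `q` -/
def Pq (q : ℕ) (w : ℤ × ℤ) : Prop := ¬ ((q : ℤ) ∣ w.1 ∧ (q : ℤ) ∣ w.2)

/-- `A` and `B` are divisible by `q ^ e` on the ball of level `j` around `k` -/
def Good (D : ℕ) (A B : ℤ[X]) (q e j : ℕ) (k : ℤ × ℤ) : Prop :=
  ∀ w : ℤ × ℤ, Pq q w → (q : ℤ) ^ j ∣ wd w k →
    (q : ℤ) ^ e ∣ hom D A w.1 w.2 ∧ (q : ℤ) ^ e ∣ hom D B w.1 w.2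

theorem Pq_of_coprime (q : ℕ) (hq : q.Prime) (k : ℤ × ℤ) (hk : IsCoprime k.1 k.2) : Pq q k := by
  rintro ⟨h1, h2⟩
  obtain ⟨a, b, hab⟩ := hk
  have : (q : ℤ) ∣ 1 := by
    rw [← hab]; exact dvd_add (Dvd.dvd.mul_left h1 _) (Dvd.dvd.mul_left h2 _)
  exact hq.one_lt.ne' (by
    have := Int.natAbs_dvd_natAbs.2 this
    simpa using this)

/-- the local divisibility (L2) -/
theorem local_dvd (d : ℕ) (A B : ℤ[X]) (hA : A.natDegree ≤ d + 1) (hB : B.natDegree ≤ d + 1)
    (q : ℕ) (hq : q.Prime) (e j : ℕ) (k : ℤ × ℤ) (hk : IsCoprime k.1 k.2)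
    (hg : Good (d + 1) A B q e j k) :
    (q : ℤ) ^ (2 * e) ∣ ((d + 1).factorial : ℤ) * (q : ℤ) ^ j
      * hom (2 * d) (wr A B) k.1 k.2 := by
  obtain ⟨a, b, hab⟩ := hk
  have hw : ∀ x : ℤ, (q : ℤ) ^ e ∣ hom (d + 1) A (k.1 + (q : ℤ) ^ j * (-b) * x)
        (k.2 + (q : ℤ) ^ j * a * x) ∧
      (q : ℤ) ^ e ∣ hom (d + 1) B (k.1 + (q : ℤ) ^ j * (-b) * x)
        (k.2 + (q : ℤ) ^ j * a * x) := by
    intro x
    refine hg (k.1 + (q : ℤ) ^ j * (-b) * x, k.2 + (q : ℤ) ^ j * a * x) ?_ ?_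
    · refine Pq_of_coprime q hq _ ⟨a, b, ?_⟩
      show a * (k.1 + (q : ℤ) ^ j * (-b) * x) + b * (k.2 + (q : ℤ) ^ j * a * x) = 1
      linear_combination hab
    · refine ⟨-x, ?_⟩
      show (k.1 + (q : ℤ) ^ j * (-b) * x) * k.2 - k.1 * (k.2 + (q : ℤ) ^ j * a * x) = _
      linear_combination (- (q : ℤ) ^ j * x) * hab
  have h1 := fd (d + 1) (by omega) (lin (d + 1) A k.1 k.2 ((q : ℤ) ^ j * (-b)) ((q : ℤ) ^ j * a))
    (natDegree_lin _ _ _ _ _ _) ((q : ℤ) ^ e) (fun x => by rw [eval_lin]; exact (hw x).1)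
  have h2 := fd (d + 1) (by omega) (lin (d + 1) B k.1 k.2 ((q : ℤ) ^ j * (-b)) ((q : ℤ) ^ j * a))
    (natDegree_lin _ _ _ _ _ _) ((q : ℤ) ^ e) (fun x => by rw [eval_lin]; exact (hw x).2)
  rw [derivative_lin] at h1 h2
  have h3 : (q : ℤ) ^ e ∣ hom (d + 1) A k.1 k.2 := by simpa using (hw 0).1
  have h4 : (q : ℤ) ^ e ∣ hom (d + 1) B k.1 k.2 := by simpa using (hw 0).2
  have i1 := wr1 (R := ℤ) d A B hA hB k.1 k.2
  have i2 := wr2 d A B hA hB k.1 k.2
  have key : ((d + 1).factorial : ℤ) * (q : ℤ) ^ j * hom (2 * d) (wr A B) k.1 k.2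
      = (((d + 1).factorial : ℤ) * ((q : ℤ) ^ j * (-b) * hom d (derivative A) k.1 k.2
          + (q : ℤ) ^ j * a * dt d A k.1 k.2)) * hom (d + 1) B k.1 k.2
        - hom (d + 1) A k.1 k.2 * (((d + 1).factorial : ℤ) * ((q : ℤ) ^ j * (-b)
          * hom d (derivative B) k.1 k.2 + (q : ℤ) ^ j * a * dt d B k.1 k.2)) := by
    linear_combination (-((d + 1).factorial : ℤ) * (q : ℤ) ^ j * b) * i1
      + (((d + 1).factorial : ℤ) * (q : ℤ) ^ j * a) * i2
      - (((d + 1).factorial : ℤ) * (q : ℤ) ^ j * hom (2 * d) (wr A B) k.1 k.2) * hab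
  rw [key, two_mul, pow_add]
  exact dvd_sub (mul_dvd_mul h1 h4) (mul_dvd_mul h3 h2)

theorem wd_dvd (q : ℕ) (hq : q.Prime) (j : ℕ) (w k l : ℤ × ℤ) (hk : Pq q k)
    (h1 : (q : ℤ) ^ j ∣ wd w k) (h2 : (q : ℤ) ^ j ∣ wd k l) : (q : ℤ) ^ j ∣ wd w l := by
  have hqi : Prime (q : ℤ) := Nat.prime_iff_prime_int.1 hq
  have i1 : k.1 * wd w l = wd w k * l.1 + wd k l * w.1 := by unfold wd; ring
  have i2 : k.2 * wd w l = wd w k * l.2 + wd k l * w.2 := by unfold wd; ring
  by_cases hc : (q : ℤ) ∣ k.1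
  · have hc2 : ¬ (q : ℤ) ∣ k.2 := fun h => hk ⟨hc, h⟩
    have : (q : ℤ) ^ j ∣ k.2 * wd w l := by
      rw [i2]; exact dvd_add (Dvd.dvd.mul_right h1 _) (Dvd.dvd.mul_right h2 _)
    exact hqi.pow_dvd_of_dvd_mul_left j hc2 this
  · have : (q : ℤ) ^ j ∣ k.1 * wd w l := by
      rw [i1]; exact dvd_add (Dvd.dvd.mul_right h1 _) (Dvd.dvd.mul_right h2 _)
    exact hqi.pow_dvd_of_dvd_mul_left j hc this

theorem wd_comm_dvd (m : ℤ) (k l : ℤ × ℤ) (h : m ∣ wd k l) : m ∣ wd l k := by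
  have : wd l k = - wd k l := by unfold wd; ring
  rw [this]; exact (dvd_neg.2 h)

theorem Good.move {D : ℕ} {A B : ℤ[X]} {q e j : ℕ} (hq : q.Prime) {k l : ℤ × ℤ}
    (hl : Pq q l) (hg : Good D A B q e j k) (h : (q : ℤ) ^ j ∣ wd k l) :
    Good D A B q e j l := fun w hw hwl =>
  hg w hw (wd_dvd q hq j w l k hl hwl (wd_comm_dvd _ _ _ h))

/-- same maximal ball -/
def Rel (D : ℕ) (A B : ℤ[X]) (q e : ℕ) (k l : ℤ × ℤ) : Prop :=
  ∃ j, Good D A B q e j k ∧ (q : ℤ) ^ j ∣ wd k l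

theorem Rel.symm {D : ℕ} {A B : ℤ[X]} {q e : ℕ} (hq : q.Prime) {k l : ℤ × ℤ}
    (hl : Pq q l) (h : Rel D A B q e k l) : Rel D A B q e l k := by
  obtain ⟨j, hj, hd⟩ := h
  exact ⟨j, hj.move hq hl hd, wd_comm_dvd _ _ _ hd⟩

theorem Rel.trans {D : ℕ} {A B : ℤ[X]} {q e : ℕ} (hq : q.Prime) {k l m : ℤ × ℤ}
    (hk : Pq q k) (hl : Pq q l) (h1 : Rel D A B q e k l) (h2 : Rel D A B q e l m) :
    Rel D A B q e k m := by
  obtain ⟨j1, g1, d1⟩ := h1
  obtain ⟨j2, g2, d2⟩ := h2
  rcases le_total j1 j2 with h | h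
  · exact ⟨j1, g1, wd_dvd q hq j1 k l m hl d1 ((pow_dvd_pow _ h).trans d2)⟩
  · have d1' : (q : ℤ) ^ j2 ∣ wd k l := (pow_dvd_pow _ h).trans d1
    exact ⟨j2, g2.move hq hk (wd_comm_dvd _ _ _ d1'), wd_dvd q hq j2 k l m hl d1' d2⟩

theorem hom_smul {R : Type*} [CommRing R] (D : ℕ) (A : ℤ[X]) (c s t : R) :
    hom D A (c * s) (c * t) = c ^ D * hom D A s t := by
  unfold hom
  rw [Finset.mul_sum]
  refine Finset.sum_congr rfl fun i hi => ?_
  have : i ≤ D := by have := Finset.mem_range.1 hi; omega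
  rw [mul_pow, mul_pow, show c ^ D = c ^ i * c ^ (D - i) by rw [← pow_add]; congr 1; omega]
  ring

theorem hom_congr (D : ℕ) (A : ℤ[X]) (m s t s' t' : ℤ) (hs : m ∣ s - s') (ht : m ∣ t - t')
    (h : m ∣ hom D A s' t') : m ∣ hom D A s t := by
  have e1 : ((s : ℤ) : ZMod m.natAbs) = (s' : ZMod m.natAbs) := by
    rw [ZMod.intCast_eq_intCast_iff_dvd_sub]
    have : s' - s = -(s - s') := by ring
    rw [this]; exact (dvd_neg.2 (Int.natAbs_dvd.2 hs))
  have e2 : ((t : ℤ) : ZMod m.natAbs) = (t' : ZMod m.natAbs) := by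
    rw [ZMod.intCast_eq_intCast_iff_dvd_sub]
    have : t' - t = -(t - t') := by ring
    rw [this]; exact (dvd_neg.2 (Int.natAbs_dvd.2 ht))
  have e3 : ((hom D A s t : ℤ) : ZMod m.natAbs) = ((hom D A s' t' : ℤ) : ZMod m.natAbs) := by
    have h1 := hom_map (Int.castRingHom (ZMod m.natAbs)) D A s t
    have h2 := hom_map (Int.castRingHom (ZMod m.natAbs)) D A s' t'
    simp only [Int.coe_castRingHom] at h1 h2
    rw [h1, h2, e1, e2]
  have h4 : ((hom D A s' t' : ℤ) : ZMod m.natAbs) = 0 := by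
    rw [ZMod.intCast_zmod_eq_zero_iff_dvd]; exact Int.natAbs_dvd.2 h
  rw [h4, ZMod.intCast_zmod_eq_zero_iff_dvd] at e3
  exact Int.natAbs_dvd.1 e3

theorem good_top (D : ℕ) (A B : ℤ[X]) (q : ℕ) (hq : q.Prime) (e : ℕ) (k : ℤ × ℤ) (hk : Pq q k)
    (hA : (q : ℤ) ^ e ∣ hom D A k.1 k.2) (hB : (q : ℤ) ^ e ∣ hom D B k.1 k.2) :
    Good D A B q e e k := by
  have hqi : Prime (q : ℤ) := Nat.prime_iff_prime_int.1 hq
  have main : ∀ F : ℤ[X], (q : ℤ) ^ e ∣ hom D F k.1 k.2 → ∀ w : ℤ × ℤ, (q : ℤ) ^ e ∣ wd w k →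
      (q : ℤ) ^ e ∣ hom D F w.1 w.2 := by
    intro F hF w hw
    by_cases hc : (q : ℤ) ∣ k.1
    · have hc2 : ¬ (q : ℤ) ∣ k.2 := fun h => hk ⟨hc, h⟩
      have h1 : (q : ℤ) ^ e ∣ hom D F (k.2 * w.1) (k.2 * w.2) := by
        refine hom_congr D F _ _ _ (w.2 * k.1) (w.2 * k.2) ?_ ?_ ?_
        · have : k.2 * w.1 - w.2 * k.1 = wd w k := by unfold wd; ring
          rw [this]; exact hw
        · have : k.2 * w.2 - w.2 * k.2 = 0 := by ring
          rw [this]; exact dvd_zero _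
        · rw [hom_smul]; exact Dvd.dvd.mul_left hF _
      rw [hom_smul] at h1
      exact hqi.pow_dvd_of_dvd_mul_left e (fun h => hc2 (hqi.dvd_of_dvd_pow h)) h1
    · have h1 : (q : ℤ) ^ e ∣ hom D F (k.1 * w.1) (k.1 * w.2) := by
        refine hom_congr D F _ _ _ (w.1 * k.1) (w.1 * k.2) ?_ ?_ ?_
        · have : k.1 * w.1 - w.1 * k.1 = 0 := by ring
          rw [this]; exact dvd_zero _
        · have : k.1 * w.2 - w.1 * k.2 = - wd w k := by unfold wd; ring
          rw [this]; exact (dvd_neg.2 hw)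
        · rw [hom_smul]; exact Dvd.dvd.mul_left hF _
      rw [hom_smul] at h1
      exact hqi.pow_dvd_of_dvd_mul_left e (fun h => hc (hqi.dvd_of_dvd_pow h)) h1
  exact fun w _ hw => ⟨main A hA w hw, main B hB w hw⟩

end loc

section lag

/-- homogenisation over `ℚ` -/
def hQ (D : ℕ) (f : ℚ[X]) (s t : ℚ) : ℚ :=
  ∑ i ∈ Finset.range (D + 1), f.coeff i * s ^ i * t ^ (D - i)

theorem hQ_sub (D : ℕ) (f g : ℚ[X]) (s t : ℚ) : hQ D (f - g) s t = hQ D f s t - hQ D g s t := by
  simp only [hQ, ← Finset.sum_sub_distrib]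
  refine Finset.sum_congr rfl fun i _ => ?_
  rw [coeff_sub]; ring

theorem hQ_C_mul (D : ℕ) (c : ℚ) (f : ℚ[X]) (s t : ℚ) :
    hQ D (C c * f) s t = c * hQ D f s t := by
  simp only [hQ, Finset.mul_sum]
  refine Finset.sum_congr rfl fun i _ => ?_
  rw [coeff_C_mul]; ring

theorem hQ_sum {ι : Type*} (D : ℕ) (S : Finset ι) (f : ι → ℚ[X]) (s t : ℚ) :
    hQ D (∑ i ∈ S, f i) s t = ∑ i ∈ S, hQ D (f i) s t := by
  classical
  induction S using Finset.induction_on with
  | empty => simp [hQ]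
  | insert a S ha ih =>
    rw [Finset.sum_insert ha, Finset.sum_insert ha, ← ih]
    simp only [hQ, ← Finset.sum_add_distrib]
    refine Finset.sum_congr rfl fun i _ => ?_
    rw [coeff_add]; ring

theorem hQ_map (D : ℕ) (A : ℤ[X]) (s t : ℤ) :
    hQ D (A.map (Int.castRingHom ℚ)) s t = ((hom D A s t : ℤ) : ℚ) := by
  simp [hQ, hom]

theorem hQ_ne (D : ℕ) (f : ℚ[X]) (hf : f.natDegree ≤ D) (s t : ℚ) (ht : t ≠ 0) :
    hQ D f s t = t ^ D * f.eval (s / t) := by
  rw [eval_eq_sum_range' (n := D + 1) (by omega), hQ, Finset.mul_sum]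
  refine Finset.sum_congr rfl fun i hi => ?_
  have : i ≤ D := by have := Finset.mem_range.1 hi; omega
  rw [div_pow, show t ^ D = t ^ (D - i) * t ^ i by rw [← pow_add]; congr 1; omega]
  field_simp

theorem hQ_zero' (D : ℕ) (f : ℚ[X]) (s : ℚ) : hQ D f s 0 = f.coeff D * s ^ D := by
  rw [hQ, Finset.sum_range_succ, Finset.sum_eq_zero]
  · simp
  · intro i hi
    have : D - i ≠ 0 := by have := Finset.mem_range.1 hi; omega
    rw [zero_pow this, mul_zero]

theorem natDegree_prod_lin {ι : Type*} (S : Finset ι) (a b : ι → ℚ) :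
    (∏ l ∈ S, (C (a l) * X - C (b l))).natDegree ≤ S.card := by
  refine (natDegree_prod_le _ _).trans ?_
  refine (Finset.sum_le_card_nsmul S _ 1 fun l _ => ?_).trans (by simp)
  refine (natDegree_sub_le _ _).trans ?_
  simp only [natDegree_C, Nat.max_zero]
  exact (natDegree_C_mul_le _ _).trans natDegree_X_le

theorem hQ_prod {ι : Type*} (S : Finset ι) (a b : ι → ℚ) (s t : ℚ) :
    hQ S.card (∏ l ∈ S, (C (a l) * X - C (b l))) s t = ∏ l ∈ S, (a l * s - b l * t) := by
  by_cases ht : t = 0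
  · subst ht
    rw [hQ_zero']
    have h1 : (∏ l ∈ S, (C (a l) * X - C (b l))).coeff S.card = ∏ l ∈ S, a l := by
      have := coeff_prod_of_natDegree_le (s := S) (f := fun l => (C (a l) * X - C (b l))) (n := 1)
        (fun l _ => by
          refine (natDegree_sub_le _ _).trans ?_
          simp only [natDegree_C, Nat.max_zero]
          exact (natDegree_C_mul_le _ _).trans natDegree_X_le)
      rw [mul_one] at this
      rw [this]
      refine Finset.prod_congr rfl fun l _ => ?_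
      simp [coeff_C]
    rw [h1, ← Finset.prod_const, ← Finset.prod_mul_distrib]
    refine Finset.prod_congr rfl fun l _ => ?_
    ring
  · rw [hQ_ne _ _ (natDegree_prod_lin S a b) _ _ ht, eval_prod, ← Finset.prod_const,
      ← Finset.prod_mul_distrib]
    refine Finset.prod_congr rfl fun l _ => ?_
    simp only [eval_sub, eval_mul, eval_C, eval_X]
    field_simp

theorem lagrange (d : ℕ) (A : ℤ[X]) (hA : A.natDegree ≤ d + 1) (k : Fin (d + 2) → ℤ × ℤ)
    (hk : ∀ m l, m ≠ l → wd (k m) (k l) ≠ 0) (w : ℤ × ℤ) :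
    ((hom (d + 1) A w.1 w.2 : ℤ) : ℚ) = ∑ m, ((hom (d + 1) A (k m).1 (k m).2 : ℤ) : ℚ)
      * (∏ l ∈ Finset.univ.erase m, (wd w (k l) : ℚ))
        / (∏ l ∈ Finset.univ.erase m, (wd (k m) (k l) : ℚ)) := by
  classical
  set P : Fin (d + 2) → ℚ[X] := fun m =>
    ∏ l ∈ Finset.univ.erase m, (C ((k l).2 : ℚ) * X - C ((k l).1 : ℚ)) with hP
  set c : Fin (d + 2) → ℚ := fun m => ((hom (d + 1) A (k m).1 (k m).2 : ℤ) : ℚ)
    / (∏ l ∈ Finset.univ.erase m, (wd (k m) (k l) : ℚ)) with hc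
  set h : ℚ[X] := A.map (Int.castRingHom ℚ) - ∑ m, C (c m) * P m with hh
  have hcard : ∀ m : Fin (d + 2), (Finset.univ.erase m).card = d + 1 := by
    intro m; rw [Finset.card_erase_of_mem (Finset.mem_univ m)]; simp
  have hPv : ∀ (m : Fin (d + 2)) (v : ℤ × ℤ), hQ (d + 1) (P m) v.1 v.2
      = ∏ l ∈ Finset.univ.erase m, (wd v (k l) : ℚ) := by
    intro m v
    have := hQ_prod (Finset.univ.erase m) (fun l => ((k l).2 : ℚ)) (fun l => ((k l).1 : ℚ))
      (v.1 : ℚ) (v.2 : ℚ)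
    rw [hcard m] at this
    rw [hP, this]
    refine Finset.prod_congr rfl fun l _ => ?_
    unfold wd
    push_cast
    ring
  have hhv : ∀ v : ℤ × ℤ, hQ (d + 1) h v.1 v.2 = ((hom (d + 1) A v.1 v.2 : ℤ) : ℚ)
      - ∑ m, c m * ∏ l ∈ Finset.univ.erase m, (wd v (k l) : ℚ) := by
    intro v
    rw [hh, hQ_sub, hQ_map, hQ_sum]
    congr 1
    refine Finset.sum_congr rfl fun m _ => ?_
    rw [hQ_C_mul, hPv]
  have hhk : ∀ m, hQ (d + 1) h (k m).1 (k m).2 = 0 := by
    intro m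
    rw [hhv, Finset.sum_eq_single m]
    · rw [hc]
      have : (∏ l ∈ Finset.univ.erase m, (wd (k m) (k l) : ℚ)) ≠ 0 := by
        rw [Finset.prod_ne_zero_iff]
        intro l hl
        have := hk m l (Finset.ne_of_mem_erase hl).symm
        exact_mod_cast this
      field_simp
      ring
    · intro m' _ hm'
      rw [Finset.prod_eq_zero (i := m)]
      · ring
      · exact Finset.mem_erase.2 ⟨hm'.symm, Finset.mem_univ _⟩
      · have : wd (k m) (k m) = 0 := by unfold wd; ring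
        rw [this]; simp
    · intro h; exact absurd (Finset.mem_univ _) h
  have hdeg : h.natDegree ≤ d + 1 := by
    rw [hh]
    refine (natDegree_sub_le _ _).trans (max_le ((natDegree_map_le).trans hA) ?_)
    refine natDegree_sum_le_of_forall_le _ _ fun m _ => ?_
    refine (natDegree_C_mul_le _ _).trans ?_
    have := natDegree_prod_lin (Finset.univ.erase m) (fun l => ((k l).2 : ℚ))
      (fun l => ((k l).1 : ℚ))
    rw [hcard m] at this
    exact this
  -- the roots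
  have hz : h = 0 := by
    by_contra hne
    set Z : Finset (Fin (d + 2)) := Finset.univ.filter fun m => (k m).2 ≠ 0 with hZ
    have hinj : Set.InjOn (fun m => (((k m).1 : ℚ) / ((k m).2 : ℚ))) (Z : Set (Fin (d + 2))) := by
      intro m hm l hl hml
      by_contra hne'
      have hm2 : ((k m).2 : ℚ) ≠ 0 := by
        have := (Finset.mem_filter.1 (Finset.mem_coe.1 hm)).2; exact_mod_cast this
      have hl2 : ((k l).2 : ℚ) ≠ 0 := by
        have := (Finset.mem_filter.1 (Finset.mem_coe.1 hl)).2; exact_mod_cast this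
      simp only at hml
      rw [div_eq_div_iff hm2 hl2] at hml
      have h1 := hk m l hne'
      apply h1
      have : ((wd (k m) (k l) : ℤ) : ℚ) = 0 := by
        unfold wd; push_cast; linarith
      exact_mod_cast this
    have hroots : ∀ m ∈ Z, h.eval (((k m).1 : ℚ) / ((k m).2 : ℚ)) = 0 := by
      intro m hm
      have hm2 : ((k m).2 : ℚ) ≠ 0 := by
        have := (Finset.mem_filter.1 hm).2; exact_mod_cast this
      have h1 := hhk m
      rw [hQ_ne _ _ hdeg _ _ hm2] at h1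
      exact (mul_eq_zero.1 h1).resolve_left (pow_ne_zero _ hm2)
    have hle : Z.card ≤ h.natDegree := by
      rw [← Finset.card_image_of_injOn hinj]
      refine (Finset.card_le_card ?_).trans (h.roots.toFinset_card_le.trans (card_roots' h))
      intro x hx
      obtain ⟨m, hm, rfl⟩ := Finset.mem_image.1 hx
      rw [Multiset.mem_toFinset, mem_roots hne]
      exact hroots m hm
    by_cases hall : ∀ m, (k m).2 ≠ 0
    · have : Z = Finset.univ := Finset.filter_true_of_mem fun m _ => hall m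
      rw [this, Finset.card_univ, Fintype.card_fin] at hle
      omega
    · push Not at hall
      obtain ⟨m0, hm0⟩ := hall
      have hs0 : (k m0).1 ≠ 0 := by
        intro hs
        obtain ⟨l, hl⟩ : ∃ l : Fin (d + 2), m0 ≠ l := by
          by_cases h0 : m0 = 0
          · exact ⟨1, by rw [h0]; exact (Fin.zero_ne_one)⟩
          · exact ⟨0, h0⟩
        apply hk m0 l hl
        unfold wd; rw [hs, hm0]; ring
      have h1 := hhk m0
      rw [hm0, Int.cast_zero, hQ_zero'] at h1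
      have hc0 : h.coeff (d + 1) = 0 := by
        refine (mul_eq_zero.1 h1).resolve_right (pow_ne_zero _ ?_)
        exact_mod_cast hs0
      have hlt : h.natDegree < d + 1 := by
        refine lt_of_le_of_ne hdeg fun heq => ?_
        apply hne
        rw [← leadingCoeff_eq_zero, leadingCoeff, heq, hc0]
      have hZe : Finset.univ.erase m0 ⊆ Z := by
        intro l hl
        refine Finset.mem_filter.2 ⟨Finset.mem_univ _, fun hl0 => ?_⟩
        apply hk m0 l (Finset.ne_of_mem_erase hl).symm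
        unfold wd; rw [hl0, hm0]; ring
      have := Finset.card_le_card hZe
      rw [hcard m0] at this
      omega
  have h2 := hhv w
  rw [hz] at h2
  have h3 : hQ (d + 1) (0 : ℚ[X]) w.1 w.2 = 0 := by simp [hQ]
  rw [h3] at h2
  have h4 : ((hom (d + 1) A w.1 w.2 : ℤ) : ℚ)
      = ∑ m, c m * ∏ l ∈ Finset.univ.erase m, (wd w (k l) : ℚ) := by linarith
  rw [h4]
  refine Finset.sum_congr rfl fun m _ => ?_
  rw [hc]; ring

end lag

section nrm

variable (q : ℕ) [hq : Fact q.Prime]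

theorem norm_prod {ι : Type*} (S : Finset ι) (f : ι → ℚ) :
    padicNorm q (∏ l ∈ S, f l) = ∏ l ∈ S, padicNorm q (f l) := by
  classical
  induction S using Finset.induction_on with
  | empty => simp
  | insert a S ha ih => rw [Finset.prod_insert ha, Finset.prod_insert ha, padicNorm.mul, ih]

theorem norm_wd (w k l : ℤ × ℤ) (hk : Pq q k) (t : ℚ) (h1 : padicNorm q (wd w k : ℤ) ≤ t)
    (h2 : padicNorm q (wd k l : ℤ) ≤ t) : padicNorm q (wd w l : ℤ) ≤ t := by
  have ht : 0 ≤ t := (padicNorm.nonneg _).trans h1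
  have gen : ∀ a b c : ℤ, ¬ (q : ℤ) ∣ a → a * wd w l = wd w k * b + wd k l * c →
      padicNorm q (wd w l : ℤ) ≤ t := by
    intro a b c ha h
    have e1 : padicNorm q (wd w l : ℤ) = padicNorm q ((a * wd w l : ℤ) : ℚ) := by
      rw [Int.cast_mul, padicNorm.mul, (padicNorm.int_eq_one_iff a).2 ha, one_mul]
    rw [e1, h, Int.cast_add, Int.cast_mul, Int.cast_mul]
    refine padicNorm.nonarchimedean.trans (max_le ?_ ?_)
    · rw [padicNorm.mul]
      exact (mul_le_mul h1 (padicNorm.of_int b) (padicNorm.nonneg _) ht).trans (by simp)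
    · rw [padicNorm.mul]
      exact (mul_le_mul h2 (padicNorm.of_int c) (padicNorm.nonneg _) ht).trans (by simp)
  by_cases hc : (q : ℤ) ∣ k.1
  · exact gen k.2 l.2 w.2 (fun h => hk ⟨hc, h⟩) (by unfold wd; ring)
  · exact gen k.1 l.1 w.1 hc (by unfold wd; ring)

theorem few (d : ℕ) (A B : ℤ[X]) (hA : A.natDegree ≤ d + 1) (hB : B.natDegree ≤ d + 1) (e : ℕ)
    (k : Fin (d + 2) → ℤ × ℤ) (hP : ∀ m, Pq q (k m))
    (hAk : ∀ m, (q : ℤ) ^ e ∣ hom (d + 1) A (k m).1 (k m).2)
    (hBk : ∀ m, (q : ℤ) ^ e ∣ hom (d + 1) B (k m).1 (k m).2)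
    (hR : ∀ m l, m ≠ l → ¬ Rel (d + 1) A B q e (k m) (k l)) : False := by
  classical
  have hne : ∀ m l, m ≠ l → wd (k m) (k l) ≠ 0 := by
    intro m l hml h0
    exact hR m l hml ⟨e, good_top _ A B q hq.out e _ (hP m) (hAk m) (hBk m), by
      rw [h0]; exact dvd_zero _⟩
  set P : Fin (d + 2) → ℚ := fun m => ∏ l ∈ Finset.univ.erase m,
    padicNorm q (wd (k m) (k l) : ℤ) with hPdef
  obtain ⟨i, _, hi⟩ := Finset.exists_min_image Finset.univ P ⟨0, Finset.mem_univ _⟩
  have hnon : (Finset.univ.erase i).Nonempty := by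
    rw [← Finset.card_pos, Finset.card_erase_of_mem (Finset.mem_univ i)]; simp
  obtain ⟨m0, hm0, hmin⟩ := Finset.exists_min_image (Finset.univ.erase i)
    (fun m => padicNorm q (wd (k i) (k m) : ℤ)) hnon
  have hm0i : m0 ≠ i := Finset.ne_of_mem_erase hm0
  have hwne : ((wd (k i) (k m0) : ℤ) : ℚ) ≠ 0 := by exact_mod_cast hne i m0 hm0i.symm
  obtain ⟨z, hz⟩ := padicNorm.values_discrete (p := q) hwne
  have hz0 : 0 ≤ z := by
    by_contra hlt
    push Not at hlt
    have h1 := padicNorm.of_int (p := q) (wd (k i) (k m0))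
    rw [hz] at h1
    have hq1 : (1 : ℚ) < q := by exact_mod_cast hq.out.one_lt
    have h2 : (1 : ℚ) < (q : ℚ) ^ (-z) := one_lt_zpow₀ hq1 (by omega)
    linarith only [h2, h1]
  obtain ⟨j, rfl⟩ := Int.eq_ofNat_of_zero_le hz0
  have hdj : (q : ℤ) ^ j ∣ wd (k i) (k m0) := by
    have := (padicNorm.dvd_iff_norm_le (p := q) (n := j) (z := wd (k i) (k m0))).2 (le_of_eq hz)
    exact_mod_cast this
  refine hR i m0 hm0i.symm ⟨j, ?_, hdj⟩
  intro w hw hwd
  have hwi : padicNorm q (wd w (k i) : ℤ) ≤ padicNorm q (wd (k i) (k m0) : ℤ) := by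
    rw [hz]
    exact (padicNorm.dvd_iff_norm_le (p := q) (n := j)).1 (by exact_mod_cast hwd)
  have hwi' : ∀ l, l ≠ i → padicNorm q (wd w (k i) : ℤ) ≤ padicNorm q (wd (k i) (k l) : ℤ) :=
    fun l hl => hwi.trans (hmin l (Finset.mem_erase.2 ⟨hl, Finset.mem_univ _⟩))
  have hwl : ∀ l, l ≠ i → padicNorm q (wd w (k l) : ℤ) ≤ padicNorm q (wd (k i) (k l) : ℤ) :=
    fun l hl => norm_wd q w (k i) (k l) (hP i) _ (hwi' l hl) le_rfl
  have hPpos : ∀ m, 0 < P m := by
    intro m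
    refine Finset.prod_pos fun l hl => ?_
    refine lt_of_le_of_ne (padicNorm.nonneg _) (Ne.symm (padicNorm.nonzero ?_))
    exact_mod_cast hne m l (Finset.ne_of_mem_erase hl).symm
  have hprod : ∀ m, ∏ l ∈ Finset.univ.erase m, padicNorm q (wd w (k l) : ℤ) ≤ P m := by
    intro m
    by_cases hmi : m = i
    · subst hmi
      exact Finset.prod_le_prod (fun l _ => padicNorm.nonneg _)
        fun l hl => hwl l (Finset.ne_of_mem_erase hl)
    · have him : i ∈ Finset.univ.erase m := Finset.mem_erase.2 ⟨fun h => hmi h.symm,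
        Finset.mem_univ _⟩
      have hmi' : m ∈ Finset.univ.erase i := Finset.mem_erase.2 ⟨hmi, Finset.mem_univ _⟩
      rw [← Finset.mul_prod_erase _ _ him]
      calc padicNorm q (wd w (k i) : ℤ) * ∏ l ∈ (Finset.univ.erase m).erase i,
            padicNorm q (wd w (k l) : ℤ)
          ≤ padicNorm q (wd (k i) (k m) : ℤ) * ∏ l ∈ (Finset.univ.erase m).erase i,
            padicNorm q (wd (k i) (k l) : ℤ) := by
            refine mul_le_mul (hwi' m hmi) ?_ (Finset.prod_nonneg fun l _ => padicNorm.nonneg _)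
              (padicNorm.nonneg _)
            exact Finset.prod_le_prod (fun l _ => padicNorm.nonneg _)
              fun l hl => hwl l (Finset.ne_of_mem_erase hl)
        _ = P i := by
            rw [Finset.erase_right_comm, Finset.mul_prod_erase _
              (fun l => padicNorm q (wd (k i) (k l) : ℤ)) hmi']
        _ ≤ P m := hi m (Finset.mem_univ _)
  have gen : ∀ F : ℤ[X], F.natDegree ≤ d + 1 →
      (∀ m, (q : ℤ) ^ e ∣ hom (d + 1) F (k m).1 (k m).2) →
      (q : ℤ) ^ e ∣ hom (d + 1) F w.1 w.2 := by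
    intro F hF hFk
    have goal : padicNorm q ((hom (d + 1) F w.1 w.2 : ℤ) : ℚ) ≤ (q : ℚ) ^ (-(e : ℤ)) := by
      rw [lagrange d F hF k hne w]
      refine padicNorm.sum_le' (fun m _ => ?_) (by (clear * -; positivity))
      rw [mul_div_assoc, padicNorm.mul, padicNorm.div, norm_prod, norm_prod]
      have h1 : padicNorm q ((hom (d + 1) F (k m).1 (k m).2 : ℤ) : ℚ) ≤ (q : ℚ) ^ (-(e : ℤ)) :=
        (padicNorm.dvd_iff_norm_le (p := q) (n := e)).1 (by exact_mod_cast hFk m)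
      have h2 : (∏ l ∈ Finset.univ.erase m, padicNorm q (wd w (k l) : ℤ))
          / (∏ l ∈ Finset.univ.erase m, padicNorm q (wd (k m) (k l) : ℤ)) ≤ 1 := by
        rw [div_le_one (hPpos m)]
        exact hprod m
      calc _ ≤ (q : ℚ) ^ (-(e : ℤ)) * 1 := by
            refine mul_le_mul h1 h2 ?_ (by (clear * -; positivity))
            exact div_nonneg (Finset.prod_nonneg fun l _ => padicNorm.nonneg _) (hPpos m).le
        _ = _ := mul_one _
    have := (padicNorm.dvd_iff_norm_le (p := q) (n := e)).2 goal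
    exact_mod_cast this
  exact ⟨gen A hA hAk, gen B hB hBk⟩

/-- pairwise inequivalent -/
def Ind (D : ℕ) (A B : ℤ[X]) (q e : ℕ) (T : Finset (ℤ × ℤ)) : Prop :=
  ∀ k ∈ T, ∀ l ∈ T, k ≠ l → ¬ Rel D A B q e k l

theorem classes (d : ℕ) (A B : ℤ[X]) (hA : A.natDegree ≤ d + 1) (hB : B.natDegree ≤ d + 1)
    (e : ℕ) (S : Finset (ℤ × ℤ)) (hP : ∀ k ∈ S, Pq q k)
    (hAk : ∀ k ∈ S, (q : ℤ) ^ e ∣ hom (d + 1) A k.1 k.2)
    (hBk : ∀ k ∈ S, (q : ℤ) ^ e ∣ hom (d + 1) B k.1 k.2) :
    ∃ rep : ℤ × ℤ → ℤ × ℤ, (S.image rep).card ≤ d + 1 ∧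
      ∀ k ∈ S, ∀ l ∈ S, rep k = rep l → Rel (d + 1) A B q e k l := by
  classical
  set 𝒯 := S.powerset.filter (Ind (d + 1) A B q e) with h𝒯
  have h0 : ∅ ∈ 𝒯 := by
    rw [h𝒯, Finset.mem_filter]
    exact ⟨Finset.mem_powerset.2 (Finset.empty_subset _), fun k hk => by simp at hk⟩
  obtain ⟨T, hT, hmax⟩ := Finset.exists_max_image 𝒯 Finset.card ⟨∅, h0⟩
  have hTS : T ⊆ S := Finset.mem_powerset.1 (Finset.mem_filter.1 hT).1
  have hTR : Ind (d + 1) A B q e T := (Finset.mem_filter.1 hT).2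
  have hcard : T.card ≤ d + 1 := by
    by_contra hlt
    push Not at hlt
    obtain ⟨T', hT'T, hT'c⟩ := Finset.exists_subset_card_eq (show d + 2 ≤ T.card by omega)
    let φ : Fin (d + 2) ≃ T' := (T'.equivFinOfCardEq hT'c).symm
    refine few q d A B hA hB e (fun m => (φ m : ℤ × ℤ)) ?_ ?_ ?_ ?_
    · exact fun m => hP _ (hTS (hT'T (φ m).2))
    · exact fun m => hAk _ (hTS (hT'T (φ m).2))
    · exact fun m => hBk _ (hTS (hT'T (φ m).2))
    · intro m l hml
      exact hTR _ (hT'T (φ m).2) _ (hT'T (φ l).2) fun h => hml (φ.injective (Subtype.ext h))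
  have hself : ∀ k ∈ S, Rel (d + 1) A B q e k k := fun k hk =>
    ⟨e, good_top _ A B q hq.out e k (hP k hk) (hAk k hk) (hBk k hk), by
      have : wd k k = 0 := by unfold wd; ring
      rw [this]; exact dvd_zero _⟩
  have hex : ∀ k : ℤ × ℤ, ∃ r : ℤ × ℤ, k ∈ S → r ∈ T ∧ Rel (d + 1) A B q e k r := by
    intro k
    by_cases hk : k ∈ S
    · by_cases hkT : k ∈ T
      · exact ⟨k, fun _ => ⟨hkT, hself k hk⟩⟩
      · have hnot : insert k T ∉ 𝒯 := by
          intro hin
          have := hmax _ hin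
          rw [Finset.card_insert_of_notMem hkT] at this
          omega
        have hsub : insert k T ⊆ S := Finset.insert_subset hk hTS
        have : ¬ ∀ x ∈ insert k T, ∀ y ∈ insert k T, x ≠ y → ¬ Rel (d + 1) A B q e x y := by
          intro hall
          exact hnot (Finset.mem_filter.2 ⟨Finset.mem_powerset.2 hsub, hall⟩)
        push Not at this
        obtain ⟨x, hx, y, hy, hxy, hR⟩ := this
        rcases Finset.mem_insert.1 hx with rfl | hx'
        · rcases Finset.mem_insert.1 hy with rfl | hy'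
          · exact absurd rfl hxy
          · exact ⟨y, fun _ => ⟨hy', hR⟩⟩
        · rcases Finset.mem_insert.1 hy with rfl | hy'
          · exact ⟨x, fun _ => ⟨hx', hR.symm hq.out (hP _ hk)⟩⟩
          · exact absurd hR (hTR x hx' y hy' hxy)
    · exact ⟨k, fun h => absurd h hk⟩
  choose rep hrep using hex
  refine ⟨rep, ?_, ?_⟩
  · refine (Finset.card_le_card ?_).trans hcard
    intro x hx
    obtain ⟨k, hk, rfl⟩ := Finset.mem_image.1 hx
    exact (hrep k hk).1
  · intro k hk l hl hkl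
    have h1 := (hrep k hk).2
    have h2 := (hrep l hl).2
    have hr := hTS (hrep k hk).1
    rw [← hkl] at h2
    exact h1.trans hq.out (hP k hk) (hP _ hr) (h2.symm hq.out (hP _ hr))

end nrm

section glob

/-- **the local part of the gap lemma**: the solutions with `A(k) = c ∣ B(k)` fall into at most
`(d+1) ^ ω(c)` colours, and two solutions `k, l` of the same colour satisfy
`c² ∣ (d+1)! (k ∧ l) W(k)`. -/
theorem gap_local (d : ℕ) (A B : ℤ[X]) (hA : A.natDegree ≤ d + 1) (hB : B.natDegree ≤ d + 1)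
    (c : ℤ) (hc : c ≠ 0) (S : Finset (ℤ × ℤ))
    (hS : ∀ k ∈ S, IsCoprime k.1 k.2 ∧ hom (d + 1) A k.1 k.2 = c ∧
      c ∣ hom (d + 1) B k.1 k.2) :
    ∃ col : ℤ × ℤ → ℕ, (∀ k ∈ S, col k < (d + 1) ^ c.natAbs.primeFactors.card) ∧
      ∀ k ∈ S, ∀ l ∈ S, col k = col l →
        c ^ 2 ∣ ((d + 1).factorial : ℤ) * wd k l * hom (2 * d) (wr A B) k.1 k.2 := by
  classical
  set pf := c.natAbs.primeFactors with hpf
  have hprime : ∀ q ∈ pf, q.Prime := fun q hq => Nat.prime_of_mem_primeFactors hq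
  have hcn : c.natAbs ≠ 0 := Int.natAbs_ne_zero.2 hc
  have hqe : ∀ q : ℕ, (q : ℤ) ^ (c.natAbs.factorization q) ∣ c := by
    intro q
    have h1 : q ^ c.natAbs.factorization q ∣ c.natAbs := Nat.ordProj_dvd _ _
    have h2 : ((q ^ c.natAbs.factorization q : ℕ) : ℤ) ∣ (c.natAbs : ℤ) := by exact_mod_cast h1
    rw [Int.natCast_natAbs] at h2
    push_cast at h2
    exact (dvd_abs _ _).1 h2
  have hex : ∀ q : ℕ, ∃ rep : ℤ × ℤ → ℤ × ℤ, q ∈ pf → (S.image rep).card ≤ d + 1 ∧
      ∀ k ∈ S, ∀ l ∈ S, rep k = rep l →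
        Rel (d + 1) A B q (c.natAbs.factorization q) k l := by
    intro q
    by_cases hq : q ∈ pf
    · have : Fact q.Prime := ⟨hprime q hq⟩
      obtain ⟨rep, h1, h2⟩ := classes q d A B hA hB (c.natAbs.factorization q) S
        (fun k hk => Pq_of_coprime q (hprime q hq) k (hS k hk).1)
        (fun k hk => by rw [(hS k hk).2.1]; exact hqe q)
        (fun k hk => (hqe q).trans (hS k hk).2.2)
      exact ⟨rep, fun _ => ⟨h1, h2⟩⟩
    · exact ⟨id, fun h => absurd h hq⟩
  choose rep hrep using hex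
  set g : ℤ × ℤ → ((q : ℕ) → q ∈ pf → ℤ × ℤ) := fun k q _ => rep q k with hg
  set I := S.image g with hI
  have hIc : I.card ≤ (d + 1) ^ pf.card := by
    have h1 : I ⊆ Finset.pi pf (fun q => S.image (rep q)) := by
      intro x hx
      obtain ⟨k, hk, rfl⟩ := Finset.mem_image.1 hx
      rw [Finset.mem_pi]
      intro q hq
      exact Finset.mem_image_of_mem _ hk
    refine (Finset.card_le_card h1).trans ?_
    rw [Finset.card_pi, ← Finset.prod_const]
    exact Finset.prod_le_prod' fun q hq => (hrep q hq).1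
  refine ⟨fun k => if h : g k ∈ I then (I.equivFin ⟨g k, h⟩ : ℕ) else 0, ?_, ?_⟩
  · intro k hk
    have h : g k ∈ I := Finset.mem_image_of_mem _ hk
    simp only [h, dif_pos]
    exact (Fin.isLt _).trans_le hIc
  · intro k hk l hl hkl
    have h1 : g k ∈ I := Finset.mem_image_of_mem _ hk
    have h2 : g l ∈ I := Finset.mem_image_of_mem _ hl
    simp only [h1, h2, dif_pos] at hkl
    have h3 : g k = g l := by
      have := I.equivFin.injective (Fin.ext hkl)
      exact congrArg Subtype.val this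
    set E : ℤ := ((d + 1).factorial : ℤ) * wd k l * hom (2 * d) (wr A B) k.1 k.2 with hE
    have hq2 : ∀ q ∈ pf, (q : ℤ) ^ (2 * c.natAbs.factorization q) ∣ E := by
      intro q hq
      have h4 : rep q k = rep q l := congrFun (congrFun h3 q) hq
      obtain ⟨j, hj, hd⟩ := (hrep q hq).2 k hk l hl h4
      have h5 := local_dvd d A B hA hB q (hprime q hq) _ j k (hS k hk).1 hj
      refine h5.trans ?_
      obtain ⟨r, hr⟩ := hd
      refine ⟨r, ?_⟩
      rw [hE, hr]; ring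
    have hnat : c.natAbs ^ 2 ∣ E.natAbs := by
      rw [Nat.dvd_iff_prime_pow_dvd_dvd]
      intro p k' hp hpk
      rcases Nat.eq_zero_or_pos k' with rfl | hk'
      · simp
      have hpc : p ∣ c.natAbs := hp.dvd_of_dvd_pow ((dvd_pow_self p hk'.ne').trans hpk)
      have hmem : p ∈ pf := Nat.mem_primeFactors.2 ⟨hp, hpc, hcn⟩
      have h6 : k' ≤ 2 * c.natAbs.factorization p := by
        have := (hp.pow_dvd_iff_le_factorization (pow_ne_zero 2 hcn)).1 hpk
        rw [Nat.factorization_pow] at this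
        simpa using this
      have h7 := Int.natAbs_dvd_natAbs.2 (hq2 p hmem)
      rw [Int.natAbs_pow, Int.natAbs_natCast] at h7
      exact (pow_dvd_pow p h6).trans h7
    have h8 : ((c.natAbs ^ 2 : ℕ) : ℤ) ∣ (E.natAbs : ℤ) := by exact_mod_cast hnat
    rw [Nat.cast_pow, Int.natCast_natAbs, Int.natCast_natAbs, sq_abs] at h8
    exact (dvd_abs _ _).1 h8

/-- consequence for two solutions of the same colour -/
theorem gap_lower (c p w W f : ℤ) (hp : Prime p) (hpc : ¬ p ∣ c) (hpW : p ∣ W) (hW : W ≠ 0)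
    (hw : w ≠ 0) (hf : f ≠ 0) (h : c ^ 2 ∣ f * w * W) : |p| * c ^ 2 ≤ |f| * |w| * |W| := by
  have h1 : IsCoprime p (c ^ 2) := (IsCoprime.pow_right ((hp.coprime_iff_not_dvd).2 hpc))
  have h2 : p * c ^ 2 ∣ f * w * W := h1.mul_dvd (Dvd.dvd.mul_left hpW _) h
  have h3 : |p * c ^ 2| ≤ |f * w * W| :=
    Int.le_of_dvd (abs_pos.2 (mul_ne_zero (mul_ne_zero hf hw) hW)) ((abs_dvd_abs _ _).2 h2)
  rw [abs_mul, abs_mul, abs_mul, abs_pow, sq_abs] at h3
  exact h3

end glob

end Vale.Agent.P018.Q.Gap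
end

section

/-! # P018, quartics: real part of the gap lemma. -/

namespace Vale.Agent.P018.Q.Gap

open Polynomial Set

theorem mono_gap (f f' f'' : ℝ → ℝ) (x y : ℝ) (hxy : x < y)
    (h1 : ∀ z ∈ Icc x y, HasDerivAt f (f' z) z) (h2 : ∀ z ∈ Icc x y, HasDerivAt f' (f'' z) z)
    (hne : ∀ z ∈ Icc x y, f' z ≠ 0)
    (h3 : (∀ z ∈ Ioo x y, f'' z ≠ 0) ∨ ∀ z ∈ Ioo x y, f'' z = 0) :
    min |f' x| |f' y| * (y - x) ≤ |f y - f x| := by
  have hcf : ContinuousOn f (Icc x y) := fun z hz => (h1 z hz).continuousAt.continuousWithinAt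
  have hcf' : ContinuousOn f' (Icc x y) := fun z hz => (h2 z hz).continuousAt.continuousWithinAt
  obtain ⟨c, hc, hce⟩ := exists_hasDerivAt_eq_slope f f' hxy hcf
    (fun z hz => h1 z (Ioo_subset_Icc_self hz))
  have hcI := Ioo_subset_Icc_self hc
  have hxI : x ∈ Icc x y := ⟨le_rfl, hxy.le⟩
  have hyI : y ∈ Icc x y := ⟨hxy.le, le_rfl⟩
  have hd : DifferentiableOn ℝ f' (interior (Icc x y)) := by
    rw [interior_Icc]
    exact fun z hz => (h2 z (Ioo_subset_Icc_self hz)).differentiableAt.differentiableWithinAt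
  have hmono : MonotoneOn f' (Icc x y) ∨ AntitoneOn f' (Icc x y) := by
    rcases h3 with h3 | h3
    · rcases hasDerivWithinAt_forall_lt_or_forall_gt_of_forall_ne (convex_Ioo x y)
        (fun z hz => (h2 z (Ioo_subset_Icc_self hz)).hasDerivWithinAt) h3 with h | h
      · right
        refine antitoneOn_of_deriv_nonpos (convex_Icc x y) hcf' hd fun z hz => ?_
        rw [interior_Icc] at hz
        rw [(h2 z (Ioo_subset_Icc_self hz)).deriv]
        exact (h z hz).le
      · left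
        refine monotoneOn_of_deriv_nonneg (convex_Icc x y) hcf' hd fun z hz => ?_
        rw [interior_Icc] at hz
        rw [(h2 z (Ioo_subset_Icc_self hz)).deriv]
        exact (h z hz).le
    · left
      refine monotoneOn_of_deriv_nonneg (convex_Icc x y) hcf' hd fun z hz => ?_
      rw [interior_Icc] at hz
      rw [(h2 z (Ioo_subset_Icc_self hz)).deriv, h3 z hz]
  have hmin : min |f' x| |f' y| ≤ |f' c| := by
    rcases hasDerivWithinAt_forall_lt_or_forall_gt_of_forall_ne (convex_Icc x y)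
      (fun z hz => (h1 z hz).hasDerivWithinAt) hne with h | h
    · rcases hmono with hm | hm
      · refine (min_le_right _ _).trans ?_
        rw [abs_of_neg (h y hyI), abs_of_neg (h c hcI)]
        have := hm hcI hyI hc.2.le
        linarith
      · refine (min_le_left _ _).trans ?_
        rw [abs_of_neg (h x hxI), abs_of_neg (h c hcI)]
        have := hm hxI hcI hc.1.le
        linarith
    · rcases hmono with hm | hm
      · refine (min_le_left _ _).trans ?_
        rw [abs_of_pos (h x hxI), abs_of_pos (h c hcI)]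
        exact hm hxI hcI hc.1.le
      · refine (min_le_right _ _).trans ?_
        rw [abs_of_pos (h y hyI), abs_of_pos (h c hcI)]
        exact hm hcI hyI hc.2.le
  have hyx : 0 < y - x := by linarith
  have e : f y - f x = f' c * (y - x) := by
    rw [hce]; field_simp
  rw [e, abs_mul, abs_of_pos hyx]
  exact mul_le_mul_of_nonneg_right hmin hyx.le

/-- numerator of the second derivative of `B / A` -/
noncomputable def vv (A B : ℤ[X]) : ℤ[X] :=
  derivative (wr A B) * A - 2 * derivative A * wr A B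

/-- the real points where something happens -/
noncomputable def bad (A B : ℤ[X]) : Finset ℝ :=
  ((A * wr A B).map (Int.castRingHom ℝ)).roots.toFinset
    ∪ ((vv A B).map (Int.castRingHom ℝ)).roots.toFinset

theorem hom_real (D : ℕ) (A : ℤ[X]) (hA : A.natDegree ≤ D) (s t : ℤ) (ht : t ≠ 0) :
    ((hom D A s t : ℤ) : ℝ) = (t : ℝ) ^ D * aeval ((s : ℝ) / (t : ℝ)) A := by
  have ht' : (t : ℝ) ≠ 0 := by exact_mod_cast ht
  rw [aeval_eq_sum_range' (n := D + 1) (by omega), hom, Finset.mul_sum]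
  push_cast
  refine Finset.sum_congr rfl fun i hi => ?_
  have : i ≤ D := by have := Finset.mem_range.1 hi; omega
  rw [div_pow, show (t : ℝ) ^ D = (t : ℝ) ^ (D - i) * (t : ℝ) ^ i by
    rw [← pow_add]; congr 1; omega, zsmul_eq_mul]
  field_simp

theorem real_gap (A B : ℤ[X]) (x y : ℝ) (hxy : x < y) (hx : aeval x (A * wr A B) ≠ 0)
    (hy : aeval y (A * wr A B) ≠ 0) (hF : ∀ z ∈ bad A B, ¬ (x ≤ z ∧ z < y)) :
    min |aeval x (wr A B) / (aeval x A) ^ 2| |aeval y (wr A B) / (aeval y A) ^ 2| * (y - x)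
      ≤ |aeval y B / aeval y A - aeval x B / aeval x A| := by
  set W := wr A B with hW
  have hAW : A * W ≠ 0 := by
    rintro h; rw [h] at hx; simp at hx
  have hmap : (A * W).map (Int.castRingHom ℝ) ≠ 0 := by
    rw [Ne, Polynomial.map_eq_zero_iff (RingHom.injective_int _)]; exact hAW
  have hno : ∀ z ∈ Icc x y, aeval z (A * W) ≠ 0 := by
    intro z hz h0
    rcases eq_or_lt_of_le hz.2 with h | h
    · rw [h] at h0; exact hy h0
    · refine hF z (Finset.mem_union_left _ ?_) ⟨hz.1, h⟩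
      rw [Multiset.mem_toFinset, mem_roots hmap, IsRoot.def, eval_map]
      rw [aeval_def] at h0
      exact h0
  have hA0 : ∀ z ∈ Icc x y, aeval z A ≠ 0 := fun z hz h => hno z hz (by rw [map_mul, h, zero_mul])
  have hW0 : ∀ z ∈ Icc x y, aeval z W ≠ 0 := fun z hz h => hno z hz (by rw [map_mul, h, mul_zero])
  refine mono_gap (fun z => aeval z B / aeval z A) (fun z => aeval z W / (aeval z A) ^ 2)
    (fun z => aeval z (vv A B) / (aeval z A) ^ 3) x y hxy ?_ ?_ ?_ ?_
  · intro z hz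
    have h1 := (B.hasDerivAt_aeval z).div (A.hasDerivAt_aeval z) (hA0 z hz)
    have h2 : (aeval z (derivative B) * aeval z A - aeval z B * aeval z (derivative A))
        / (aeval z A) ^ 2 = aeval z W / (aeval z A) ^ 2 := by
      rw [hW, wr, map_sub, map_mul, map_mul]; ring
    rw [← h2]
    exact h1
  · intro z hz
    have h1 := (W.hasDerivAt_aeval z).div ((A.hasDerivAt_aeval z).pow 2)
      (pow_ne_zero 2 (hA0 z hz))
    have h2 : (aeval z (derivative W) * (aeval z A) ^ 2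
        - aeval z W * ((2 : ℕ) * (aeval z A) ^ (2 - 1) * aeval z (derivative A)))
        / ((aeval z A) ^ 2) ^ 2 = aeval z (vv A B) / (aeval z A) ^ 3 := by
      have hA := hA0 z hz
      rw [vv, ← hW, map_sub, map_mul, map_mul, map_mul, map_ofNat]
      field_simp
      push_cast
      ring
    rw [← h2]
    exact h1
  · intro z hz
    exact div_ne_zero (hW0 z hz) (pow_ne_zero 2 (hA0 z hz))
  · by_cases hv : vv A B = 0
    · right
      intro z _
      rw [hv]; simp
    · left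
      intro z hz
      have hzI := Ioo_subset_Icc_self hz
      refine div_ne_zero (fun h0 => ?_) (pow_ne_zero 3 (hA0 z hzI))
      have hmap2 : (vv A B).map (Int.castRingHom ℝ) ≠ 0 := by
        rw [Ne, Polynomial.map_eq_zero_iff (RingHom.injective_int _)]; exact hv
      refine hF z (Finset.mem_union_right _ ?_) ⟨hz.1.le, hz.2⟩
      rw [Multiset.mem_toFinset, mem_roots hmap2, IsRoot.def, eval_map]
      rw [aeval_def] at h0
      exact h0

theorem card_bad (d : ℕ) (A B : ℤ[X]) (hA : A.natDegree ≤ d + 1) (hB : B.natDegree ≤ d + 1) :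
    (bad A B).card ≤ 6 * d + 2 := by
  have hW := natDegree_wr d A B hA hB
  have h1 : ((A * wr A B).map (Int.castRingHom ℝ)).natDegree ≤ 3 * d + 1 :=
    (natDegree_map_le).trans ((natDegree_mul_le).trans (by omega))
  have h2 : ((vv A B).map (Int.castRingHom ℝ)).natDegree ≤ 3 * d + 1 := by
    refine (natDegree_map_le).trans ?_
    unfold vv
    refine (natDegree_sub_le _ _).trans (max_le ?_ ?_)
    · refine (natDegree_mul_le).trans ?_
      have := natDegree_derivative_le (wr A B)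
      omega
    · refine (natDegree_mul_le).trans ?_
      have h3 : (2 * derivative A).natDegree ≤ d := by
        refine (natDegree_mul_le).trans ?_
        have h4 := natDegree_derivative_le A
        have h5 : (2 : ℤ[X]).natDegree = 0 := natDegree_ofNat 2
        omega
      omega
  unfold bad
  refine (Finset.card_union_le _ _).trans ?_
  have h3 := (Multiset.toFinset_card_le ((A * wr A B).map (Int.castRingHom ℝ)).roots).trans
    (card_roots' _)
  have h4 := (Multiset.toFinset_card_le ((vv A B).map (Int.castRingHom ℝ)).roots).trans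
    (card_roots' _)
  omega

/-- position of a real number with respect to the bad points -/
noncomputable def pos (A B : ℤ[X]) (x : ℝ) : ℕ := ((bad A B).filter (· < x)).card

theorem pos_le (A B : ℤ[X]) (x : ℝ) : pos A B x ≤ (bad A B).card := Finset.card_filter_le _ _

theorem pos_eq (A B : ℤ[X]) (x y : ℝ) (hxy : x < y) (h : pos A B x = pos A B y) :
    ∀ z ∈ bad A B, ¬ (x ≤ z ∧ z < y) := by
  intro z hz ⟨h1, h2⟩
  have hsub : (bad A B).filter (· < x) ⊆ (bad A B).filter (· < y) := by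
    intro w hw
    rw [Finset.mem_filter] at hw ⊢
    exact ⟨hw.1, hw.2.trans hxy⟩
  have heq := Finset.eq_of_subset_of_card_le hsub (le_of_eq h.symm)
  have hzy : z ∈ (bad A B).filter (· < y) := Finset.mem_filter.2 ⟨hz, h2⟩
  rw [← heq, Finset.mem_filter] at hzy
  linarith only [hzy.2, h1]

theorem pair_gap' (d : ℕ) (A B : ℤ[X]) (hA : A.natDegree ≤ d + 1) (hB : B.natDegree ≤ d + 1)
    (k l : ℤ × ℤ) (c : ℤ) (hc : c ≠ 0) (hkA : hom (d + 1) A k.1 k.2 = c)
    (hlA : hom (d + 1) A l.1 l.2 = c) (hk2 : k.2 ≠ 0) (hl2 : l.2 ≠ 0) (N M : ℤ)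
    (hN : hom (d + 1) B k.1 k.2 = c * N) (hM : hom (d + 1) B l.1 l.2 = c * M)
    (hWk : hom (2 * d) (wr A B) k.1 k.2 ≠ 0) (hWl : hom (2 * d) (wr A B) l.1 l.2 ≠ 0)
    (hpos : pos A B ((k.1 : ℝ) / k.2) = pos A B ((l.1 : ℝ) / l.2))
    (hd1 : |(l.2 : ℝ)| ≤ 2 * |(k.2 : ℝ)|) (hd2 : |(k.2 : ℝ)| ≤ 2 * |(l.2 : ℝ)|)
    (hlt : (k.1 : ℝ) / k.2 < (l.1 : ℝ) / l.2) (m : ℝ) (_hm0 : 0 ≤ m)
    (hmk : m * (c : ℝ) ^ 2 ≤ |(wd k l : ℝ)| * |((hom (2 * d) (wr A B) k.1 k.2 : ℤ) : ℝ)|)
    (hml : m * (c : ℝ) ^ 2 ≤ |(wd k l : ℝ)| * |((hom (2 * d) (wr A B) l.1 l.2 : ℤ) : ℝ)|) :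
    m / 2 ≤ |(M : ℝ) - N| := by
  have hW := natDegree_wr d A B hA hB
  have hk2' : (k.2 : ℝ) ≠ 0 := by exact_mod_cast hk2
  have hl2' : (l.2 : ℝ) ≠ 0 := by exact_mod_cast hl2
  have hc' : (c : ℝ) ≠ 0 := by exact_mod_cast hc
  set x : ℝ := (k.1 : ℝ) / k.2 with hx
  set y : ℝ := (l.1 : ℝ) / l.2 with hy
  have eAk : (c : ℝ) = (k.2 : ℝ) ^ (d + 1) * aeval x A := by
    rw [← hom_real (d + 1) A hA k.1 k.2 hk2, hkA]
  have eAl : (c : ℝ) = (l.2 : ℝ) ^ (d + 1) * aeval y A := by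
    rw [← hom_real (d + 1) A hA l.1 l.2 hl2, hlA]
  have eBk : (c : ℝ) * N = (k.2 : ℝ) ^ (d + 1) * aeval x B := by
    rw [← hom_real (d + 1) B hB k.1 k.2 hk2, hN]; push_cast; ring
  have eBl : (c : ℝ) * M = (l.2 : ℝ) ^ (d + 1) * aeval y B := by
    rw [← hom_real (d + 1) B hB l.1 l.2 hl2, hM]; push_cast; ring
  have eWk := hom_real (2 * d) (wr A B) hW k.1 k.2 hk2
  have eWl := hom_real (2 * d) (wr A B) hW l.1 l.2 hl2
  rw [← hx] at eWk
  rw [← hy] at eWl
  have hAx : aeval x A ≠ 0 := by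
    rintro h; rw [h, mul_zero] at eAk; exact hc' eAk
  have hAy : aeval y A ≠ 0 := by
    rintro h; rw [h, mul_zero] at eAl; exact hc' eAl
  have hWk' : ((hom (2 * d) (wr A B) k.1 k.2 : ℤ) : ℝ) ≠ 0 := by exact_mod_cast hWk
  have hWl' : ((hom (2 * d) (wr A B) l.1 l.2 : ℤ) : ℝ) ≠ 0 := by exact_mod_cast hWl
  have hWx : aeval x (wr A B) ≠ 0 := by
    rintro h; rw [h, mul_zero] at eWk; exact hWk' eWk
  have hWy : aeval y (wr A B) ≠ 0 := by
    rintro h; rw [h, mul_zero] at eWl; exact hWl' eWl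
  have key := real_gap A B x y hlt (by rw [map_mul]; exact mul_ne_zero hAx hWx)
    (by rw [map_mul]; exact mul_ne_zero hAy hWy) (pos_eq A B x y hlt hpos)
  have e1 : aeval x B / aeval x A = (N : ℝ) := by
    rw [div_eq_iff hAx]
    have h1 : (k.2 : ℝ) ^ (d + 1) ≠ 0 := pow_ne_zero _ hk2'
    apply mul_left_cancel₀ h1
    rw [← eBk]
    linear_combination (N : ℝ) * eAk
  have e2 : aeval y B / aeval y A = (M : ℝ) := by
    rw [div_eq_iff hAy]
    have h1 : (l.2 : ℝ) ^ (d + 1) ≠ 0 := pow_ne_zero _ hl2'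
    apply mul_left_cancel₀ h1
    rw [← eBl]
    linear_combination (M : ℝ) * eAl
  have e3 : |aeval x (wr A B) / (aeval x A) ^ 2|
      = |((hom (2 * d) (wr A B) k.1 k.2 : ℤ) : ℝ)| * |(k.2 : ℝ)| ^ 2 / (c : ℝ) ^ 2 := by
    rw [eWk, eAk, ← abs_pow, ← abs_mul, ← abs_of_nonneg (sq_nonneg ((k.2 : ℝ) ^ (d + 1) * aeval x A)),
      ← abs_div]
    congr 1
    rw [mul_pow, ← pow_mul]
    field_simp
    ring
  have e4 : |aeval y (wr A B) / (aeval y A) ^ 2|
      = |((hom (2 * d) (wr A B) l.1 l.2 : ℤ) : ℝ)| * |(l.2 : ℝ)| ^ 2 / (c : ℝ) ^ 2 := by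
    rw [eWl, eAl, ← abs_pow, ← abs_mul, ← abs_of_nonneg (sq_nonneg ((l.2 : ℝ) ^ (d + 1) * aeval y A)),
      ← abs_div]
    congr 1
    rw [mul_pow, ← pow_mul]
    field_simp
    ring
  have e5 : y - x = |(wd k l : ℝ)| / (|(k.2 : ℝ)| * |(l.2 : ℝ)|) := by
    have h1 : 0 < y - x := by linarith only [hlt]
    rw [← abs_of_pos h1, ← abs_mul, ← abs_div, hx, hy, ← abs_neg]
    congr 1
    unfold wd
    push_cast
    field_simp
    ring
  rw [e1, e2, e3, e4, e5] at key
  refine le_trans ?_ key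
  have hkp : 0 < |(k.2 : ℝ)| := abs_pos.2 hk2'
  have hlp : 0 < |(l.2 : ℝ)| := abs_pos.2 hl2'
  have hcp : 0 < (c : ℝ) ^ 2 := by (clear * - hc; positivity)
  rw [min_mul_of_nonneg _ _ (by (clear * - hk2 hl2; positivity))]
  refine le_min ?_ ?_
  · have e : |((hom (2 * d) (wr A B) k.1 k.2 : ℤ) : ℝ)| * |(k.2 : ℝ)| ^ 2 / (c : ℝ) ^ 2
        * (|(wd k l : ℝ)| / (|(k.2 : ℝ)| * |(l.2 : ℝ)|))
        = (|(wd k l : ℝ)| * |((hom (2 * d) (wr A B) k.1 k.2 : ℤ) : ℝ)|) / (c : ℝ) ^ 2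
          * (|(k.2 : ℝ)| / |(l.2 : ℝ)|) := by
      field_simp
    rw [e, show m / 2 = m * (1 / 2) by ring]
    refine mul_le_mul ?_ ?_ (by norm_num) (by (clear * - hWk hc; positivity))
    · rw [le_div_iff₀ hcp]; exact hmk
    · rw [div_le_div_iff₀ (by norm_num) hlp]; linarith only [hd1]
  · have e : |((hom (2 * d) (wr A B) l.1 l.2 : ℤ) : ℝ)| * |(l.2 : ℝ)| ^ 2 / (c : ℝ) ^ 2
        * (|(wd k l : ℝ)| / (|(k.2 : ℝ)| * |(l.2 : ℝ)|))
        = (|(wd k l : ℝ)| * |((hom (2 * d) (wr A B) l.1 l.2 : ℤ) : ℝ)|) / (c : ℝ) ^ 2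
          * (|(l.2 : ℝ)| / |(k.2 : ℝ)|) := by
      field_simp
    rw [e, show m / 2 = m * (1 / 2) by ring]
    refine mul_le_mul ?_ ?_ (by norm_num) (by (clear * - hWl hc; positivity))
    · rw [le_div_iff₀ hcp]; exact hml
    · rw [div_le_div_iff₀ (by norm_num) hkp]; linarith only [hd2]

theorem sep_card (T : Finset ℤ) (X δ : ℝ) (hδ : 0 < δ) (hX0 : 0 ≤ X)
    (hX : ∀ N ∈ T, |(N : ℝ)| ≤ X)
    (hsep : ∀ N ∈ T, ∀ M ∈ T, N ≠ M → δ ≤ |(M : ℝ) - N|) : (T.card : ℝ) ≤ 1 + 2 * X / δ := by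
  classical
  have hinj : Set.InjOn (fun N : ℤ => ⌊((N : ℝ) + X) / δ⌋₊) (T : Set ℤ) := by
    intro N hN M hM h
    by_contra hne
    have hs := hsep N hN M hM hne
    have hN' := abs_le.1 (hX N hN)
    have hM' := abs_le.1 (hX M hM)
    have a1 : 0 ≤ ((N : ℝ) + X) / δ := div_nonneg (by linarith) hδ.le
    have a2 : 0 ≤ ((M : ℝ) + X) / δ := div_nonneg (by linarith) hδ.le
    have b1 := Nat.floor_le a1
    have b2 := Nat.floor_le a2
    have c1 := Nat.lt_floor_add_one (((N : ℝ) + X) / δ)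
    have c2 := Nat.lt_floor_add_one (((M : ℝ) + X) / δ)
    simp only at h
    rw [h] at b1 c1
    have d1 : |((M : ℝ) + X) / δ - ((N : ℝ) + X) / δ| < 1 := by
      rw [abs_lt]; constructor <;> linarith
    rw [← sub_div, show (M : ℝ) + X - (N + X) = M - N by ring, abs_div, abs_of_pos hδ,
      div_lt_one hδ] at d1
    linarith only [d1, hs]
  have hsub : T.image (fun N : ℤ => ⌊((N : ℝ) + X) / δ⌋₊) ⊆ Finset.range (⌊2 * X / δ⌋₊ + 1) := by
    intro n hn
    obtain ⟨N, hN, rfl⟩ := Finset.mem_image.1 hn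
    rw [Finset.mem_range, Nat.lt_succ_iff]
    refine Nat.floor_le_floor ?_
    have hN' := abs_le.1 (hX N hN)
    gcongr
    linarith
  have h1 := Finset.card_le_card hsub
  rw [Finset.card_image_of_injOn hinj, Finset.card_range] at h1
  have h2 : (⌊2 * X / δ⌋₊ : ℝ) ≤ 2 * X / δ := Nat.floor_le (by positivity)
  calc (T.card : ℝ) ≤ ((⌊2 * X / δ⌋₊ + 1 : ℕ) : ℝ) := by exact_mod_cast h1
    _ = (⌊2 * X / δ⌋₊ : ℝ) + 1 := by push_cast; ring
    _ ≤ 1 + 2 * X / δ := by linarith only [h2]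

end Vale.Agent.P018.Q.Gap
end

section

/-! # P018, quartics: assembly of the gap lemma. -/

namespace Vale.Agent.P018.Q.Gap

open Polynomial

/-- symmetric form of `pair_gap'` -/
theorem pair_gap (d : ℕ) (A B : ℤ[X]) (hA : A.natDegree ≤ d + 1) (hB : B.natDegree ≤ d + 1)
    (k l : ℤ × ℤ) (c : ℤ) (hc : c ≠ 0) (hkA : hom (d + 1) A k.1 k.2 = c)
    (hlA : hom (d + 1) A l.1 l.2 = c) (hk2 : k.2 ≠ 0) (hl2 : l.2 ≠ 0) (N M : ℤ)
    (hN : hom (d + 1) B k.1 k.2 = c * N) (hM : hom (d + 1) B l.1 l.2 = c * M)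
    (hWk : hom (2 * d) (wr A B) k.1 k.2 ≠ 0) (hWl : hom (2 * d) (wr A B) l.1 l.2 ≠ 0)
    (hpos : pos A B ((k.1 : ℝ) / k.2) = pos A B ((l.1 : ℝ) / l.2))
    (hdy : Nat.log 2 k.2.natAbs = Nat.log 2 l.2.natAbs) (p p' : ℕ) (P : ℝ)
    (hp : p.Prime) (hp' : p'.Prime) (hP : P ≤ p) (hP' : P ≤ p') (hpc : ¬ (p : ℤ) ∣ c)
    (hpc' : ¬ (p' : ℤ) ∣ c) (hpW : (p : ℤ) ∣ hom (2 * d) (wr A B) k.1 k.2)
    (hpW' : (p' : ℤ) ∣ hom (2 * d) (wr A B) l.1 l.2) (hP0 : 0 ≤ P)
    (h1 : c ^ 2 ∣ ((d + 1).factorial : ℤ) * wd k l * hom (2 * d) (wr A B) k.1 k.2)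
    (h2 : c ^ 2 ∣ ((d + 1).factorial : ℤ) * wd l k * hom (2 * d) (wr A B) l.1 l.2)
    (hNM : N ≠ M) : P / (2 * ((d + 1).factorial : ℝ)) ≤ |(M : ℝ) - N| := by
  have hk2' : (k.2 : ℝ) ≠ 0 := by exact_mod_cast hk2
  have hl2' : (l.2 : ℝ) ≠ 0 := by exact_mod_cast hl2
  have hf : ((d + 1).factorial : ℤ) ≠ 0 := by exact_mod_cast (d + 1).factorial_ne_zero
  have hfp : (0 : ℝ) < ((d + 1).factorial : ℝ) := by exact_mod_cast (d + 1).factorial_pos
  -- dyadic sizes
  have dy : ∀ a b : ℤ, a ≠ 0 → b ≠ 0 → Nat.log 2 a.natAbs = Nat.log 2 b.natAbs →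
      |(b : ℝ)| ≤ 2 * |(a : ℝ)| := by
    intro a b ha hb h
    have e1 : 2 ^ Nat.log 2 a.natAbs ≤ a.natAbs :=
      Nat.pow_log_le_self 2 (Int.natAbs_ne_zero.2 ha)
    have e2 : b.natAbs < 2 ^ (Nat.log 2 b.natAbs + 1) :=
      Nat.lt_pow_succ_log_self (by norm_num) _
    rw [← h, pow_succ] at e2
    have e3 : b.natAbs ≤ 2 * a.natAbs := by omega
    have e4 : (b.natAbs : ℝ) ≤ 2 * (a.natAbs : ℝ) := by exact_mod_cast e3
    rwa [Nat.cast_natAbs, Nat.cast_natAbs, Int.cast_abs, Int.cast_abs] at e4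
  have hd1 := dy k.2 l.2 hk2 hl2 hdy
  have hd2 := dy l.2 k.2 hl2 hk2 hdy.symm
  have hne : (k.1 : ℝ) / k.2 ≠ (l.1 : ℝ) / l.2 := by
    intro h
    apply hNM
    have hc' : (c : ℝ) ≠ 0 := by exact_mod_cast hc
    have eAk := hom_real (d + 1) A hA k.1 k.2 hk2
    have eBk := hom_real (d + 1) B hB k.1 k.2 hk2
    have eAl := hom_real (d + 1) A hA l.1 l.2 hl2
    have eBl := hom_real (d + 1) B hB l.1 l.2 hl2
    rw [hkA] at eAk
    rw [hlA, ← h] at eAl
    rw [hN] at eBk
    rw [hM, ← h] at eBl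
    push_cast at eBk eBl
    set x : ℝ := (k.1 : ℝ) / k.2 with hx
    have hAx : aeval x A ≠ 0 := by
      rintro h; rw [h, mul_zero] at eAk; exact hc' eAk
    have q1 : (N : ℝ) * aeval x A = aeval x B := by
      have h1 : (k.2 : ℝ) ^ (d + 1) ≠ 0 := pow_ne_zero _ hk2'
      apply mul_left_cancel₀ h1
      linear_combination eBk - (N : ℝ) * eAk
    have q2 : (M : ℝ) * aeval x A = aeval x B := by
      have h1 : (l.2 : ℝ) ^ (d + 1) ≠ 0 := pow_ne_zero _ hl2'
      apply mul_left_cancel₀ h1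
      linear_combination eBl - (M : ℝ) * eAl
    have q3 : (N : ℝ) = M := mul_right_cancel₀ hAx (q1.trans q2.symm)
    exact_mod_cast q3
  have hw : wd k l ≠ 0 := by
    intro h0
    apply hne
    rw [div_eq_div_iff hk2' hl2']
    have : ((wd k l : ℤ) : ℝ) = 0 := by rw [h0]; simp
    unfold wd at this
    push_cast at this
    linarith
  have hw' : wd l k ≠ 0 := by
    have : wd l k = - wd k l := by unfold wd; ring
    rw [this]; exact neg_ne_zero.2 hw
  have hwabs : |((wd l k : ℤ) : ℝ)| = |((wd k l : ℤ) : ℝ)| := by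
    have : wd l k = - wd k l := by unfold wd; ring
    rw [this]; push_cast; exact abs_neg _
  have g1 := gap_lower c p (wd k l) (hom (2 * d) (wr A B) k.1 k.2) ((d + 1).factorial : ℤ)
    (Nat.prime_iff_prime_int.1 hp) hpc hpW hWk hw hf h1
  have g2 := gap_lower c p' (wd l k) (hom (2 * d) (wr A B) l.1 l.2) ((d + 1).factorial : ℤ)
    (Nat.prime_iff_prime_int.1 hp') hpc' hpW' hWl hw' hf h2
  have conv : ∀ (p w W : ℤ), |p| * c ^ 2 ≤ |((d + 1).factorial : ℤ)| * |w| * |W| → P ≤ (p : ℝ) →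
      0 ≤ p → P / ((d + 1).factorial : ℝ) * (c : ℝ) ^ 2 ≤ |(w : ℝ)| * |(W : ℝ)| := by
    intro p w W h hp hp0
    have e : (((|p| * c ^ 2 : ℤ)) : ℝ) ≤ ((|((d + 1).factorial : ℤ)| * |w| * |W| : ℤ) : ℝ) := by
      exact_mod_cast h
    rw [abs_of_nonneg hp0, abs_of_nonneg (by positivity : (0 : ℤ) ≤ ((d + 1).factorial : ℤ))] at e
    push_cast at e
    rw [div_mul_eq_mul_div, div_le_iff₀ hfp]
    have : P * (c : ℝ) ^ 2 ≤ p * (c : ℝ) ^ 2 := mul_le_mul_of_nonneg_right hp (sq_nonneg _)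
    calc P * (c : ℝ) ^ 2 ≤ p * (c : ℝ) ^ 2 := this
      _ ≤ _ := e
      _ = |(w : ℝ)| * |(W : ℝ)| * ((d + 1).factorial : ℝ) := by ring
  have m1 := conv p _ _ g1 (by exact_mod_cast hP) (by positivity)
  have m2 := conv p' _ _ g2 (by exact_mod_cast hP') (by (clear * -; positivity))
  rw [show P / (2 * ((d + 1).factorial : ℝ)) = P / ((d + 1).factorial : ℝ) / 2 by
    rw [div_div, mul_comm]]
  have hm0 : 0 ≤ P / ((d + 1).factorial : ℝ) := by (clear * - hP0; positivity)
  rcases lt_or_gt_of_ne hne with hlt | hgt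
  · refine pair_gap' d A B hA hB k l c hc hkA hlA hk2 hl2 N M hN hM hWk hWl hpos hd1 hd2 hlt _ hm0
      m1 ?_
    rw [← hwabs]; exact m2
  · rw [abs_sub_comm]
    refine pair_gap' d A B hA hB l k c hc hlA hkA hl2 hk2 M N hM hN hWl hWk hpos.symm hd2 hd1 hgt _
      hm0 m2 ?_
    rw [hwabs]; exact m1

/-- the count for one value `c` of `A` -/
theorem per_c (d : ℕ) (A B : ℤ[X]) (hA : A.natDegree ≤ d + 1) (hB : B.natDegree ≤ d + 1)
    (c : ℤ) (hc : c ≠ 0) (S : Finset ℤ) (s t : ℤ → ℤ) (p : ℤ → ℕ) (X P : ℝ) (hX0 : 0 ≤ X)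
    (hP0 : 0 < P) (L : ℕ)
    (hS : ∀ N ∈ S, |(N : ℝ)| ≤ X ∧ IsCoprime (s N) (t N) ∧ t N ≠ 0 ∧
      Nat.log 2 (t N).natAbs ≤ L ∧ hom (d + 1) A (s N) (t N) = c ∧
      hom (d + 1) B (s N) (t N) = c * N ∧ (p N).Prime ∧ P ≤ p N ∧ ¬ ((p N : ℤ) ∣ c) ∧
      (p N : ℤ) ∣ hom (2 * d) (wr A B) (s N) (t N) ∧ hom (2 * d) (wr A B) (s N) (t N) ≠ 0) :
    (S.card : ℝ) ≤ ((d : ℝ) + 1) ^ c.natAbs.primeFactors.card * ((6 * d + 3) * (L + 1)
      * (1 + 4 * ((d + 1).factorial : ℝ) * X / P)) := by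
  classical
  obtain ⟨col, hcol1, hcol2⟩ := gap_local d A B hA hB c hc (S.image fun N => (s N, t N)) (by
    intro k hk
    obtain ⟨N, hN, rfl⟩ := Finset.mem_image.1 hk
    obtain ⟨h1, h2, h3, h4, h5, h6, h7, h8, h9, h10, h11⟩ := hS N hN
    exact ⟨h2, h5, ⟨N, h6⟩⟩)
  set key : ℤ → (ℕ × ℕ) × ℕ := fun N =>
    ((col (s N, t N), pos A B ((s N : ℝ) / t N)), Nat.log 2 (t N).natAbs) with hkey
  set T : Finset ((ℕ × ℕ) × ℕ) :=
    (Finset.range ((d + 1) ^ c.natAbs.primeFactors.card) ×ˢ Finset.range (6 * d + 3))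
      ×ˢ Finset.range (L + 1) with hT
  have hmap : ∀ N ∈ S, key N ∈ T := by
    intro N hN
    obtain ⟨h1, h2, h3, h4, h5, h6, h7, h8, h9, h10, h11⟩ := hS N hN
    rw [hT, Finset.mem_product, Finset.mem_product, Finset.mem_range, Finset.mem_range,
      Finset.mem_range]
    refine ⟨⟨hcol1 _ (Finset.mem_image_of_mem _ hN), ?_⟩, by simpa [hkey] using Nat.lt_succ_of_le h4⟩
    have := (pos_le A B ((s N : ℝ) / t N)).trans (card_bad d A B hA hB)
    simp only [hkey]
    omega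
  have hfib : ∀ b ∈ T, ((S.filter fun N => key N = b).card : ℝ)
      ≤ 1 + 4 * ((d + 1).factorial : ℝ) * X / P := by
    intro b _
    have hfp : (0 : ℝ) < ((d + 1).factorial : ℝ) := by exact_mod_cast (d + 1).factorial_pos
    have := sep_card (S.filter fun N => key N = b) X (P / (2 * ((d + 1).factorial : ℝ)))
      (by positivity) hX0 (fun N hN => (hS N (Finset.mem_filter.1 hN).1).1) (by
      intro N hN M hM hNM
      obtain ⟨hNS, hNb⟩ := Finset.mem_filter.1 hN
      obtain ⟨hMS, hMb⟩ := Finset.mem_filter.1 hM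
      have hk : key N = key M := hNb.trans hMb.symm
      simp only [hkey, Prod.mk.injEq] at hk
      obtain ⟨⟨hk1, hk2⟩, hk3⟩ := hk
      obtain ⟨h1, h2, h3, h4, h5, h6, h7, h8, h9, h10, h11⟩ := hS N hNS
      obtain ⟨g1, g2, g3, g4, g5, g6, g7, g8, g9, g10, g11⟩ := hS M hMS
      exact pair_gap d A B hA hB (s N, t N) (s M, t M) c hc h5 g5 h3 g3 N M h6 g6 h11 g11 hk2 hk3
        (p N) (p M) P h7 g7 h8 g8 h9 g9 h10 g10 hP0.le
        (hcol2 _ (Finset.mem_image_of_mem _ hNS) _ (Finset.mem_image_of_mem _ hMS) hk1)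
        (hcol2 _ (Finset.mem_image_of_mem _ hMS) _ (Finset.mem_image_of_mem _ hNS) hk1.symm) hNM)
    refine this.trans (le_of_eq ?_)
    congr 1
    field_simp
    ring
  rw [Finset.card_eq_sum_card_fiberwise hmap]
  push_cast
  refine (Finset.sum_le_card_nsmul T _ _ hfib).trans (le_of_eq ?_)
  rw [nsmul_eq_mul, hT, Finset.card_product, Finset.card_product, Finset.card_range,
    Finset.card_range, Finset.card_range]
  push_cast
  ring

end Vale.Agent.P018.Q.Gap
end

section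

/-! # P018, quartics, gap lemma: resultants and divisors. -/

namespace Vale.Agent.P018.Q.Gap

open Polynomial

theorem dvd_of_form {c x a s t w R0 : ℤ} {D m : ℕ} (hx : x = a * s ^ D + t * w) (hcx : c ∣ x)
    (hR : c ∣ R0 * t ^ m) (hst : IsCoprime s t) : c ∣ R0 * a ^ m := by
  have h1 : c ∣ (a * s ^ D) ^ m - (-(t * w)) ^ m := by
    refine dvd_trans ?_ (sub_dvd_pow_sub_pow (a * s ^ D) (-(t * w)) m)
    have : a * s ^ D - -(t * w) = x := by rw [hx]; ring
    rw [this]
    exact hcx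
  have h2 : c ∣ R0 * a ^ m * s ^ (D * m) := by
    have h3 : R0 * a ^ m * s ^ (D * m) = R0 * ((a * s ^ D) ^ m - (-(t * w)) ^ m) +
        R0 * t ^ m * (-w) ^ m := by
      rw [pow_mul]; ring
    rw [h3]
    exact dvd_add (Dvd.dvd.mul_left h1 _) (Dvd.dvd.mul_right hR _)
  have h4 : c ∣ R0 * a ^ m * t ^ m := by
    have h5 : R0 * a ^ m * t ^ m = R0 * t ^ m * a ^ m := by ring
    rw [h5]
    exact Dvd.dvd.mul_right hR _
  obtain ⟨u, v, huv⟩ : IsCoprime (s ^ (D * m)) (t ^ m) := hst.pow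
  have h6 : R0 * a ^ m = u * (R0 * a ^ m * s ^ (D * m)) + v * (R0 * a ^ m * t ^ m) := by
    linear_combination (-(R0 * a ^ m)) * huv
  rw [h6]
  exact dvd_add (Dvd.dvd.mul_left h2 _) (Dvd.dvd.mul_left h4 _)

theorem hom_top (D : ℕ) (A : ℤ[X]) (s t : ℤ) :
    ∃ w : ℤ, hom D A s t = A.coeff D * s ^ D + t * w := by
  refine ⟨∑ i ∈ Finset.range D, A.coeff i * s ^ i * t ^ (D - i - 1), ?_⟩
  unfold hom
  rw [Finset.sum_range_succ, Finset.mul_sum]
  simp only [Int.cast_id, Nat.sub_self, pow_zero, mul_one]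
  rw [add_comm]
  congr 1
  refine Finset.sum_congr rfl fun i hi => ?_
  have : D - i = (D - i - 1) + 1 := by have := Finset.mem_range.1 hi; omega
  conv_lhs => rw [this]
  ring

theorem resultant_ne_zero' {D1 : ℕ} (hD1 : 1 ≤ D1) {A B : ℤ[X]} (hA : A.natDegree ≤ D1)
    (hB : B.natDegree ≤ D1) (hAB : A.natDegree = D1 ∨ B.natDegree = D1)
    (hcop : IsCoprime (A.map (Int.castRingHom ℚ)) (B.map (Int.castRingHom ℚ))) :
    resultant A B D1 D1 ≠ 0 := by
  have hinj : Function.Injective (Int.castRingHom ℚ) := Int.cast_injective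
  set f := A.map (Int.castRingHom ℚ) with hf
  set g := B.map (Int.castRingHom ℚ) with hg
  have hfd : f.natDegree = A.natDegree := natDegree_map_eq_of_injective hinj _
  have hgd : g.natDegree = B.natDegree := natDegree_map_eq_of_injective hinj _
  have h1 : resultant f g D1 D1 ≠ 0 := by
    have h2 := resultant_ne_zero f g hcop
    rcases hAB with h | h
    · have h3 := resultant_add_right_deg f g D1 g.natDegree (D1 - g.natDegree) le_rfl
      rw [Nat.add_sub_cancel' (hgd.trans_le hB)] at h3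
      rw [h3]
      refine mul_ne_zero (pow_ne_zero _ ?_) ?_
      · rw [← h, ← hfd, coeff_natDegree, leadingCoeff_ne_zero]
        intro h0
        rw [h0, natDegree_zero] at hfd
        omega
      · rw [← h, ← hfd]; exact h2
    · have h3 := resultant_add_left_deg f g f.natDegree D1 (D1 - f.natDegree) le_rfl
      rw [Nat.add_sub_cancel' (hfd.trans_le hA)] at h3
      rw [h3]
      refine mul_ne_zero (mul_ne_zero (pow_ne_zero _ (by norm_num)) (pow_ne_zero _ ?_)) ?_
      · rw [← h, ← hgd, coeff_natDegree, leadingCoeff_ne_zero]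
        intro h0
        rw [h0, natDegree_zero] at hgd
        omega
      · rw [← h, ← hgd]; exact h2
  intro h0
  apply h1
  rw [hf, hg, resultant_map_map, h0, map_zero]

/-- a common divisor of two coprime forms at a coprime pair divides a fixed integer. -/
theorem exists_res (D C : ℕ) : ∃ C1 : ℕ, ∀ (H : ℕ) (D1 : ℕ) (A B : ℤ[X]), 2 ≤ H → 1 ≤ D1 →
    D1 ≤ D → A.natDegree ≤ D1 → B.natDegree ≤ D1 → (A.natDegree = D1 ∨ B.natDegree = D1) →
    IsCoprime (A.map (Int.castRingHom ℚ)) (B.map (Int.castRingHom ℚ)) →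
    (∀ i, |A.coeff i| ≤ (H : ℤ) ^ C) → (∀ i, |B.coeff i| ≤ (H : ℤ) ^ C) →
    ∃ R : ℤ, R ≠ 0 ∧ |R| ≤ (H : ℤ) ^ C1 ∧ ∀ s t : ℤ, IsCoprime s t →
      hom D1 A s t ∣ hom D1 B s t → hom D1 A s t ∣ R := by
  refine ⟨(2 * D).factorial + C * (2 * D) + C * (2 * D), ?_⟩
  intro H D1 A B hH hD1 hD1D hA hB hAB hcop hAc hBc
  obtain ⟨P, Q, hP, hQ, hPQ⟩ := exists_mul_add_mul_eq_C_resultant A B hA hB
    (Or.inl (by omega : D1 ≠ 0))
  have hR0 := resultant_ne_zero' hD1 hA hB hAB hcop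
  set R0 : ℤ := resultant A B D1 D1 with hR0def
  have hnd : ∀ (P : ℤ[X]), P.degree < (D1 : WithBot ℕ) → P.natDegree ≤ D1 - 1 := by
    intro P hP
    rcases eq_or_ne P 0 with rfl | h0
    · simp
    · rw [← natDegree_lt_iff_degree_lt h0] at hP
      omega
  have hH1 : (1 : ℤ) ≤ H := by exact_mod_cast (by omega : 1 ≤ H)
  -- the coefficient of the top degree
  obtain ⟨a, ha0, haC, ha⟩ : ∃ a : ℤ, a ≠ 0 ∧ |a| ≤ (H : ℤ) ^ C ∧
      ∀ s t : ℤ, hom D1 A s t ∣ hom D1 B s t → ∃ x w : ℤ, x = a * s ^ D1 + t * w ∧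
        hom D1 A s t ∣ x := by
    rcases hAB with h | h
    · refine ⟨A.coeff D1, ?_, hAc _, ?_⟩
      · rw [← h, coeff_natDegree, leadingCoeff_ne_zero]
        rintro rfl
        simp at h
        omega
      · intro s t _
        obtain ⟨w, hw⟩ := hom_top D1 A s t
        exact ⟨_, w, hw, dvd_rfl⟩
    · refine ⟨B.coeff D1, ?_, hBc _, ?_⟩
      · rw [← h, coeff_natDegree, leadingCoeff_ne_zero]
        rintro rfl
        simp at h
        omega
      · intro s t hst
        obtain ⟨w, hw⟩ := hom_top D1 B s t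
        exact ⟨_, w, hw, hst⟩
  refine ⟨R0 * a ^ (D1 + (D1 - 1)), mul_ne_zero hR0 (pow_ne_zero _ ha0), ?_, ?_⟩
  · rw [abs_mul, abs_pow]
    have h1 : |R0| ≤ (((D1 + D1).factorial : ℕ) : ℤ) * ((H : ℤ) ^ C) ^ (D1 + D1) :=
      resultant_abs_le A B _ (by positivity) hAc hBc D1 D1
    have h2 : (((D1 + D1).factorial : ℕ) : ℤ) ≤ (H : ℤ) ^ (2 * D).factorial := by
      have h3 : (D1 + D1).factorial ≤ (2 * D).factorial := Nat.factorial_le (by omega)
      have h4 : (2 * D).factorial ≤ 2 ^ (2 * D).factorial := Nat.lt_two_pow_self.le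
      have h5 : 2 ^ (2 * D).factorial ≤ H ^ (2 * D).factorial := Nat.pow_le_pow_left hH _
      exact_mod_cast h3.trans (h4.trans h5)
    have h6 : ((H : ℤ) ^ C) ^ (D1 + D1) ≤ (H : ℤ) ^ (C * (2 * D)) := by
      rw [← pow_mul]
      exact pow_le_pow_right₀ hH1 (Nat.mul_le_mul_left _ (by omega))
    have h7 : |a| ^ (D1 + (D1 - 1)) ≤ (H : ℤ) ^ (C * (2 * D)) := by
      calc |a| ^ (D1 + (D1 - 1)) ≤ ((H : ℤ) ^ C) ^ (D1 + (D1 - 1)) :=
            pow_le_pow_left₀ (abs_nonneg _) haC _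
        _ = (H : ℤ) ^ (C * (D1 + (D1 - 1))) := (pow_mul _ _ _).symm
        _ ≤ _ := pow_le_pow_right₀ hH1 (Nat.mul_le_mul_left _ (by omega))
    rw [pow_add (H : ℤ) ((2 * D).factorial + C * (2 * D)), pow_add (H : ℤ) (2 * D).factorial]
    refine mul_le_mul (h1.trans ?_) h7 (by positivity) (by positivity)
    exact mul_le_mul h2 h6 (by positivity) (by positivity)
  · intro s t hst hdvd
    obtain ⟨x, w, hx, hcx⟩ := ha s t hdvd
    refine dvd_of_form hx hcx ?_ hst
    have h1 : hom (D1 + (D1 - 1)) (A * P + B * Q) s t =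
        hom D1 A s t * hom (D1 - 1) P s t + hom D1 B s t * hom (D1 - 1) Q s t := by
      rw [hom_add, hom_mul _ _ _ _ hA (hnd P hP), hom_mul _ _ _ _ hB (hnd Q hQ)]
    have h2 : hom (D1 + (D1 - 1)) (A * P + B * Q) s t = R0 * t ^ (D1 + (D1 - 1)) := by
      rw [hPQ, ← monomial_zero_left, hom_monomial _ 0 (Nat.zero_le _)]
      simp
    rw [← h2, h1]
    exact dvd_add (Dvd.intro _ rfl) (Dvd.dvd.mul_right hdvd _)

/-- divisors weighted with an exponential of the number of primes. -/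
theorem sum_omega (D : ℕ) (ε : ℝ) (hε : 0 < ε) (C1 : ℕ) : ∃ K : ℝ, 0 < K ∧
    ∀ (H : ℕ) (R : ℤ), 2 ≤ H → R ≠ 0 → |R| ≤ (H : ℤ) ^ C1 →
      ∑ c ∈ Nat.divisors R.natAbs, ((D : ℝ) ^ (c.primeFactors.card)) ≤ K * (H : ℝ) ^ ε := by
  set δ : ℝ := ε / ((C1 + 1) * (D + 1)) with hδ
  have hδ0 : 0 < δ := by positivity
  obtain ⟨Cd, hCd1, hCd⟩ := divisor_bound δ hδ0
  have hCd0 : 0 < Cd := by linarith
  refine ⟨Cd ^ (D + 1), by positivity, ?_⟩
  intro H R hH hR hRH
  set r := R.natAbs with hr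
  have hr0 : r ≠ 0 := Int.natAbs_ne_zero.2 hR
  have hrH : (r : ℝ) ≤ (H : ℝ) ^ C1 := by
    have h1 : ((r : ℕ) : ℤ) ≤ (H : ℤ) ^ C1 := by rw [hr, Int.natCast_natAbs]; exact hRH
    exact_mod_cast h1
  have hr1 : (1 : ℝ) ≤ r := by exact_mod_cast Nat.one_le_iff_ne_zero.2 hr0
  have hH1 : (1 : ℝ) ≤ H := by exact_mod_cast (by omega : 1 ≤ H)
  have hterm : ∀ c ∈ Nat.divisors r, ((D : ℝ) ^ (c.primeFactors.card)) ≤ (Cd * (r : ℝ) ^ δ) ^ D := by
    intro c hc
    have hcr := Nat.dvd_of_mem_divisors hc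
    have hc0 : c ≠ 0 := fun h => hr0 (by simpa [h] using hcr)
    have h1 : 2 ^ c.primeFactors.card ≤ c.divisors.card := by
      rw [Nat.card_divisors hc0]
      refine Finset.pow_card_le_prod _ _ _ fun p hp => ?_
      have : c.factorization p ≠ 0 := by
        rw [← Finsupp.mem_support_iff, Nat.support_factorization]
        exact hp
      omega
    have h2 : ((D : ℝ) ^ (c.primeFactors.card)) ≤ ((2 : ℝ) ^ c.primeFactors.card) ^ D := by
      rw [← pow_mul, mul_comm, pow_mul]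
      refine pow_le_pow_left₀ (by positivity) ?_ _
      exact_mod_cast Nat.lt_two_pow_self.le
    have h3 : (c.divisors.card : ℝ) ≤ Cd * (r : ℝ) ^ δ := by
      refine (hCd c hc0).trans ?_
      refine mul_le_mul_of_nonneg_left ?_ hCd0.le
      refine Real.rpow_le_rpow (by positivity) ?_ hδ0.le
      exact_mod_cast Nat.le_of_dvd (Nat.pos_of_ne_zero hr0) hcr
    refine h2.trans (pow_le_pow_left₀ (by positivity) ?_ _)
    exact le_trans (by exact_mod_cast h1) h3
  have hsum : ∑ c ∈ Nat.divisors r, ((D : ℝ) ^ (c.primeFactors.card)) ≤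
      (Nat.divisors r).card * (Cd * (r : ℝ) ^ δ) ^ D := by
    have := Finset.sum_le_card_nsmul _ _ _ hterm
    rwa [nsmul_eq_mul] at this
  refine hsum.trans ?_
  have h4 : ((Nat.divisors r).card : ℝ) * (Cd * (r : ℝ) ^ δ) ^ D ≤ (Cd * (r : ℝ) ^ δ) ^ (D + 1) := by
    rw [pow_succ, mul_comm]
    exact mul_le_mul_of_nonneg_left (hCd r hr0) (by positivity)
  refine h4.trans ?_
  rw [mul_pow]
  refine mul_le_mul_of_nonneg_left ?_ (by positivity)
  rw [← Real.rpow_natCast, ← Real.rpow_mul (by positivity)]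
  calc (r : ℝ) ^ (δ * ((D + 1 : ℕ) : ℝ)) ≤ ((H : ℝ) ^ C1) ^ (δ * ((D + 1 : ℕ) : ℝ)) :=
        Real.rpow_le_rpow (by positivity) hrH (by (clear * - hε; positivity))
    _ = (H : ℝ) ^ (C1 * (δ * ((D + 1 : ℕ) : ℝ))) := by
        rw [← Real.rpow_natCast, ← Real.rpow_mul (by positivity)]
    _ ≤ (H : ℝ) ^ ε := by
        refine Real.rpow_le_rpow_of_exponent_le hH1 ?_
        rw [hδ]
        push_cast
        have h5 : (C1 : ℝ) * (ε / ((C1 + 1) * (D + 1)) * (D + 1)) = ε * (C1 / (C1 + 1)) := by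
          field_simp
        rw [h5]
        have h6 : (C1 : ℝ) / (C1 + 1) ≤ 1 := by
          rw [div_le_one (by (clear * -; positivity))]; linarith only []
        linarith only [mul_nonneg (le_of_lt (sub_pos.2 hε)) (sub_nonneg.2 h6)]

end Vale.Agent.P018.Q.Gap
end

section

/-! # P018, quartics: the gap lemma for parametrised curves. -/

namespace Vale.Agent.P018.Q

open Polynomial Gap

theorem hom_zero_right (D : ℕ) (A : ℤ[X]) (s : ℤ) : hom D A s 0 = A.coeff D * s ^ D := by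
  rw [hom, Finset.sum_range_succ, Finset.sum_eq_zero]
  · simp
  · intro i hi
    have : D - i ≠ 0 := by have := Finset.mem_range.1 hi; omega
    rw [zero_pow this, mul_zero]

theorem gap_lemma (D C : ℕ) (ε : ℝ) (hε : 0 < ε) :
    ∃ K : ℝ, 0 < K ∧ ∀ (H : ℕ) (X P : ℝ) (D' : ℕ) (A B : ℤ[X]) (S : Finset ℤ) (s t : ℤ → ℤ)
      (p : ℤ → ℕ), 2 ≤ H → 1 ≤ X → 1 ≤ P → 1 ≤ D' → D' ≤ D →
      A.natDegree ≤ D' → B.natDegree ≤ D' → (A.natDegree = D' ∨ B.natDegree = D') →
      IsCoprime (A.map (Int.castRingHom ℚ)) (B.map (Int.castRingHom ℚ)) →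
      (∀ i, |A.coeff i| ≤ (H : ℤ) ^ C) → (∀ i, |B.coeff i| ≤ (H : ℤ) ^ C) →
      (∀ N ∈ S, |(N : ℝ)| ≤ X ∧ IsCoprime (s N) (t N) ∧
        |s N| ≤ (H : ℤ) ^ C ∧ |t N| ≤ (H : ℤ) ^ C ∧
        hom D' A (s N) (t N) * N = hom D' B (s N) (t N) ∧ hom D' A (s N) (t N) ≠ 0 ∧
        (p N).Prime ∧ P ≤ p N ∧ ¬ ((p N : ℤ) ∣ hom D' A (s N) (t N)) ∧
        (p N : ℤ) ∣ hom (2 * D' - 2) (wr A B) (s N) (t N) ∧
        hom (2 * D' - 2) (wr A B) (s N) (t N) ≠ 0) →
      (S.card : ℝ) ≤ K * (H : ℝ) ^ ε * (1 + X / P) := by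
  classical
  obtain ⟨C1, hC1⟩ := exists_res D C
  obtain ⟨K1, hK1, hK1'⟩ := sum_omega D (ε / 2) (by positivity) C1
  have hlog2 : (0 : ℝ) < Real.log 2 := Real.log_pos (by norm_num)
  set K2 : ℝ := 1 + C * (2 / ε) / Real.log 2 with hK2
  have hK2p : 0 < K2 := by (clear * - hε; positivity)
  refine ⟨1 + 2 * K1 * ((6 * D + 3) * K2) * (1 + 4 * (D.factorial : ℝ)), by (clear * - hK1 hε; positivity), ?_⟩
  intro H X P D' A B S s t p hH hX hP hD1 hDD hA hB hAB hcop hAH hBH hS
  obtain ⟨d, rfl⟩ : ∃ d, D' = d + 1 := ⟨D' - 1, by omega⟩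
  rw [show 2 * (d + 1) - 2 = 2 * d by omega] at hS
  obtain ⟨R, hR0, hRH, hR⟩ := hC1 H (d + 1) A B hH hD1 hDD hA hB hAB hcop hAH hBH
  have hsum := hK1' H R hH hR0 hRH
  have hHR : (1 : ℝ) ≤ H := by exact_mod_cast (show 1 ≤ H by omega)
  have hP0 : 0 < P := by linarith only [hP]
  have hfac : (((d + 1).factorial : ℕ) : ℝ) ≤ (D.factorial : ℝ) := by
    exact_mod_cast Nat.factorial_le hDD
  have hfp : (0 : ℝ) < (((d + 1).factorial : ℕ) : ℝ) := by
    exact_mod_cast (d + 1).factorial_pos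
  -- the logarithmic factor
  set L : ℕ := Nat.log 2 (H ^ C) with hL
  have hLb : (L : ℝ) + 1 ≤ K2 * (H : ℝ) ^ (ε / 2) := by
    have h1 : (2 : ℝ) ^ L ≤ (H : ℝ) ^ C := by
      have := Nat.pow_log_le_self 2 (x := H ^ C) (pow_ne_zero _ (by omega))
      exact_mod_cast this
    have h2 : (L : ℝ) * Real.log 2 ≤ C * Real.log H := by
      have := Real.log_le_log (by positivity) h1
      rwa [Real.log_pow, Real.log_pow] at this
    have h3 : Real.log H ≤ (H : ℝ) ^ (ε / 2) / (ε / 2) :=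
      Real.log_le_rpow_div (by positivity) (by positivity)
    have h4 : (1 : ℝ) ≤ (H : ℝ) ^ (ε / 2) := Real.one_le_rpow hHR (by positivity)
    have h5 : (L : ℝ) ≤ C * (2 / ε) / Real.log 2 * (H : ℝ) ^ (ε / 2) := by
      rw [div_mul_eq_mul_div, le_div_iff₀ hlog2]
      refine h2.trans ?_
      calc (C : ℝ) * Real.log H ≤ C * ((H : ℝ) ^ (ε / 2) / (ε / 2)) := by gcongr
        _ = C * (2 / ε) * (H : ℝ) ^ (ε / 2) := by field_simp
    rw [hK2]
    linarith only [h5, h4]
  -- the exceptional point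
  set S0 := S.filter fun N => t N = 0 with hS0
  set S1 := S.filter fun N => t N ≠ 0 with hS1
  have hS01 : S.card = S0.card + S1.card := by
    rw [hS0, hS1]; exact (Finset.card_filter_add_card_filter_not _).symm
  have hS0c : S0.card ≤ 1 := by
    rw [Finset.card_le_one]
    have one : ∀ N ∈ S0, A.coeff (d + 1) ≠ 0 ∧ A.coeff (d + 1) * N = B.coeff (d + 1) := by
      intro N hN
      obtain ⟨hNS, ht⟩ := Finset.mem_filter.1 hN
      obtain ⟨-, h2, -, -, h5, h6, -⟩ := hS N hNS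
      rw [ht, hom_zero_right] at h6 h5
      rw [hom_zero_right] at h5
      have hs : (s N) ^ (d + 1) ≠ 0 := right_ne_zero_of_mul h6
      refine ⟨left_ne_zero_of_mul h6, ?_⟩
      apply mul_right_cancel₀ hs
      linear_combination h5
    intro N hN M hM
    obtain ⟨h1, h2⟩ := one N hN
    obtain ⟨-, h3⟩ := one M hM
    exact mul_left_cancel₀ h1 (h2.trans h3.symm)
  -- the other points
  set Q : ℝ := (6 * d + 3) * (L + 1) * (1 + 4 * (((d + 1).factorial : ℕ) : ℝ) * X / P) with hQ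
  have hQ0 : 0 ≤ Q := by (clear * - hX hP; positivity)
  have hc : ∀ c : ℤ, c ≠ 0 → ((S1.filter fun N => hom (d + 1) A (s N) (t N) = c).card : ℝ)
      ≤ ((d : ℝ) + 1) ^ c.natAbs.primeFactors.card * Q := by
    intro c hc
    refine per_c d A B hA hB c hc _ s t p X P (by linarith only [hX]) hP0 L ?_
    intro N hN
    obtain ⟨hN1, hNc⟩ := Finset.mem_filter.1 hN
    obtain ⟨hNS, ht⟩ := Finset.mem_filter.1 hN1
    obtain ⟨h1, h2, h3, h4, h5, h6, h7, h8, h9, h10, h11⟩ := hS N hNS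
    refine ⟨h1, h2, ht, ?_, hNc, ?_, h7, h8, ?_, h10, h11⟩
    · refine Nat.log_mono_right ?_
      have : ((t N).natAbs : ℤ) ≤ ((H ^ C : ℕ) : ℤ) := by
        rw [Int.natCast_natAbs]; push_cast; exact h4
      exact_mod_cast this
    · rw [← h5, hNc]
    · rw [← hNc]; exact h9
  have hmaps : ∀ N ∈ S1, (hom (d + 1) A (s N) (t N)).natAbs ∈ Nat.divisors R.natAbs := by
    intro N hN
    obtain ⟨hNS, ht⟩ := Finset.mem_filter.1 hN
    obtain ⟨h1, h2, h3, h4, h5, h6, -⟩ := hS N hNS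
    rw [Nat.mem_divisors]
    refine ⟨Int.natAbs_dvd_natAbs.2 (hR _ _ h2 ⟨N, h5.symm⟩), Int.natAbs_ne_zero.2 hR0⟩
  have hS1c : (S1.card : ℝ) ≤ 2 * (K1 * (H : ℝ) ^ (ε / 2)) * Q := by
    rw [Finset.card_eq_sum_card_fiberwise hmaps]
    push_cast
    have hm : ∀ m ∈ Nat.divisors R.natAbs,
        ((S1.filter fun N => (hom (d + 1) A (s N) (t N)).natAbs = m).card : ℝ)
          ≤ (D : ℝ) ^ m.primeFactors.card * (2 * Q) := by
      intro m hm
      have hm0 : m ≠ 0 := (Nat.pos_of_mem_divisors hm).ne'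
      have h1 := hc (m : ℤ) (by exact_mod_cast hm0)
      have h2 := hc (-(m : ℤ)) (by simpa using hm0)
      rw [Int.natAbs_neg] at h2
      rw [Int.natAbs_natCast] at h1 h2
      have h3 : (S1.filter fun N => (hom (d + 1) A (s N) (t N)).natAbs = m)
          ⊆ (S1.filter fun N => hom (d + 1) A (s N) (t N) = (m : ℤ))
            ∪ (S1.filter fun N => hom (d + 1) A (s N) (t N) = -(m : ℤ)) := by
        intro N hN
        obtain ⟨hN1, hN2⟩ := Finset.mem_filter.1 hN
        rcases Int.natAbs_eq (hom (d + 1) A (s N) (t N)) with h | h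
        · exact Finset.mem_union_left _ (Finset.mem_filter.2 ⟨hN1, by rw [h, hN2]⟩)
        · exact Finset.mem_union_right _ (Finset.mem_filter.2 ⟨hN1, by rw [h, hN2]⟩)
      have h4 := (Finset.card_le_card h3).trans (Finset.card_union_le _ _)
      have h5 : ((S1.filter fun N => (hom (d + 1) A (s N) (t N)).natAbs = m).card : ℝ)
          ≤ ((S1.filter fun N => hom (d + 1) A (s N) (t N) = (m : ℤ)).card : ℝ)
            + ((S1.filter fun N => hom (d + 1) A (s N) (t N) = -(m : ℤ)).card : ℝ) := by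
        exact_mod_cast h4
      have h6 : ((d : ℝ) + 1) ^ m.primeFactors.card ≤ (D : ℝ) ^ m.primeFactors.card := by
        refine pow_le_pow_left₀ (by (clear * -; positivity)) ?_ _
        exact_mod_cast hDD
      have h7 := mul_le_mul_of_nonneg_right h6 hQ0
      linarith only [h1, h2, h5, h7]
    refine (Finset.sum_le_sum hm).trans ?_
    rw [← Finset.sum_mul]
    calc _ ≤ K1 * (H : ℝ) ^ (ε / 2) * (2 * Q) := by
          exact mul_le_mul_of_nonneg_right hsum (by (clear * - hX hP; positivity))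
      _ = _ := by ring
  -- conclusion
  have hXP : 0 ≤ X / P := by positivity
  have hQb : Q ≤ ((6 * D + 3) * (K2 * (H : ℝ) ^ (ε / 2))) * ((1 + 4 * (D.factorial : ℝ))
      * (1 + X / P)) := by
    rw [hQ]
    have a1 : (6 * (d : ℝ) + 3) ≤ 6 * D + 3 := by
      have : ((d + 1 : ℕ) : ℝ) ≤ D := by exact_mod_cast hDD
      push_cast at this
      linarith only [this]
    have a2 : (1 + 4 * (((d + 1).factorial : ℕ) : ℝ) * X / P)
        ≤ (1 + 4 * (D.factorial : ℝ)) * (1 + X / P) := by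
      have : 4 * (((d + 1).factorial : ℕ) : ℝ) * X / P
          = 4 * (((d + 1).factorial : ℕ) : ℝ) * (X / P) := by ring
      rw [this]
      (by_contra nlg; linarith only [hfp, mul_nonneg (mul_self_nonneg (1 : ℝ)) (le_of_lt (sub_pos.2 (not_le.1 nlg))), mul_nonneg (mul_self_nonneg (1 : ℝ)) (sub_nonneg.2 hfac), mul_nonneg (mul_self_nonneg (1 : ℝ)) (sub_nonneg.2 hXP), mul_nonneg (sub_nonneg.2 hfac) (sub_nonneg.2 hXP)])
    refine mul_le_mul ?_ a2 (by positivity) (by (clear * - hε hH; positivity))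
    exact mul_le_mul a1 hLb (by (clear * -; positivity)) (by (clear * -; positivity))
  have hHe : (H : ℝ) ^ ε = (H : ℝ) ^ (ε / 2) * (H : ℝ) ^ (ε / 2) := by
    rw [← Real.rpow_add (by linarith only [hHR])]; congr 1; ring
  have hHe1 : (1 : ℝ) ≤ (H : ℝ) ^ ε := Real.one_le_rpow hHR hε.le
  have e1 : (S.card : ℝ) ≤ 1 + 2 * (K1 * (H : ℝ) ^ (ε / 2)) * Q := by
    rw [hS01]; push_cast
    have : (S0.card : ℝ) ≤ 1 := by exact_mod_cast hS0c
    linarith only [this, hS1c]
  have e2 : 2 * (K1 * (H : ℝ) ^ (ε / 2)) * Q ≤ 2 * (K1 * (H : ℝ) ^ (ε / 2))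
      * (((6 * D + 3) * (K2 * (H : ℝ) ^ (ε / 2))) * ((1 + 4 * (D.factorial : ℝ))
      * (1 + X / P))) := mul_le_mul_of_nonneg_left hQb (by positivity)
  have e3 : (1 : ℝ) ≤ (H : ℝ) ^ ε * (1 + X / P) := by linarith only [mul_eq_zero_of_left (sub_eq_zero.2 hHe) (X / P - (0)), mul_nonneg (mul_self_nonneg (1 * ↑H ^ (ε / 2) : ℝ)) (sub_nonneg.2 hXP), mul_nonneg (mul_self_nonneg (1 : ℝ)) (sub_nonneg.2 hHe1)]
  calc (S.card : ℝ) ≤ 1 + 2 * (K1 * (H : ℝ) ^ (ε / 2))
      * (((6 * D + 3) * (K2 * (H : ℝ) ^ (ε / 2))) * ((1 + 4 * (D.factorial : ℝ))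
      * (1 + X / P))) := by linarith only [e2, e1]
    _ ≤ (H : ℝ) ^ ε * (1 + X / P) + 2 * (K1 * (H : ℝ) ^ (ε / 2))
      * (((6 * D + 3) * (K2 * (H : ℝ) ^ (ε / 2))) * ((1 + 4 * (D.factorial : ℝ))
      * (1 + X / P))) := by linarith only [e3]
    _ = _ := by rw [hHe]; ring

end Vale.Agent.P018.Q
end

section

/-! # P018, quartics: tools for the gap lemma for arbitrary parametrised curves. -/

namespace Vale.Agent.P018.Q.GapP

open Polynomial Gap

/-- relatively prime integer polynomials are coprime over the rationals. -/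
theorem rel_coprime {A B : ℤ[X]} (hA : A ≠ 0) (h : IsRelPrime A B) :
    IsCoprime (A.map (Int.castRingHom ℚ)) (B.map (Int.castRingHom ℚ)) := by
  have hinj : Function.Injective (Int.castRingHom ℚ) := Int.cast_injective
  have hA' : A.map (Int.castRingHom ℚ) ≠ 0 := (Polynomial.map_ne_zero_iff hinj).2 hA
  by_contra hc
  rw [← isRelPrime_iff_isCoprime] at hc
  obtain ⟨g, hg, hgA, hgB⟩ : ∃ g : ℚ[X], Irreducible g ∧ g ∣ A.map (Int.castRingHom ℚ) ∧
      g ∣ B.map (Int.castRingHom ℚ) := by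
    unfold IsRelPrime at hc
    push Not at hc
    obtain ⟨c, hcA, hcB, hcu⟩ := hc
    have hc0 : c ≠ 0 := fun h0 => hA' (by rwa [h0, zero_dvd_iff] at hcA)
    obtain ⟨g, hg, hgc⟩ := WfDvdMonoid.exists_irreducible_factor hcu hc0
    exact ⟨g, hg, hgc.trans hcA, hgc.trans hcB⟩
  -- the factor over the integers
  have h1 := UniqueFactorizationMonoid.factors_prod hA
  have h2 : g ∣ ((UniqueFactorizationMonoid.factors A).map
      (mapRingHom (Int.castRingHom ℚ))).prod := by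
    rw [← map_multiset_prod]
    exact hgA.trans (map_dvd (mapRingHom (Int.castRingHom ℚ)) h1.symm.dvd)
  obtain ⟨f, hf, hgf⟩ := hg.prime.exists_mem_multiset_map_dvd h2
  have hfi := UniqueFactorizationMonoid.irreducible_of_factor f hf
  have hfA : f ∣ A := (Multiset.dvd_prod hf).trans h1.dvd
  have hgf' : g ∣ f.map (Int.castRingHom ℚ) := hgf
  have hf0 : f.map (Int.castRingHom ℚ) ≠ 0 := (Polynomial.map_ne_zero_iff hinj).2 hfi.ne_zero
  have hfd : f.natDegree ≠ 0 := by
    have h3 := natDegree_le_of_dvd hgf' hf0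
    rw [natDegree_map_eq_of_injective hinj] at h3
    have h4 : 0 < g.natDegree := hg.natDegree_pos
    omega
  have hfp : f.IsPrimitive := hfi.isPrimitive hfd
  have hfI : Irreducible (f.map (Int.castRingHom ℚ)) :=
    (IsPrimitive.Int.irreducible_iff_irreducible_map_cast hfp).1 hfi
  have hfg : f.map (Int.castRingHom ℚ) ∣ g := (hg.associated_of_dvd hfI hgf').symm.dvd
  have hfB : f ∣ B := by
    rcases eq_or_ne B 0 with rfl | hB
    · exact dvd_zero _
    · have h5 : f.map (Int.castRingHom ℚ) ∣ B.primPart.map (Int.castRingHom ℚ) := by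
        have h6 : f.map (Int.castRingHom ℚ) ∣ (C B.content * B.primPart).map
            (Int.castRingHom ℚ) := by
          rw [← B.eq_C_content_mul_primPart]
          exact hfg.trans hgB
        rw [Polynomial.map_mul, map_C] at h6
        have h7 : IsUnit (C ((Int.castRingHom ℚ) B.content)) := by
          rw [isUnit_C, isUnit_iff_ne_zero, Ne, map_eq_zero_iff _ hinj]
          rwa [content_eq_zero_iff]
        exact (h7.dvd_mul_left).1 h6
      have h8 : f ∣ B.primPart :=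
        (IsPrimitive.Int.dvd_iff_map_cast_dvd_map_cast f _ hfp).2 h5
      exact h8.trans B.primPart_dvd
  exact hfi.not_isUnit (h hfA hfB)

/-- removal of the common factor. -/
theorem exists_red {A B : ℤ[X]} (hA : A ≠ 0) : ∃ h A' B' : ℤ[X], A = h * A' ∧ B = h * B' ∧
    A' ≠ 0 ∧ h ≠ 0 ∧ IsCoprime (A'.map (Int.castRingHom ℚ)) (B'.map (Int.castRingHom ℚ)) := by
  obtain ⟨A', B', h, hr, h1, h2⟩ := UniqueFactorizationMonoid.exists_reduced_factors A hA B
  have hA' : A' ≠ 0 := by rintro rfl; exact hA (by rw [← h1, mul_zero])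
  have hh : h ≠ 0 := by rintro rfl; exact hA (by rw [← h1, zero_mul])
  exact ⟨h, A', B', h1.symm, h2.symm, hA', hh, rel_coprime hA' hr⟩

/-- the polynomial `A^n G(B / A)`. -/
noncomputable def cmp (G A B : ℤ[X]) : ℤ[X] := hom G.natDegree G B A

theorem natDegree_cmp (G A B : ℤ[X]) (D : ℕ) (hA : A.natDegree ≤ D) (hB : B.natDegree ≤ D) :
    (cmp G A B).natDegree ≤ G.natDegree * D := by
  unfold cmp hom
  refine natDegree_sum_le_of_forall_le _ _ fun i hi => ?_
  have hi' : i ≤ G.natDegree := by have := Finset.mem_range.1 hi; omega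
  have h1 : (B ^ i).natDegree ≤ i * D := natDegree_pow_le.trans (Nat.mul_le_mul_left _ hB)
  have h2 : (A ^ (G.natDegree - i)).natDegree ≤ (G.natDegree - i) * D :=
    natDegree_pow_le.trans (Nat.mul_le_mul_left _ hA)
  have h3 : ((G.coeff i : ℤ[X]) * B ^ i * A ^ (G.natDegree - i)).natDegree ≤
      0 + i * D + (G.natDegree - i) * D := by
    refine natDegree_mul_le.trans (Nat.add_le_add (natDegree_mul_le.trans
      (Nat.add_le_add ?_ h1)) h2)
    rw [natDegree_intCast]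
  refine h3.trans ?_
  rw [zero_add, ← Nat.add_mul]
  exact Nat.mul_le_mul_right _ (by omega)

theorem coeff_mul_bound (f g : ℤ[X]) (a : ℕ) (M M' : ℤ) (hM : 0 ≤ M) (hM' : 0 ≤ M')
    (hf : f.natDegree ≤ a)
    (h1 : ∀ i, |f.coeff i| ≤ M) (h2 : ∀ i, |g.coeff i| ≤ M') (m : ℕ) :
    |(f * g).coeff m| ≤ (a + 1) * M * M' := by
  rw [coeff_mul, Finset.Nat.sum_antidiagonal_eq_sum_range_succ (fun i j => f.coeff i * g.coeff j)]
  refine (Finset.abs_sum_le_sum_abs _ _).trans ?_
  have h3 : ∀ i ∈ Finset.range m.succ, |f.coeff i * g.coeff (m - i)| ≤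
      if i ∈ Finset.range (a + 1) then M * M' else 0 := by
    intro i _
    split_ifs with hi
    · rw [abs_mul]
      exact mul_le_mul (h1 _) (h2 _) (abs_nonneg _) hM
    · rw [coeff_eq_zero_of_natDegree_lt (lt_of_le_of_lt hf (by
        rw [Finset.mem_range] at hi; omega)), zero_mul, abs_zero]
  refine (Finset.sum_le_sum h3).trans ?_
  rw [← Finset.sum_filter, Finset.sum_const, nsmul_eq_mul, mul_assoc]
  refine mul_le_mul_of_nonneg_right ?_ (mul_nonneg hM hM')
  have h4 : ((Finset.range m.succ).filter fun i => i ∈ Finset.range (a + 1)).card ≤ a + 1 := by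
    refine (Finset.card_le_card (fun i hi => (Finset.mem_filter.1 hi).2)).trans ?_
    rw [Finset.card_range]
  exact_mod_cast h4

theorem coeff_pow_bound (f : ℤ[X]) (a : ℕ) (M : ℤ) (hM : 1 ≤ M) (hf : f.natDegree ≤ a)
    (h1 : ∀ i, |f.coeff i| ≤ M) (k : ℕ) : ∀ m, |(f ^ k).coeff m| ≤ ((a + 1) * M) ^ k := by
  have hM0 : 0 ≤ M := by omega
  have ha : (0 : ℤ) ≤ (a : ℤ) + 1 := by positivity
  induction k with
  | zero =>
    intro m
    rw [pow_zero, pow_zero, coeff_one]
    split_ifs <;> simp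
  | succ k ih =>
    intro m
    rw [pow_succ', pow_succ']
    exact coeff_mul_bound f _ a M _ hM0 (pow_nonneg (mul_nonneg ha hM0) _) hf h1 ih m

theorem coeff_cmp (G A B : ℤ[X]) (D : ℕ) (M : ℤ) (hM : 1 ≤ M) (hA : A.natDegree ≤ D)
    (hB : B.natDegree ≤ D) (h1 : ∀ i, |A.coeff i| ≤ M) (h2 : ∀ i, |B.coeff i| ≤ M) (m : ℕ) :
    |(cmp G A B).coeff m| ≤
      (∑ i ∈ Finset.range (G.natDegree + 1), |G.coeff i|) * (G.natDegree * D + 1)
        * ((D + 1) * M) ^ G.natDegree := by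
  unfold cmp hom
  rw [finsetSum_coeff, Finset.sum_mul, Finset.sum_mul]
  refine (Finset.abs_sum_le_sum_abs _ _).trans (Finset.sum_le_sum fun i hi => ?_)
  have hi' : i ≤ G.natDegree := by have := Finset.mem_range.1 hi; omega
  have e : (G.coeff i : ℤ[X]) * B ^ i * A ^ (G.natDegree - i) =
      C (G.coeff i) * (B ^ i * A ^ (G.natDegree - i)) := by
    rw [mul_assoc, ← Polynomial.C_eq_intCast, Int.cast_id]
  have hM0 : 0 ≤ M := by omega
  have hD : (0 : ℤ) ≤ (D : ℤ) + 1 := by positivity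
  have h3 : (B ^ i).natDegree ≤ G.natDegree * D :=
    natDegree_pow_le.trans (Nat.mul_le_mul hi' hB)
  rw [e, coeff_C_mul, abs_mul, mul_assoc]
  refine mul_le_mul_of_nonneg_left ?_ (abs_nonneg _)
  refine (coeff_mul_bound _ _ _ _ _ (by positivity) (by positivity) h3
    (coeff_pow_bound B D M hM hB h2 i) (coeff_pow_bound A D M hM hA h1 _) m).trans ?_
  rw [mul_assoc, ← pow_add, Nat.add_sub_cancel' hi']
  push_cast
  exact le_rfl

theorem cmp_height (G : ℤ[X]) (D C1 : ℕ) : ∃ C2 : ℕ, ∀ (H : ℕ) (A B : ℤ[X]), 2 ≤ H →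
    A.natDegree ≤ D → B.natDegree ≤ D → (∀ i, |A.coeff i| ≤ (H : ℤ) ^ C1) →
    (∀ i, |B.coeff i| ≤ (H : ℤ) ^ C1) → ∀ i, |(cmp G A B).coeff i| ≤ (H : ℤ) ^ C2 := by
  obtain ⟨c, hc⟩ : ∃ c : ℕ, (c : ℤ) = (∑ i ∈ Finset.range (G.natDegree + 1), |G.coeff i|) *
      (G.natDegree * D + 1) * (D + 1) ^ G.natDegree :=
    ⟨_, Int.toNat_of_nonneg (by positivity)⟩
  refine ⟨c + C1 * G.natDegree, ?_⟩
  intro H A B hH hA hB h1 h2 i
  have hH1 : (1 : ℤ) ≤ H := by exact_mod_cast (by omega : 1 ≤ H)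
  refine (coeff_cmp G A B D _ (one_le_pow₀ hH1) hA hB h1 h2 i).trans ?_
  rw [mul_pow, ← mul_assoc, ← hc, ← pow_mul, pow_add]
  refine mul_le_mul_of_nonneg_right ?_ (by positivity)
  have h3 : c ≤ 2 ^ c := Nat.lt_two_pow_self.le
  have h4 : 2 ^ c ≤ H ^ c := Nat.pow_le_pow_left hH _
  exact_mod_cast h3.trans h4

theorem hom_pow (D k : ℕ) (A : ℤ[X]) (hA : A.natDegree ≤ D) (s t : ℤ) :
    hom (k * D) (A ^ k) s t = hom D A s t ^ k := by
  induction k with
  | zero =>
    rw [pow_zero, pow_zero, zero_mul, ← C_1, ← monomial_zero_left, hom_monomial _ 0 le_rfl]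
    simp
  | succ k ih =>
    rw [pow_succ, pow_succ, Nat.add_mul, one_mul, hom_mul (k * D) D _ _ ?_ hA, ih]
    exact natDegree_pow_le.trans (Nat.mul_le_mul_left _ hA)

theorem hom_C_mul (D : ℕ) (c : ℤ) (A : ℤ[X]) (hA : A.natDegree ≤ D) (s t : ℤ) :
    hom D (C c * A) s t = c * hom D A s t := by
  have := hom_mul 0 D (C c) A (natDegree_C c).le hA s t
  rw [zero_add] at this
  rw [this, ← monomial_zero_left, hom_monomial _ 0 le_rfl]
  simp

/-- the value of the composition. -/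
theorem hom_cmp (G A B : ℤ[X]) (D : ℕ) (hA : A.natDegree ≤ D) (hB : B.natDegree ≤ D)
    (s t N : ℤ) (hN : hom D A s t * N = hom D B s t) :
    hom (G.natDegree * D) (cmp G A B) s t = hom D A s t ^ G.natDegree * G.eval N := by
  rw [eval_eq_sum_range, Finset.mul_sum]
  unfold cmp
  conv_lhs => rw [show hom G.natDegree G B A = ∑ i ∈ Finset.range (G.natDegree + 1),
    (G.coeff i : ℤ[X]) * B ^ i * A ^ (G.natDegree - i) from rfl]
  rw [hom_sum]
  refine Finset.sum_congr rfl fun i hi => ?_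
  have hi' : i ≤ G.natDegree := by have := Finset.mem_range.1 hi; omega
  have e : (G.coeff i : ℤ[X]) * B ^ i * A ^ (G.natDegree - i) =
      C (G.coeff i) * (B ^ i * A ^ (G.natDegree - i)) := by
    rw [mul_assoc, ← Polynomial.C_eq_intCast, Int.cast_id]
  have e2 : G.natDegree * D = i * D + (G.natDegree - i) * D := by
    rw [← Nat.add_mul, Nat.add_sub_cancel' hi']
  have h1 : (B ^ i).natDegree ≤ i * D := natDegree_pow_le.trans (Nat.mul_le_mul_left _ hB)
  have h2 : (A ^ (G.natDegree - i)).natDegree ≤ (G.natDegree - i) * D :=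
    natDegree_pow_le.trans (Nat.mul_le_mul_left _ hA)
  rw [e, e2, hom_C_mul _ _ _ (natDegree_mul_le.trans (Nat.add_le_add h1 h2)),
    hom_mul _ _ _ _ h1 h2, hom_pow _ _ _ hB, hom_pow _ _ _ hA, ← hN]
  have e3 : hom D A s t ^ G.natDegree = hom D A s t ^ i * hom D A s t ^ (G.natDegree - i) := by
    rw [← pow_add, Nat.add_sub_cancel' hi']
  rw [e3]
  ring

/-- values of forms over fields. -/
theorem hom_field {k : Type*} [Field k] (D : ℕ) (f : ℤ[X]) (hf : f.natDegree ≤ D) (s t : k)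
    (ht : t ≠ 0) : hom D f s t = t ^ D * f.eval₂ (Int.castRingHom k) (s / t) := by
  rw [eval₂_eq_sum_range' (Int.castRingHom k) (n := D + 1) (by omega), Finset.mul_sum, hom]
  refine Finset.sum_congr rfl fun i hi => ?_
  have hi' : i ≤ D := by have := Finset.mem_range.1 hi; omega
  have e : t ^ D = t ^ (D - i) * t ^ i := by rw [← pow_add, Nat.sub_add_cancel hi']
  rw [e, eq_intCast, div_pow]
  field_simp

theorem derivative_cmp (G A B : ℤ[X]) : derivative (cmp G A B) =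
    ∑ i ∈ Finset.range (G.natDegree + 1), (G.coeff i : ℤ[X]) *
      ((i : ℤ[X]) * B ^ (i - 1) * derivative B * A ^ (G.natDegree - i) +
        B ^ i * (((G.natDegree - i : ℕ) : ℤ[X]) * A ^ (G.natDegree - i - 1) * derivative A)) := by
  unfold cmp hom
  rw [derivative_sum]
  refine Finset.sum_congr rfl fun i _ => ?_
  rw [derivative_mul, derivative_mul, derivative_pow, derivative_pow, derivative_intCast]
  simp only [map_natCast]
  ring

/-- the value of the derivative of the composition. -/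
theorem eval_derivative_cmp {k : Type*} [Field k] (G A B : ℤ[X]) (hG : 1 ≤ G.natDegree) (z N : k)
    (h : B.eval₂ (Int.castRingHom k) z = N * A.eval₂ (Int.castRingHom k) z)
    (hG0 : G.eval₂ (Int.castRingHom k) N = 0) :
    (derivative (cmp G A B)).eval₂ (Int.castRingHom k) z =
      (A.eval₂ (Int.castRingHom k) z) ^ (G.natDegree - 1) *
        (derivative G).eval₂ (Int.castRingHom k) N *
        ((derivative B).eval₂ (Int.castRingHom k) z -
          N * (derivative A).eval₂ (Int.castRingHom k) z) := by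
  have e1 : (derivative G).eval₂ (Int.castRingHom k) N =
      ∑ i ∈ Finset.range (G.natDegree + 1), (G.coeff i : k) * i * N ^ (i - 1) := by
    conv_lhs => rw [G.as_sum_range]
    rw [derivative_sum, eval₂_finsetSum]
    refine Finset.sum_congr rfl fun i _ => ?_
    rw [derivative_monomial, eval₂_monomial]
    simp
  have e2 : G.eval₂ (Int.castRingHom k) N =
      ∑ i ∈ Finset.range (G.natDegree + 1), (G.coeff i : k) * N ^ i := by
    rw [eval₂_eq_sum_range]
    simp
  set a := A.eval₂ (Int.castRingHom k) z with ha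
  set b := B.eval₂ (Int.castRingHom k) z with hb
  set a' := (derivative A).eval₂ (Int.castRingHom k) z with ha'
  set b' := (derivative B).eval₂ (Int.castRingHom k) z with hb'
  have e3 : (derivative (cmp G A B)).eval₂ (Int.castRingHom k) z =
      ∑ i ∈ Finset.range (G.natDegree + 1), (G.coeff i : k) *
      ((i : k) * b ^ (i - 1) * b' * a ^ (G.natDegree - i) +
        b ^ i * (((G.natDegree - i : ℕ) : k) * a ^ (G.natDegree - i - 1) * a')) := by
    have hc : ∀ c : ℤ, eval₂ (Int.castRingHom k) z (c : ℤ[X]) = (c : k) := fun c => by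
      rw [← Polynomial.C_eq_intCast, eval₂_C]; simp
    rw [derivative_cmp, eval₂_finsetSum]
    refine Finset.sum_congr rfl fun i _ => ?_
    simp only [eval₂_mul, eval₂_add, eval₂_pow, hc, eval₂_natCast, ha, hb, ha', hb']
  have e4 : ∀ i ∈ Finset.range (G.natDegree + 1), (G.coeff i : k) *
      ((i : k) * b ^ (i - 1) * b' * a ^ (G.natDegree - i) +
        b ^ i * (((G.natDegree - i : ℕ) : k) * a ^ (G.natDegree - i - 1) * a')) =
      a ^ (G.natDegree - 1) * (b' - N * a') * ((G.coeff i : k) * i * N ^ (i - 1)) +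
      a ^ (G.natDegree - 1) * a' * G.natDegree * ((G.coeff i : k) * N ^ i) := by
    intro i hi
    have hi' : i ≤ G.natDegree := by have := Finset.mem_range.1 hi; omega
    rw [h, Nat.cast_sub hi']
    rcases Nat.eq_zero_or_pos i with rfl | hi0
    · simp
      ring
    · have hNi : N ^ i = N ^ (i - 1) * N := by rw [← pow_succ, Nat.sub_add_cancel hi0]
      have hai : a ^ i = a ^ (i - 1) * a := by rw [← pow_succ, Nat.sub_add_cancel hi0]
      rcases Nat.lt_or_ge i G.natDegree with h5 | h5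
      · have e5 : a ^ (G.natDegree - 1) = a ^ (i - 1) * a * a ^ (G.natDegree - i - 1) := by
          rw [← hai, ← pow_add]; congr 1; omega
        have e6 : a ^ (G.natDegree - i) = a * a ^ (G.natDegree - i - 1) := by
          rw [← pow_succ']; congr 1; omega
        rw [mul_pow, mul_pow, hNi, hai, e5, e6]
        ring
      · have h6 : i = G.natDegree := le_antisymm hi' h5
        rw [← h6]
        rw [mul_pow, mul_pow, hNi, hai]
        simp
        ring
  rw [e3, Finset.sum_congr rfl e4, Finset.sum_add_distrib, ← Finset.mul_sum, ← Finset.mul_sum,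
    ← e1, ← e2, hG0]
  ring

/-- the solutions outside of the exceptional primes are critical modulo `p`. -/
theorem good_wr (G : ℤ[X]) (hG : 1 ≤ G.natDegree) (d D : ℕ) (A B : ℤ[X])
    (hA : A.natDegree ≤ d + 1) (hB : B.natDegree ≤ d + 1) (hD : d + 1 ≤ D) (p : ℕ) (hp : p.Prime)
    (s t N : ℤ) (ht : ¬ (p : ℤ) ∣ t) (ha : ¬ (p : ℤ) ∣ hom (d + 1) A s t)
    (hN : hom (d + 1) A s t * N = hom (d + 1) B s t) (hG0 : (p : ℤ) ∣ G.eval N)
    (hG1 : ¬ (p : ℤ) ∣ (derivative G).eval N)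
    (hF : (p : ℤ) ∣ hom (G.natDegree * D - 1) (derivative (cmp G A B)) s t) :
    (p : ℤ) ∣ hom (2 * d) (wr A B) s t := by
  have : Fact p.Prime := ⟨hp⟩
  have hdv : ∀ c : ℤ, (p : ℤ) ∣ c ↔ (Int.castRingHom (ZMod p)) c = 0 := fun c => by
    rw [eq_intCast, ZMod.intCast_zmod_eq_zero_iff_dvd]
  rw [hdv] at ht ha hG0 hG1 hF ⊢
  have hN' := congrArg (Int.castRingHom (ZMod p)) hN
  rw [map_mul] at hN'
  rw [hom_map] at ha hN' hF ⊢
  rw [hom_map] at hN'
  set k := ZMod p
  set φ := Int.castRingHom k with hφ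
  set z : k := φ s / φ t with hz
  have ht0 : φ t ≠ 0 := ht
  rw [hom_field _ _ hA _ _ ht0] at ha hN'
  rw [hom_field _ _ hB _ _ ht0] at hN'
  rw [← hz, ← hφ] at ha hN'
  have hnF : (derivative (cmp G A B)).natDegree ≤ G.natDegree * D - 1 := by
    refine (natDegree_derivative_le _).trans (Nat.sub_le_sub_right ?_ 1)
    exact (natDegree_cmp G A B D (hA.trans hD) (hB.trans hD))
  rw [hom_field _ _ hnF _ _ ht0, ← hz, ← hφ] at hF
  rw [hom_field _ _ (natDegree_wr d A B hA hB) _ _ ht0, ← hz, ← hφ]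
  have htp : ∀ m : ℕ, φ t ^ m ≠ 0 := fun m => pow_ne_zero _ ht0
  have hb : B.eval₂ φ z = φ N * A.eval₂ φ z := by
    apply mul_left_cancel₀ (htp (d + 1))
    rw [← hN']; ring
  have ha0 : A.eval₂ φ z ≠ 0 := right_ne_zero_of_mul ha
  have hG0' : G.eval₂ φ (φ N) = 0 := by rw [eval₂_at_apply]; exact hG0
  have hG1' : (derivative G).eval₂ φ (φ N) ≠ 0 := by rw [eval₂_at_apply]; exact hG1
  have hF' : (derivative (cmp G A B)).eval₂ φ z = 0 := (mul_eq_zero.1 hF).resolve_left (htp _)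
  rw [eval_derivative_cmp G A B hG z (φ N) hb hG0'] at hF'
  have h1 : (derivative B).eval₂ φ z = φ N * (derivative A).eval₂ φ z :=
    sub_eq_zero.1 ((mul_eq_zero.1 hF').resolve_left (mul_ne_zero (pow_ne_zero _ ha0) hG1'))
  rw [wr, eval₂_sub, eval₂_mul, eval₂_mul, hb, h1]
  ring

theorem wr_ne_zero {A B : ℤ[X]}
    (hc : IsCoprime (A.map (Int.castRingHom ℚ)) (B.map (Int.castRingHom ℚ)))
    (hd : 1 ≤ A.natDegree ∨ 1 ≤ B.natDegree) : (wr A B).map (Int.castRingHom ℚ) ≠ 0 := by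
  have hinj : Function.Injective (Int.castRingHom ℚ) := Int.cast_injective
  intro h0
  have h1 : wronskian (A.map (Int.castRingHom ℚ)) (B.map (Int.castRingHom ℚ)) = 0 := by
    rw [← h0, wronskian, wr]
    simp only [Polynomial.map_sub, Polynomial.map_mul, derivative_map]
  obtain ⟨h2, h3⟩ := hc.wronskian_eq_zero_iff.1 h1
  have h4 := derivative_eq_zero.1 h2
  have h5 := derivative_eq_zero.1 h3
  rw [natDegree_map_eq_of_injective hinj] at h4 h5
  omega

/-- few solutions are critical. -/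
theorem card_wr (d : ℕ) (A B : ℤ[X]) (hA : A.natDegree ≤ d + 1) (hB : B.natDegree ≤ d + 1)
    (hW : (wr A B).map (Int.castRingHom ℚ) ≠ 0) (S : Finset ℤ) (s t : ℤ → ℤ)
    (hS : ∀ N ∈ S, t N ≠ 0 ∧ hom (d + 1) A (s N) (t N) ≠ 0 ∧
      hom (d + 1) A (s N) (t N) * N = hom (d + 1) B (s N) (t N) ∧
      hom (2 * d) (wr A B) (s N) (t N) = 0) : S.card ≤ 2 * d := by
  classical
  have hinj : Function.Injective (Int.castRingHom ℚ) := Int.cast_injective
  set φ := Int.castRingHom ℚ with hφ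
  have h1 : (S.image (Int.cast : ℤ → ℚ)) ⊆
      (((wr A B).map φ).roots.toFinset).image fun z => B.eval₂ φ z / A.eval₂ φ z := by
    intro x hx
    obtain ⟨N, hN, rfl⟩ := Finset.mem_image.1 hx
    obtain ⟨ht, ha, hab, hw⟩ := hS N hN
    have ht0 : φ (t N) ≠ 0 := by rw [Ne, map_eq_zero_iff _ hinj]; exact ht
    have ha0 : φ (hom (d + 1) A (s N) (t N)) ≠ 0 := by
      rw [Ne, map_eq_zero_iff _ hinj]; exact ha
    have hab' := congrArg φ hab
    have hw' := congrArg φ hw
    rw [map_mul] at hab'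
    rw [hom_map, map_zero, hom_field _ _ (natDegree_wr d A B hA hB) _ _ ht0] at hw'
    rw [hom_map, hom_field _ _ hA _ _ ht0] at ha0 hab'
    rw [hom_map, hom_field _ _ hB _ _ ht0] at hab'
    rw [← hφ] at ha0 hab' hw'
    refine Finset.mem_image.2 ⟨φ (s N) / φ (t N), ?_, ?_⟩
    · rw [Multiset.mem_toFinset, mem_roots hW, IsRoot.def, eval_map]
      exact (mul_eq_zero.1 hw').resolve_left (pow_ne_zero _ ht0)
    · have h2 := right_ne_zero_of_mul ha0
      show B.eval₂ φ _ / A.eval₂ φ _ = (N : ℚ)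
      rw [div_eq_iff h2]
      apply mul_left_cancel₀ (pow_ne_zero (d + 1) ht0)
      rw [← hab', show φ N = (N : ℚ) from rfl]
      ring
  have h2 := Finset.card_le_card h1
  rw [Finset.card_image_of_injective _ Int.cast_injective] at h2
  refine h2.trans (Finset.card_image_le.trans ((Multiset.toFinset_card_le _).trans
    ((card_roots' _).trans ?_)))
  rw [natDegree_map_eq_of_injective hinj]
  exact natDegree_wr d A B hA hB

/-- the discriminant. -/
theorem exists_disc (G : ℤ[X]) (hGi : Irreducible (G.map (Int.castRingHom ℚ))) :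
    ∃ R0 : ℤ, R0 ≠ 0 ∧ ∀ N c : ℤ, c ∣ G.eval N → c ∣ (derivative G).eval N → c ∣ R0 := by
  have hinj : Function.Injective (Int.castRingHom ℚ) := Int.cast_injective
  have hsep : (G.map (Int.castRingHom ℚ)).Separable := hGi.separable
  rw [separable_def, derivative_map] at hsep
  have hdeg : G.natDegree ≠ 0 := by
    have := hGi.natDegree_pos
    rw [natDegree_map_eq_of_injective hinj] at this
    omega
  obtain ⟨P, Q, hP, hQ, hPQ⟩ := exists_mul_add_mul_eq_C_resultant G (derivative G)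
    (m := G.natDegree) (n := (derivative G).natDegree) le_rfl le_rfl (Or.inl hdeg)
  refine ⟨resultant G (derivative G), ?_, ?_⟩
  · intro h0
    have h1 := resultant_ne_zero _ _ hsep
    rw [natDegree_map_eq_of_injective hinj, natDegree_map_eq_of_injective hinj,
      resultant_map_map, h0, map_zero] at h1
    exact h1 rfl
  · intro N c h1 h2
    have h3 := congrArg (eval N) hPQ
    rw [eval_add, eval_mul, eval_mul, eval_C] at h3
    rw [← h3]
    exact dvd_add (Dvd.dvd.mul_right h1 _) (Dvd.dvd.mul_right h2 _)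

/-- the number of integers in an interval. -/
theorem card_small (S : Finset ℤ) (Y : ℝ) (hY : 0 ≤ Y) (hS : ∀ N ∈ S, |(N : ℝ)| ≤ Y) :
    (S.card : ℝ) ≤ 2 * Y + 1 := by
  have h1 : S ⊆ Finset.Icc (-⌊Y⌋) ⌊Y⌋ := by
    intro N hN
    have h2 := abs_le.1 (hS N hN)
    rw [Finset.mem_Icc]
    refine ⟨?_, Int.le_floor.2 h2.2⟩
    have h3 : -N ≤ ⌊Y⌋ := Int.le_floor.2 (by push_cast; linarith)
    omega
  have h2 := Finset.card_le_card h1
  rw [Int.card_Icc] at h2
  have h3 : 0 ≤ ⌊Y⌋ := Int.floor_nonneg.2 hY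
  have h4 : ((⌊Y⌋ + 1 - -⌊Y⌋).toNat : ℤ) = 2 * ⌊Y⌋ + 1 := by
    rw [Int.toNat_of_nonneg (by omega)]; ring
  have h5 : (S.card : ℤ) ≤ 2 * ⌊Y⌋ + 1 := by
    rw [← h4]; exact_mod_cast h2
  have h6 : (S.card : ℝ) ≤ 2 * (⌊Y⌋ : ℝ) + 1 := by exact_mod_cast h5
  have h7 := Int.floor_le Y
  linarith only [h7, h6]

end Vale.Agent.P018.Q.GapP
end

section

/-! # P018, quartics, family (B): linear algebra for ranks modulo a subspace. -/

namespace Vale.Agent.P018.Q

open Polynomial Module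

section lin

variable {k V U Q : Type*} [Field k] [AddCommGroup V] [Module k V] [AddCommGroup U] [Module k U]
  [AddCommGroup Q] [Module k Q]

theorem finrank_map_add_inf (f : V →ₗ[k] U) (A : Submodule k V) [FiniteDimensional k A] :
    finrank k (A.map f) + finrank k (A ⊓ LinearMap.ker f : Submodule k V) = finrank k A := by
  have h := (f.domRestrict A).finrank_range_add_finrank_ker
  have h1 : LinearMap.range (f.domRestrict A) = A.map f := by
    rw [LinearMap.domRestrict, LinearMap.range_comp, Submodule.range_subtype]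
  have h2 : finrank k (LinearMap.ker (f.domRestrict A)) =
      finrank k (A ⊓ LinearMap.ker f : Submodule k V) := by
    rw [LinearMap.domRestrict, LinearMap.ker_comp]
    rw [← Submodule.map_comap_subtype]
    exact (LinearEquiv.finrank_eq (Submodule.equivMapOfInjective A.subtype
      (Submodule.injective_subtype A) _))
  rw [h1, h2] at h
  exact h

/-- growth of the rank modulo `ker q`. -/
theorem growth (q : V →ₗ[k] Q) (φ : V →ₗ[k] U) (A' A : Submodule k V) [FiniteDimensional k A]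
    (hA : A' ≤ A) (hφ : A' ≤ LinearMap.ker φ) :
    finrank k (A'.map q) + finrank k (A.map φ) ≤
      finrank k (A.map q) + finrank k ((A ⊓ LinearMap.ker q).map φ) := by
  set I := LinearMap.ker q with hI
  have : FiniteDimensional k (A ⊓ I : Submodule k V) :=
    Submodule.finiteDimensional_of_le inf_le_left
  have : FiniteDimensional k (A ⊓ LinearMap.ker φ : Submodule k V) :=
    Submodule.finiteDimensional_of_le inf_le_left
  have ha := finrank_map_add_inf q A
  have hb := finrank_map_add_inf φ A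
  have hc := finrank_map_add_inf φ (A ⊓ I)
  have hd := finrank_map_add_inf q (A ⊓ LinearMap.ker φ)
  have he : finrank k (A'.map q) ≤ finrank k ((A ⊓ LinearMap.ker φ).map q) :=
    Submodule.finrank_mono (Submodule.map_mono (le_inf hA hφ))
  have hf : (A ⊓ LinearMap.ker φ ⊓ LinearMap.ker q : Submodule k V) = A ⊓ I ⊓ LinearMap.ker φ := by
    rw [← hI, inf_assoc, inf_assoc, inf_comm I]
  rw [hf] at hd
  rw [← hI] at ha
  omega

end lin

variable {k : Type*} [Field k] {θ : Fin 4 → k} {ϖ : Fin 4 → k[X]}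

theorem lin_natDegree (θ : k) : (lin θ).natDegree = 1 := natDegree_X_sub_C _

theorem Conf.ne (hc : Conf θ ϖ) (j : Fin 4) : ϖ j ≠ 0 := by
  intro h
  have := hc.deg j
  rw [h] at this
  simp at this

theorem Conf.irr (hc : Conf θ ϖ) (j : Fin 4) : Irreducible (ϖ j) :=
  irreducible_of_degree_eq_one (by rw [degree_eq_natDegree (hc.ne j), hc.deg j]; rfl)

theorem Conf.prime (hc : Conf θ ϖ) (j : Fin 4) : Prime (C (ϖ j)) :=
  prime_C_iff.mpr (hc.irr j).prime

theorem dIn_mul {f g : k[X][X]} (hf : f ≠ 0) (hg : g ≠ 0) : dIn (f * g) = dIn f + dIn g := by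
  unfold dIn
  rw [map_mul, natDegree_mul]
  · simpa using hf
  · simpa using hg

theorem swap_coeff_coeff (f : k[X][X]) (a b : ℕ) :
    ((Bivariate.swap f).coeff a).coeff b = (f.coeff b).coeff a := by
  induction f using Polynomial.induction_on' with
  | add p q hp hq => simp only [map_add, coeff_add, hp, hq]
  | monomial n p =>
    rw [Bivariate.swap_monomial, mul_comm, coeff_C_mul, coeff_map, coeff_monomial, mul_comm,
      coeff_C_mul_X_pow]
    split_ifs with h1 h2 h2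
    · rfl
    · exact absurd h1.symm h2
    · exact absurd h2.symm h1
    · simp

theorem natDegree_coeff_le (f : k[X][X]) (b : ℕ) : (f.coeff b).natDegree ≤ dIn f := by
  rw [natDegree_le_iff_coeff_eq_zero]
  intro a ha
  rw [← swap_coeff_coeff, coeff_eq_zero_of_natDegree_lt ha, coeff_zero]

theorem dIn_le {f : k[X][X]} {d : ℕ} (h : ∀ b, (f.coeff b).natDegree ≤ d) : dIn f ≤ d := by
  unfold dIn
  rw [natDegree_le_iff_coeff_eq_zero]
  intro a ha
  ext b
  rw [swap_coeff_coeff, coeff_eq_zero_of_natDegree_lt (lt_of_le_of_lt (h b) ha), coeff_zero]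

theorem natDegree_swap_coeff_le (f : k[X][X]) (a : ℕ) :
    ((Bivariate.swap f).coeff a).natDegree ≤ f.natDegree := by
  rw [natDegree_le_iff_coeff_eq_zero]
  intro b hb
  rw [swap_coeff_coeff, coeff_eq_zero_of_natDegree_lt hb, coeff_zero]

/-- natDegree of `fB`. -/
theorem fB_natDegree {M : ℕ} {m : Fin 4 → ℕ} (hm : ∑ j, m j = M) (a : ℕ) :
    (fB θ ϖ M m a).natDegree ≤ M := by
  unfold fB
  refine (natDegree_mul_C_le _ _).trans ?_
  refine (natDegree_prod_le _ _).trans ?_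
  rw [← hm]
  refine Finset.sum_le_sum fun j _ => ?_
  refine (natDegree_mul_C_le _ _).trans ?_
  refine natDegree_pow_le.trans ?_
  rw [lin_natDegree, mul_one]

theorem sum_sub_eq {M : ℕ} {m : Fin 4 → ℕ} (hm : ∑ j, m j = M) : ∑ j, (M - m j) = 3 * M := by
  rw [Fin.sum_univ_four] at hm ⊢
  omega

theorem fB_eq (θ : Fin 4 → k) (ϖ : Fin 4 → k[X]) (M : ℕ) (m : Fin 4 → ℕ) (a : ℕ) :
    fB θ ϖ M m a = C ((∏ j, ϖ j ^ (M - m j)) * X ^ a) *
      (∏ j, (X - C (θ j)) ^ m j : k[X]).map C := by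
  have h : ∀ j, ((X - C (θ j) : k[X]) ^ m j).map (C : k →+* k[X]) = lin (θ j) ^ m j := by
    intro j
    rw [Polynomial.map_pow, Polynomial.map_sub, map_X, map_C, lin]
  unfold fB
  rw [Finset.prod_mul_distrib, Polynomial.map_prod, C_mul, map_prod]
  simp only [h]
  ring

theorem fB_dIn (hc : Conf θ ϖ) {M : ℕ} {m : Fin 4 → ℕ} (hm : ∑ j, m j = M) (a : ℕ) :
    dIn (fB θ ϖ M m a) ≤ 3 * M + a := by
  refine dIn_le fun b => ?_
  rw [fB_eq, coeff_C_mul, coeff_map]
  refine (natDegree_mul_C_le _ _).trans ?_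
  refine natDegree_mul_le.trans ?_
  rw [natDegree_X_pow]
  refine Nat.add_le_add_right ?_ _
  refine (natDegree_prod_le _ _).trans ?_
  rw [← sum_sub_eq hm]
  refine Finset.sum_le_sum fun j _ => ?_
  refine natDegree_pow_le.trans ?_
  rw [hc.deg j, mul_one]

/-- order of `fB` at the special points. -/
theorem fB_tw {M : ℕ} {m : Fin 4 → ℕ} (hm : ∑ j, m j = M) (a : ℕ) (j : Fin 4) :
    C (ϖ j) ^ M ∣ tw (θ j) (ϖ j) (fB θ ϖ M m a) := by
  have h1 : (lin (θ j) ^ m j * C (ϖ j ^ (M - m j))) ∣ fB θ ϖ M m a := by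
    unfold fB
    exact Dvd.dvd.mul_right (Finset.dvd_prod_of_mem
      (fun j => lin (θ j) ^ m j * C (ϖ j ^ (M - m j))) (Finset.mem_univ j)) _
  obtain ⟨q, hq⟩ := h1
  rw [hq, tw, mul_comp, mul_comp, pow_comp]
  have h2 : (lin (θ j)).comp (C (C (θ j)) + C (ϖ j) * X) = C (ϖ j) * X := by
    simp [lin]
  have hmj : m j ≤ M := by
    rw [← hm]
    exact Finset.single_le_sum (f := m) (fun _ _ => Nat.zero_le _) (Finset.mem_univ j)
  rw [h2, C_comp, mul_pow, C_pow]
  refine Dvd.dvd.mul_right ?_ _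
  refine ⟨X ^ m j, ?_⟩
  have : C (ϖ j) ^ M = C (ϖ j) ^ m j * C (ϖ j) ^ (M - m j) := by
    rw [← pow_add]
    congr 1
    omega
  rw [this]
  ring

theorem tw_add (θ : k) (ϖ : k[X]) (f g : k[X][X]) : tw θ ϖ (f + g) = tw θ ϖ f + tw θ ϖ g :=
  add_comp

theorem tw_mul (θ : k) (ϖ : k[X]) (f g : k[X][X]) : tw θ ϖ (f * g) = tw θ ϖ f * tw θ ϖ g :=
  mul_comp _ _ _

theorem smul_eq_CC (c : k) (f : k[X][X]) : c • f = C (C c) * f := by
  rw [algebra_compatible_smul k[X] c f, smul_eq_C_mul]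
  rfl

theorem tw_smul (θ : k) (ϖ : k[X]) (c : k) (f : k[X][X]) : tw θ ϖ (c • f) = c • tw θ ϖ f := by
  unfold tw
  rw [smul_eq_CC, smul_eq_CC, mul_comp, C_comp]

theorem MB_natDegree {M I : ℕ} {F : k[X][X]} (hF : F ∈ MB θ ϖ M I) : F.natDegree ≤ M := by
  unfold MB at hF
  induction hF using Submodule.span_induction with
  | mem x hx =>
    obtain ⟨m, a, hm, _, rfl⟩ := hx
    exact fB_natDegree hm a
  | zero => simp
  | add x y _ _ hx hy => exact (natDegree_add_le _ _).trans (max_le hx hy)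
  | smul c x _ hx =>
    rw [smul_eq_CC]
    exact (natDegree_C_mul_le _ _).trans hx

theorem MB_dIn (hc : Conf θ ϖ) {M I : ℕ} {F : k[X][X]} (hF : F ∈ MB θ ϖ M I) :
    dIn F ≤ 3 * M + I := by
  unfold MB at hF
  induction hF using Submodule.span_induction with
  | mem x hx =>
    obtain ⟨m, a, hm, ha, rfl⟩ := hx
    exact (fB_dIn hc hm a).trans (by omega)
  | zero => simp [dIn]
  | add x y _ _ hx hy =>
    refine dIn_le fun b => ?_
    rw [coeff_add]
    exact (natDegree_add_le _ _).trans (max_le ((natDegree_coeff_le _ _).trans hx)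
      ((natDegree_coeff_le _ _).trans hy))
  | smul c x _ hx =>
    refine dIn_le fun b => ?_
    rw [smul_eq_CC, coeff_C_mul]
    exact (natDegree_C_mul_le _ _).trans ((natDegree_coeff_le _ _).trans hx)

theorem MB_tw {M I : ℕ} {F : k[X][X]} (hF : F ∈ MB θ ϖ M I) (j : Fin 4) :
    C (ϖ j) ^ M ∣ tw (θ j) (ϖ j) F := by
  unfold MB at hF
  induction hF using Submodule.span_induction with
  | mem x hx =>
    obtain ⟨m, a, hm, _, rfl⟩ := hx
    exact fB_tw hm a j
  | zero => simp [tw]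
  | add x y _ _ hx hy =>
    rw [tw_add]
    exact dvd_add hx hy
  | smul c x _ hx =>
    rw [tw_smul, smul_eq_CC]
    exact Dvd.dvd.mul_left hx _

instance MB_finite (M I : ℕ) : FiniteDimensional k (MB θ ϖ M I) := by
  unfold MB
  refine FiniteDimensional.span_of_finite k ?_
  refine Set.Finite.subset (((Set.finite_Iic (fun _ : Fin 4 => M)).prod
    (Set.finite_Iic I)).image (fun x => fB θ ϖ M x.1 x.2)) ?_
  rintro _ ⟨m, a, hm, ha, rfl⟩
  refine ⟨(m, a), ⟨?_, ha⟩, rfl⟩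
  intro j
  rw [← hm]
  exact Finset.single_le_sum (f := m) (fun _ _ => Nat.zero_le _) (Finset.mem_univ j)

theorem MB_mono {M I I' : ℕ} (h : I ≤ I') : MB θ ϖ M I ≤ MB θ ϖ M I' := by
  refine Submodule.span_mono ?_
  rintro _ ⟨m, a, hm, ha, rfl⟩
  exact ⟨m, a, hm, ha.trans h, rfl⟩

/-- the product of the `ϖ_j`, as a constant polynomial in `n`. -/
noncomputable def PP (ϖ : Fin 4 → k[X]) : k[X][X] := C (∏ j, ϖ j)

theorem fB_mul_poly {M I : ℕ} {m : Fin 4 → ℕ} (hm : ∑ j, m j = M) {G : k[X]}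
    (hG : G.natDegree ≤ I) : fB θ ϖ M m 0 * C G ∈ MB θ ϖ M I := by
  rw [G.as_sum_range' (I + 1) (by omega), map_sum, Finset.mul_sum]
  refine Submodule.sum_mem _ fun a ha => ?_
  rw [Finset.mem_range] at ha
  rw [← C_mul_X_pow_eq_monomial, C_mul, mul_left_comm, ← smul_eq_CC]
  refine Submodule.smul_mem _ _ (Submodule.subset_span ⟨m, a, hm, by omega, ?_⟩)
  unfold fB
  rw [pow_zero, C_1, mul_one]

/-- `(n - θ_i) ∏ ϖ · fB = ϖ_i · fB'`. -/
theorem lin_mul_fB {M : ℕ} {m : Fin 4 → ℕ} (hm : ∑ j, m j = M) (a : ℕ) (i : Fin 4) :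
    lin (θ i) * PP ϖ * fB θ ϖ M m a =
      fB θ ϖ (M + 1) (fun j => m j + if j = i then 1 else 0) a * C (ϖ i) := by
  have hle : ∀ j, m j ≤ M := fun j => by
    rw [← hm]
    exact Finset.single_le_sum (f := m) (fun _ _ => Nat.zero_le _) (Finset.mem_univ j)
  have h1 : lin (θ i) = ∏ j, lin (θ j) ^ (if j = i then 1 else 0) := by
    simp [Finset.prod_ite_eq', pow_ite]
  have h2 : (C (ϖ i) : k[X][X]) = ∏ j, C (ϖ j) ^ (if j = i then 1 else 0) := by
    simp [Finset.prod_ite_eq', pow_ite]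
  unfold PP fB
  rw [h1]
  conv_rhs => rw [h2]
  rw [map_prod]
  have h3 : ∀ j, lin (θ j) ^ (if j = i then 1 else 0) * C (ϖ j) *
      (lin (θ j) ^ m j * C (ϖ j ^ (M - m j))) =
      lin (θ j) ^ (m j + if j = i then 1 else 0) *
        C (ϖ j ^ (M + 1 - (m j + if j = i then 1 else 0))) * C (ϖ j) ^ (if j = i then 1 else 0) := by
    intro j
    have := hle j
    split_ifs with h
    · have e : M + 1 - (m j + 1) = M - m j := by omega
      rw [e, pow_add]
      ring
    · have e : M + 1 - (m j + 0) = M - m j + 1 := by omega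
      rw [e]
      simp only [pow_zero, C_pow, add_zero, pow_succ, C_mul]
      ring
  have h5 : (∏ j, lin (θ j) ^ (if j = i then 1 else 0)) * (∏ j, C (ϖ j)) *
      (∏ j, (lin (θ j) ^ m j * C (ϖ j ^ (M - m j)))) =
      (∏ j, (lin (θ j) ^ (m j + if j = i then 1 else 0) *
        C (ϖ j ^ (M + 1 - (m j + if j = i then 1 else 0))))) *
        ∏ j, C (ϖ j) ^ (if j = i then 1 else 0) := by
    rw [← Finset.prod_mul_distrib, ← Finset.prod_mul_distrib, ← Finset.prod_mul_distrib]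
    exact Finset.prod_congr rfl (fun j _ => h3 j)
  linear_combination (C (X ^ a)) * h5

/-- `∏ ϖ · MB(M, I) ⊆ MB(M + 1, I + 1)`. -/
theorem PP_mul_mem (hc : Conf θ ϖ) {M I : ℕ} {F : k[X][X]} (hF : F ∈ MB θ ϖ M I) :
    PP ϖ * F ∈ MB θ ϖ (M + 1) (I + 1) := by
  unfold MB at hF
  induction hF using Submodule.span_induction with
  | mem x hx =>
    obtain ⟨m, a, hm, ha, rfl⟩ := hx
    have key : ∀ i, lin (θ i) * PP ϖ * fB θ ϖ M m a ∈ MB θ ϖ (M + 1) (I + 1) := by
      intro i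
      rw [lin_mul_fB hm]
      have h1 : fB θ ϖ (M + 1) (fun j => m j + if j = i then 1 else 0) a * C (ϖ i) =
          fB θ ϖ (M + 1) (fun j => m j + if j = i then 1 else 0) 0 * C (X ^ a * ϖ i) := by
        unfold fB
        rw [pow_zero, C_1, C_mul]
        ring
      rw [h1]
      refine fB_mul_poly ?_ ?_
      · rw [Finset.sum_add_distrib, hm]
        simp
      · refine natDegree_mul_le.trans ?_
        rw [natDegree_X_pow, hc.deg i]
        omega
    have h01 : θ 1 - θ 0 ≠ 0 := sub_ne_zero.mpr (fun h => by simpa using hc.inj h)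
    have h2 : PP ϖ * fB θ ϖ M m a = (θ 1 - θ 0)⁻¹ •
        (lin (θ 0) * PP ϖ * fB θ ϖ M m a - lin (θ 1) * PP ϖ * fB θ ϖ M m a) := by
      have h3 : (lin (θ 0) - lin (θ 1) : k[X][X]) = C (C (θ 1 - θ 0)) := by
        unfold lin
        rw [C_sub, C_sub]
        ring
      rw [← sub_mul, ← sub_mul, h3, smul_eq_CC, ← mul_assoc, ← mul_assoc, ← C_mul, ← C_mul,
        inv_mul_cancel₀ h01, C_1, C_1, one_mul]
    rw [h2]
    exact Submodule.smul_mem _ _ (Submodule.sub_mem _ (key 0) (key 1))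
  | zero => simp
  | add x y _ _ hx hy =>
    rw [mul_add]
    exact Submodule.add_mem _ hx hy
  | smul c x _ hx =>
    rw [mul_smul_comm]
    exact Submodule.smul_mem _ _ hx

end Vale.Agent.P018.Q
end
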