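import Mathlib
import Vale.Agent.P018.Bdl.B1
import Vale.Agent.P018.Bdl.B2

set_option linter.all false

section

/-! # P018, K-method, module K1: the splitting field. -/

namespace Vale.Agent.P018.K

open Polynomial NumberField

/-- the monic polynomial is irreducible over the rational numbers -/
theorem field_irreducible (f : ℤ[X]) (hirr : Irreducible (f.map (Int.castRingHom ℚ)))
    (hd : 1 ≤ f.natDegree) :
    Irreducible (f.integralNormalization.map (Int.castRingHom ℚ)) := by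
  have hf0 : f ≠ 0 := by
    rintro rfl
    simp at hd
  have ha : ((f.leadingCoeff : ℤ) : ℚ) ≠ 0 := by
    exact_mod_cast leadingCoeff_ne_zero.2 hf0
  set a : ℚ := ((f.leadingCoeff : ℤ) : ℚ) with hadef
  let _ : Invertible a := invertibleOfNonzero ha
  have h1 := integralNormalization_eval₂_leadingCoeff_mul hd
    ((C : ℚ →+* ℚ[X]).comp (Int.castRingHom ℚ)) X
  have h2 : (f.integralNormalization.map (Int.castRingHom ℚ)).comp (C a * X)
      = C (a ^ (f.natDegree - 1)) * f.map (Int.castRingHom ℚ) := by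
    rw [comp, eval₂_map, C_pow]
    rw [RingHom.comp_apply] at h1
    rw [show C a = C ((Int.castRingHom ℚ) f.leadingCoeff) from rfl, h1, Polynomial.map]
  have h3 : Irreducible ((f.integralNormalization.map (Int.castRingHom ℚ)).comp (C a * X)) := by
    rw [h2]
    have hu : IsUnit (C (a ^ (f.natDegree - 1)) : ℚ[X]) :=
      isUnit_C.2 (pow_ne_zero _ ha).isUnit
    exact (irreducible_isUnit_mul hu).2 hirr
  have h4 : algEquivCMulXAddC a 0 (f.integralNormalization.map (Int.castRingHom ℚ))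
      = (f.integralNormalization.map (Int.castRingHom ℚ)).comp (C a * X) := by
    rw [algEquivCMulXAddC_apply, C_0, add_zero, comp_eq_aeval]
  rw [← h4] at h3
  exact (MulEquiv.irreducible_iff (algEquivCMulXAddC a 0)).1 h3

/-- enumeration of the roots of a monic separable polynomial which splits -/
theorem field_roots {L : Type} [Field L] {P : L[X]} (hm : P.Monic) (hs : P.Splits)
    (hsep : P.Separable) {d : ℕ} (hd : P.natDegree = d) :
    ∃ θ : Fin d → L, Function.Injective θ ∧ P = ∏ i, (X - C (θ i)) := by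
  classical
  have hn : P.roots.Nodup := nodup_roots hsep
  have hc : P.roots.toFinset.card = d := by
    rw [Multiset.toFinset_card_of_nodup hn, ← hs.natDegree_eq_card_roots, hd]
  let e : Fin d ≃ P.roots.toFinset := (P.roots.toFinset.equivFinOfCardEq hc).symm
  refine ⟨fun i => (e i : L), fun i j h => e.injective (Subtype.ext h), ?_⟩
  conv_lhs => rw [hs.eq_prod_roots_of_monic hm]
  have h1 : (P.roots.map fun a => X - C a).prod = ∏ x ∈ P.roots.toFinset, (X - C x) := by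
    rw [Finset.prod_multiset_map_count]
    refine Finset.prod_congr rfl fun x hx => ?_
    rw [Multiset.count_eq_one_of_mem hn (Multiset.mem_toFinset.1 hx), pow_one]
  rw [h1, ← Finset.prod_coe_sort]
  exact (Equiv.prod_comp e fun x : P.roots.toFinset => X - C (x : L)).symm

/-- Splitting field of `f`, with the monic polynomial `G(x) = a₀^(d-1) f(x/a₀)` whose roots
`θ i = a₀ * (roots of f)` are algebraic integers. -/
theorem exists_field (f : ℤ[X]) (hirr : Irreducible (f.map (Int.castRingHom ℚ)))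
    (hd : 2 ≤ f.natDegree) :
    ∃ (L : Type) (_ : Field L) (_ : NumberField L) (θ : Fin f.natDegree → 𝓞 L) (G : ℤ[X]) (a0 : ℤ),
      a0 ≠ 0 ∧ G.Monic ∧ G.natDegree = f.natDegree ∧
      Irreducible (G.map (Int.castRingHom ℚ)) ∧ Function.Injective θ ∧
      G.map (algebraMap ℤ (𝓞 L)) = ∏ i, (X - C (θ i)) ∧
      ∀ n : ℤ, G.eval (a0 * n) = a0 ^ (f.natDegree - 1) * f.eval n := by
  have hf0 : f ≠ 0 := by
    rintro rfl
    simp at hd
  have hd1 : 1 ≤ f.natDegree := by omega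
  set G : ℤ[X] := f.integralNormalization with hG
  have hGm : G.Monic := monic_integralNormalization hf0
  have hGd : G.natDegree = f.natDegree := natDegree_integralNormalization
  have hGi : Irreducible (G.map (Int.castRingHom ℚ)) := field_irreducible f hirr hd1
  let P : ℚ[X] := G.map (Int.castRingHom ℚ)
  let L : Type := P.SplittingField
  have hNF : NumberField L :=
    { to_charZero := inferInstance
      to_finiteDimensional := by
        have h : Module.Finite ℚ P.SplittingField := inferInstance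
        convert h }
  have hPL : (P.map (algebraMap ℚ L)) = G.map (algebraMap ℤ L) := by
    rw [Polynomial.map_map]
    congr 1
  have hsplit : (G.map (algebraMap ℤ L)).Splits := by
    rw [← hPL]
    exact SplittingField.splits P
  have hsep : (G.map (algebraMap ℤ L)).Separable := by
    rw [← hPL]
    exact (Irreducible.separable hGi).map
  have hdeg : (G.map (algebraMap ℤ L)).natDegree = f.natDegree := by
    rw [hGm.natDegree_map, hGd]
  obtain ⟨θ, hθ, hprod⟩ := field_roots (hGm.map _) hsplit hsep hdeg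
  have hint : ∀ i, IsIntegral ℤ (θ i) := by
    intro i
    refine ⟨G, hGm, ?_⟩
    rw [← eval_map, hprod, eval_prod]
    exact Finset.prod_eq_zero (Finset.mem_univ i) (by simp)
  obtain ⟨θ', hθ'⟩ : ∃ θ' : Fin f.natDegree → 𝓞 L, ∀ i, algebraMap (𝓞 L) L (θ' i) = θ i :=
    ⟨fun i => ⟨θ i, hint i⟩, fun i => rfl⟩
  refine ⟨L, inferInstance, hNF, θ', G, f.leadingCoeff,
    leadingCoeff_ne_zero.2 hf0, hGm, hGd, hGi, ?_, ?_, ?_⟩
  · intro i j h
    exact hθ (by rw [← hθ', ← hθ', h])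
  · refine Polynomial.map_injective (algebraMap (𝓞 L) L) RingOfIntegers.coe_injective ?_
    rw [Polynomial.map_map, Polynomial.map_prod]
    have h1 : (algebraMap (𝓞 L) L).comp (algebraMap ℤ (𝓞 L)) = algebraMap ℤ L :=
      RingHom.ext_int _ _
    rw [h1, hprod]
    refine Finset.prod_congr rfl fun i _ => ?_
    rw [Polynomial.map_sub, map_X, map_C, hθ']
  · intro n
    have h := integralNormalization_eval₂_leadingCoeff_mul hd1 (RingHom.id ℤ) n
    simpa only [eval₂_id, RingHom.id_apply] using h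

end Vale.Agent.P018.K
end

section

/-! # P018, K-method, module K3: sizes of the conjugates. -/

namespace Vale.Agent.P018.K

open Polynomial NumberField

/-- an algebraic integer all of whose conjugates have absolute value `< 1` is zero. -/
theorem eq_zero_of_conj_lt_one (L : Type) [Field L] [NumberField L] (x : 𝓞 L)
    (h : ∀ σ : L →+* ℂ, ‖σ (x : L)‖ < 1) : x = 0 := by
  by_contra hx
  obtain ⟨σ, hσ⟩ := NumberField.exists_conjugate_one_le_norm hx
  exact absurd (h σ) (not_lt.mpr hσ)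

/-- ring homomorphisms commute with `ell`. -/
theorem sizes_map_ell {R S : Type*} [CommRing R] [CommRing S] (φ : R →+* S) {d : ℕ} (θ : R)
    (y : Fin d → ℤ) : φ (ell θ y) = ell (φ θ) y := by
  simp only [ell, map_sum, map_mul, map_pow, map_intCast]

/-- the inclusion of the ring of integers commutes with `ell`. -/
theorem coe_ell (L : Type) [Field L] [NumberField L] {d : ℕ} (θ : 𝓞 L) (y : Fin d → ℤ) :
    ((ell θ y : 𝓞 L) : L) = ell (θ : L) y :=
  sizes_map_ell (algebraMap (𝓞 L) L) θ y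

/-- difference bound for `ell` in `ℂ`. -/
theorem sizes_ell_sub {d : ℕ} {z : ℂ} {A₀ M : ℝ} (hA : 1 ≤ A₀) (hz : ‖z‖ ≤ A₀) (hM : 0 ≤ M)
    {y y' : Fin d → ℤ} (h : ∀ j, |(y j : ℝ) - y' j| ≤ M) :
    ‖ell z y - ell z y'‖ ≤ d * A₀ ^ d * M := by
  have h1 : ell z y - ell z y' = ∑ j, ((y j : ℂ) - y' j) * z ^ (j : ℕ) := by
    simp only [ell, ← Finset.sum_sub_distrib, sub_mul]
  rw [h1]
  calc ‖∑ j, ((y j : ℂ) - y' j) * z ^ (j : ℕ)‖
      ≤ ∑ j : Fin d, ‖((y j : ℂ) - y' j) * z ^ (j : ℕ)‖ := norm_sum_le _ _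
    _ ≤ ∑ _j : Fin d, M * A₀ ^ d := by
        refine Finset.sum_le_sum fun j _ => ?_
        rw [norm_mul, norm_pow]
        have h2 : ‖(y j : ℂ) - y' j‖ ≤ M := by
          have h3 := h j
          rw [← Int.cast_sub] at h3 ⊢
          rwa [Complex.norm_intCast]
        have h4 : ‖z‖ ^ (j : ℕ) ≤ A₀ ^ d :=
          (pow_le_pow_left₀ (norm_nonneg _) hz _).trans (pow_le_pow_right₀ hA j.2.le)
        exact mul_le_mul h2 h4 (by positivity) hM
    _ = d * A₀ ^ d * M := by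
        rw [Finset.sum_const, Finset.card_univ, Fintype.card_fin, nsmul_eq_mul]
        ring

/-- upper and lower bounds for the conjugates of the small elements. -/
theorem exists_size (L : Type) [Field L] [NumberField L] {d : ℕ} (hd : 1 ≤ d)
    (θ : Fin d → 𝓞 L) :
    ∃ A : ℝ, 1 ≤ A ∧
      (∀ (σ : L →+* ℂ) (i : Fin d), ‖σ (θ i : L)‖ ≤ A) ∧
      (∀ (σ : L →+* ℂ) (i : Fin d) (y y' : Fin d → ℤ) (M : ℝ), (∀ j, |(y j : ℝ) - y' j| ≤ M) →
        ‖σ (ell (θ i) y : L) - σ (ell (θ i) y' : L)‖ ≤ A * M) ∧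
      (∀ (σ : L →+* ℂ) (i : Fin d) (y : Fin d → ℤ) (R : ℝ) (N : ℤ), 1 ≤ R →
        (∀ j, |(y j : ℝ)| ≤ 2 * R) → ∏ i, ell (θ i) y = (N : 𝓞 L) → R ^ d ≤ |(N : ℝ)| →
        ‖σ (ell (θ i) y : L)‖ ≤ A * R ∧ R / A ≤ ‖σ (ell (θ i) y : L)‖) := by
  obtain ⟨A₀, hA₀, hθ⟩ : ∃ A₀ : ℝ, 1 ≤ A₀ ∧
      ∀ (σ : L →+* ℂ) (i : Fin d), ‖σ (θ i : L)‖ ≤ A₀ := by
    refine ⟨1 + ∑ i, house (θ i : L), ?_, fun σ i => ?_⟩
    · exact le_add_of_nonneg_right (Finset.sum_nonneg fun i _ => house_nonneg _)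
    · have h1 := norm_embedding_le_house (θ i : L) σ
      have h2 : house (θ i : L) ≤ ∑ i, house (θ i : L) :=
        Finset.single_le_sum (f := fun i => house (θ i : L)) (fun i _ => house_nonneg _)
          (Finset.mem_univ i)
      linarith only [h2, h1]
  have hd' : (1 : ℝ) ≤ d := by exact_mod_cast hd
  have hpow : A₀ ≤ A₀ ^ d := le_self_pow₀ hA₀ (by omega)
  obtain ⟨A₁, hA₁def⟩ : ∃ A₁ : ℝ, A₁ = d * A₀ ^ d := ⟨_, rfl⟩
  have hA₀₁ : A₀ ≤ A₁ := by
    rw [hA₁def]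
    nlinarith
  have hA₁ : 1 ≤ A₁ := hA₀.trans hA₀₁
  have hle : 2 * A₁ ≤ (2 * A₁) ^ d := le_self_pow₀ (by linarith only [hA₁]) (by omega)
  have hsub : ∀ (σ : L →+* ℂ) (i : Fin d) (y y' : Fin d → ℤ) (M : ℝ),
      (∀ j, |(y j : ℝ) - y' j| ≤ M) →
        ‖σ (ell (θ i) y : L) - σ (ell (θ i) y' : L)‖ ≤ A₁ * M := by
    intro σ i y y' M h
    have hM : 0 ≤ M := (abs_nonneg _).trans (h ⟨0, hd⟩)
    rw [sizes_map_ell σ, sizes_map_ell σ, hA₁def]
    exact sizes_ell_sub hA₀ (hθ σ i) hM h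
  have hup : ∀ (σ : L →+* ℂ) (i : Fin d) (y : Fin d → ℤ) (R : ℝ),
      (∀ j, |(y j : ℝ)| ≤ 2 * R) → ‖σ (ell (θ i) y : L)‖ ≤ 2 * A₁ * R := by
    intro σ i y R h
    have h1 := hsub σ i y (fun _ => 0) (2 * R) (fun j => by simpa using h j)
    have h2 : (ell (θ i : L) (fun _ : Fin d => (0 : ℤ))) = 0 := by simp [ell]
    rw [h2, map_zero, sub_zero] at h1
    linarith only [h1]
  refine ⟨(2 * A₁) ^ d, by linarith only [hle, hA₁], fun σ i => (hθ σ i).trans (by linarith), ?_, ?_⟩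
  · intro σ i y y' M h
    have hM : 0 ≤ M := (abs_nonneg _).trans (h ⟨0, hd⟩)
    refine (hsub σ i y y' M h).trans (mul_le_mul_of_nonneg_right (by linarith) hM)
  · intro σ i y R N hR hy hN hRN
    have hR0 : 0 < R := by linarith
    refine ⟨(hup σ i y R hy).trans (mul_le_mul_of_nonneg_right hle hR0.le), ?_⟩
    have h1 : ∏ i, σ (ell (θ i) y : L) = (N : ℂ) := by
      have h2 : σ ((∏ i, ell (θ i) y : 𝓞 L) : L) = σ ((N : 𝓞 L) : L) := by rw [hN]
      rw [← map_prod]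
      have h3 : (∏ i, (ell (θ i : L) y)) = ((∏ i, ell (θ i) y : 𝓞 L) : L) := by
        rw [show ((∏ i, ell (θ i) y : 𝓞 L) : L) = algebraMap (𝓞 L) L (∏ i, ell (θ i) y) from rfl,
          map_prod]
        exact Finset.prod_congr rfl fun i _ => (coe_ell L (θ i) y).symm
      rw [h3, h2]
      simp
    have h4 : R ^ d ≤ ‖σ (ell (θ i) y : L)‖ * (2 * A₁ * R) ^ (d - 1) := by
      calc R ^ d ≤ |(N : ℝ)| := hRN
        _ = ‖∏ i, σ (ell (θ i) y : L)‖ := by rw [h1, Complex.norm_intCast]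
        _ = ∏ i, ‖σ (ell (θ i) y : L)‖ := norm_prod _ _
        _ = ‖σ (ell (θ i) y : L)‖ * ∏ j ∈ Finset.univ.erase i, ‖σ (ell (θ j) y : L)‖ := by
            rw [Finset.mul_prod_erase Finset.univ (fun j => ‖σ (ell (θ j) y : L)‖)
              (Finset.mem_univ i)]
        _ ≤ ‖σ (ell (θ i) y : L)‖ * ∏ _j ∈ Finset.univ.erase i, (2 * A₁ * R) := by
            refine mul_le_mul_of_nonneg_left ?_ (norm_nonneg _)
            exact Finset.prod_le_prod (fun j _ => norm_nonneg _) (fun j _ => hup σ j y R hy)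
        _ = ‖σ (ell (θ i) y : L)‖ * (2 * A₁ * R) ^ (d - 1) := by
            rw [Finset.prod_const, Finset.card_erase_of_mem (Finset.mem_univ i),
              Finset.card_univ, Fintype.card_fin]
    have h5 : R ^ (d - 1) * R ≤ R ^ (d - 1) * (‖σ (ell (θ i) y : L)‖ * (2 * A₁) ^ (d - 1)) := by
      calc R ^ (d - 1) * R = R ^ d := by rw [← pow_succ]; congr 1; omega
        _ ≤ _ := h4
        _ = _ := by rw [mul_pow]; ring
    have h6 : R ≤ ‖σ (ell (θ i) y : L)‖ * (2 * A₁) ^ (d - 1) :=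
      le_of_mul_le_mul_left h5 (by positivity)
    have h7 : (2 * A₁) ^ (d - 1) ≤ (2 * A₁) ^ d :=
      pow_le_pow_right₀ (by linarith only [hA₁]) (by omega)
    rw [div_le_iff₀ (by positivity)]
    exact h6.trans (mul_le_mul_of_nonneg_left h7 (norm_nonneg _))

end Vale.Agent.P018.K
end

section

/-! # P018, K-method, module K4: the determinant estimate (over `ℂ`). -/

namespace Vale.Agent.P018.K

open Polynomial

lemma dets_coeff_step {A : ℝ} (hA : 1 ≤ A) {c θ : ℂ} (hc : ‖c‖ ≤ A) (hθ : ‖θ‖ ≤ A) {p : ℂ[X]}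
    {B : ℝ} (hB : ∀ s, ‖p.coeff s‖ ≤ B) (s : ℕ) :
    ‖(p * (C c * (X - C θ))).coeff s‖ ≤ B * (2 * A ^ 2) := by
  have hB0 : 0 ≤ B := (norm_nonneg _).trans (hB 0)
  have hA0 : 0 ≤ A := by linarith
  have e : p * (C c * (X - C θ)) = C c * (p * X - p * C θ) := by ring
  rw [e, coeff_C_mul, coeff_sub, coeff_mul_C, norm_mul]
  have h1 : ‖(p * X).coeff s‖ ≤ B := by
    cases s with
    | zero => rw [mul_coeff_zero, coeff_X_zero, mul_zero, norm_zero]; exact hB0
    | succ s => rw [coeff_mul_X]; exact hB s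
  have h2 : ‖p.coeff s * θ‖ ≤ B * A := by
    rw [norm_mul]
    exact mul_le_mul (hB s) hθ (norm_nonneg _) hB0
  have h3 := norm_sub_le ((p * X).coeff s) (p.coeff s * θ)
  calc ‖c‖ * ‖(p * X).coeff s - p.coeff s * θ‖ ≤ A * (B + B * A) :=
        mul_le_mul hc (h3.trans (add_le_add h1 h2)) (norm_nonneg _) hA0
    _ ≤ B * (2 * A ^ 2) := by
      linarith only [mul_nonneg (mul_nonneg hA0 hB0) (sub_nonneg.2 hA)]

lemma dets_coeff_pow {A : ℝ} (hA : 1 ≤ A) {c θ : ℂ} (hc : ‖c‖ ≤ A) (hθ : ‖θ‖ ≤ A) {p : ℂ[X]}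
    {B : ℝ} (hB : ∀ s, ‖p.coeff s‖ ≤ B) (j : ℕ) : ∀ s,
    ‖(p * (C c * (X - C θ)) ^ j).coeff s‖ ≤ B * (2 * A ^ 2) ^ j := by
  induction j with
  | zero => intro s; simpa using hB s
  | succ j ih =>
    intro s
    have e : p * (C c * (X - C θ)) ^ (j + 1) = (p * (C c * (X - C θ)) ^ j) * (C c * (X - C θ)) := by
      rw [pow_succ, mul_assoc]
    rw [e]
    refine (dets_coeff_step hA hc hθ ih s).trans (le_of_eq ?_)
    rw [pow_succ (2 * A ^ 2) j, mul_assoc]

lemma dets_coeff_prod {A : ℝ} (hA : 1 ≤ A) {r : ℕ} {c : ℂ} {θ : Fin r → ℂ} (hc : ‖c‖ ≤ A)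
    (hθ : ∀ i, ‖θ i‖ ≤ A) {p : ℂ[X]} {B : ℝ} (hB : ∀ s, ‖p.coeff s‖ ≤ B) (m : Fin r → ℕ)
    (S : Finset (Fin r)) : ∀ s,
    ‖(p * ∏ i ∈ S, (C c * (X - C (θ i))) ^ m i).coeff s‖ ≤ B * (2 * A ^ 2) ^ ∑ i ∈ S, m i := by
  induction S using Finset.induction_on with
  | empty => intro s; simpa using hB s
  | insert i S hi ih =>
    intro s
    have e : p * ∏ j ∈ insert i S, (C c * (X - C (θ j))) ^ m j =
        (p * ∏ j ∈ S, (C c * (X - C (θ j))) ^ m j) * (C c * (X - C (θ i))) ^ m i := by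
      rw [Finset.prod_insert hi]
      ring
    rw [e, Finset.sum_insert hi]
    have h := dets_coeff_pow hA hc (hθ i) ih (m i) s
    refine h.trans (le_of_eq ?_)
    rw [pow_add]
    ring

/-- the polynomial in `n`. -/
noncomputable def detsPl {r : ℕ} (k : ℕ) (c : ℂ) (θ : Fin r → ℂ) (t : ℕ) (e : Fin r → ℤ) :
    ℂ[X] :=
  X ^ (t - needs k e) * ∏ i, (C c * (X - C (θ i))) ^ need k (e i)

lemma dets_pl_coeff {A : ℝ} (hA : 1 ≤ A) {r : ℕ} (k : ℕ) {c : ℂ} {θ : Fin r → ℂ} (hc : ‖c‖ ≤ A)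
    (hθ : ∀ i, ‖θ i‖ ≤ A) {t : ℕ} {e : Fin r → ℤ} (ht : needs k e ≤ t) (s : ℕ) :
    ‖(detsPl k c θ t e).coeff s‖ ≤ (2 * A ^ 2) ^ t := by
  have h := dets_coeff_prod hA hc hθ (p := X ^ (t - needs k e)) (B := 1) (fun s => by
    rw [coeff_X_pow]
    split_ifs
    · simp
    · simp) (fun i => need k (e i)) Finset.univ s
  unfold detsPl
  refine h.trans ?_
  rw [one_mul]
  refine pow_le_pow_right₀ (by nlinarith) ?_
  exact ht

lemma dets_pl_natDegree {r : ℕ} (k : ℕ) (c : ℂ) (θ : Fin r → ℂ) {t : ℕ} {e : Fin r → ℤ}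
    (ht : needs k e ≤ t) : (detsPl k c θ t e).natDegree ≤ t := by
  unfold detsPl
  refine natDegree_mul_le.trans ?_
  have h1 : (X ^ (t - needs k e) : ℂ[X]).natDegree ≤ t - needs k e := by
    rw [natDegree_X_pow]
  have h2 : (∏ i, (C c * (X - C (θ i))) ^ need k (e i)).natDegree ≤ needs k e := by
    refine (natDegree_prod_le _ _).trans ?_
    unfold needs
    refine Finset.sum_le_sum fun i _ => ?_
    have h3 : (C c * (X - C (θ i))).natDegree ≤ 1 :=
      (natDegree_C_mul_le _ _).trans (natDegree_X_sub_C_le _)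
    have h4 := natDegree_pow_le_of_le (need k (e i)) h3
    rwa [mul_one] at h4
  omega

lemma dets_pl_eval {r : ℕ} (k : ℕ) (c : ℂ) (θ : Fin r → ℂ) (t : ℕ) (e : Fin r → ℤ) (n : ℂ) :
    (detsPl k c θ t e).eval n =
      n ^ (t - needs k e) * ∏ i, (c * (n - θ i)) ^ need k (e i) := by
  unfold detsPl
  rw [eval_mul, eval_pow, eval_X, eval_prod]
  congr 1
  refine Finset.prod_congr rfl fun i _ => ?_
  rw [eval_pow, eval_mul, eval_C, eval_sub, eval_X, eval_C]

lemma dets_pl_sum {r : ℕ} (k : ℕ) (c : ℂ) (θ : Fin r → ℂ) {t tm : ℕ} {e : Fin r → ℤ}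
    (ht : needs k e ≤ t) (htm : t ≤ tm) (n : ℂ) :
    (detsPl k c θ t e).eval n =
      ∑ s : Fin (tm + 1), (detsPl k c θ t e).coeff s * n ^ (s : ℕ) := by
  rw [eval_eq_sum_range' (n := tm + 1)
    (Nat.lt_succ_of_le ((dets_pl_natDegree k c θ ht).trans htm)),
    Fin.sum_univ_eq_sum_range (fun s => (detsPl k c θ t e).coeff s * n ^ s)]

lemma dets_binom (z z0 : ℂ) {m D : ℕ} (hm : m ≤ D) :
    z ^ m = ∑ a : Fin (D + 1), ((m.choose a : ℂ) * z0 ^ (m - a)) * (z - z0) ^ (a : ℕ) := by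
  rw [Fin.sum_univ_eq_sum_range (fun a => ((m.choose a : ℂ) * z0 ^ (m - a)) * (z - z0) ^ a)]
  have h1 := add_pow (z - z0) z0 m
  rw [sub_add_cancel] at h1
  rw [h1]
  have h2 : Finset.range (m + 1) ⊆ Finset.range (D + 1) :=
    Finset.range_subset_range.2 (Nat.succ_le_succ hm)
  rw [← Finset.sum_subset h2 (fun a _ ha => ?_)]
  · exact Finset.sum_congr rfl fun a _ => by ring
  · rw [Finset.mem_range, not_lt] at ha
    rw [Nat.choose_eq_zero_of_lt (by omega)]
    simp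

lemma dets_row {r : ℕ} {k : ℕ} {t : ℕ} {e : Fin r → ℤ} {E : ℕ}
    (hE : ∀ i, (e i).natAbs ≤ E) (hk : 1 ≤ k) {n c : ℂ} {z γ θ : Fin r → ℂ}
    (hz : ∀ i, z i ^ k * γ i = c * (n - θ i)) :
    (∏ i, z i ^ E) * fn k n z γ t e =
      (detsPl k c θ t e).eval n * ∏ i, z i ^ (e i + E).toNat := by
  rw [dets_pl_eval]
  unfold fn
  have h : ∀ i, z i ^ E * (γ i ^ need k (e i) * z i ^ (e i + k * need k (e i)).toNat) =
      (c * (n - θ i)) ^ need k (e i) * z i ^ (e i + E).toNat := by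
    intro i
    rw [← hz i, mul_pow, ← pow_mul]
    have h1 : 0 ≤ e i + k * need k (e i) := by
      have h2 : (-(e i)).toNat ≤ k * need k (e i) := by
        unfold need
        have := Nat.div_add_mod ((-(e i)).toNat + (k - 1)) k
        have h3 := Nat.mod_lt ((-(e i)).toNat + (k - 1)) (show 0 < k by omega)
        omega
      have h4 : ((k * need k (e i) : ℕ) : ℤ) = k * need k (e i) := by push_cast; ring
      omega
    have h5 : E + (e i + k * need k (e i)).toNat = k * need k (e i) + (e i + E).toNat := by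
      have := hE i
      have h4 : ((k * need k (e i) : ℕ) : ℤ) = k * need k (e i) := by push_cast; ring
      omega
    calc z i ^ E * (γ i ^ need k (e i) * z i ^ (e i + k * need k (e i)).toNat) =
        z i ^ (E + (e i + k * need k (e i)).toNat) * γ i ^ need k (e i) := by
          rw [pow_add]; ring
      _ = z i ^ (k * need k (e i) + (e i + E).toNat) * γ i ^ need k (e i) := by rw [h5]
      _ = _ := by rw [pow_add]; ring
  calc (∏ i, z i ^ E) * (n ^ (t - needs k e) *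
        ∏ i, γ i ^ need k (e i) * z i ^ (e i + k * need k (e i)).toNat) =
      n ^ (t - needs k e) * ∏ i, (z i ^ E *
        (γ i ^ need k (e i) * z i ^ (e i + k * need k (e i)).toNat)) := by
        rw [Finset.prod_mul_distrib (f := fun i => z i ^ E)]
        exact mul_left_comm _ _ _
    _ = n ^ (t - needs k e) * ∏ i, ((c * (n - θ i)) ^ need k (e i) *
        z i ^ (e i + E).toNat) := by
        congr 1
        exact Finset.prod_congr rfl fun i _ => h i
    _ = _ := by rw [Finset.prod_mul_distrib]; ring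

/-- generic estimate -/
lemma dets_generic {J T : Type*} [Fintype J] [DecidableEq J] [Fintype T] [DecidableEq T]
    (A : J → T → ℂ) (B : T → J → ℂ) (Γ : ℝ) (hΓ0 : 0 ≤ Γ)
    (h : ∀ (φ : J → T) (σ : Equiv.Perm J), Function.Injective φ →
      ∏ j, (‖A (σ j) (φ j)‖ * ‖B (φ j) j‖) ≤ Γ) :
    ‖(Matrix.of fun i j => ∑ t, A i t * B t j).det‖ ≤
      (Fintype.card T : ℝ) ^ (Fintype.card J) * ((Fintype.card J).factorial * Γ) := by
  rw [det_expand]
  refine (norm_sum_le _ _).trans ?_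
  have hcard : (Fintype.card T : ℝ) ^ (Fintype.card J) = (Finset.univ : Finset (J → T)).card := by
    simp [Finset.card_univ]
  rw [hcard, ← nsmul_eq_mul, ← Finset.sum_const]
  refine Finset.sum_le_sum fun φ _ => ?_
  by_cases hinj : Function.Injective φ
  · rw [Matrix.det_apply, Finset.mul_sum]
    refine (norm_sum_le _ _).trans ?_
    have hperm : ((Fintype.card J).factorial : ℝ) = (Finset.univ : Finset (Equiv.Perm J)).card := by
      rw [Finset.card_univ, Fintype.card_perm]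
    rw [hperm, ← nsmul_eq_mul, ← Finset.sum_const]
    refine Finset.sum_le_sum fun σ _ => ?_
    refine le_trans (le_of_eq ?_) (h φ σ hinj)
    have h3 : ‖Equiv.Perm.sign σ • ∏ i, (Matrix.of fun i j => A i (φ j)) (σ i) i‖ =
        ∏ i, ‖A (σ i) (φ i)‖ := by
      rcases Int.units_eq_one_or (Equiv.Perm.sign σ) with h | h
      · simp [h, norm_prod]
      · simp [h, norm_prod]
    rw [norm_mul, h3, norm_prod, Finset.prod_mul_distrib, mul_comm]
  · rw [det_zero_of_not_injective A φ hinj, mul_zero, norm_zero]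
    positivity

lemma dets_A_bound {A R : ℝ} (hA : 1 ≤ A) (hR : 1 ≤ R) {r E : ℕ} {m : Fin r → ℕ}
    (hm : ∀ i, m i ≤ 2 * E) {z0 : Fin r → ℂ} (hz0 : ∀ i, ‖z0 i‖ ≤ A * R)
    (α : Fin r → Fin (2 * E + 1)) :
    ‖∏ i, (((m i).choose (α i) : ℂ) * z0 i ^ (m i - α i))‖ ≤
      (2 ^ (2 * E) * A ^ (2 * E)) ^ r * (R ^ ∑ i, m i) * (R⁻¹) ^ ∑ i, ((α i : ℕ)) := by
  have hA0 : 0 < A := by linarith
  have hR0 : 0 < R := by linarith
  rw [norm_prod]
  have h : ∀ i, ‖(((m i).choose (α i) : ℂ) * z0 i ^ (m i - α i))‖ ≤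
      (2 ^ (2 * E) * A ^ (2 * E)) * (R ^ m i * (R⁻¹) ^ (α i : ℕ)) := by
    intro i
    by_cases hi : (α i : ℕ) ≤ m i
    · rw [norm_mul, norm_pow, Complex.norm_natCast]
      have h1 : (((m i).choose (α i) : ℕ) : ℝ) ≤ 2 ^ (2 * E) := by
        have h2 : (m i).choose (α i) ≤ 2 ^ (m i) := Nat.choose_le_two_pow _ _
        have h3 : (2 : ℕ) ^ (m i) ≤ 2 ^ (2 * E) := Nat.pow_le_pow_right (by norm_num) (hm i)
        exact_mod_cast h2.trans h3
      have h4 : ‖z0 i‖ ^ (m i - α i) ≤ A ^ (2 * E) * (R ^ m i * (R⁻¹) ^ (α i : ℕ)) := by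
        have h5 : R ^ m i * (R⁻¹) ^ (α i : ℕ) = R ^ (m i - α i) := by
          rw [inv_pow, ← div_eq_mul_inv, div_eq_iff (by positivity), ← pow_add]
          congr 1
          omega
        rw [h5]
        calc ‖z0 i‖ ^ (m i - α i) ≤ (A * R) ^ (m i - α i) :=
              pow_le_pow_left₀ (norm_nonneg _) (hz0 i) _
          _ = A ^ (m i - α i) * R ^ (m i - α i) := mul_pow _ _ _
          _ ≤ A ^ (2 * E) * R ^ (m i - α i) := by
            apply mul_le_mul_of_nonneg_right _ (by positivity)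
            exact pow_le_pow_right₀ hA (by have := hm i; omega)
      rw [mul_assoc]
      exact mul_le_mul h1 h4 (by positivity) (by positivity)
    · rw [Nat.choose_eq_zero_of_lt (by omega)]
      simp only [Nat.cast_zero, zero_mul, norm_zero]
      positivity
  refine (Finset.prod_le_prod (fun i _ => norm_nonneg _) (fun i _ => h i)).trans (le_of_eq ?_)
  have h1 : ∏ i : Fin r, ((2 ^ (2 * E) * A ^ (2 * E)) * (R ^ m i * (R⁻¹) ^ (α i : ℕ))) =
      (∏ _i : Fin r, (2 ^ (2 * E) * A ^ (2 * E) : ℝ)) *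
        ((∏ i, R ^ m i) * ∏ i, (R⁻¹) ^ (α i : ℕ)) := by
    rw [← Finset.prod_mul_distrib, ← Finset.prod_mul_distrib]
  rw [h1, Finset.prod_const, Finset.card_univ, Fintype.card_fin, Finset.prod_pow_eq_pow_sum,
    Finset.prod_pow_eq_pow_sum, mul_assoc]

lemma dets_B_bound {A X ρ : ℝ} (hA : 1 ≤ A) (hX : 1 ≤ X) (hρ : 0 < ρ) {r E tm : ℕ}
    {n : ℂ} (hn : ‖n‖ ≤ A * X) {w : Fin r → ℂ} (hw : ∀ i, ‖w i‖ ≤ A * ρ) (s : Fin (tm + 1))
    (α : Fin r → Fin (2 * E + 1)) :
    ‖n ^ (s : ℕ) * ∏ i, w i ^ (α i : ℕ)‖ ≤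
      (A ^ tm * (A ^ (2 * E)) ^ r) * (X ^ (s : ℕ) * ρ ^ ∑ i, ((α i : ℕ))) := by
  have hA0 : 0 < A := by linarith only [hA]
  rw [norm_mul, norm_pow, norm_prod]
  have h1 : ‖n‖ ^ (s : ℕ) ≤ A ^ tm * X ^ (s : ℕ) := by
    calc ‖n‖ ^ (s : ℕ) ≤ (A * X) ^ (s : ℕ) := pow_le_pow_left₀ (norm_nonneg _) hn _
      _ = A ^ (s : ℕ) * X ^ (s : ℕ) := mul_pow _ _ _
      _ ≤ _ := by
        apply mul_le_mul_of_nonneg_right _ (by positivity)
        exact pow_le_pow_right₀ hA (by omega)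
  have h2 : ∏ i, ‖w i ^ (α i : ℕ)‖ ≤ (A ^ (2 * E)) ^ r * ρ ^ ∑ i, ((α i : ℕ)) := by
    have h3 : ∀ i, ‖w i ^ (α i : ℕ)‖ ≤ A ^ (2 * E) * ρ ^ (α i : ℕ) := by
      intro i
      rw [norm_pow]
      calc ‖w i‖ ^ (α i : ℕ) ≤ (A * ρ) ^ (α i : ℕ) := pow_le_pow_left₀ (norm_nonneg _) (hw i) _
        _ = A ^ (α i : ℕ) * ρ ^ (α i : ℕ) := mul_pow _ _ _
        _ ≤ _ := by
          apply mul_le_mul_of_nonneg_right _ (by positivity)
          exact pow_le_pow_right₀ hA (by omega)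
    refine (Finset.prod_le_prod (fun i _ => norm_nonneg _) (fun i _ => h3 i)).trans
      (le_of_eq ?_)
    rw [Finset.prod_mul_distrib, Finset.prod_const, Finset.card_univ, Fintype.card_fin,
      Finset.prod_pow_eq_pow_sum]
  refine (mul_le_mul h1 h2 (Finset.prod_nonneg fun i _ => norm_nonneg _)
    (by positivity)).trans (le_of_eq ?_)
  ring

theorem det_small {r : ℕ} (k : ℕ) (hk : 1 ≤ k) {ι : Type} [Fintype ι] [DecidableEq ι]
    (t : ι → ℕ) (e : ι → Fin r → ℤ) (ht : ∀ f, needs k (e f) ≤ t f) (A : ℝ) (hA : 1 ≤ A) :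
    ∃ C : ℝ, 0 < C ∧ ∀ (X R ρ V : ℝ), 1 ≤ X → 1 ≤ R → 0 < ρ → ρ ≤ R → 0 ≤ V →
      ∀ (θ : Fin r → ℂ) (c : ℂ) (n : ι → ℂ) (z γ : ι → Fin r → ℂ) (z0 : Fin r → ℂ),
      (∀ i, ‖θ i‖ ≤ A) → ‖c‖ ≤ A → (∀ q, ‖n q‖ ≤ A * X) →
      (∀ q i, ‖z q i - z0 i‖ ≤ A * ρ) → (∀ q i, R / A ≤ ‖z q i‖) → (∀ q i, ‖z q i‖ ≤ A * R) →
      (∀ i, ‖z0 i‖ ≤ A * R) → (∀ q i, z q i ^ k * γ q i = c * (n q - θ i)) →
      (∀ m : ι → ℕ × (Fin r → ℕ), Function.Injective m → (∀ f, (m f).1 ≤ t f) →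
        ∏ f, (R ^ (∑ i, e f i : ℤ) * X ^ (m f).1 * (ρ / R) ^ (∑ i, (m f).2 i)) ≤ V) →
      ‖(Matrix.of fun q f => fn k (n q) (z q) (γ q) (t f) (e f)).det‖ ≤ C * V := by
  classical
  set tm := Finset.univ.sup t with htm
  have htm' : ∀ f, t f ≤ tm := fun f => Finset.le_sup (f := t) (Finset.mem_univ f)
  set E := Finset.univ.sup (fun f => Finset.univ.sup fun i => (e f i).natAbs) with hE
  have hE' : ∀ f i, (e f i).natAbs ≤ E := fun f i =>
    (Finset.le_sup (f := fun i => (e f i).natAbs) (Finset.mem_univ i)).trans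
      (Finset.le_sup (f := fun f => Finset.univ.sup fun i => (e f i).natAbs)
        (Finset.mem_univ f))
  have hm2 : ∀ f i, (e f i + E).toNat ≤ 2 * E := fun f i => by
    have := hE' f i
    omega
  have hA0 : 0 < A := by linarith only [hA]
  set K₃ : ℝ := (2 * A ^ 2) ^ tm * (2 ^ (2 * E) * A ^ (2 * E)) ^ r *
    (A ^ tm * (A ^ (2 * E)) ^ r) with hK₃
  have hK₃0 : 0 < K₃ := by positivity
  set T := Fin (tm + 1) × (Fin r → Fin (2 * E + 1)) with hT
  set Nn := Fintype.card ι with hNn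
  refine ⟨(Fintype.card T : ℝ) ^ Nn * (Nn.factorial * K₃ ^ Nn) * A ^ (E * r * Nn), ?_, ?_⟩
  · have h1 : 0 < (Fintype.card T : ℝ) := by
      have : 0 < Fintype.card T := Fintype.card_pos
      exact_mod_cast this
    have h2 : 0 < (Nn.factorial : ℝ) := by exact_mod_cast Nn.factorial_pos
    positivity
  intro X R ρ V hX hR hρ hρR hV θ c n z γ z0 hθ hc hn hz hzl hzu hz0 hzγ hV'
  have hR0 : 0 < R := by linarith only [hρR, hρ]
  have hX0 : 0 < X := by linarith only [hX]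
  -- the two factors
  set AA : ι → T → ℂ := fun f p => (detsPl k c θ (t f) (e f)).coeff p.1 *
    ∏ i, ((((e f i + E).toNat).choose (p.2 i) : ℂ) * z0 i ^ ((e f i + E).toNat - p.2 i)) with hAA
  set BB : T → ι → ℂ := fun p q => n q ^ (p.1 : ℕ) * ∏ i, (z q i - z0 i) ^ (p.2 i : ℕ) with hBB
  have hentry : ∀ q f, (∏ i, z q i ^ E) * fn k (n q) (z q) (γ q) (t f) (e f) =
      ∑ p, AA f p * BB p q := by
    intro q f
    rw [dets_row (hE' f) hk (hzγ q), dets_pl_sum k c θ (ht f) (htm' f) (n q)]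
    have h1 : ∏ i, z q i ^ (e f i + E).toNat = ∑ α : Fin r → Fin (2 * E + 1),
        ∏ i, (((((e f i + E).toNat).choose (α i) : ℂ) * z0 i ^ ((e f i + E).toNat - α i)) *
          (z q i - z0 i) ^ (α i : ℕ)) := by
      rw [← Fintype.prod_sum (fun (i : Fin r) (a : Fin (2 * E + 1)) =>
        (((((e f i + E).toNat).choose a : ℂ) * z0 i ^ ((e f i + E).toNat - a)) *
          (z q i - z0 i) ^ (a : ℕ)))]
      exact Finset.prod_congr rfl fun i _ => dets_binom _ _ (hm2 f i)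
    rw [h1, Fintype.sum_prod_type, Finset.sum_mul_sum]
    refine Finset.sum_congr rfl fun s _ => Finset.sum_congr rfl fun α _ => ?_
    simp only [hAA, hBB]
    rw [Finset.prod_mul_distrib]
    ring
  have hmat : (Matrix.of fun q f => (fun q => ∏ i, z q i ^ E) q *
      (Matrix.of fun q f => fn k (n q) (z q) (γ q) (t f) (e f)) q f) =
      (Matrix.of fun f q => ∑ p, AA f p * BB p q).transpose := by
    ext q f
    simp only [Matrix.of_apply, Matrix.transpose_apply]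
    exact hentry q f
  have hdet := Matrix.det_mul_column (fun q => ∏ i, z q i ^ E)
    (Matrix.of fun q f => fn k (n q) (z q) (γ q) (t f) (e f))
  rw [hmat, Matrix.det_transpose] at hdet
  -- the bound
  have hAbd : ∀ f (p : T), ‖AA f p‖ ≤ (2 * A ^ 2) ^ tm *
      ((2 ^ (2 * E) * A ^ (2 * E)) ^ r * (R ^ ∑ i, (e f i + E).toNat) *
        (R⁻¹) ^ ∑ i, ((p.2 i : ℕ))) := by
    intro f p
    simp only [hAA]
    rw [norm_mul]
    refine mul_le_mul ((dets_pl_coeff hA k hc hθ (ht f) p.1).trans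
      (pow_le_pow_right₀ (by (by_contra nlg; linarith only [nlg, mul_pos (sub_pos.2 hA0) (sub_pos.2 hA0), mul_nonneg (sub_nonneg.2 hA) (le_of_lt (sub_pos.2 hA0)), mul_pos (sub_pos.2 (not_le.1 nlg)) (sub_pos.2 hA0), mul_nonneg (sq_nonneg (A : ℝ)) (sub_nonneg.2 hA)])) (htm' f)))
      (dets_A_bound hA hR (hm2 f) hz0 p.2) (norm_nonneg _) (by positivity)
  have hBbd : ∀ (p : T) q, ‖BB p q‖ ≤ (A ^ tm * (A ^ (2 * E)) ^ r) *
      (X ^ (p.1 : ℕ) * ρ ^ ∑ i, ((p.2 i : ℕ))) := fun p q =>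
    dets_B_bound hA hX hρ (hn q) (hz q) p.1 p.2
  have hAz : ∀ f (p : T), t f < p.1 → AA f p = 0 := by
    intro f p hp
    simp only [hAA]
    rw [coeff_eq_zero_of_natDegree_lt
      (lt_of_le_of_lt (dets_pl_natDegree k c θ (ht f)) hp), zero_mul]
  have hRm : ∀ f, R ^ (∑ i, (e f i + E).toNat) = R ^ (E * r) * R ^ (∑ i, e f i : ℤ) := by
    intro f
    rw [← zpow_natCast, ← zpow_natCast, ← zpow_add₀ hR0.ne']
    congr 1
    push_cast
    have h1 : ∀ i, ((e f i + E).toNat : ℤ) = e f i + E := fun i => by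
      have := hE' f i
      omega
    rw [Finset.sum_congr rfl fun i _ => h1 i, Finset.sum_add_distrib, Finset.sum_const,
      Finset.card_univ, Fintype.card_fin, nsmul_eq_mul]
    ring
  have hprod : ∀ f (p : T) q, ‖AA f p‖ * ‖BB p q‖ ≤ (K₃ * R ^ (E * r)) *
      (R ^ (∑ i, e f i : ℤ) * X ^ (p.1 : ℕ) * (ρ / R) ^ ∑ i, ((p.2 i : ℕ))) := by
    intro f p q
    refine (mul_le_mul (hAbd f p) (hBbd p q) (norm_nonneg _) (by (clear * - hA hR; positivity))).trans
      (le_of_eq ?_)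
    rw [hRm f, div_eq_mul_inv, mul_pow, hK₃]
    ring
  have hgen := dets_generic AA BB ((K₃ * R ^ (E * r)) ^ Nn * V) (by (clear * - hA hR hV; positivity)) (by
    intro φ σ hφ
    by_cases hs : ∀ j, ((φ j).1 : ℕ) ≤ t (σ j)
    · refine (Finset.prod_le_prod (fun j _ => by (clear * -; positivity))
        (fun j _ => hprod (σ j) (φ j) j)).trans ?_
      have h0 : ∏ j, ((K₃ * R ^ (E * r)) * (R ^ (∑ i, e (σ j) i : ℤ) * X ^ ((φ j).1 : ℕ) *
          (ρ / R) ^ ∑ i, (((φ j).2 i : ℕ)))) = (K₃ * R ^ (E * r)) ^ Nn *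
          ∏ j, (R ^ (∑ i, e (σ j) i : ℤ) * X ^ ((φ j).1 : ℕ) *
          (ρ / R) ^ ∑ i, (((φ j).2 i : ℕ))) := by
        rw [Finset.prod_mul_distrib, Finset.prod_const, Finset.card_univ]
      rw [h0]
      refine mul_le_mul_of_nonneg_left ?_ (by positivity)
      have h1 := hV' (fun f => (((φ (σ.symm f)).1 : ℕ), fun i => ((φ (σ.symm f)).2 i : ℕ))) (by
        intro f g hfg
        simp only [Prod.mk.injEq] at hfg
        have h2 : φ (σ.symm f) = φ (σ.symm g) := by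
          refine Prod.ext (Fin.ext hfg.1) (funext fun i => Fin.ext ?_)
          exact congrFun hfg.2 i
        exact σ.symm.injective (hφ h2)) (fun f => by
          have := hs (σ.symm f)
          rwa [Equiv.apply_symm_apply] at this)
      refine le_trans (le_of_eq ?_) h1
      refine Eq.trans ?_ (Equiv.prod_comp σ (fun f => R ^ (∑ i, e f i : ℤ) *
        X ^ (((φ (σ.symm f)).1 : ℕ)) * (ρ / R) ^ (∑ i, (((φ (σ.symm f)).2 i : ℕ)))))
      refine Finset.prod_congr rfl fun j _ => ?_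
      simp only [Equiv.symm_apply_apply]
    · push Not at hs
      obtain ⟨j, hj⟩ := hs
      have h0 : ∏ j, (‖AA (σ j) (φ j)‖ * ‖BB (φ j) j‖) = 0 :=
        Finset.prod_eq_zero (Finset.mem_univ j) (by rw [hAz _ _ hj, norm_zero, zero_mul])
      rw [h0]
      (clear * - hA hR hV; positivity))
  rw [hdet, norm_mul, norm_prod] at hgen
  have hlow : (R / A) ^ (E * r * Nn) ≤ ∏ q, ‖∏ i, z q i ^ E‖ := by
    have h1 : ∀ q, (R / A) ^ (E * r) ≤ ‖∏ i, z q i ^ E‖ := by
      intro q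
      rw [norm_prod]
      have h2 : (R / A) ^ (E * r) = ∏ _i : Fin r, (R / A) ^ E := by
        rw [Finset.prod_const, Finset.card_univ, Fintype.card_fin, pow_mul]
      rw [h2]
      refine Finset.prod_le_prod (fun i _ => by positivity) fun i _ => ?_
      rw [norm_pow]
      exact pow_le_pow_left₀ (by positivity) (hzl q i) _
    have h3 : (R / A) ^ (E * r * Nn) = ∏ _q : ι, (R / A) ^ (E * r) := by
      rw [Finset.prod_const, Finset.card_univ, pow_mul]
    rw [h3]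
    exact Finset.prod_le_prod (fun q _ => by positivity) fun q _ => h1 q
  set Dt := ‖(Matrix.of fun q f => fn k (n q) (z q) (γ q) (t f) (e f)).det‖ with hDt
  have hDt0 : 0 ≤ Dt := norm_nonneg _
  have hpos : 0 < (R / A) ^ (E * r * Nn) := by positivity
  refine le_of_mul_le_mul_left ?_ hpos
  calc (R / A) ^ (E * r * Nn) * Dt ≤ (∏ q, ‖∏ i, z q i ^ E‖) * Dt :=
        mul_le_mul_of_nonneg_right hlow hDt0
    _ ≤ _ := hgen
    _ = _ := by
      have h5 : (R / A) ^ (E * r * Nn) * A ^ (E * r * Nn) = R ^ (E * r * Nn) := by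
        rw [← mul_pow, div_mul_cancel₀ _ hA0.ne']
      rw [mul_pow, ← pow_mul]
      calc (Fintype.card T : ℝ) ^ Fintype.card ι * ((Fintype.card ι).factorial *
            (K₃ ^ Nn * R ^ (E * r * Nn) * V)) =
          (Fintype.card T : ℝ) ^ Nn * (Nn.factorial * K₃ ^ Nn) * V * R ^ (E * r * Nn) := by
            ring
        _ = _ := by rw [← h5]; ring

end Vale.Agent.P018.K
end

section

/-! # P018, K-method, module K5: from vanishing determinants to a polynomial relation. -/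

namespace Vale.Agent.P018.K

open Polynomial

lemma rel_need_nonneg {k : ℕ} (hk : 1 ≤ k) (e : ℤ) : 0 ≤ e + k * need k e := by
  have h1 : (-e).toNat ≤ k * need k e := by
    unfold need
    have h := Nat.div_add_mod ((-e).toNat + (k - 1)) k
    have h2 := Nat.mod_lt ((-e).toNat + (k - 1)) (show 0 < k by omega)
    omega
  have h2 : -e ≤ ((-e).toNat : ℤ) := Int.self_le_toNat _
  have h3 : ((-e).toNat : ℤ) ≤ ((k * need k e : ℕ) : ℤ) := by exact_mod_cast h1
  push_cast at h3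
  linarith only [h3, h2]

/-- the monic polynomial of degree `t` attached to `(t, e)` -/
noncomputable def rel_M {L : Type} [Field L] {r : ℕ} (k : ℕ) (θ : Fin r → L)
    (p : ℕ × (Fin r → ℤ)) : L[X] :=
  X ^ (p.1 - needs k p.2) * ∏ i, (X - C (θ i)) ^ need k (p.2 i)

lemma rel_M_monic {L : Type} [Field L] {r : ℕ} (k : ℕ) (θ : Fin r → L)
    (p : ℕ × (Fin r → ℤ)) : (rel_M k θ p).Monic :=
  (monic_X_pow _).mul (monic_prod_of_monic _ _ fun i _ => (monic_X_sub_C _).pow _)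

lemma rel_M_natDegree {L : Type} [Field L] {r : ℕ} (k : ℕ) (θ : Fin r → L)
    {p : ℕ × (Fin r → ℤ)} (hp : needs k p.2 ≤ p.1) : (rel_M k θ p).natDegree = p.1 := by
  unfold rel_M
  rw [(monic_X_pow _).natDegree_mul (monic_prod_of_monic _ _ fun i _ => (monic_X_sub_C _).pow _),
    natDegree_X_pow, natDegree_prod_of_monic _ _ fun _ _ => (monic_X_sub_C _).pow _]
  have h1 : ∑ i, ((X - C (θ i)) ^ need k (p.2 i)).natDegree = needs k p.2 := by
    unfold needs
    refine Finset.sum_congr rfl fun i _ => ?_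
    rw [(monic_X_sub_C _).natDegree_pow, natDegree_X_sub_C, mul_one]
  rw [h1]
  omega

lemma rel_M_eval {L : Type} [Field L] {r : ℕ} (k : ℕ) (θ : Fin r → L)
    (p : ℕ × (Fin r → ℤ)) (x : L) :
    (rel_M k θ p).eval x = x ^ (p.1 - needs k p.2) * ∏ i, (x - θ i) ^ need k (p.2 i) := by
  unfold rel_M
  rw [eval_mul, eval_pow, eval_X, eval_prod]
  simp

/-- the exponent of the monomial -/
noncomputable def rel_a {r : ℕ} (E : ℕ) (e : Fin r → ℤ) : Fin r →₀ ℕ :=
  Finsupp.equivFunOnFinite.symm fun i => (e i + E).toNat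

lemma rel_a_apply {r : ℕ} (E : ℕ) (e : Fin r → ℤ) (i : Fin r) :
    rel_a E e i = (e i + E).toNat := rfl

lemma rel_a_inj {r : ℕ} {E : ℕ} {e e' : Fin r → ℤ} (he : ∀ i, |e i| ≤ E)
    (he' : ∀ i, |e' i| ≤ E) (h : rel_a E e = rel_a E e') : e = e' := by
  funext i
  have h1 := DFunLike.congr_fun h i
  rw [rel_a_apply, rel_a_apply] at h1
  have h2 := abs_le.1 (he i)
  have h3 := abs_le.1 (he' i)
  omega

lemma rel_a_degree {r : ℕ} {E : ℕ} {e : Fin r → ℤ} (he : ∀ i, |e i| ≤ E) :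
    (rel_a E e).degree ≤ r * (2 * E) := by
  rw [Finsupp.degree_eq_sum]
  calc ∑ i, rel_a E e i ≤ ∑ _i : Fin r, 2 * E := Finset.sum_le_sum fun i _ => by
        rw [rel_a_apply]
        have h2 := abs_le.1 (he i)
        omega
    _ = r * (2 * E) := by simp

/-- If all determinants of the functions `fn` at the points `S` vanish, then a nonzero polynomial
in `n` and `x_1, …, x_r`, of degree bounded in terms of `B` only, vanishes at all points. -/
theorem exists_relation {r : ℕ} (k : ℕ) (hk : 1 ≤ k) (B : Finset (ℕ × (Fin r → ℤ)))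
    (hB : ∀ p ∈ B, needs k p.2 ≤ p.1) :
    ∃ D : ℕ, ∀ (L : Type) [Field L] [CharZero L] (θ : Fin r → L) (c : L) (_hc : c ≠ 0) (S : Type)
      (n : S → ℤ) (z γ : S → Fin r → L), (∀ q i, z q i ≠ 0) →
      (∀ q i, z q i ^ k * γ q i = c * ((n q : L) - θ i)) →
      (∀ φ : B → S, (Matrix.of fun (q : B) (f : B) =>
        fn k (n (φ q) : L) (z (φ q)) (γ (φ q)) f.1.1 f.1.2).det = 0) →
      ∃ F : MvPolynomial (Fin r) L[X], F ≠ 0 ∧
        (∀ a ∈ F.support, a.degree ≤ D ∧ (F.coeff a).natDegree ≤ D) ∧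
        ∀ q, MvPolynomial.eval₂ (Polynomial.evalRingHom (n q : L)) (z q) F = 0 := by
  classical
  -- bounds
  obtain ⟨E, hE⟩ : ∃ E : ℕ, ∀ p ∈ B, ∀ i, |p.2 i| ≤ (E : ℤ) := by
    refine ⟨∑ p ∈ B, ∑ i, (p.2 i).natAbs, fun p hp i => ?_⟩
    have h1 : (p.2 i).natAbs ≤ ∑ i, (p.2 i).natAbs :=
      Finset.single_le_sum (f := fun i => (p.2 i).natAbs) (fun _ _ => Nat.zero_le _)
        (Finset.mem_univ i)
    have h2 : ∑ i, (p.2 i).natAbs ≤ ∑ p ∈ B, ∑ i, (p.2 i).natAbs :=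
      Finset.single_le_sum (f := fun p : ℕ × (Fin r → ℤ) => ∑ i, (p.2 i).natAbs)
        (fun _ _ => Nat.zero_le _) hp
    rw [Int.abs_eq_natAbs]
    exact_mod_cast h1.trans h2
  obtain ⟨T, hT⟩ : ∃ T : ℕ, ∀ p ∈ B, p.1 ≤ T :=
    ⟨B.sup fun p => p.1, fun p hp => Finset.le_sup (f := fun p : ℕ × (Fin r → ℤ) => p.1) hp⟩
  refine ⟨r * (2 * E) + T, ?_⟩
  intro L _ _ θ c hc S n z γ _hz hzγ hdet
  obtain ⟨α, hα0, hα⟩ := exists_kernel
    (fun (q : S) (f : B) => fn k (n q : L) (z q) (γ q) f.1.1 f.1.2) hdet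
  -- the polynomial
  set F : MvPolynomial (Fin r) L[X] := ∑ f : B, MvPolynomial.monomial (rel_a E f.1.2)
    (C (α f * c ^ needs k f.1.2) * rel_M k θ f.1) with hF
  have hcoeff : ∀ a, F.coeff a = ∑ f : B, if rel_a E f.1.2 = a then
      C (α f * c ^ needs k f.1.2) * rel_M k θ f.1 else 0 := by
    intro a
    rw [hF, MvPolynomial.coeff_sum]
    refine Finset.sum_congr rfl fun f _ => ?_
    rw [MvPolynomial.coeff_monomial]
  have hdeg : ∀ f : B, (C (α f * c ^ needs k f.1.2) * rel_M k θ f.1).natDegree ≤ f.1.1 := by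
    intro f
    refine (natDegree_C_mul_le _ _).trans ?_
    rw [rel_M_natDegree k θ (hB _ f.2)]
  refine ⟨F, ?_, ?_, ?_⟩
  · -- nonvanishing
    intro hF0
    obtain ⟨f1, hf1⟩ := Function.ne_iff.1 hα0
    obtain ⟨f0, hf0, hmax⟩ := Finset.exists_max_image
      (Finset.univ.filter fun f : B => α f ≠ 0) (fun f => f.1.1)
      ⟨f1, Finset.mem_filter.2 ⟨Finset.mem_univ _, hf1⟩⟩
    have hα0' : α f0 ≠ 0 := (Finset.mem_filter.1 hf0).2
    have h1 : (F.coeff (rel_a E f0.1.2)).coeff f0.1.1 = α f0 * c ^ needs k f0.1.2 := by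
      rw [hcoeff, finsetSum_coeff, Finset.sum_eq_single f0]
      · rw [if_pos rfl, coeff_C_mul]
        have h2 := (rel_M_monic k θ f0.1).coeff_natDegree
        rw [rel_M_natDegree k θ (hB _ f0.2)] at h2
        rw [h2, mul_one]
      · intro f _ hne
        by_cases hαf : α f = 0
        · simp [hαf]
        · split_ifs with hae
          · have he : f.1.2 = f0.1.2 := rel_a_inj (hE _ f.2) (hE _ f0.2) hae
            have hle := hmax f (Finset.mem_filter.2 ⟨Finset.mem_univ _, hαf⟩)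
            have hlt : f.1.1 < f0.1.1 := by
              refine lt_of_le_of_ne hle fun ht => hne ?_
              exact Subtype.ext (Prod.ext ht he)
            exact coeff_eq_zero_of_natDegree_lt ((hdeg f).trans_lt hlt)
          · exact coeff_zero _
      · intro h
        exact absurd (Finset.mem_univ _) h
    rw [hF0, MvPolynomial.coeff_zero, coeff_zero] at h1
    exact mul_ne_zero hα0' (pow_ne_zero _ hc) h1.symm
  · -- degrees
    intro a ha
    have ha' : F.coeff a ≠ 0 := MvPolynomial.mem_support_iff.1 ha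
    constructor
    · rw [hcoeff] at ha'
      obtain ⟨f, _, hf⟩ := Finset.exists_ne_zero_of_sum_ne_zero ha'
      have hae : rel_a E f.1.2 = a := by
        by_contra hne
        exact hf (if_neg hne)
      rw [← hae]
      exact (rel_a_degree (hE _ f.2)).trans (Nat.le_add_right _ _)
    · rw [hcoeff]
      refine (natDegree_sum_le_of_forall_le _ _ (n := r * (2 * E) + T) fun f _ => ?_)
      split_ifs
      · exact (hdeg f).trans ((hT _ f.2).trans (Nat.le_add_left _ _))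
      · simp
  · -- vanishing
    intro q
    have hterm : ∀ f : B, MvPolynomial.eval₂ (Polynomial.evalRingHom (n q : L)) (z q)
        (MvPolynomial.monomial (rel_a E f.1.2) (C (α f * c ^ needs k f.1.2) * rel_M k θ f.1)) =
        (α f * fn k (n q : L) (z q) (γ q) f.1.1 f.1.2) * ∏ i, z q i ^ E := by
      intro f
      rw [MvPolynomial.eval₂_monomial, coe_evalRingHom, eval_mul, eval_C, rel_M_eval,
        Finsupp.prod_fintype _ _ (fun i => pow_zero _)]
      unfold fn needs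
      rw [← Finset.prod_pow_eq_pow_sum]
      have h1 : ∀ i, c ^ need k (f.1.2 i) * ((n q : L) - θ i) ^ need k (f.1.2 i) *
          z q i ^ (rel_a E f.1.2 i) =
          γ q i ^ need k (f.1.2 i) * z q i ^ (f.1.2 i + k * need k (f.1.2 i)).toNat *
            z q i ^ E := by
        intro i
        have h2 := rel_need_nonneg hk (f.1.2 i)
        have h3 := (abs_le.1 (hE _ f.2 i)).1
        have h4 : k * need k (f.1.2 i) + rel_a E f.1.2 i =
            (f.1.2 i + k * need k (f.1.2 i)).toNat + E := by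
          rw [rel_a_apply]
          zify
          rw [Int.toNat_of_nonneg (by linarith only [h3]), Int.toNat_of_nonneg h2]
          ring
        rw [← mul_pow, ← hzγ q i, mul_pow, ← pow_mul, mul_assoc, mul_assoc, ← pow_add, ← h4,
          pow_add]
        ring
      calc α f * (∏ i, c ^ need k (f.1.2 i)) * ((n q : L) ^ (f.1.1 - ∑ i, need k (f.1.2 i)) *
            ∏ i, ((n q : L) - θ i) ^ need k (f.1.2 i)) * ∏ i, z q i ^ (rel_a E f.1.2 i)
          = α f * (n q : L) ^ (f.1.1 - ∑ i, need k (f.1.2 i)) *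
            ∏ i, (c ^ need k (f.1.2 i) * ((n q : L) - θ i) ^ need k (f.1.2 i) *
              z q i ^ (rel_a E f.1.2 i)) := by
            rw [Finset.prod_mul_distrib, Finset.prod_mul_distrib]
            ring
        _ = _ := by
            rw [Finset.prod_congr rfl fun i _ => h1 i, Finset.prod_mul_distrib]
            ring
    rw [hF, MvPolynomial.eval₂_sum, Finset.sum_congr rfl fun f _ => hterm f, ← Finset.sum_mul,
      hα q, zero_mul]

end Vale.Agent.P018.K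
end

section

/-! # P018, module F2c: from the bound for dyadic blocks of primes to the tail. -/

namespace Vale.Agent.P018

open Polynomial Filter Topology Asymptotics

/-- an irreducible polynomial of degree at least two has no integer root. -/
theorem eval_ne_zero_of_irreducible (f : ℤ[X]) (hirr : Irreducible (f.map (Int.castRingHom ℚ)))
    (hd : 2 ≤ f.natDegree) (n : ℤ) : f.eval n ≠ 0 := by
  intro h
  have h1 : (f.map (Int.castRingHom ℚ)).eval (n : ℚ) = 0 := by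
    have h2 : (f.map (Int.castRingHom ℚ)).eval ((Int.castRingHom ℚ) n) =
        (Int.castRingHom ℚ) (f.eval n) := eval_map_apply _ _
    rw [h, map_zero] at h2
    exact h2
  have hdeg := degree_eq_one_of_irreducible_of_root hirr h1
  have hinj : Function.Injective (Int.castRingHom ℚ) := Int.cast_injective
  have h3 : (f.map (Int.castRingHom ℚ)).natDegree = f.natDegree :=
    natDegree_map_eq_of_injective hinj f
  have h4 : (f.map (Int.castRingHom ℚ)).natDegree = 1 :=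
    natDegree_eq_of_degree_eq_some (n := 1) (by exact_mod_cast hdeg)
  omega

/-- the sum of the absolute values of the coefficients. -/
noncomputable def cSum (f : ℤ[X]) : ℕ := ∑ i ∈ Finset.range (f.natDegree + 1), (f.coeff i).natAbs

theorem abs_eval_le (f : ℤ[X]) {n X : ℕ} (hX : 1 ≤ X) (hn : n ≤ X) :
    (f.eval (n : ℤ)).natAbs ≤ cSum f * X ^ f.natDegree := by
  have h1 : ((f.eval (n : ℤ)).natAbs : ℤ) ≤ ((cSum f * X ^ f.natDegree : ℕ) : ℤ) := by
    rw [Int.natCast_natAbs, eval_eq_sum_range]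
    refine (Finset.abs_sum_le_sum_abs _ _).trans ?_
    unfold cSum
    push_cast
    rw [Finset.sum_mul]
    apply Finset.sum_le_sum
    intro i hi
    rw [Finset.mem_range] at hi
    rw [abs_mul, abs_pow]
    have hn' : |(n : ℤ)| = (n : ℤ) := abs_of_nonneg (by positivity)
    rw [hn']
    have h2 : (n : ℤ) ^ i ≤ (X : ℤ) ^ f.natDegree := by
      calc (n : ℤ) ^ i ≤ (X : ℤ) ^ i := by
            apply pow_le_pow_left₀ (by positivity)
            exact_mod_cast hn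
        _ ≤ (X : ℤ) ^ f.natDegree := pow_le_pow_right₀ (by exact_mod_cast hX) (by omega)
    exact mul_le_mul_of_nonneg_left h2 (abs_nonneg _)
  exact_mod_cast h1

/-- Module F2c: from `pairs_bound` to the tail. -/
theorem tail_of_pairs (f : ℤ[X]) (hirr : Irreducible (f.map (Int.castRingHom ℚ))) (k : ℕ)
    (hk : 2 ≤ k) (hkd : k < f.natDegree)
    (hpairs : ∀ A : ℝ, 0 < A → ∃ η K : ℝ, 0 < η ∧ 0 < K ∧ ∃ X0 : ℕ, ∀ X P : ℕ, X0 ≤ X → X ≤ P →
      (P : ℝ) ^ k ≤ A * (X : ℝ) ^ f.natDegree →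
      ((pairs f k X P).card : ℝ) ≤ K * (X : ℝ) ^ (1 - η)) :
    Tendsto (fun X : ℕ => (tail f k X : ℝ) / X) atTop (𝓝 0) := by
  classical
  set d := f.natDegree with hd
  set A : ℕ := cSum f + 1 with hA
  obtain ⟨η, K, hη, hK, X0, hX0⟩ := hpairs (A : ℝ) (by rw [hA]; push_cast; (clear * -; positivity))
  -- size of the primes
  have hsize : ∀ X : ℕ, 1 ≤ X → ∀ n p : ℕ, n ≤ X → (p : ℤ) ^ k ∣ f.eval (n : ℤ) →
      p ^ k ≤ A * X ^ d := by
    intro X hX n p hn hdvd
    have hne := eval_ne_zero_of_irreducible f hirr (by omega) (n : ℤ)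
    have h1 : p ^ k ≤ (f.eval (n : ℤ)).natAbs := by
      have h2 := Int.natAbs_dvd_natAbs.2 hdvd
      rw [Int.natAbs_pow, Int.natAbs_natCast] at h2
      exact Nat.le_of_dvd (Int.natAbs_pos.2 hne) h2
    refine h1.trans ((abs_eval_le f hX hn).trans ?_)
    exact Nat.mul_le_mul_right _ (by omega)
  -- every block is small
  have hblock : ∀ X : ℕ, max X0 1 ≤ X → ∀ j : ℕ,
      ((pairs f k X (2 ^ j * X)).card : ℝ) ≤ K * (X : ℝ) ^ (1 - η) := by
    intro X hX j
    rcases (pairs f k X (2 ^ j * X)).eq_empty_or_nonempty with h | ⟨z, hz⟩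
    · rw [h]
      simp only [Finset.card_empty, Nat.cast_zero]
      (clear * - hK; positivity)
    · apply hX0 X _ (le_trans (le_max_left _ _) hX)
      · exact Nat.le_mul_of_pos_left X (by positivity)
      · unfold pairs at hz
        rw [Finset.mem_filter, Finset.mem_product, Finset.mem_Icc, Finset.mem_Ioc] at hz
        have h1 := hsize X (le_trans (le_max_right _ _) hX) z.1 z.2 hz.1.1.2 hz.2.2
        have h2 : (2 ^ j * X) ^ k ≤ A * X ^ d :=
          (Nat.pow_le_pow_left hz.1.2.1.le k).trans h1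
        exact_mod_cast h2
  -- the number of blocks
  have htail : ∀ X : ℕ, max X0 1 ≤ X →
      (tail f k X : ℝ) ≤ ((Nat.log 2 (A * X ^ d) : ℝ) + 1) * (K * (X : ℝ) ^ (1 - η)) := by
    intro X hX
    have hX1 : 1 ≤ X := le_trans (le_max_right _ _) hX
    set J := Nat.log 2 (A * X ^ d) with hJ
    have hsub : ((Finset.Icc 1 X).filter (fun n : ℕ => ∃ p : ℕ, p.Prime ∧ X < p ∧
        (p : ℤ) ^ k ∣ f.eval (n : ℤ))) ⊆
        (Finset.range (J + 1)).biUnion (fun j => (pairs f k X (2 ^ j * X)).image Prod.fst) := by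
      intro n hn
      rw [Finset.mem_filter, Finset.mem_Icc] at hn
      obtain ⟨⟨hn1, hnX⟩, p, hp, hXp, hdvd⟩ := hn
      have hpk := hsize X hX1 n p hnX hdvd
      have hpA : p ≤ A * X ^ d := (Nat.le_self_pow (by omega) p).trans hpk
      -- choose the block
      have hex : ∃ j, p ≤ 2 ^ (j + 1) * X := by
        refine ⟨p, ?_⟩
        have : p ≤ 2 ^ (p + 1) := (Nat.lt_two_pow_self (n := p)).le.trans
          (Nat.pow_le_pow_right (by norm_num) (by omega))
        exact this.trans (Nat.le_mul_of_pos_right _ (by omega))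
      set j := Nat.find hex with hj
      have hj1 : p ≤ 2 ^ (j + 1) * X := Nat.find_spec hex
      have hj2 : 2 ^ j * X < p := by
        rcases Nat.eq_zero_or_pos j with h0 | h0
        · rw [h0]
          simpa using hXp
        · have := Nat.find_min hex (m := j - 1) (by omega)
          push Not at this
          rwa [Nat.sub_add_cancel h0] at this
      have hjJ : j < J + 1 := by
        rw [Nat.lt_succ_iff, hJ]
        apply Nat.le_log_of_pow_le (by norm_num)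
        calc 2 ^ j ≤ 2 ^ j * X := Nat.le_mul_of_pos_right _ (by omega)
          _ ≤ p := hj2.le
          _ ≤ A * X ^ d := hpA
      rw [Finset.mem_biUnion]
      refine ⟨j, Finset.mem_range.2 hjJ, ?_⟩
      rw [Finset.mem_image]
      refine ⟨(n, p), ?_, rfl⟩
      unfold pairs
      rw [Finset.mem_filter, Finset.mem_product, Finset.mem_Icc, Finset.mem_Ioc]
      refine ⟨⟨⟨hn1, hnX⟩, hj2, ?_⟩, hp, hdvd⟩
      calc p ≤ 2 ^ (j + 1) * X := hj1
        _ = 2 * (2 ^ j * X) := by ring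
    have hcard : tail f k X ≤ ∑ j ∈ Finset.range (J + 1), (pairs f k X (2 ^ j * X)).card := by
      unfold tail
      calc _ ≤ ((Finset.range (J + 1)).biUnion
            (fun j => (pairs f k X (2 ^ j * X)).image Prod.fst)).card := by
              convert Finset.card_le_card hsub
        _ ≤ ∑ j ∈ Finset.range (J + 1), ((pairs f k X (2 ^ j * X)).image Prod.fst).card :=
              Finset.card_biUnion_le
        _ ≤ _ := Finset.sum_le_sum fun j _ => Finset.card_image_le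
    calc (tail f k X : ℝ) ≤ ((∑ j ∈ Finset.range (J + 1), (pairs f k X (2 ^ j * X)).card : ℕ) : ℝ) := by
          exact_mod_cast hcard
      _ = ∑ j ∈ Finset.range (J + 1), ((pairs f k X (2 ^ j * X)).card : ℝ) := by push_cast; rfl
      _ ≤ ∑ j ∈ Finset.range (J + 1), (K * (X : ℝ) ^ (1 - η)) :=
          Finset.sum_le_sum fun j _ => hblock X hX j
      _ = ((J : ℝ) + 1) * (K * (X : ℝ) ^ (1 - η)) := by
          rw [Finset.sum_const, Finset.card_range, nsmul_eq_mul]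
          push_cast
          ring
  -- the limit
  have hlim : Tendsto (fun X : ℕ => ((Real.log A + d * Real.log X) / Real.log 2 + 1) *
      (K * (X : ℝ) ^ (-η))) atTop (𝓝 0) := by
    have h1 : Tendsto (fun x : ℝ => Real.log x * x ^ (-η)) atTop (𝓝 0) := by
      have := (isLittleO_log_rpow_atTop hη).tendsto_div_nhds_zero
      refine this.congr' ?_
      filter_upwards [eventually_gt_atTop 0] with x hx
      rw [Real.rpow_neg hx.le, div_eq_mul_inv]
    have h2 : Tendsto (fun x : ℝ => x ^ (-η)) atTop (𝓝 0) := tendsto_rpow_neg_atTop hη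
    have h3 : Tendsto (fun x : ℝ => ((Real.log A / Real.log 2 + 1) * K) * x ^ (-η) +
        (d / Real.log 2 * K) * (Real.log x * x ^ (-η))) atTop (𝓝 0) := by
      have := (h2.const_mul ((Real.log A / Real.log 2 + 1) * K)).add
        (h1.const_mul (d / Real.log 2 * K))
      simpa using this
    refine (h3.comp tendsto_natCast_atTop_atTop).congr ?_
    intro X
    simp only [Function.comp_apply]
    ring
  refine squeeze_zero' (Eventually.of_forall fun X => by (clear * -; positivity)) ?_ hlim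
  filter_upwards [eventually_ge_atTop (max X0 1)] with X hX
  have hX1 : 1 ≤ X := le_trans (le_max_right _ _) hX
  have hXpos : (0 : ℝ) < X := by exact_mod_cast hX1
  have hApos : (0 : ℝ) < A := by rw [hA]; push_cast; (clear * -; positivity)
  have hlog : (Nat.log 2 (A * X ^ d) : ℝ) ≤ (Real.log A + d * Real.log X) / Real.log 2 := by
    have h1 : (Nat.log 2 (A * X ^ d) : ℝ) ≤ Real.logb 2 ((A * X ^ d : ℕ) : ℝ) :=
      Real.natLog_le_logb _ _
    refine h1.trans (le_of_eq ?_)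
    rw [Real.logb]
    push_cast
    rw [Real.log_mul hApos.ne' (by positivity), Real.log_pow]
  rw [div_le_iff₀ hXpos]
  refine (htail X hX).trans ?_
  have h4 : (X : ℝ) ^ (1 - η) = (X : ℝ) ^ (-η) * X := by
    rw [sub_eq_add_neg, add_comm, Real.rpow_add hXpos, Real.rpow_one]
  rw [h4]
  have h5 : 0 ≤ K * ((X : ℝ) ^ (-η) * X) := by (clear * - hK hX1; positivity)
  calc ((Nat.log 2 (A * X ^ d) : ℝ) + 1) * (K * ((X : ℝ) ^ (-η) * X))
      ≤ ((Real.log A + d * Real.log X) / Real.log 2 + 1) * (K * ((X : ℝ) ^ (-η) * X)) := by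
        apply mul_le_mul_of_nonneg_right _ h5
        linarith only [hlog]
    _ = _ := by ring

end Vale.Agent.P018
end

section

/-! # P018, K-method, module K7: the bound for primes of size `X^a`. -/

namespace Vale.Agent.P018.K

open Polynomial NumberField

theorem loc_map_ell {R S : Type*} [CommRing R] [CommRing S] (σ : R →+* S) {d : ℕ} (θ : R)
    (y : Fin d → ℤ) : σ (ell θ y) = ell (σ θ) y := by
  unfold ell
  simp

theorem loc_map_fn {R S : Type*} [CommRing R] [CommRing S] (σ : R →+* S) {r : ℕ} (k : ℕ) (n : R)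
    (z γ : Fin r → R) (t : ℕ) (e : Fin r → ℤ) :
    σ (fn k n z γ t e) = fn k (σ n) (fun i => σ (z i)) (fun i => σ (γ i)) t e := by
  unfold fn
  simp

theorem loc_exponent {r : ℕ} (w b : ℝ) (T : ℕ) (lam : ℕ → ℝ) (hlam : Antitone lam)
    (B : Finset (ℕ × (Fin r → ℤ))) (hB : ∀ p ∈ B, p.1 ≤ T) (V : ℝ)
    (hV : ∀ T' : Finset (ℕ × (Fin r → ℕ)), (∀ τ ∈ T', τ.1 ≤ T) →
      ∑ τ ∈ T', (lam τ.1 + τ.1 - b * ∑ i, (τ.2 i : ℝ)) ≤ V)
    (m : B → ℕ × (Fin r → ℕ)) (hm : Function.Injective m) (hmt : ∀ f, (m f).1 ≤ f.1.1) :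
    ∑ f : B, (w * ∑ i, (f.1.2 i : ℝ) + (m f).1 - b * ∑ i, ((m f).2 i : ℝ)) ≤
      V - ∑ p ∈ B, (lam p.1 - w * ∑ i, (p.2 i : ℝ)) := by
  classical
  have h1 := hV (Finset.univ.image m) (by
    intro τ hτ
    obtain ⟨f, -, rfl⟩ := Finset.mem_image.1 hτ
    exact (hmt f).trans (hB f.1 f.2))
  rw [Finset.sum_image (fun x _ y _ h => hm h)] at h1
  have h2 : ∑ p ∈ B, (lam p.1 - w * ∑ i, (p.2 i : ℝ)) =
      ∑ f : B, (lam f.1.1 - w * ∑ i, (f.1.2 i : ℝ)) := (Finset.sum_coe_sort B _).symm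
  rw [h2, le_sub_iff_add_le, ← Finset.sum_add_distrib]
  refine le_trans (Finset.sum_le_sum fun f _ => ?_) h1
  have h3 := hlam (hmt f)
  linarith

theorem loc_prod_le {r : ℕ} (d : ℕ) (hd : 1 ≤ d) (a b : ℝ) (T : ℕ) (lam : ℕ → ℝ)
    (hlam : Antitone lam) (B : Finset (ℕ × (Fin r → ℤ))) (hB : ∀ p ∈ B, p.1 ≤ T) (V : ℝ)
    (hV : ∀ T' : Finset (ℕ × (Fin r → ℕ)), (∀ τ ∈ T', τ.1 ≤ T) →
      ∑ τ ∈ T', (lam τ.1 + τ.1 - b * ∑ i, (τ.2 i : ℝ)) ≤ V)
    (hcrit : V < ∑ p ∈ B, (lam p.1 - a / d * ∑ i, (p.2 i : ℝ))) :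
    ∃ ε : ℝ, 0 < ε ∧ ∃ δ : ℝ, 0 < δ ∧ ∀ X P : ℝ, 1 ≤ X → 0 < P → X ^ (a - ε) ≤ P →
      P ≤ X ^ (a + ε) → ∀ m : B → ℕ × (Fin r → ℕ), Function.Injective m →
      (∀ f, (m f).1 ≤ f.1.1) →
      ∏ f : B, ((P ^ (1 / d : ℝ)) ^ (∑ i, f.1.2 i : ℤ) * X ^ (m f).1 *
        (X ^ (-b)) ^ (∑ i, (m f).2 i)) ≤ X ^ (-δ) := by
  set S := ∑ p ∈ B, (lam p.1 - a / d * ∑ i, (p.2 i : ℝ)) with hS
  set E0 := ∑ f : B, |∑ i, (f.1.2 i : ℝ)| with hE0
  have hE00 : 0 ≤ E0 := Finset.sum_nonneg fun f _ => abs_nonneg _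
  have hdr : (1 : ℝ) ≤ d := by exact_mod_cast hd
  refine ⟨(S - V) / (2 * (E0 + 1)), by apply div_pos <;> linarith, (S - V) / 2, by linarith only [hcrit], ?_⟩
  intro X P hX hP hP1 hP2 m hm hmt
  set ε := (S - V) / (2 * (E0 + 1)) with hε
  have hεpos : 0 < ε := by rw [hε]; apply div_pos <;> linarith
  have hX0 : 0 < X := by linarith only [hX]
  set l := Real.log X with hl
  have hl0 : 0 ≤ l := Real.log_nonneg hX
  have hlP1 : (a - ε) * l ≤ Real.log P := by
    have := Real.log_le_log (by positivity) hP1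
    rwa [Real.log_rpow hX0] at this
  have hlP2 : Real.log P ≤ (a + ε) * l := by
    have := Real.log_le_log hP hP2
    rwa [Real.log_rpow hX0] at this
  have hfac : ∀ f : B, (P ^ (1 / d : ℝ)) ^ (∑ i, f.1.2 i : ℤ) * X ^ (m f).1 *
      (X ^ (-b)) ^ (∑ i, (m f).2 i) =
      Real.exp ((∑ i, (f.1.2 i : ℝ)) * (Real.log P / d) + (m f).1 * l -
        b * (∑ i, ((m f).2 i : ℝ)) * l) := by
    intro f
    have e1 : (P ^ (1 / d : ℝ)) ^ (∑ i, f.1.2 i : ℤ) =
        Real.exp ((∑ i, (f.1.2 i : ℝ)) * (Real.log P / d)) := by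
      rw [← Real.rpow_intCast, ← Real.rpow_mul hP.le, Real.rpow_def_of_pos hP]
      congr 1
      push_cast
      ring
    have e2 : X ^ (m f).1 = Real.exp ((m f).1 * l) := by
      rw [Real.exp_nat_mul, hl, Real.exp_log hX0]
    have e3 : (X ^ (-b)) ^ (∑ i, (m f).2 i) = Real.exp (-(b * (∑ i, ((m f).2 i : ℝ)) * l)) := by
      rw [← Real.rpow_natCast, ← Real.rpow_mul hX0.le, Real.rpow_def_of_pos hX0]
      congr 1
      push_cast
      ring
    rw [e1, e2, e3, ← Real.exp_add, ← Real.exp_add]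
    congr 1
  rw [Finset.prod_congr rfl fun f _ => hfac f, ← Real.exp_sum, Real.rpow_def_of_pos hX0,
    Real.exp_le_exp]
  have hmain := loc_exponent (a / d) b T lam hlam B hB V hV m hm hmt
  have hterm : ∀ f : B, (∑ i, (f.1.2 i : ℝ)) * (Real.log P / d) + (m f).1 * l -
      b * (∑ i, ((m f).2 i : ℝ)) * l ≤
      (a / d * ∑ i, (f.1.2 i : ℝ) + (m f).1 - b * ∑ i, ((m f).2 i : ℝ)) * l +
        ε * l * |∑ i, (f.1.2 i : ℝ)| := by
    intro f
    have h1 : |Real.log P / d - a / d * l| ≤ ε * l := by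
      rw [show Real.log P / d - a / d * l = (Real.log P - a * l) / d by ring, abs_div,
        abs_of_pos (show (0 : ℝ) < d by linarith only [hdr]), div_le_iff₀ (by linarith only [hdr])]
      have h2 : |Real.log P - a * l| ≤ ε * l := by
        rw [abs_le]
        constructor <;> nlinarith
      have h3 : 0 ≤ ε * l := by (clear * - hcrit hl0; positivity)
      linarith only [mul_nonneg (sub_nonneg.2 hdr) (sub_nonneg.2 h3), h2]
    have h4 : (∑ i, (f.1.2 i : ℝ)) * (Real.log P / d - a / d * l) ≤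
        ε * l * |∑ i, (f.1.2 i : ℝ)| := by
      refine (le_abs_self _).trans ?_
      rw [abs_mul, mul_comm]
      exact mul_le_mul_of_nonneg_right h1 (abs_nonneg _)
    linarith only [h4]
  refine (Finset.sum_le_sum fun f _ => hterm f).trans ?_
  rw [Finset.sum_add_distrib, ← Finset.sum_mul, ← Finset.mul_sum, ← hE0]
  have h5 : (∑ f : B, (a / d * ∑ i, (f.1.2 i : ℝ) + (m f).1 - b * ∑ i, ((m f).2 i : ℝ))) * l ≤
      (V - S) * l := mul_le_mul_of_nonneg_right hmain hl0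
  have h6 : ε * E0 ≤ (S - V) / 2 := by
    rw [hε, div_mul_eq_mul_div, div_le_div_iff₀ (by linarith only [hE00]) (by norm_num)]
    linarith only [hcrit]
  have h7 : ε * l * E0 ≤ (S - V) / 2 * l := by
    calc ε * l * E0 = ε * E0 * l := by ring
      _ ≤ _ := mul_le_mul_of_nonneg_right h6 hl0
  linarith only [h7, h5]

theorem loc_mult_n (f : ℤ[X]) (hirr : Irreducible (f.map (Int.castRingHom ℚ))) (k : ℕ)
    (hk : 1 ≤ k) : ∃ D1 : ℕ, ∀ X P p : ℕ, X ≤ P → P < p → p.Prime →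
      ((Finset.Icc 1 X).filter (fun n : ℕ => (p : ℤ) ^ k ∣ f.eval (n : ℤ))).card ≤ D1 := by
  obtain ⟨D, hD⟩ := sv_rho_bound f k hk hirr
  refine ⟨D, fun X P p hXP hPp hp => le_trans ?_ (hD p hp)⟩
  unfold rho
  apply Finset.card_le_card
  intro n hn
  rw [Finset.mem_filter, Finset.mem_Icc] at hn
  rw [Finset.mem_filter, Finset.mem_range]
  refine ⟨?_, by push_cast; exact hn.2⟩
  have h1 : p ≤ p ^ k := Nat.le_self_pow (by omega) p
  omega

theorem loc_mult_p (f : ℤ[X]) (hirr : Irreducible (f.map (Int.castRingHom ℚ)))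
    (hd : 2 ≤ f.natDegree) (k : ℕ) (hk : 1 ≤ k) : ∃ X1 : ℕ, ∀ X P : ℕ, X1 ≤ X → X ≤ P → ∀ n : ℕ,
      ((pairs f k X P).filter (fun z => z.1 = n)).card ≤ f.natDegree := by
  classical
  refine ⟨cSum f + 2, fun X P hX hXP n => ?_⟩
  rcases ((pairs f k X P).filter (fun z => z.1 = n)).eq_empty_or_nonempty with h0 | ⟨z0, hz0⟩
  · rw [h0]; simp
  set F := (pairs f k X P).filter (fun z => z.1 = n) with hF
  have hmem : ∀ z ∈ F, z.1 = n ∧ 1 ≤ n ∧ n ≤ X ∧ P < z.2 ∧ z.2.Prime ∧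
      (z.2 : ℤ) ^ k ∣ f.eval (n : ℤ) := by
    intro z hz
    rw [hF, Finset.mem_filter, pairs, Finset.mem_filter, Finset.mem_product, Finset.mem_Icc,
      Finset.mem_Ioc] at hz
    obtain ⟨⟨⟨h1, h2⟩, h3, h4⟩, h5⟩ := hz
    rw [h5] at h1 h4
    exact ⟨h5, h1.1, h1.2, h2.1, h3, h4⟩
  have hcard : F.card = (F.image Prod.snd).card := by
    rw [Finset.card_image_of_injOn]
    intro x hx y hy hxy
    exact Prod.ext ((hmem x hx).1.trans (hmem y hy).1.symm) hxy
  have hdvd : ∏ p ∈ F.image Prod.snd, (p : ℤ) ^ k ∣ f.eval (n : ℤ) := by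
    apply Finset.prod_dvd_of_coprime
    · intro p hp q hq hpq
      obtain ⟨z, hz, rfl⟩ := Finset.mem_image.1 (Finset.mem_coe.1 hp)
      obtain ⟨w, hw, rfl⟩ := Finset.mem_image.1 (Finset.mem_coe.1 hq)
      apply IsCoprime.pow
      rw [Int.isCoprime_iff_gcd_eq_one]
      have := (Nat.coprime_primes (hmem z hz).2.2.2.2.1 (hmem w hw).2.2.2.2.1).2 hpq
      simpa [Int.gcd] using this
    · intro p hp
      obtain ⟨z, hz, rfl⟩ := Finset.mem_image.1 hp
      exact (hmem z hz).2.2.2.2.2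
  have hne := eval_ne_zero_of_irreducible f hirr hd (n : ℤ)
  have h1 := Int.natAbs_dvd_natAbs.2 hdvd
  have h2 := Nat.le_of_dvd (Int.natAbs_pos.2 hne) h1
  have h3 : (∏ p ∈ F.image Prod.snd, (p : ℤ) ^ k).natAbs = ∏ p ∈ F.image Prod.snd, p ^ k := by
    have : (∏ p ∈ F.image Prod.snd, (p : ℤ) ^ k) = ((∏ p ∈ F.image Prod.snd, p ^ k : ℕ) : ℤ) := by
      push_cast
      rfl
    rw [this, Int.natAbs_natCast]
  rw [h3] at h2
  have h4 : X ^ (F.image Prod.snd).card ≤ ∏ p ∈ F.image Prod.snd, p ^ k := by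
    rw [← Finset.prod_const]
    apply Finset.prod_le_prod'
    intro p hp
    obtain ⟨z, hz, rfl⟩ := Finset.mem_image.1 hp
    have h5 := (hmem z hz).2.2.2.1
    have h6 : z.2 ≤ z.2 ^ k := Nat.le_self_pow (by omega) _
    omega
  have h7 := abs_eval_le f (show 1 ≤ X by omega) (hmem z0 hz0).2.2.1
  have h8 : cSum f * X ^ f.natDegree < X ^ (f.natDegree + 1) := by
    rw [pow_succ, mul_comm]
    exact Nat.mul_lt_mul_of_pos_left (by omega) (Nat.pow_pos (by omega))
  have h9 : X ^ (F.image Prod.snd).card < X ^ (f.natDegree + 1) :=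
    lt_of_le_of_lt (h4.trans (h2.trans h7)) h8
  have h10 := (Nat.pow_lt_pow_iff_right (show 1 < X by omega)).1 h9
  rw [hcard]
  omega

/-- number of classes -/
theorem loc_count_classes {d : ℕ} (S : Finset (ℕ × ℕ)) (Y : ℕ × ℕ → Fin d → ℤ)
    (cc : ℕ × ℕ → ℤ) (Cs W H : ℕ) (R : ℝ) (hH : 1 ≤ H) (hHR : (H : ℝ) ≤ R)
    (hcc : ∀ z ∈ S, |cc z| ≤ Cs) (hY : ∀ z ∈ S, ∀ j, |(Y z j : ℝ)| ≤ 2 * R)
    (hW : ∀ κ : ℤ × (Fin d → ℤ),
      (S.filter (fun z => (cc z, fun j => Y z j / (H : ℤ)) = κ)).card ≤ W) :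
    (S.card : ℝ) ≤ W * ((2 * Cs + 1) * (9 * (R / H)) ^ d) := by
  classical
  have hHr : (1 : ℝ) ≤ H := by exact_mod_cast hH
  have hHz : (0 : ℤ) < (H : ℤ) := by exact_mod_cast hH
  set M : ℕ := ⌈2 * R / H⌉₊ + 1 with hM
  have hidx : ∀ z ∈ S, ∀ j, Y z j / (H : ℤ) ∈ Finset.Icc (-(M : ℤ)) M := by
    intro z hz j
    have h1 := hY z hz j
    have h2 := Nat.le_ceil (2 * R / H)
    rw [div_le_iff₀ (by linarith only [hHr])] at h2
    rw [abs_le] at h1
    rw [Finset.mem_Icc]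
    constructor
    · rw [Int.le_ediv_iff_mul_le hHz]
      have h3 : (-(M : ℝ)) * H ≤ Y z j := by
        rw [hM]
        push_cast
        nlinarith
      exact_mod_cast h3
    · have h3 : (Y z j : ℝ) ≤ M * H := by
        rw [hM]
        push_cast
        nlinarith
      have h4 : Y z j ≤ M * H := by exact_mod_cast h3
      calc Y z j / (H : ℤ) ≤ (M * H) / (H : ℤ) := Int.ediv_le_ediv hHz h4
        _ = M := Int.mul_ediv_cancel _ hHz.ne'
  have hcard := Finset.card_le_mul_card_image_of_maps_to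
    (s := S) (t := (Finset.Icc (-(Cs : ℤ)) Cs) ×ˢ
      (Fintype.piFinset fun _ : Fin d => Finset.Icc (-(M : ℤ)) M))
    (f := fun z => (cc z, fun j => Y z j / (H : ℤ))) (by
      intro z hz
      rw [Finset.mem_product]
      refine ⟨?_, ?_⟩
      · rw [Finset.mem_Icc]
        exact abs_le.1 (hcc z hz)
      · rw [Fintype.mem_piFinset]
        exact hidx z hz) W (fun κ _ => hW κ)
  rw [Finset.card_product, Fintype.card_piFinset_const, Int.card_Icc, Int.card_Icc] at hcard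
  have h1 : ((Cs : ℤ) + 1 - -(Cs : ℤ)).toNat = 2 * Cs + 1 := by omega
  have h2 : ((M : ℤ) + 1 - -(M : ℤ)).toNat = 2 * M + 1 := by omega
  rw [h1, h2] at hcard
  have h3 : (S.card : ℝ) ≤ W * ((2 * Cs + 1) * (2 * M + 1) ^ d) := by exact_mod_cast hcard
  refine h3.trans ?_
  have h4 : (2 * (M : ℝ) + 1) ≤ 9 * (R / H) := by
    have h5 := Nat.ceil_lt_add_one (show 0 ≤ 2 * R / H by
      have : 0 ≤ R := by linarith only [hHr, hHR]
      (clear * - this hH; positivity))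
    have h6 : 1 ≤ R / H := by
      rw [le_div_iff₀ (by linarith only [hHr])]
      linarith only [hHR]
    have h7 : 2 * R / H = 2 * (R / H) := by ring
    rw [h7] at h5
    rw [hM]
    push_cast
    rw [h7]
    linarith only [h6, h5]
  have h8 : (2 * (M : ℝ) + 1) ^ d ≤ (9 * (R / H)) ^ d :=
    pow_le_pow_left₀ (by (clear * -; positivity)) h4 d
  gcongr

/-- one class -/
theorem loc_cls {d : ℕ} (f : ℤ[X]) (k X P D1 Cc H r : ℕ) (a0 : ℤ) (ha0 : a0 ≠ 0)
    (L : Type) [Field L] [NumberField L] (θ : Fin d → 𝓞 L)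
    (hXP : X ≤ P)
    (hD1 : ∀ X P p : ℕ, X ≤ P → P < p → p.Prime →
      ((Finset.Icc 1 X).filter (fun n : ℕ => (p : ℤ) ^ k ∣ f.eval (n : ℤ))).card ≤ D1)
    (hX1 : ∀ n : ℕ, ((pairs f k X P).filter (fun z => z.1 = n)).card ≤ d)
    (A0 R : ℝ) (hR0 : 0 ≤ R) (hRd : R ^ d = P) (hA0 : |(a0 : ℝ)| ≤ A0)
    (Y : ℕ × ℕ → Fin d → ℤ) (cc : ℕ × ℕ → ℤ) (Γ : ℕ × ℕ → Fin d → 𝓞 L) (Cs : ℕ)
    (hcc0 : ∀ z ∈ pairs f k X P, cc z ≠ 0) (hccs : ∀ z ∈ pairs f k X P, |cc z| ≤ Cs)
    (hY : ∀ z ∈ pairs f k X P, ∀ j, |(Y z j : ℝ)| ≤ 2 * R)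
    (hN : ∀ z ∈ pairs f k X P, ∏ i, ell (θ i) (Y z) = (((z.2 : ℤ) * cc z : ℤ) : 𝓞 L))
    (hΓ : ∀ z ∈ pairs f k X P, ∀ i, (cc z : 𝓞 L) ^ k * (((a0 * z.1 : ℤ) : 𝓞 L) - θ i) =
      ell (θ i) (Y z) ^ k * Γ z i)
    (hclass : ∀ (c : ℤ) (y0 : Fin d → ℤ) (Q : Finset (ℤ × (Fin d → ℤ))), c ≠ 0 → |c| ≤ Cs →
      (∀ q ∈ Q, ∀ j, y0 j ≤ q.2 j ∧ q.2 j < y0 j + H) →
      (∀ q ∈ Q, ∀ q' ∈ Q, q.2 = q'.2 → q = q') →
      (∀ n : ℤ, (Q.filter (fun q => q.1 = n)).card ≤ d) →
      (∀ q ∈ Q, |(q.1 : ℝ)| ≤ A0 * X) →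
      (∀ q ∈ Q, ∀ j, |(q.2 j : ℝ)| ≤ 2 * R) →
      (∀ q ∈ Q, ∃ N : ℤ, ∏ i, ell (θ i) q.2 = (N : 𝓞 L) ∧ R ^ d ≤ |(N : ℝ)|) →
      (∀ q ∈ Q, ∃ γ : Fin d → 𝓞 L, ∀ i,
        (c : 𝓞 L) ^ k * ((q.1 : 𝓞 L) - θ i) = ell (θ i) q.2 ^ k * γ i) →
      Q.card ≤ Cc * H ^ r) (hH : 1 ≤ H) (κ : ℤ × (Fin d → ℤ)) :
    ((pairs f k X P).filter (fun z => (cc z, fun j => Y z j / (H : ℤ)) = κ)).card ≤
      D1 * (Cc * H ^ r) := by
  classical
  have hHz : (0 : ℤ) < (H : ℤ) := by exact_mod_cast hH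
  have hmem : ∀ z ∈ pairs f k X P, 1 ≤ z.1 ∧ z.1 ≤ X ∧ P < z.2 ∧ z.2 ≤ 2 * P ∧ z.2.Prime ∧
      (z.2 : ℤ) ^ k ∣ f.eval (z.1 : ℤ) := by
    intro z hz
    rw [pairs, Finset.mem_filter, Finset.mem_product, Finset.mem_Icc, Finset.mem_Ioc] at hz
    exact ⟨hz.1.1.1, hz.1.1.2, hz.1.2.1, hz.1.2.2, hz.2.1, hz.2.2⟩
  set Sκ := (pairs f k X P).filter (fun z => (cc z, fun j => Y z j / (H : ℤ)) = κ) with hSκ
  have hS : ∀ z ∈ Sκ, z ∈ pairs f k X P ∧ cc z = κ.1 ∧ ∀ j, Y z j / (H : ℤ) = κ.2 j := by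
    intro z hz
    rw [hSκ, Finset.mem_filter] at hz
    refine ⟨hz.1, ?_, fun j => ?_⟩
    · rw [← hz.2]
    · rw [← hz.2]
  have h1 : Sκ.card ≤ D1 * (Sκ.image Y).card := by
    apply Finset.card_le_mul_card_image
    intro y hy
    obtain ⟨z0, hz0, rfl⟩ := Finset.mem_image.1 hy
    refine le_trans ?_ (hD1 X P z0.2 hXP (hmem z0 (hS z0 hz0).1).2.2.1
      (hmem z0 (hS z0 hz0).1).2.2.2.2.1)
    have hp : ∀ z ∈ Sκ.filter (fun z => Y z = Y z0), z.2 = z0.2 := by
      intro z hz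
      rw [Finset.mem_filter] at hz
      have e1 := hN z (hS z hz.1).1
      have e2 := hN z0 (hS z0 hz0).1
      rw [hz.2, e2] at e1
      have e3 : (z0.2 : ℤ) * cc z0 = (z.2 : ℤ) * cc z := by exact_mod_cast e1
      rw [(hS z hz.1).2.1, (hS z0 hz0).2.1] at e3
      have e4 : κ.1 ≠ 0 := by
        rw [← (hS z0 hz0).2.1]
        exact hcc0 z0 (hS z0 hz0).1
      have e5 := mul_right_cancel₀ e4 e3
      exact_mod_cast e5.symm
    apply Finset.card_le_card_of_injOn Prod.fst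
    · intro z hz
      have hz' := Finset.mem_coe.1 hz
      have hz2 := hp z hz'
      rw [Finset.mem_filter] at hz'
      have hz3 := hmem z (hS z hz'.1).1
      rw [Finset.mem_coe, Finset.mem_filter, Finset.mem_Icc]
      rw [hz2] at hz3
      exact ⟨⟨hz3.1, hz3.2.1⟩, hz3.2.2.2.2.2⟩
    · intro z hz w hw hzw
      exact Prod.ext hzw ((hp z hz).trans (hp w hw).symm)
  refine h1.trans (Nat.mul_le_mul_left _ ?_)
  rcases Sκ.eq_empty_or_nonempty with h0 | ⟨z0, hz0⟩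
  · rw [h0]; simp
  have hg : ∀ y ∈ Sκ.image Y, ∃ z ∈ Sκ, Y z = y := fun y hy => Finset.mem_image.1 hy
  choose! g hg1 hg2 using hg
  set Q : Finset (ℤ × (Fin d → ℤ)) := (Sκ.image Y).image (fun y => ((a0 * (g y).1 : ℤ), y)) with hQ
  have hQcard : (Sκ.image Y).card = Q.card := by
    rw [hQ]
    exact (Finset.card_image_of_injective _ (fun x y hxy => (Prod.ext_iff.1 hxy).2)).symm
  have hQm : ∀ q ∈ Q, ∃ z ∈ Sκ, q = ((a0 * z.1 : ℤ), Y z) ∧ z = g q.2 := by
    intro q hq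
    obtain ⟨y, hy, rfl⟩ := Finset.mem_image.1 hq
    exact ⟨g y, hg1 y hy, by rw [hg2 y hy], rfl⟩
  rw [hQcard]
  apply hclass κ.1 (fun j => H * κ.2 j) Q
  · rw [← (hS z0 hz0).2.1]
    exact hcc0 z0 (hS z0 hz0).1
  · rw [← (hS z0 hz0).2.1]
    exact hccs z0 (hS z0 hz0).1
  · intro q hq j
    obtain ⟨z, hz, rfl, -⟩ := hQm q hq
    have h2 := (hS z hz).2.2 j
    have h3 := Int.emod_add_mul_ediv (Y z j) H
    have h4 := Int.emod_nonneg (Y z j) hHz.ne'
    have h5 := Int.emod_lt_of_pos (Y z j) hHz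
    simp only
    rw [← h2]
    constructor <;> linarith
  · intro q hq q' hq' h
    obtain ⟨z, hz, e1, e2⟩ := hQm q hq
    obtain ⟨z', hz', e1', e2'⟩ := hQm q' hq'
    rw [e1, e1', e2, e2', h]
  · intro n
    rcases (Q.filter (fun q => q.1 = n)).eq_empty_or_nonempty with h0 | ⟨q1, hq1⟩
    · rw [h0]; simp
    · rw [Finset.mem_filter] at hq1
      obtain ⟨z1, hz1, e1, -⟩ := hQm q1 hq1.1
      refine le_trans ?_ (hX1 z1.1)
      apply Finset.card_le_card_of_injOn (fun q => g q.2)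
      · intro q hq
        have hq' := Finset.mem_coe.1 hq
        rw [Finset.mem_filter] at hq'
        obtain ⟨z, hz, e2, e3⟩ := hQm q hq'.1
        rw [Finset.mem_coe, Finset.mem_filter]
        simp only
        rw [← e3]
        refine ⟨(hS z hz).1, ?_⟩
        have e4 : a0 * (z.1 : ℤ) = a0 * (z1.1 : ℤ) := by
          have e5 : q.1 = a0 * (z.1 : ℤ) := by rw [e2]
          have e6 : q1.1 = a0 * (z1.1 : ℤ) := by rw [e1]
          rw [← e5, ← e6, hq'.2, hq1.2]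
        exact_mod_cast mul_left_cancel₀ ha0 e4
      · intro q hq w hw hqw
        have hq' := Finset.mem_coe.1 hq
        have hw' := Finset.mem_coe.1 hw
        rw [Finset.mem_filter] at hq' hw'
        obtain ⟨z, hz, e2, e3⟩ := hQm q hq'.1
        obtain ⟨z', hz', e2', e3'⟩ := hQm w hw'.1
        simp only at hqw
        rw [e2, e2', e3, e3', hqw]
  · intro q hq
    obtain ⟨z, hz, rfl, -⟩ := hQm q hq
    have h2 : (z.1 : ℝ) ≤ X := by exact_mod_cast (hmem z (hS z hz).1).2.1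
    simp only
    push_cast
    rw [abs_mul, abs_of_nonneg (show (0 : ℝ) ≤ (z.1 : ℝ) by (clear * -; positivity))]
    exact mul_le_mul hA0 h2 (by (clear * -; positivity)) (le_trans (abs_nonneg _) hA0)
  · intro q hq j
    obtain ⟨z, hz, rfl, -⟩ := hQm q hq
    exact hY z (hS z hz).1 j
  · intro q hq
    obtain ⟨z, hz, rfl, -⟩ := hQm q hq
    refine ⟨(z.2 : ℤ) * cc z, hN z (hS z hz).1, ?_⟩
    have h2 : (P : ℝ) < z.2 := by exact_mod_cast (hmem z (hS z hz).1).2.2.1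
    have h3 : (1 : ℝ) ≤ |(cc z : ℝ)| := by
      have := Int.one_le_abs (hcc0 z (hS z hz).1)
      exact_mod_cast this
    rw [hRd]
    push_cast
    rw [abs_mul, abs_of_nonneg (show (0 : ℝ) ≤ (z.2 : ℝ) by (clear * -; positivity))]
    nlinarith
  · intro q hq
    obtain ⟨z, hz, rfl, -⟩ := hQm q hq
    refine ⟨Γ z, fun i => ?_⟩
    rw [← (hS z hz).2.1]
    exact hΓ z (hS z hz).1 i

end Vale.Agent.P018.K
end

section

/-! # P018, Module M7, part 1: coordinates in `ℚ[x]/(f)` and linear functionals. -/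

namespace Vale.Agent.P018

open Polynomial Finset

theorem natDegree_mapQ (f : ℤ[X]) : (f.map (Int.castRingHom ℚ)).natDegree = f.natDegree :=
  natDegree_map_eq_of_injective Int.cast_injective _

theorem evT_inj (f : ℤ[X]) (a : ℤ[X]) (ha : a.natDegree < f.natDegree)
    (h : evT f a = 0) : a = 0 := by
  rw [evT_eq_mk, AdjoinRoot.mk_eq_zero] at h
  by_contra ha0
  have h1 : a.map (Int.castRingHom ℚ) ≠ 0 :=
    (Polynomial.map_ne_zero_iff Int.cast_injective).2 ha0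
  have h2 := natDegree_le_of_dvd h h1
  rw [natDegree_mapQ, natDegree_mapQ] at h2
  omega

/-- the linear functional on `ℚ[x]/(f)` with given values on `1, θ, …, θ^(d-1)`. -/
noncomputable def lamOf (f : ℤ[X]) (hm : f.Monic) (L : Fin f.natDegree → ℚ) : EE f →ₗ[ℚ] ℚ :=
  (∑ j : Fin f.natDegree, L j • Polynomial.lcoeff ℚ (j : ℕ)) ∘ₗ
    AdjoinRoot.modByMonicHom (hm.map (Int.castRingHom ℚ))

theorem lamOf_evT (f : ℤ[X]) (hm : f.Monic) (L : Fin f.natDegree → ℚ) (a : ℤ[X])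
    (ha : a.natDegree < f.natDegree) :
    lamOf f hm L (evT f a) = ∑ j : Fin f.natDegree, L j * ((a.coeff j : ℤ) : ℚ) := by
  unfold lamOf
  rw [LinearMap.comp_apply, evT_eq_mk, AdjoinRoot.modByMonicHom_mk]
  have h1 : (a.map (Int.castRingHom ℚ)) %ₘ (f.map (Int.castRingHom ℚ)) =
      a.map (Int.castRingHom ℚ) := by
    rw [modByMonic_eq_self_iff (hm.map _)]
    by_cases ha0 : a.map (Int.castRingHom ℚ) = 0
    · rw [ha0, degree_zero, bot_lt_iff_ne_bot]
      intro h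
      exact (hm.map (Int.castRingHom ℚ)).ne_zero (degree_eq_bot.1 h)
    · rw [degree_eq_natDegree ha0, degree_eq_natDegree (hm.map (Int.castRingHom ℚ)).ne_zero,
        natDegree_mapQ, natDegree_mapQ]
      exact_mod_cast ha
  rw [h1]
  simp [LinearMap.sum_apply]

theorem lamOf_ne_zero (f : ℤ[X]) (hm : f.Monic) (L : Fin f.natDegree → ℚ) (hL : L ≠ 0) :
    lamOf f hm L ≠ 0 := by
  intro h
  apply hL
  funext j
  have h1 := lamOf_evT f hm L (X ^ (j : ℕ)) (by rw [natDegree_X_pow]; exact j.2)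
  rw [h] at h1
  simp only [LinearMap.zero_apply, coeff_X_pow] at h1
  rw [Finset.sum_eq_single j] at h1
  · simpa using h1.symm
  · intro b _ hb
    have : (b : ℕ) ≠ (j : ℕ) := fun h => hb (Fin.ext h)
    simp [this]
  · simp

theorem extL_eval {E : Type*} [Field E] [Algebra ℚ E] (lam : E →ₗ[ℚ] ℚ) (q : E[X]) (t : ℚ) :
    (extL lam q).eval t = lam (q.eval (algebraMap ℚ E t)) := by
  unfold extL
  rw [eval_finsetSum, eval_eq_sum, Polynomial.sum, map_sum]
  refine sum_congr rfl fun i _ => ?_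
  rw [eval_monomial, ← map_pow, mul_comm (q.coeff i), ← Algebra.smul_def, map_smul, smul_eq_mul,
    mul_comm]

/-- If all `m × m` determinants vanish, the vectors satisfy a linear relation. -/
theorem li_exists_relation {I : Type*} [Fintype I] [DecidableEq I] {Z : Type*} (S : Set Z)
    (w : Z → I → ℚ) (hw : ∀ r : I → Z, (∀ i, r i ∈ S) → (Matrix.of fun i j => w (r i) j).det = 0) :
    ∃ L : I → ℚ, L ≠ 0 ∧ ∀ z ∈ S, ∑ j, L j * w z j = 0 := by
  classical
  by_cases htop : Submodule.span ℚ (w '' S) = ⊤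
  · exfalso
    obtain ⟨g, hg, -, hli⟩ := Submodule.exists_fun_fin_finrank_span_eq ℚ (w '' S)
    have hcard : Fintype.card I = Fintype.card (Fin (Module.finrank ℚ
        (Submodule.span ℚ (w '' S)))) := by
      rw [Fintype.card_fin, htop, finrank_top, Module.finrank_fintype_fun_eq_card]
    let e : I ≃ Fin (Module.finrank ℚ (Submodule.span ℚ (w '' S))) :=
      Fintype.equivOfCardEq hcard
    choose r hrS hr using fun i : I => hg (e i)
    have h1 := hw r hrS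
    have h2 : (Matrix.of fun i j => w (r i) j) = Matrix.of (fun i => g (e i)) := by
      ext i j
      show w (r i) j = g (e i) j
      rw [hr i]
    rw [h2] at h1
    have h3 : LinearIndependent ℚ (Matrix.of (fun i => g (e i))).row :=
      hli.comp e e.injective
    rw [Matrix.linearIndependent_rows_iff_isUnit, Matrix.isUnit_iff_isUnit_det, h1] at h3
    exact not_isUnit_zero h3
  · obtain ⟨φ, hφ0, hφ⟩ := Submodule.exists_le_ker_of_lt_top _ (lt_top_iff_ne_top.2 htop)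
    refine ⟨fun j => φ (Pi.single j 1), ?_, ?_⟩
    · intro h
      apply hφ0
      apply LinearMap.pi_ext'
      intro i
      ext
      simpa using congrFun h i
    · intro z hz
      have h1 : φ (w z) = 0 := hφ (Submodule.subset_span ⟨z, hz, rfl⟩)
      rw [← h1, LinearMap.pi_apply_eq_sum_univ φ (w z)]
      refine sum_congr rfl fun j _ => ?_
      rw [smul_eq_mul, mul_comm]
      congr 1
      refine congrArg φ ?_
      funext i
      rw [Pi.single_apply]
      simp only [eq_comm]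

end Vale.Agent.P018
end

section

/-! # P018, Module M7, part 2: the points of a line. -/

namespace Vale.Agent.P018

open Polynomial Finset

theorem charZero_EE (f : ℤ[X]) (hirr : Irreducible (f.map (Int.castRingHom ℚ))) :
    CharZero (EE f) := by
  have : Fact (Irreducible (f.map (Int.castRingHom ℚ))) := ⟨hirr⟩
  exact algebraRat.charZero _

theorem line_point (f : ℤ[X]) (hirr : Irreducible (f.map (Int.castRingHom ℚ))) (k : ℕ)
    (b a : ℤ[X]) (c t n : ℤ) (p : ℕ) (N : ℤ[X]) (B : (EE f)[X])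
    (hB : (X + C (evT f b)) * B = N.map (Int.castRingHom (EE f))) (hN : N.eval t = c * p)
    (hc : c ≠ 0)
    (h : (c : EE f) ^ k * ((n : EE f) - th f) = evT f (b + C t) ^ k * evT f a) :
    ((n : EE f) - th f) * (B ^ k).eval (t : EE f) = (p : EE f) ^ k * evT f a := by
  have : Fact (Irreducible (f.map (Int.castRingHom ℚ))) := ⟨hirr⟩
  have : CharZero (EE f) := charZero_EE f hirr
  have hc' : (c : EE f) ^ k ≠ 0 := pow_ne_zero _ (Int.cast_ne_zero.2 hc)
  have h1 : evT f (b + C t) * B.eval (t : EE f) = (c : EE f) * (p : EE f) := by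
    have h2 := congrArg (fun g => g.eval (t : EE f)) hB
    simp only [eval_mul, eval_add, eval_X, eval_C] at h2
    rw [eval_intCast_map, Int.cast_id, hN] at h2
    rw [map_add, evT_C, add_comm, h2]
    simp
  apply mul_left_cancel₀ hc'
  rw [eval_pow]
  calc (c : EE f) ^ k * (((n : EE f) - th f) * (B.eval (t : EE f)) ^ k)
      = ((c : EE f) ^ k * ((n : EE f) - th f)) * (B.eval (t : EE f)) ^ k := by ring
    _ = (evT f (b + C t) * B.eval (t : EE f)) ^ k * evT f a := by rw [h]; ring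
    _ = (c : EE f) ^ k * ((p : EE f) ^ k * evT f a) := by rw [h1]; ring

theorem coeff_identity (f : ℤ[X]) (hd : 0 < f.natDegree) (m : ℕ) (a : ℤ[X]) (v n P : ℤ)
    (Γ Γ' : ℕ → ℤ[X]) (ha : a.natDegree < f.natDegree)
    (hΓ : ∀ i, (Γ i).natDegree < f.natDegree ∧ (Γ' i).natDegree < f.natDegree)
    (hth : ∀ i, th f * evT f (Γ i) = evT f (Γ' i))
    (h : ((n : EE f) - th f) * ∑ i ∈ range m, evT f (Γ i) * (v : EE f) ^ i =
      (P : EE f) * evT f a) (j : ℕ) :
    P * a.coeff j = ∑ i ∈ range m, v ^ i * (n * (Γ i).coeff j - (Γ' i).coeff j) := by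
  have h1 : evT f (C P * a - ∑ i ∈ range m, C (v ^ i) * (C n * Γ i - Γ' i)) = 0 := by
    rw [map_sub, map_mul, evT_C, map_sum, ← h, mul_sum, ← sum_sub_distrib]
    apply sum_eq_zero
    intro i _
    rw [map_mul, map_sub, map_mul, evT_C, evT_C, ← hth i]
    push_cast
    ring
  have h2 : (C P * a - ∑ i ∈ range m, C (v ^ i) * (C n * Γ i - Γ' i)).natDegree <
      f.natDegree := by
    refine lt_of_le_of_lt (natDegree_sub_le _ _) (max_lt ?_ ?_)
    · exact lt_of_le_of_lt (natDegree_C_mul_le _ _) ha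
    · refine lt_of_le_of_lt (natDegree_sum_le_of_forall_le (n := f.natDegree - 1) _ _ ?_)
        (by omega)
      intro i _
      refine (natDegree_C_mul_le _ _).trans ((natDegree_sub_le _ _).trans (max_le ?_ ?_))
      · exact (natDegree_C_mul_le _ _).trans (by have := (hΓ i).1; omega)
      · have := (hΓ i).2; omega
  have h3 := evT_inj f _ h2 h1
  have h4 := congrArg (fun g => g.coeff j) h3
  simp only [coeff_sub, coeff_C_mul, finsetSum_coeff, coeff_zero] at h4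
  linarith

/-- the number of `n` in a box with `p ∣ f(n)`. -/
theorem card_roots_box (f : ℤ[X]) (hm : f.Monic) {p : ℕ} (hp : p.Prime) (M : ℕ) (S : Finset ℤ)
    (hS : ∀ n ∈ S, |n| ≤ M * p ∧ (p : ℤ) ∣ f.eval n) : S.card ≤ f.natDegree * (2 * M + 1) := by
  classical
  have hp0 : (0 : ℤ) < p := by exact_mod_cast hp.pos
  have hfib : ∀ b ∈ S.image (fun n => n / (p : ℤ)),
      (S.filter fun n => n / (p : ℤ) = b).card ≤ f.natDegree := by
    intro b _
    have hinj : Set.InjOn (fun n : ℤ => n % (p : ℤ))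
        ((S.filter fun n => n / (p : ℤ) = b : Finset ℤ) : Set ℤ) := by
      intro x hx y hy hxy
      simp only [coe_filter, Set.mem_ofPred_eq] at hx hy
      have h1 := Int.mul_ediv_add_emod x p
      have h2 := Int.mul_ediv_add_emod y p
      simp only at hxy
      rw [hx.2] at h1
      rw [hy.2] at h2
      rw [← h1, ← h2, hxy]
    rw [← card_image_of_injOn hinj]
    refine card_roots_mod_le f hm.ne_zero hp ?_ _ ?_
    · rw [hm.leadingCoeff]
      simpa using hp.one_lt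
    · intro x hx
      obtain ⟨n, hn, rfl⟩ := mem_image.1 hx
      refine ⟨Int.emod_nonneg _ hp0.ne', Int.emod_lt_of_pos _ hp0, ?_⟩
      have h1 := (hS n (mem_filter.1 hn).1).2
      have h2 := sub_dvd_eval_sub (n % (p : ℤ)) n f
      have h3 : (p : ℤ) ∣ n % (p : ℤ) - n := by
        rw [Int.emod_def]
        exact ⟨-(n / (p : ℤ)), by ring⟩
      have h4 := dvd_add (h3.trans h2) h1
      simpa using h4
  have himg : S.image (fun n => n / (p : ℤ)) ⊆ Finset.Icc (-(M : ℤ)) M := by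
    intro x hx
    obtain ⟨n, hn, rfl⟩ := mem_image.1 hx
    have h1 := abs_le.1 (hS n hn).1
    rw [Finset.mem_Icc]
    constructor
    · rw [Int.le_ediv_iff_mul_le hp0]
      linarith [h1.1]
    · have h2 : n / (p : ℤ) ≤ (M * p : ℤ) / p := Int.ediv_le_ediv hp0 h1.2
      rwa [Int.mul_ediv_cancel _ hp0.ne'] at h2
  calc S.card ≤ f.natDegree * (S.image (fun n => n / (p : ℤ))).card :=
        card_le_mul_card_image S _ hfib
    _ ≤ f.natDegree * (Finset.Icc (-(M : ℤ)) M).card :=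
        Nat.mul_le_mul_left _ (card_le_card himg)
    _ = f.natDegree * (2 * M + 1) := by
        rw [Int.card_Icc]
        congr 1
        omega

end Vale.Agent.P018
end

section

/-! # P018, module M2: norm polynomial of a line and its cofactor. -/

namespace Vale.Agent.P018

open Polynomial Finset

theorem numberField_EE (f : ℤ[X]) (hm : f.Monic)
    [Fact (Irreducible (f.map (Int.castRingHom ℚ)))] : NumberField (EE f) where
  to_charZero := algebraRat.charZero _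
  to_finiteDimensional := (AdjoinRoot.powerBasis (hm.map _).ne_zero).finite

theorem finrank_EE (f : ℤ[X]) (hm : f.Monic) : Module.finrank ℚ (EE f) = f.natDegree := by
  rw [(AdjoinRoot.powerBasis (hm.map (Int.castRingHom ℚ)).ne_zero).finrank,
    AdjoinRoot.powerBasis_dim, natDegree_map_eq_of_injective (Int.cast_injective (α := ℚ))]

theorem isIntegral_th (f : ℤ[X]) (hm : f.Monic) : IsIntegral ℤ (th f) := by
  refine ⟨f, hm, ?_⟩
  have h := evT_self f
  unfold evT at h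
  rw [coe_eval₂RingHom] at h
  rw [← h]
  congr 1

theorem isIntegral_evT (f : ℤ[X]) (hm : f.Monic) (b : ℤ[X]) : IsIntegral ℤ (evT f b) := by
  induction b using Polynomial.induction_on' with
  | add p q hp hq => rw [map_add]; exact hp.add hq
  | monomial n a =>
    rw [← C_mul_X_pow_eq_monomial, map_mul, map_pow, evT_C, evT_X]
    refine IsIntegral.mul ?_ ((isIntegral_th f hm).pow n)
    have := isIntegral_algebraMap (R := ℤ) (A := EE f) (x := a)
    simpa using this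

/-- norm of `t + x` as a value of the minimal polynomial of `-x`. -/
theorem norm_eq_eval {E : Type*} [CommRing E] [Nontrivial E] [Algebra ℚ E] [Module.Finite ℚ E] (x : E)
    (hx : (minpoly ℚ (-x)).natDegree = Module.finrank ℚ E) (t : ℚ) :
    Algebra.norm ℚ (algebraMap ℚ E t + x) = (minpoly ℚ (-x)).eval t := by
  set L : E →ₗ[ℚ] E := Algebra.lmul ℚ E (-x) with hL
  have h1 : aeval (-x) L.charpoly = 0 := by
    have h2 := LinearMap.aeval_self_charpoly L
    have h3 : aeval ((Algebra.lmul ℚ E) (-x)) L.charpoly =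
        (Algebra.lmul ℚ E) (aeval (-x) L.charpoly) := Polynomial.aeval_algHom_apply _ _ _
    have h4 : (Algebra.lmul ℚ E) (aeval (-x) L.charpoly) = 0 := by
      rw [← h3]
      exact h2
    have h5 := congrArg (fun g : Module.End ℚ E => g 1) h4
    simp only [LinearMap.zero_apply] at h5
    have h6 : (Algebra.lmul ℚ E) (aeval (-x) L.charpoly) 1 = aeval (-x) L.charpoly := by
      change aeval (-x) L.charpoly * 1 = _
      rw [mul_one]
    rw [← h6]
    exact h5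
  have h2 : minpoly ℚ (-x) ∣ L.charpoly := minpoly.dvd _ _ h1
  have h3 : L.charpoly = minpoly ℚ (-x) := by
    refine (Polynomial.eq_of_monic_of_dvd_of_natDegree_le
      (minpoly.monic (Algebra.IsIntegral.isIntegral _)) L.charpoly_monic h2 ?_)
    rw [LinearMap.charpoly_natDegree, hx]
  rw [← h3, LinearMap.eval_charpoly, Algebra.norm_apply]
  congr 1
  ext y
  simp [hL, Algebra.smul_def]

theorem exists_embedding_bound (f : ℤ[X]) (hm : f.Monic)
    [Fact (Irreducible (f.map (Int.castRingHom ℚ)))] :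
    ∃ Cθ : ℝ, 1 ≤ Cθ ∧ ∀ σ : EE f →+* ℂ, ‖σ (th f)‖ ≤ Cθ := by
  have := numberField_EE f hm
  refine ⟨1 + ∑ σ : EE f →+* ℂ, ‖σ (th f)‖, ?_, fun σ => ?_⟩
  · have : 0 ≤ ∑ σ : EE f →+* ℂ, ‖σ (th f)‖ := Finset.sum_nonneg fun _ _ => norm_nonneg _
    linarith
  · have := Finset.single_le_sum (f := fun σ : EE f →+* ℂ => ‖σ (th f)‖)
      (fun _ _ => norm_nonneg _) (mem_univ σ)
    linarith

theorem norm_embedding_le (f : ℤ[X]) (Cθ : ℝ) (h1 : 1 ≤ Cθ) (σ : EE f →+* ℂ)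
    (hσ : ‖σ (th f)‖ ≤ Cθ) (b : ℤ[X]) (hb : b.natDegree < f.natDegree) (T : ℕ)
    (hT : ∀ i, |b.coeff i| ≤ (T : ℤ)) :
    ‖σ (evT f b)‖ ≤ f.natDegree * Cθ ^ f.natDegree * T := by
  conv_lhs => rw [as_sum_range_C_mul_X_pow' b hb]
  rw [map_sum, map_sum]
  refine (norm_sum_le _ _).trans ?_
  have h2 : ∀ i ∈ range f.natDegree, ‖σ (evT f (C (b.coeff i) * X ^ i))‖ ≤
      Cθ ^ f.natDegree * T := by
    intro i hi
    rw [map_mul, map_mul, map_pow, map_pow, evT_C, evT_X, norm_mul, norm_pow, map_intCast]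
    rw [mem_range] at hi
    have h3 : ‖((b.coeff i : ℤ) : ℂ)‖ ≤ T := by
      rw [Complex.norm_intCast]
      exact_mod_cast hT i
    have h4 : ‖σ (th f)‖ ^ i ≤ Cθ ^ f.natDegree :=
      (pow_le_pow_left₀ (norm_nonneg _) hσ i).trans (pow_le_pow_right₀ h1 hi.le)
    rw [mul_comm]
    exact mul_le_mul h4 h3 (norm_nonneg _) (by positivity)
  refine (Finset.sum_le_sum h2).trans ?_
  rw [Finset.sum_const, card_range, nsmul_eq_mul]
  linarith

theorem minpoly_coeff_le (f : ℤ[X]) (hm : f.Monic)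
    [Fact (Irreducible (f.map (Int.castRingHom ℚ)))] (Cθ : ℝ) (h1 : 1 ≤ Cθ)
    (hσ : ∀ σ : EE f →+* ℂ, ‖σ (th f)‖ ≤ Cθ) (b : ℤ[X]) (hb : b.natDegree < f.natDegree) (T : ℕ)
    (hT : ∀ i, |b.coeff i| ≤ (T : ℤ)) (N : ℤ[X])
    (hN : minpoly ℚ (-evT f b) = N.map (Int.castRingHom ℚ)) (hNd : N.natDegree = f.natDegree)
    (i : ℕ) :
    |(N.coeff i : ℝ)| ≤ (f.natDegree * Cθ ^ f.natDegree * T) ^ (f.natDegree - i) *
      2 ^ f.natDegree := by
  have := numberField_EE f hm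
  have hmon : (minpoly ℚ (-evT f b)).Monic := minpoly.monic (Algebra.IsIntegral.isIntegral _)
  have h2 := coeff_le_of_roots_le (p := minpoly ℚ (-evT f b)) (f := algebraMap ℚ ℂ)
    (B := f.natDegree * Cθ ^ f.natDegree * T) i hmon (IsAlgClosed.splits _) (by
      intro z hz
      have hz' : z ∈ (minpoly ℚ (-evT f b)).rootSet ℂ := by
        rw [mem_rootSet']
        rw [mem_roots'] at hz
        exact ⟨hz.1, by rw [← eval_map_algebraMap]; exact hz.2⟩
      rw [← NumberField.Embeddings.range_eval_eq_rootSet_minpoly] at hz'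
      obtain ⟨σ, rfl⟩ := hz'
      simp only [map_neg, norm_neg]
      exact norm_embedding_le f Cθ h1 σ (hσ σ) b hb T hT)
  have h3 : (minpoly ℚ (-evT f b)).natDegree = f.natDegree := by
    rw [hN, natDegree_map_eq_of_injective (Int.cast_injective (α := ℚ)), hNd]
  rw [h3, hN, coeff_map, coeff_map] at h2
  have h4 : ‖(algebraMap ℚ ℂ) ((Int.castRingHom ℚ) (N.coeff i))‖ = |(N.coeff i : ℝ)| := by
    simp
  rw [h4] at h2
  refine h2.trans ?_
  have h5 : (0 : ℝ) ≤ f.natDegree * Cθ ^ f.natDegree * T := by (clear * - h1; positivity)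
  refine mul_le_mul_of_nonneg_left ?_ (by (clear * - h1; positivity))
  exact_mod_cast Nat.choose_le_two_pow _ _

end Vale.Agent.P018
end

section

/-! # P018, module M2: norm polynomial of a line and its cofactor. -/

namespace Vale.Agent.P018

open Polynomial Finset

/-- polynomials over the field with weighted bounded coefficients. -/
def PB (f : ℤ[X]) (T m A : ℕ) (Q : (EE f)[X]) : Prop :=
  Q.natDegree ≤ m ∧ ∀ i, i ≤ m → Bd f (A * T ^ (m - i)) (Q.coeff i)

theorem PB.mul {f : ℤ[X]} (hd : 1 ≤ f.natDegree) {C0 : ℕ}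
    (hC0 : ∀ (M M' : ℕ) (x y : EE f), Bd f M x → Bd f M' y → Bd f (C0 * (M * M')) (x * y))
    {T m m' A A' : ℕ} {Q Q' : (EE f)[X]} (hQ : PB f T m A Q) (hQ' : PB f T m' A' Q') :
    PB f T (m + m') (C0 * (m + m' + 1) * (A * A')) (Q * Q') := by
  obtain ⟨h1, h2⟩ := hQ
  obtain ⟨h1', h2'⟩ := hQ'
  refine ⟨natDegree_mul_le.trans (add_le_add h1 h1'), fun i hi => ?_⟩
  rw [coeff_mul]
  have h3 : ∀ x ∈ antidiagonal i, Bd f (C0 * (A * A') * T ^ (m + m' - i))
      (Q.coeff x.1 * Q'.coeff x.2) := by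
    intro x hx
    rw [HasAntidiagonal.mem_antidiagonal] at hx
    by_cases hx1 : x.1 ≤ m
    · by_cases hx2 : x.2 ≤ m'
      · have h4 := hC0 _ _ _ _ (h2 x.1 hx1) (h2' x.2 hx2)
        refine h4.mono (le_of_eq ?_)
        have h5 : m + m' - i = (m - x.1) + (m' - x.2) := by omega
        rw [h5, pow_add]
        ring
      · rw [coeff_eq_zero_of_natDegree_lt (p := Q') (by omega), mul_zero]
        exact Bd.zero hd _
    · rw [coeff_eq_zero_of_natDegree_lt (p := Q) (by omega), zero_mul]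
      exact Bd.zero hd _
  refine (Bd.sum hd _ _ _ h3).mono ?_
  rw [Finset.sum_const, Finset.Nat.card_antidiagonal, smul_eq_mul]
  calc (i + 1) * (C0 * (A * A') * T ^ (m + m' - i))
      ≤ (m + m' + 1) * (C0 * (A * A') * T ^ (m + m' - i)) := Nat.mul_le_mul_right _ (by omega)
    _ = C0 * (m + m' + 1) * (A * A') * T ^ (m + m' - i) := by ring

theorem PB.one {f : ℤ[X]} (hd : 1 ≤ f.natDegree) (T : ℕ) : PB f T 0 1 (1 : (EE f)[X]) := by
  refine ⟨by simp, fun i hi => ?_⟩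
  obtain rfl : i = 0 := by omega
  have := Bd.int (f := f) hd 1 1 (by norm_num)
  simpa using this

theorem PB_pow {f : ℤ[X]} (hd : 1 ≤ f.natDegree) {C0 : ℕ}
    (hC0 : ∀ (M M' : ℕ) (x y : EE f), Bd f M x → Bd f M' y → Bd f (C0 * (M * M')) (x * y))
    (m A k : ℕ) : ∃ A' : ℕ, ∀ (T : ℕ) (Q : (EE f)[X]), PB f T m A Q → PB f T (k * m) A' (Q ^ k) := by
  induction k with
  | zero => exact ⟨1, fun T Q _ => by simpa using PB.one hd T⟩
  | succ k ih =>
    obtain ⟨A', hA'⟩ := ih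
    refine ⟨C0 * (k * m + m + 1) * (A' * A), fun T Q hQ => ?_⟩
    have h := PB.mul hd hC0 (hA' T Q hQ) hQ
    rw [← pow_succ] at h
    have h2 : (k + 1) * m = k * m + m := by ring
    rw [h2]
    exact h

theorem cofactor_facts {E : Type*} [CommRing E] [Nontrivial E] (N : ℤ[X]) (hN : N.Monic) (β : E) (B : E[X])
    (hB : (X + C β) * B = N.map (Int.castRingHom E)) :
    B.Monic ∧ B.natDegree + 1 = N.natDegree ∧
      ∀ i, B.coeff i = (N.coeff (i + 1) : E) - β * B.coeff (i + 1) := by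
  have h1 : (N.map (Int.castRingHom E)).Monic := hN.map _
  have h1' := h1
  rw [← hB] at h1
  have hBm : B.Monic := (monic_X_add_C β).of_mul_monic_left h1
  refine ⟨hBm, ?_, fun i => ?_⟩
  · have h2 := congrArg natDegree hB
    rw [(monic_X_add_C β).natDegree_mul hBm, natDegree_X_add_C, hN.natDegree_map] at h2
    omega
  · have h2 := congrArg (fun q : E[X] => q.coeff (i + 1)) hB
    simp only [add_mul, coeff_add, coeff_C_mul, coeff_X_mul, coeff_map] at h2
    have h3 : (Int.castRingHom E) (N.coeff (i + 1)) = (N.coeff (i + 1) : E) := rfl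
    rw [h3] at h2
    rw [← h2]
    ring

theorem PB_cofactor {f : ℤ[X]} [Nontrivial (EE f)]
    (hd : 1 ≤ f.natDegree) {C0 : ℕ}
    (hC0 : ∀ (M M' : ℕ) (x y : EE f), Bd f M x → Bd f M' y → Bd f (C0 * (M * M')) (x * y))
    (CN T : ℕ) (N : ℤ[X]) (hN : N.Monic) (hNd : N.natDegree = f.natDegree)
    (hNc : ∀ i, i ≤ f.natDegree → |N.coeff i| ≤ (CN : ℤ) * (T : ℤ) ^ (f.natDegree - i)) (β : EE f)
    (hβ : Bd f T β) (B : (EE f)[X]) (hB : (X + C β) * B = N.map (Int.castRingHom (EE f))) :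
    PB f T (f.natDegree - 1) ((CN + C0 + 1) ^ f.natDegree) B := by
  obtain ⟨hBm, hBd, hBc⟩ := cofactor_facts N hN β B hB
  set a := CN + C0 + 1 with ha
  have key : ∀ j, j ≤ f.natDegree - 1 →
      Bd f (a ^ (j + 1) * T ^ j) (B.coeff (f.natDegree - 1 - j)) := by
    intro j
    induction j with
    | zero =>
      intro _
      have h1 : B.coeff (f.natDegree - 1 - 0) = 1 := by
        have : f.natDegree - 1 - 0 = B.natDegree := by omega
        rw [this]
        exact hBm.coeff_natDegree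
      rw [h1]
      have := Bd.int (f := f) hd 1 (a ^ (0 + 1) * T ^ 0) (by
        simp only [zero_add, pow_one, pow_zero, mul_one, abs_one]
        have : 1 ≤ a := by omega
        exact_mod_cast this)
      simpa using this
    | succ j ih =>
      intro hj
      have h1 := ih (by omega)
      have h2 := hBc (f.natDegree - 1 - (j + 1))
      have h3 : f.natDegree - 1 - (j + 1) + 1 = f.natDegree - 1 - j := by omega
      rw [h3] at h2
      rw [h2, sub_eq_add_neg]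
      have h4 : Bd f (CN * T ^ (j + 1)) ((N.coeff (f.natDegree - 1 - j) : ℤ) : EE f) := by
        refine Bd.int hd _ _ ?_
        have h5 := hNc (f.natDegree - 1 - j) (by omega)
        have h6 : f.natDegree - (f.natDegree - 1 - j) = j + 1 := by omega
        rw [h6] at h5
        push_cast
        exact h5
      have h5 := (hC0 _ _ _ _ hβ h1).neg
      refine (h4.add h5).mono ?_
      have h6 : 1 ≤ a ^ (j + 1) := Nat.one_le_pow _ _ (by omega)
      calc CN * T ^ (j + 1) + C0 * (T * (a ^ (j + 1) * T ^ j))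
          = (CN + C0 * a ^ (j + 1)) * T ^ (j + 1) := by ring
        _ ≤ a ^ (j + 1 + 1) * T ^ (j + 1) := by
            apply Nat.mul_le_mul_right
            rw [pow_succ a (j + 1)]
            nlinarith
  refine ⟨by omega, fun i hi => ?_⟩
  have h1 := key (f.natDegree - 1 - i) (by omega)
  have h2 : f.natDegree - 1 - (f.natDegree - 1 - i) = i := by omega
  rw [h2] at h1
  refine h1.mono ?_
  apply Nat.mul_le_mul_right
  exact Nat.pow_le_pow_right (by omega) (by omega)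

theorem natDegree_minpoly_neg {E : Type*} [CommRing E] [Algebra ℚ E] (x : E) :
    (minpoly ℚ (-x)).natDegree = (minpoly ℚ x).natDegree := by
  have h : ∀ y : E, (minpoly ℚ (-y)).natDegree ≤ (minpoly ℚ y).natDegree := by
    intro y
    rw [minpoly.neg]
    refine natDegree_mul_le.trans ?_
    have h1 : ((-1 : ℚ[X]) ^ (minpoly ℚ y).natDegree).natDegree = 0 := by
      have : (-1 : ℚ[X]) = C (-1) := by simp
      rw [this, ← C_pow, natDegree_C]
    rw [h1, zero_add, natDegree_comp, natDegree_neg, natDegree_X, mul_one]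
  refine le_antisymm (h x) ?_
  have := h (-x)
  rwa [neg_neg] at this

theorem coeff_bound_main (f : ℤ[X]) (hm : f.Monic)
    (hirr : Irreducible (f.map (Int.castRingHom ℚ))) :
    ∃ Cθ : ℝ, 1 ≤ Cθ ∧ ∀ b : ℤ[X], b.natDegree < f.natDegree → ∀ T : ℕ,
      (∀ i, |b.coeff i| ≤ (T : ℤ)) → ∀ N : ℤ[X],
      minpoly ℚ (-evT f b) = N.map (Int.castRingHom ℚ) → N.natDegree = f.natDegree → ∀ i,
      |(N.coeff i : ℝ)| ≤ (f.natDegree * Cθ ^ f.natDegree * T) ^ (f.natDegree - i) *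
        2 ^ f.natDegree := by
  have hF : Fact (Irreducible (f.map (Int.castRingHom ℚ))) := ⟨hirr⟩
  obtain ⟨Cθ, hCθ1, hCθ⟩ := exists_embedding_bound f hm
  exact ⟨Cθ, hCθ1, fun b hb T hT N hN hNd i =>
    minpoly_coeff_le f hm Cθ hCθ1 hCθ b hb T hT N hN hNd i⟩

theorem exists_NB (f : ℤ[X]) (hm : f.Monic) (hirr : Irreducible (f.map (Int.castRingHom ℚ)))
    (b : ℤ[X]) (hdeg : (minpoly ℚ (evT f b)).natDegree = f.natDegree) :
    ∃ (N : ℤ[X]) (B : (EE f)[X]), N.Monic ∧ N.natDegree = f.natDegree ∧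
      Irreducible (N.map (Int.castRingHom ℚ)) ∧
      minpoly ℚ (-evT f b) = N.map (Int.castRingHom ℚ) ∧
      (X + C (evT f b)) * B = N.map (Int.castRingHom (EE f)) ∧
      (∀ t : ℤ, Algebra.norm ℚ (evT f (b + C t)) = ((N.eval t : ℤ) : ℚ)) := by
  have hdom : IsDomain (EE f) := AdjoinRoot.isDomain_of_prime hirr.prime
  have hfin : Module.Finite ℚ (EE f) := (AdjoinRoot.powerBasis (hm.map _).ne_zero).finite
  have hintβ : IsIntegral ℤ (-evT f b) := (isIntegral_evT f hm b).neg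
  have hmindeg : (minpoly ℚ (-evT f b)).natDegree = f.natDegree := by
    rw [natDegree_minpoly_neg, hdeg]
  have hminmap : minpoly ℚ (-evT f b) = (minpoly ℤ (-evT f b)).map (Int.castRingHom ℚ) := by
    rw [minpoly.isIntegrallyClosed_eq_field_fractions' ℚ hintβ]
    rfl
  have hNm : (minpoly ℤ (-evT f b)).Monic := minpoly.monic hintβ
  have hroot : ((minpoly ℤ (-evT f b)).map (Int.castRingHom (EE f))).IsRoot (-evT f b) := by
    have h1 : aeval (-evT f b) (minpoly ℚ (-evT f b)) = 0 := minpoly.aeval _ _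
    rw [hminmap] at h1
    rw [IsRoot.def, ← h1, aeval_def, eval₂_eq_eval_map, Polynomial.map_map]
    congr 2
  obtain ⟨B, hB⟩ := dvd_iff_isRoot.mpr hroot
  refine ⟨minpoly ℤ (-evT f b), B, hNm, ?_, ?_, hminmap, ?_, ?_⟩
  · rw [← hmindeg, hminmap, hNm.natDegree_map]
  · rw [← hminmap]
    exact minpoly.irreducible (Algebra.IsIntegral.isIntegral _)
  · rw [hB, C_neg, sub_neg_eq_add]
  · intro t
    have h1 : evT f (b + C t) = algebraMap ℚ (EE f) (t : ℚ) + evT f b := by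
      rw [map_add, evT_C, map_intCast, add_comm]
    rw [h1, norm_eq_eval (evT f b) (by rw [hmindeg, finrank_EE f hm]) (t : ℚ), hminmap]
    exact Polynomial.eval_intCast_map (Int.castRingHom ℚ) _ t

theorem shift_NB (f : ℤ[X]) (b : ℤ[X]) (N : ℤ[X]) (B : (EE f)[X]) (hNm : N.Monic)
    (hmin : minpoly ℚ (-evT f b) = N.map (Int.castRingHom ℚ))
    (hB : (X + C (evT f b)) * B = N.map (Int.castRingHom (EE f))) (t0 : ℤ) :
    (N.comp (X + C t0)).Monic ∧ (N.comp (X + C t0)).natDegree = N.natDegree ∧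
      minpoly ℚ (-evT f (b + C t0)) = (N.comp (X + C t0)).map (Int.castRingHom ℚ) ∧
      (X + C (evT f (b + C t0))) * (B.comp (X + C ((t0 : ℤ) : EE f))) =
        (N.comp (X + C t0)).map (Int.castRingHom (EE f)) := by
  refine ⟨hNm.comp_X_add_C t0, ?_, ?_, ?_⟩
  · rw [natDegree_comp, natDegree_X_add_C, mul_one]
  · have h1 : -evT f (b + C t0) = -evT f b - algebraMap ℚ (EE f) (t0 : ℚ) := by
      rw [map_add, evT_C, map_intCast]
      ring
    rw [h1, minpoly.sub_algebraMap, hmin, Polynomial.map_comp, Polynomial.map_add,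
      Polynomial.map_X, Polynomial.map_C]
    rfl
  · have h1 := congrArg (fun q : (EE f)[X] => q.comp (X + C ((t0 : ℤ) : EE f))) hB
    simp only [mul_comp, add_comp, X_comp, C_comp] at h1
    rw [Polynomial.map_comp, Polynomial.map_add, Polynomial.map_X, Polynomial.map_C,
      map_add, evT_C, C_add, eq_intCast]
    rw [← h1]
    ring

theorem gamma_of_PB (f : ℤ[X]) (hd : 2 ≤ f.natDegree) (C0 Ak M T : ℕ)
    (hC0 : ∀ (M M' : ℕ) (x y : EE f), Bd f M x → Bd f M' y → Bd f (C0 * (M * M')) (x * y))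
    (Q : (EE f)[X]) (hQ : PB f (2 * T) M Ak Q) :
    ∃ Γ Γ' : ℕ → ℤ[X],
      (∀ i, (Γ i).natDegree < f.natDegree ∧ (Γ' i).natDegree < f.natDegree) ∧
      (∀ i j, i ≤ M →
        |(Γ i).coeff j| ≤ ((Ak * 2 ^ M : ℕ) : ℤ) * (T : ℤ) ^ (M - i) ∧
        |(Γ' i).coeff j| ≤ ((C0 * (1 * (Ak * 2 ^ M)) : ℕ) : ℤ) * (T : ℤ) ^ (M - i)) ∧
      (∀ i, th f * evT f (Γ i) = evT f (Γ' i)) ∧
      (∀ v : EE f, Q.eval v = ∑ i ∈ Finset.range (M + 1), evT f (Γ i) * v ^ i) := by
  have hex : ∀ i, ∃ g g' : ℤ[X], g.natDegree < f.natDegree ∧ g'.natDegree < f.natDegree ∧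
      (i ≤ M → ∀ j, |g.coeff j| ≤ ((Ak * 2 ^ M : ℕ) : ℤ) * (T : ℤ) ^ (M - i) ∧
        |g'.coeff j| ≤ ((C0 * (1 * (Ak * 2 ^ M)) : ℕ) : ℤ) * (T : ℤ) ^ (M - i)) ∧
      evT f g = Q.coeff i ∧ th f * evT f g = evT f g' := by
    intro i
    by_cases hi : i ≤ M
    · have h1 := hQ.2 i hi
      have h2 := hC0 _ _ _ _ (Bd.theta (f := f) hd) h1
      obtain ⟨g, hg1, hg2, hg3⟩ := h1
      obtain ⟨g', hg1', hg2', hg3'⟩ := h2
      refine ⟨g, g', hg1, hg1', fun _ j => ⟨(hg3 j).trans ?_, (hg3' j).trans ?_⟩, hg2,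
        by rw [hg2, hg2']⟩
      · have h3 : Ak * (2 * T) ^ (M - i) ≤ Ak * 2 ^ M * T ^ (M - i) := by
          rw [mul_pow, mul_assoc]
          apply Nat.mul_le_mul_left
          apply Nat.mul_le_mul_right
          exact Nat.pow_le_pow_right (by norm_num) (Nat.sub_le _ _)
        exact_mod_cast h3
      · have h3 : C0 * (1 * (Ak * (2 * T) ^ (M - i))) ≤
            C0 * (1 * (Ak * 2 ^ M)) * T ^ (M - i) := by
          rw [mul_pow, mul_assoc C0]
          apply Nat.mul_le_mul_left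
          rw [mul_assoc 1, mul_assoc Ak]
          apply Nat.mul_le_mul_left
          apply Nat.mul_le_mul_left
          apply Nat.mul_le_mul_right
          exact Nat.pow_le_pow_right (by norm_num) (Nat.sub_le _ _)
        exact_mod_cast h3
    · refine ⟨0, 0, by rw [natDegree_zero]; omega, by rw [natDegree_zero]; omega,
        fun h => absurd h hi, ?_, by simp⟩
      rw [map_zero, coeff_eq_zero_of_natDegree_lt (lt_of_le_of_lt hQ.1 (by omega))]
  choose Γ Γ' hΓ1 hΓ2 hΓ3 hΓ4 hΓ5 using hex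
  refine ⟨Γ, Γ', fun i => ⟨hΓ1 i, hΓ2 i⟩, fun i j hi => hΓ3 i hi j, hΓ5, fun v => ?_⟩
  rw [eval_eq_sum_range' (lt_of_le_of_lt hQ.1 (Nat.lt_succ_self _))]
  exact Finset.sum_congr rfl fun i _ => by rw [hΓ4 i]

/-- M2. -/
theorem line_poly (f : ℤ[X]) (hm : f.Monic) (hirr : Irreducible (f.map (Int.castRingHom ℚ)))
    (hd : 2 ≤ f.natDegree) (k : ℕ) :
    ∃ C : ℕ, ∀ T : ℕ, 1 ≤ T → ∀ b : ℤ[X], b.natDegree < f.natDegree → (∀ i, |b.coeff i| ≤ T) →
      (minpoly ℚ (evT f b)).natDegree = f.natDegree →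
      ∃ (N : ℤ[X]) (B : (EE f)[X]), N.Monic ∧ N.natDegree = f.natDegree ∧
        Irreducible (N.map (Int.castRingHom ℚ)) ∧
        (∀ i, i ≤ f.natDegree → |N.coeff i| ≤ C * T ^ (f.natDegree - i)) ∧
        (X + Polynomial.C (evT f b)) * B = N.map (Int.castRingHom (EE f)) ∧
        (∀ t : ℤ, Algebra.norm ℚ (evT f (b + Polynomial.C t)) = ((N.eval t : ℤ) : ℚ)) ∧
        ∀ t0 : ℤ, |t0| ≤ T → ∃ Γ Γ' : ℕ → ℤ[X],
          (∀ i, (Γ i).natDegree < f.natDegree ∧ (Γ' i).natDegree < f.natDegree) ∧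
          (∀ i j, i ≤ k * (f.natDegree - 1) →
            |(Γ i).coeff j| ≤ C * T ^ (k * (f.natDegree - 1) - i) ∧
            |(Γ' i).coeff j| ≤ C * T ^ (k * (f.natDegree - 1) - i)) ∧
          (∀ i, th f * evT f (Γ i) = evT f (Γ' i)) ∧
          (∀ v : EE f, (B ^ k).eval ((t0 : EE f) + v) =
            ∑ i ∈ Finset.range (k * (f.natDegree - 1) + 1), evT f (Γ i) * v ^ i) := by
  obtain ⟨Cθ, hCθ1, hcoef0⟩ := coeff_bound_main f hm hirr
  have hdom : IsDomain (EE f) := AdjoinRoot.isDomain_of_prime hirr.prime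
  obtain ⟨C0, hC01, hC0⟩ := exists_bd_mul f hm (by omega)
  have hdr : (1 : ℝ) ≤ f.natDegree := by
    have : 1 ≤ f.natDegree := by omega
    exact_mod_cast this
  -- bound for the coefficients of the norm polynomial
  have hc11 : 1 ≤ f.natDegree * Cθ ^ f.natDegree := by
    have h1 : 1 ≤ Cθ ^ f.natDegree := one_le_pow₀ hCθ1
    linarith [mul_nonneg (sub_nonneg.2 hdr) (sub_nonneg.2 h1), hdr]
  obtain ⟨CN, hCN⟩ : ∃ CN : ℕ, (f.natDegree * Cθ ^ f.natDegree) ^ f.natDegree *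
    2 ^ f.natDegree ≤ CN := ⟨_, Nat.le_ceil _⟩
  have hcoef : ∀ (T : ℕ) (b : ℤ[X]), b.natDegree < f.natDegree → (∀ i, |b.coeff i| ≤ (T : ℤ)) →
      ∀ N : ℤ[X], minpoly ℚ (-evT f b) = N.map (Int.castRingHom ℚ) → N.natDegree = f.natDegree →
      ∀ i, i ≤ f.natDegree → |N.coeff i| ≤ (CN : ℤ) * (T : ℤ) ^ (f.natDegree - i) := by
    intro T b hb hT N hN hNd i hi
    have h1 := hcoef0 b hb T hT N hN hNd i
    have h2 : (f.natDegree * Cθ ^ f.natDegree * T) ^ (f.natDegree - i) * 2 ^ f.natDegree ≤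
        CN * (T : ℝ) ^ (f.natDegree - i) := by
      rw [mul_pow]
      have h3 : (f.natDegree * Cθ ^ f.natDegree) ^ (f.natDegree - i) * 2 ^ f.natDegree ≤ CN := by
        refine le_trans ?_ hCN
        apply mul_le_mul_of_nonneg_right _ (by positivity)
        exact pow_le_pow_right₀ hc11 (by omega)
      calc (f.natDegree * Cθ ^ f.natDegree) ^ (f.natDegree - i) * (T : ℝ) ^ (f.natDegree - i) *
            2 ^ f.natDegree
          = ((f.natDegree * Cθ ^ f.natDegree) ^ (f.natDegree - i) * 2 ^ f.natDegree) *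
            (T : ℝ) ^ (f.natDegree - i) := by ring
        _ ≤ CN * (T : ℝ) ^ (f.natDegree - i) := mul_le_mul_of_nonneg_right h3 (by (clear * -; positivity))
    have h4 := h1.trans h2
    exact_mod_cast h4
  obtain ⟨Ak, hAk⟩ := PB_pow (f := f) (by omega) hC0 (f.natDegree - 1)
    ((CN + C0 + 1) ^ f.natDegree) k
  refine ⟨CN + (Ak * 2 ^ (k * (f.natDegree - 1)) +
    C0 * (1 * (Ak * 2 ^ (k * (f.natDegree - 1))))), ?_⟩
  intro T hT b hb hbT hdeg
  obtain ⟨N, B, hNm, hNd, hNirr, hmin, hB, hnorm⟩ := exists_NB f hm hirr b hdeg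
  refine ⟨N, B, hNm, hNd, hNirr, ?_, hB, hnorm, ?_⟩
  · intro i hi
    refine (hcoef T b hb hbT N hmin hNd i hi).trans ?_
    push_cast
    apply mul_le_mul_of_nonneg_right _ (by positivity)
    have : (0 : ℤ) ≤ (Ak : ℤ) * 2 ^ (k * (f.natDegree - 1)) +
      C0 * (1 * (Ak * 2 ^ (k * (f.natDegree - 1)))) := by (clear * - hC01; positivity)
    linarith only [this]
  · intro t0 ht0
    obtain ⟨hN'm, hN'd, hN'min, hB'eq⟩ := shift_NB f b N B hNm hmin hB t0
    have hb'd : (b + C t0).natDegree < f.natDegree := by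
      rw [natDegree_add_C]
      exact hb
    have hb'T : ∀ i, |(b + C t0).coeff i| ≤ ((2 * T : ℕ) : ℤ) := by
      intro i
      rw [coeff_add, coeff_C]
      have h1 := hbT i
      split_ifs with hi
      · refine (abs_add_le _ _).trans ?_
        push_cast
        linarith only [h1, ht0]
      · rw [add_zero]
        push_cast
        have : (0 : ℤ) ≤ T := by positivity
        linarith only [h1, hT]
    have hbd' : Bd f (2 * T) (evT f (b + C t0)) := ⟨_, hb'd, rfl, hb'T⟩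
    have hPB := PB_cofactor (f := f) (by omega) hC0 CN (2 * T) _ hN'm (by rw [hN'd, hNd])
      (hcoef (2 * T) _ hb'd hb'T _ hN'min (by rw [hN'd, hNd])) _ hbd' _ hB'eq
    have hPBk := hAk (2 * T) _ hPB
    obtain ⟨Γ, Γ', h1, h2, h3, h4⟩ := gamma_of_PB f hd C0 Ak (k * (f.natDegree - 1)) T hC0 _ hPBk
    refine ⟨Γ, Γ', h1, fun i j hi => ⟨(h2 i j hi).1.trans ?_, (h2 i j hi).2.trans ?_⟩, h3, ?_⟩
    · apply mul_le_mul_of_nonneg_right _ (by positivity)
      push_cast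
      have h1 : (0 : ℤ) ≤ CN := by (clear * -; positivity)
      have h2 : (0 : ℤ) ≤ (C0 : ℤ) * (1 * (Ak * 2 ^ (k * (f.natDegree - 1)))) := by (clear * - hC01; positivity)
      linarith only [h2, h1]
    · apply mul_le_mul_of_nonneg_right _ (by positivity)
      push_cast
      have h1 : (0 : ℤ) ≤ CN := by (clear * -; positivity)
      have h2 : (0 : ℤ) ≤ (Ak : ℤ) * 2 ^ (k * (f.natDegree - 1)) := by (clear * -; positivity)
      linarith only [h2, h1]
    · intro v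
      rw [← h4 v, ← pow_comp, eval_comp, eval_add, eval_X, eval_C, add_comm]

end Vale.Agent.P018
end

section

/-! # P018, module M3: the determinant bound on a short interval of a line. -/

namespace Vale.Agent.P018

open Finset

theorem two_mul_sum_ge {J : Type*} (S : Finset J) (g : J → ℕ) (hg : Set.InjOn g (S : Set J)) :
    S.card * (S.card - 1) ≤ 2 * ∑ j ∈ S, g j := by
  have h1 : ∑ j ∈ S, g j = ∑ m ∈ S.image g, m := by
    rw [Finset.sum_image (fun x hx y hy h => hg hx hy h)]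
  have h2 : (S.image g).card = S.card := Finset.card_image_of_injOn hg
  have h3 := sum_range_id_le_sum (S.image g)
  rw [h2, ← h1] at h3
  have h4 := Finset.sum_range_id_mul_two S.card
  omega

theorem line_inj_sum {J : Type*} [Fintype J] [DecidableEq J] (M : ℕ) (φ : J → Fin M × Fin 2)
    (hφ : Function.Injective φ) :
    ∃ a b : ℕ, a + b = Fintype.card J ∧ (Finset.univ.filter fun j => (φ j).2 = 0).card = a ∧
      a * (a - 1) + b * (b - 1) ≤ 2 * ∑ j, ((φ j).1 : ℕ) := by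
  set S0 : Finset J := Finset.univ.filter fun j => (φ j).2 = 0 with hS0
  set S1 : Finset J := Finset.univ.filter fun j => ¬ (φ j).2 = 0 with hS1
  refine ⟨S0.card, S1.card, ?_, rfl, ?_⟩
  · rw [hS0, hS1, Finset.card_filter_add_card_filter_not]
    exact Finset.card_univ
  · have h0 := two_mul_sum_ge S0 (fun j => ((φ j).1 : ℕ)) (by
      intro x hx y hy hxy
      have hx' : (φ x).2 = 0 := by simpa [hS0] using hx
      have hy' : (φ y).2 = 0 := by simpa [hS0] using hy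
      exact hφ (Prod.ext (Fin.ext hxy) (hx'.trans hy'.symm)))
    have h1 := two_mul_sum_ge S1 (fun j => ((φ j).1 : ℕ)) (by
      intro x hx y hy hxy
      have hx' : ¬ (φ x).2 = 0 := by simpa [hS1] using hx
      have hy' : ¬ (φ y).2 = 0 := by simpa [hS1] using hy
      have h2 : (φ x).2 = (φ y).2 := by
        rcases Fin.exists_fin_two.mp ⟨(φ x).2, rfl⟩ with h | h
        · exact absurd h hx'
        · rcases Fin.exists_fin_two.mp ⟨(φ y).2, rfl⟩ with h' | h'
          · exact absurd h' hy'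
          · rw [h, h']
      exact hφ (Prod.ext (Fin.ext hxy) h2))
    have h2 : ∑ j ∈ S0, ((φ j).1 : ℕ) + ∑ j ∈ S1, ((φ j).1 : ℕ) = ∑ j, ((φ j).1 : ℕ) := by
      rw [hS0, hS1]
      exact Finset.sum_filter_add_sum_filter_not _ _ _
    omega

/-- The exponent bound. -/
theorem line_expo (d k h : ℕ) (hkh : k + h = d) (hk : h + 1 ≤ k) (hh : 1 ≤ h) (δ y : ℝ)
    (hδ : 0 < δ) (hy : y = (2 * h + 1 + δ) / (2 * (d : ℝ) - 1)) (a b : ℕ) (hab : a + b = 2 * d)
    (s : ℕ) (hs : a * (a - 1) + b * (b - 1) ≤ 2 * s) :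
    (d : ℝ) - 2 * d * k + d * a - y * s ≤ - (δ * (d * (d - 1)) / (2 * d - 1)) := by
  have hd2 : 3 ≤ d := by omega
  have hdR : (3 : ℝ) ≤ d := by exact_mod_cast hd2
  have hden : (0 : ℝ) < 2 * d - 1 := by linarith only [hdR]
  have hhR : (1 : ℝ) ≤ h := by exact_mod_cast hh
  have hy0 : 0 < y := by
    rw [hy]
    positivity
  have hs' : (a : ℝ) * (a - 1) + b * (b - 1) ≤ 2 * s := by
    have h1 : (a : ℝ) * (a - 1) = ((a * (a - 1) : ℕ) : ℝ) := by
      rcases Nat.eq_zero_or_pos a with h | h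
      · simp [h]
      · rw [Nat.cast_mul, Nat.cast_sub h, Nat.cast_one]
    have h2 : (b : ℝ) * (b - 1) = ((b * (b - 1) : ℕ) : ℝ) := by
      rcases Nat.eq_zero_or_pos b with h | h
      · simp [h]
      · rw [Nat.cast_mul, Nat.cast_sub h, Nat.cast_one]
    rw [h1, h2]
    exact_mod_cast hs
  have haR : (a : ℝ) = 2 * d - b := by
    have : (a : ℝ) + b = 2 * d := by exact_mod_cast hab
    linarith
  have hkR : (k : ℝ) = d - h := by
    have : (k : ℝ) + h = d := by exact_mod_cast hkh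
    linarith
  have hkh2 : (0 : ℝ) ≤ d - 2 * h - 1 := by
    have : (h : ℝ) + 1 ≤ k := by exact_mod_cast hk
    linarith only [this, hkR]
  have hyd : y * (2 * d - 1) = 2 * h + 1 + δ := by
    rw [hy]
    field_simp
  have hb0 : (0 : ℝ) ≤ b * (b - 1) := by
    rcases Nat.eq_zero_or_pos b with h | h
    · simp [h]
    · have : (1 : ℝ) ≤ b := by exact_mod_cast h
      linarith [mul_nonneg (sub_nonneg.2 this) (sub_nonneg.2 this)]
  have hbR0 : (0 : ℝ) ≤ b := Nat.cast_nonneg b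
  have hyδ : δ / (2 * d - 1) ≤ y := by
    rw [hy]
    gcongr
    linarith only [hhR]
  -- first step
  have e1 : (d : ℝ) - 2 * d * k + d * a - y * s ≤
      d - 2 * d * k + d * a - y * ((a * (a - 1) + b * (b - 1)) / 2) := by
    have := mul_le_mul_of_nonneg_left hs' hy0.le
    linarith only [this]
  refine e1.trans ?_
  have e2 : (d : ℝ) - 2 * d * k + d * a - y * ((a * (a - 1) + b * (b - 1)) / 2) =
      - (d * δ) - b * (d - 2 * h - 1) + b * δ - y * (b * (b - 1)) := by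
    rw [haR, hkR]
    linear_combination (-(d : ℝ) + b) * hyd
  rw [e2]
  have e3 : 0 ≤ b * (d - 2 * h - 1 : ℝ) := mul_nonneg hbR0 hkh2
  have e4 : δ / (2 * d - 1) * (b * (b - 1)) ≤ y * (b * (b - 1)) :=
    mul_le_mul_of_nonneg_right hyδ hb0
  have e5 : - (d * δ) + b * δ - δ / (2 * d - 1) * (b * (b - 1)) ≤
      - (δ * (d * (d - 1)) / (2 * d - 1)) := by
    obtain ⟨w, hw⟩ : ∃ w : ℝ, w = δ / (2 * d - 1) := ⟨_, rfl⟩
    have hw0 : 0 < w := by
      rw [hw]
      positivity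
    have hw1 : w * (2 * d - 1) = δ := by
      rw [hw]
      exact div_mul_cancel₀ _ hden.ne'
    have hw2 : δ * (d * (d - 1)) / (2 * d - 1) = w * (d * (d - 1)) := by
      rw [hw]
      ring
    rw [hw2, ← hw, ← sub_nonneg]
    have : - (w * (d * (d - 1))) - (- (d * δ) + b * δ - w * (b * (b - 1))) =
        w * ((d - b) ^ 2) := by
      linear_combination (-(d : ℝ) + b) * hw1
    rw [this]
    (clear * - hw0; positivity)
  linarith only [e5, e4, e3]

/-- The matrix expansion of the rows. -/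
theorem line_row (D : ℕ) (v n pk T : ℝ) (hT : T ≠ 0) (l : Fin 2) (G G' : ℕ → ℝ) :
    ∑ t : Fin (D + 2) × Fin 2,
      (pk * (if t.2 = 0 then n else 1) * v ^ (t.1 : ℕ) * (T ^ D / T ^ (t.1 : ℕ))) *
      (if (l : ℕ) ≤ t.1 ∧ (t.1 : ℕ) - l ≤ D then
        (if t.2 = 0 then G (t.1 - l) else - G' (t.1 - l)) / (T ^ D / T ^ (t.1 : ℕ)) / T ^ (l : ℕ)
        else 0) =
    (v ^ (l : ℕ) * (pk * ∑ i ∈ Finset.range (D + 1), v ^ i * (n * G i - G' i))) / T ^ (l : ℕ) := by
  rw [Fintype.sum_prod_type]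
  have h1 : ∀ m : Fin (D + 2), ∑ s : Fin 2,
      (pk * (if s = 0 then n else 1) * v ^ (m : ℕ) * (T ^ D / T ^ (m : ℕ))) *
      (if (l : ℕ) ≤ m ∧ (m : ℕ) - l ≤ D then
        (if s = 0 then G (m - l) else - G' (m - l)) / (T ^ D / T ^ (m : ℕ)) / T ^ (l : ℕ)
        else 0) =
      (fun m : ℕ => if (l : ℕ) ≤ m ∧ (m : ℕ) - l ≤ D then
        pk * v ^ m * (n * G (m - l) - G' (m - l)) / T ^ (l : ℕ) else 0) m := by
    intro m
    rw [Fin.sum_univ_two]
    by_cases h : (l : ℕ) ≤ m ∧ (m : ℕ) - l ≤ D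
    · simp only [if_pos h, if_true]
      have : (1 : Fin 2) ≠ 0 := by decide
      simp only [if_neg this]
      field_simp
      ring
    · simp only [if_neg h, mul_zero, add_zero]
  rw [Finset.sum_congr rfl (fun m _ => h1 m)]
  rw [Fin.sum_univ_eq_sum_range (fun m : ℕ => if (l : ℕ) ≤ m ∧ (m : ℕ) - l ≤ D then
        pk * v ^ m * (n * G (m - l) - G' (m - l)) / T ^ (l : ℕ) else 0) (D + 2)]
  rcases Fin.exists_fin_two.mp ⟨l, rfl⟩ with h | h
  · subst h
    rw [Finset.sum_range_succ]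
    have h2 : ¬ (((0 : Fin 2) : ℕ) ≤ D + 1 ∧ D + 1 - ((0 : Fin 2) : ℕ) ≤ D) := by
      simp
    rw [if_neg h2, add_zero, Finset.mul_sum, Finset.mul_sum, Finset.sum_div]
    refine Finset.sum_congr rfl fun i hi => ?_
    have hi' : i < D + 1 := Finset.mem_range.mp hi
    have h3 : (((0 : Fin 2) : ℕ) ≤ i ∧ i - ((0 : Fin 2) : ℕ) ≤ D) := by
      simp
      omega
    rw [if_pos h3]
    simp
    ring
  · subst h
    rw [Finset.sum_range_succ']
    have h2 : ¬ (((1 : Fin 2) : ℕ) ≤ 0 ∧ 0 - ((1 : Fin 2) : ℕ) ≤ D) := by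
      simp
    rw [if_neg h2, add_zero, Finset.mul_sum, Finset.mul_sum, Finset.sum_div]
    refine Finset.sum_congr rfl fun i hi => ?_
    have hi' : i < D + 1 := Finset.mem_range.mp hi
    have h3 : (((1 : Fin 2) : ℕ) ≤ i + 1 ∧ i + 1 - ((1 : Fin 2) : ℕ) ≤ D) := by
      simp
      omega
    rw [if_pos h3]
    simp
    ring

theorem exists_small_rpow (K e : ℝ) (he : 0 < e) :
    ∃ T0 : ℕ, ∀ T : ℕ, T0 ≤ T → K * (T : ℝ) ^ (-e) < 1 := by
  have h1 : Filter.Tendsto (fun T : ℕ => K * (T : ℝ) ^ (-e)) Filter.atTop (nhds (K * 0)) :=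
    ((tendsto_rpow_neg_atTop he).comp tendsto_natCast_atTop_atTop).const_mul K
  rw [mul_zero] at h1
  have h2 := h1.eventually (gt_mem_nhds (zero_lt_one (α := ℝ)))
  exact Filter.eventually_atTop.mp h2

/-- The size of the elementary functions. -/
theorem line_size (d k : ℕ) (hd : 1 ≤ d) (C y : ℝ) (hC : 1 ≤ C) (T : ℕ) (hT : 1 ≤ T) (X : ℝ)
    (hX1 : 1 ≤ X) (v n : ℝ) (p : ℕ) (hv : |v| ≤ (T : ℝ) ^ (1 - y)) (hn : |n| ≤ X)
    (hp : (T : ℝ) ^ d ≤ C * p) (m : ℕ) (s : Fin 2) :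
    |((p : ℝ) ^ k)⁻¹ * (if s = 0 then n else 1) * v ^ m * ((T : ℝ) ^ (k * (d - 1)) / (T : ℝ) ^ m)| ≤
      C ^ k * (if s = 0 then X else 1) * (T : ℝ) ^ (- (k : ℝ) - y * m) := by
  have hTR : (0 : ℝ) < T := by exact_mod_cast hT
  have hC0 : 0 < C := by linarith only [hC]
  have hTd : (0 : ℝ) < (T : ℝ) ^ d := pow_pos hTR d
  have hp0 : (0 : ℝ) < p := by
    by_contra hcon
    have : (p : ℝ) = 0 := le_antisymm (not_lt.mp hcon) (Nat.cast_nonneg p)
    rw [this, mul_zero] at hp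
    linarith
  have h1 : |((p : ℝ) ^ k)⁻¹| ≤ C ^ k * ((T : ℝ) ^ (d * k))⁻¹ := by
    rw [abs_of_nonneg (by positivity), pow_mul]
    rw [← div_eq_mul_inv, ← div_pow, ← inv_pow]
    refine pow_le_pow_left₀ (by positivity) ?_ k
    rw [inv_le_comm₀ hp0 (by positivity), inv_div]
    rw [div_le_iff₀ hC0]
    linarith
  have h2 : |(if s = 0 then n else 1 : ℝ)| ≤ (if s = 0 then X else 1) := by
    split_ifs
    · exact hn
    · simp
  have h3 : |v ^ m| ≤ (T : ℝ) ^ ((1 - y) * m) := by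
    rw [abs_pow, Real.rpow_mul hTR.le, Real.rpow_natCast]
    exact pow_le_pow_left₀ (abs_nonneg _) hv m
  have h20 : (0 : ℝ) ≤ (if s = 0 then X else 1) := by
    split_ifs <;> linarith
  rw [abs_mul, abs_mul, abs_mul, abs_of_nonneg (a := (T : ℝ) ^ (k * (d - 1)) / (T : ℝ) ^ m)
    (by positivity)]
  have h4 : ((T : ℝ) ^ (d * k))⁻¹ * (T : ℝ) ^ ((1 - y) * m) *
      ((T : ℝ) ^ (k * (d - 1)) / (T : ℝ) ^ m) = (T : ℝ) ^ (- (k : ℝ) - y * m) := by
    rw [← Real.rpow_natCast _ (d * k), ← Real.rpow_neg hTR.le, ← Real.rpow_natCast _ (k * (d - 1)),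
      ← Real.rpow_natCast _ m, ← Real.rpow_sub hTR, ← Real.rpow_add hTR, ← Real.rpow_add hTR]
    congr 1
    rw [Nat.cast_mul, Nat.cast_mul, Nat.cast_sub hd]
    push_cast
    ring
  calc |((p : ℝ) ^ k)⁻¹| * |(if s = 0 then n else 1 : ℝ)| * |v ^ m| *
        ((T : ℝ) ^ (k * (d - 1)) / (T : ℝ) ^ m)
      ≤ (C ^ k * ((T : ℝ) ^ (d * k))⁻¹) * (if s = 0 then X else 1) * (T : ℝ) ^ ((1 - y) * m) *
        ((T : ℝ) ^ (k * (d - 1)) / (T : ℝ) ^ m) := by
        gcongr
    _ = C ^ k * (if s = 0 then X else 1) * (((T : ℝ) ^ (d * k))⁻¹ * (T : ℝ) ^ ((1 - y) * m) *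
        ((T : ℝ) ^ (k * (d - 1)) / (T : ℝ) ^ m)) := by ring
    _ = _ := by rw [h4]

theorem line_coeff (D : ℕ) (C : ℝ) (hC : 1 ≤ C) (T : ℕ) (hT : 1 ≤ T) (l : Fin 2)
    (G G' : ℕ → ℝ) (hG : ∀ i, i ≤ D → |G i| ≤ C * (T : ℝ) ^ (D - i) ∧ |G' i| ≤ C * (T : ℝ) ^ (D - i))
    (t : Fin (D + 2) × Fin 2) :
    |(if (l : ℕ) ≤ t.1 ∧ (t.1 : ℕ) - l ≤ D then
        (if t.2 = 0 then G (t.1 - l) else - G' (t.1 - l)) / ((T : ℝ) ^ D / (T : ℝ) ^ (t.1 : ℕ)) /
          (T : ℝ) ^ (l : ℕ)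
        else 0)| ≤ C := by
  have hTR : (0 : ℝ) < T := by exact_mod_cast hT
  split_ifs with h1 h2
  · obtain ⟨h1a, h1b⟩ := h1
    rw [abs_div, abs_div, abs_of_nonneg (a := (T : ℝ) ^ D / (T : ℝ) ^ (t.1 : ℕ)) (by positivity),
      abs_of_nonneg (a := (T : ℝ) ^ (l : ℕ)) (by positivity), div_div, div_le_iff₀ (by positivity)]
    refine (hG _ h1b).1.trans (le_of_eq ?_)
    congr 1
    obtain ⟨e, he⟩ := Nat.exists_eq_add_of_le h1b
    have h3 : D - ((t.1 : ℕ) - l) = e := by omega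
    have h4 : (T : ℝ) ^ D = (T : ℝ) ^ ((t.1 : ℕ) - l) * (T : ℝ) ^ e := by rw [← pow_add, ← he]
    have h5 : (T : ℝ) ^ (t.1 : ℕ) = (T : ℝ) ^ ((t.1 : ℕ) - l) * (T : ℝ) ^ (l : ℕ) := by
      rw [← pow_add]
      congr 1
      omega
    rw [h3, h4, h5]
    field_simp
  · obtain ⟨h1a, h1b⟩ := h1
    rw [abs_div, abs_div, abs_of_nonneg (a := (T : ℝ) ^ D / (T : ℝ) ^ (t.1 : ℕ)) (by positivity),
      abs_of_nonneg (a := (T : ℝ) ^ (l : ℕ)) (by positivity), div_div, div_le_iff₀ (by positivity),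
      abs_neg]
    refine (hG _ h1b).2.trans (le_of_eq ?_)
    congr 1
    obtain ⟨e, he⟩ := Nat.exists_eq_add_of_le h1b
    have h3 : D - ((t.1 : ℕ) - l) = e := by omega
    have h4 : (T : ℝ) ^ D = (T : ℝ) ^ ((t.1 : ℕ) - l) * (T : ℝ) ^ e := by rw [← pow_add, ← he]
    have h5 : (T : ℝ) ^ (t.1 : ℕ) = (T : ℝ) ^ ((t.1 : ℕ) - l) * (T : ℝ) ^ (l : ℕ) := by
      rw [← pow_add]
      congr 1
      omega
    rw [h3, h4, h5]
    field_simp
  · rw [abs_zero]
    linarith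

/-- M3. The determinant bound on a short interval of a line. Here `y = (2h+1+δ)/(2d-1)`. -/
theorem line_det (d k h : ℕ) (hkh : k + h = d) (hk : h + 1 ≤ k) (hh : 1 ≤ h) (C δ : ℝ) (hC : 1 ≤ C)
    (hδ : 0 < δ) :
    ∃ T0 : ℕ, ∀ T : ℕ, T0 ≤ T → ∀ X : ℝ, 1 ≤ X → X ≤ C * (T : ℝ) ^ d →
      ∀ Γ Γ' : ℕ → Fin d → ℤ,
      (∀ i j, i ≤ k * (d - 1) → |(Γ i j : ℝ)| ≤ C * (T : ℝ) ^ (k * (d - 1) - i) ∧
        |(Γ' i j : ℝ)| ≤ C * (T : ℝ) ^ (k * (d - 1) - i)) →
      ∀ (v n : Fin 2 × Fin d → ℤ) (p : Fin 2 × Fin d → ℕ) (a : Fin 2 × Fin d → Fin d → ℤ),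
      (∀ r, |(v r : ℝ)| ≤ (T : ℝ) ^ (1 - (2 * h + 1 + δ) / (2 * (d : ℝ) - 1)) ∧
        |(n r : ℝ)| ≤ X ∧ (T : ℝ) ^ d ≤ C * p r ∧
        ∀ j, (p r : ℤ) ^ k * a r j =
          ∑ i ∈ Finset.range (k * (d - 1) + 1), v r ^ i * (n r * Γ i j - Γ' i j)) →
      (Matrix.of fun r (c : Fin 2 × Fin d) => v r ^ (c.1 : ℕ) * a r c.2).det = 0 := by
  have hd1 : 1 ≤ d := by omega
  have hd2 : 2 ≤ d := by omega
  have hdR : (2 : ℝ) ≤ d := by exact_mod_cast hd2
  obtain ⟨y, hy⟩ : ∃ y : ℝ, y = (2 * h + 1 + δ) / (2 * (d : ℝ) - 1) := ⟨_, rfl⟩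
  obtain ⟨e, he⟩ : ∃ e : ℝ, e = δ * (d * (d - 1)) / (2 * d - 1) := ⟨_, rfl⟩
  have he0 : 0 < e := by
    rw [he]
    have : (0 : ℝ) < 2 * d - 1 := by linarith only [hdR]
    have h2 : (0 : ℝ) < d - 1 := by linarith only [hdR]
    have h3 : (0 : ℝ) < d := by linarith only [h2]
    positivity
  set D : ℕ := k * (d - 1) with hD
  set K : ℝ := (((D + 2) * 2 : ℕ) : ℝ) ^ (2 * d) * (C ^ (2 * d) * ((2 * d).factorial *
    (C ^ (2 * d * k) * C ^ (2 * d)))) with hK
  obtain ⟨T1, hT1⟩ := exists_small_rpow K e he0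
  refine ⟨max T1 1, fun T hT X hX1 hX Γ Γ' hΓ v n p a hs => ?_⟩
  have hTpos : 1 ≤ T := (le_max_right _ _).trans hT
  have hTR : (0 : ℝ) < T := by exact_mod_cast hTpos
  have hTR1 : (1 : ℝ) ≤ T := by exact_mod_cast hTpos
  have hC0 : 0 < C := by linarith only [hC]
  rw [← hy] at hs
  -- the real matrix
  have hJ : Fintype.card (Fin 2 × Fin d) = 2 * d := by simp
  have hp0 : ∀ r, (0 : ℝ) < p r := by
    intro r
    have h1 := (hs r).2.2.1
    have hTd : (0 : ℝ) < (T : ℝ) ^ d := pow_pos hTR d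
    by_contra hcon
    have : (p r : ℝ) = 0 := le_antisymm (not_lt.mp hcon) (Nat.cast_nonneg _)
    rw [this, mul_zero] at h1
    linarith only [hTd, h1]
  have hcast : (((Matrix.of fun r (c : Fin 2 × Fin d) => v r ^ (c.1 : ℕ) * a r c.2).det : ℤ) : ℝ) =
      (Matrix.of fun r (c : Fin 2 × Fin d) => (v r : ℝ) ^ (c.1 : ℕ) * (a r c.2 : ℝ)).det := by
    have h1 := (Int.castRingHom ℝ).map_det
      (Matrix.of fun r (c : Fin 2 × Fin d) => v r ^ (c.1 : ℕ) * a r c.2)
    rw [eq_intCast] at h1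
    rw [h1]
    congr 1
    ext r c
    simp
  have hrow : (Matrix.of fun r (c : Fin 2 × Fin d) => (v r : ℝ) ^ (c.1 : ℕ) * (a r c.2 : ℝ)) =
      Matrix.of fun r (c : Fin 2 × Fin d) => (fun c : Fin 2 × Fin d => (T : ℝ) ^ (c.1 : ℕ)) c *
        (Matrix.of fun r (c : Fin 2 × Fin d) => ∑ t : Fin (D + 2) × Fin 2,
      (((p r : ℝ) ^ k)⁻¹ * (if t.2 = 0 then (n r : ℝ) else 1) * (v r : ℝ) ^ (t.1 : ℕ) *
        ((T : ℝ) ^ D / (T : ℝ) ^ (t.1 : ℕ))) *
      (if (c.1 : ℕ) ≤ t.1 ∧ (t.1 : ℕ) - c.1 ≤ D then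
        (if t.2 = 0 then (Γ (t.1 - c.1) c.2 : ℝ) else - (Γ' (t.1 - c.1) c.2 : ℝ)) /
          ((T : ℝ) ^ D / (T : ℝ) ^ (t.1 : ℕ)) / (T : ℝ) ^ (c.1 : ℕ)
        else 0)) r c := by
    ext r c
    simp only [Matrix.of_apply]
    rw [line_row D (v r : ℝ) (n r : ℝ) (((p r : ℝ) ^ k)⁻¹) (T : ℝ) hTR.ne' c.1
      (fun i => (Γ i c.2 : ℝ)) (fun i => (Γ' i c.2 : ℝ))]
    have h1 : ∑ i ∈ Finset.range (D + 1), (v r : ℝ) ^ i * ((n r : ℝ) * (Γ i c.2 : ℝ) -
        (Γ' i c.2 : ℝ)) = (p r : ℝ) ^ k * a r c.2 := by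
      have := (hs r).2.2.2 c.2
      have h2 : (((p r : ℤ) ^ k * a r c.2 : ℤ) : ℝ) =
        ((∑ i ∈ Finset.range (D + 1), v r ^ i * (n r * Γ i c.2 - Γ' i c.2) : ℤ) : ℝ) := by
        rw [this]
      push_cast at h2
      rw [h2]
    rw [h1]
    have hpk : (p r : ℝ) ^ k ≠ 0 := pow_ne_zero _ (hp0 r).ne'
    field_simp
  have hprodT : ∏ c : Fin 2 × Fin d, (T : ℝ) ^ (c.1 : ℕ) = (T : ℝ) ^ d := by
    rw [Fintype.prod_prod_type, Fin.prod_univ_two]
    simp
  have hbound := det_bound (J := Fin 2 × Fin d) (T := Fin (D + 2) × Fin 2)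
    (fun r t => (((p r : ℝ) ^ k)⁻¹ * (if t.2 = 0 then (n r : ℝ) else 1) * (v r : ℝ) ^ (t.1 : ℕ) *
        ((T : ℝ) ^ D / (T : ℝ) ^ (t.1 : ℕ))))
    (fun t c => (if (c.1 : ℕ) ≤ t.1 ∧ (t.1 : ℕ) - c.1 ≤ D then
        (if t.2 = 0 then (Γ (t.1 - c.1) c.2 : ℝ) else - (Γ' (t.1 - c.1) c.2 : ℝ)) /
          ((T : ℝ) ^ D / (T : ℝ) ^ (t.1 : ℕ)) / (T : ℝ) ^ (c.1 : ℕ)
        else 0))
    (fun t => C ^ k * (if t.2 = 0 then X else 1) * (T : ℝ) ^ (- (k : ℝ) - y * (t.1 : ℕ)))
    C (C ^ (2 * d * k) * C ^ (2 * d) * (T : ℝ) ^ (- e - d))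
    (fun r t => line_size d k hd1 C y hC T hTpos X hX1 _ _ _ (hs r).1 (hs r).2.1 (hs r).2.2.1 _ _)
    (fun t c => line_coeff D C hC T hTpos c.1 (fun i => (Γ i c.2 : ℝ)) (fun i => (Γ' i c.2 : ℝ))
      (fun i hi => hΓ i c.2 hi) t)
    (by positivity)
    (by
      intro φ hφ
      obtain ⟨a', b', hab, ha', hsum⟩ := line_inj_sum (D + 2) φ hφ
      rw [hJ] at hab
      obtain ⟨s, hs'⟩ : ∃ s : ℕ, s = ∑ j, ((φ j).1 : ℕ) := ⟨_, rfl⟩
      rw [← hs'] at hsum
      have hexp := line_expo d k h hkh hk hh δ y hδ hy a' b' hab s hsum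
      rw [← he] at hexp
      rw [Finset.prod_mul_distrib, Finset.prod_mul_distrib, Finset.prod_const, Finset.card_univ, hJ]
      rw [Finset.prod_ite, Finset.prod_const, Finset.prod_const_one, mul_one, ha']
      rw [← Real.rpow_sum_of_pos hTR]
      have hXa : X ^ a' ≤ C ^ (2 * d) * (T : ℝ) ^ ((d : ℝ) * a') := by
        calc X ^ a' ≤ (C * (T : ℝ) ^ d) ^ a' := pow_le_pow_left₀ (by linarith only [hX1]) hX _
          _ = C ^ a' * (T : ℝ) ^ ((d : ℝ) * a') := by
              rw [mul_pow, Real.rpow_mul hTR.le, Real.rpow_natCast, Real.rpow_natCast]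
          _ ≤ _ := by
              have h1 : C ^ a' ≤ C ^ (2 * d) := pow_le_pow_right₀ hC (by omega)
              gcongr
      have hE : ∑ j, (- (k : ℝ) - y * (((φ j).1 : ℕ) : ℝ)) = - (2 * d * k) - y * s := by
        rw [Finset.sum_sub_distrib, Finset.sum_const, Finset.card_univ, hJ, ← Finset.mul_sum, hs']
        push_cast
        ring
      rw [hE]
      calc (C ^ k) ^ (2 * d) * X ^ a' * (T : ℝ) ^ (- (2 * d * k) - y * s : ℝ)
          ≤ (C ^ k) ^ (2 * d) * (C ^ (2 * d) * (T : ℝ) ^ ((d : ℝ) * a')) *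
            (T : ℝ) ^ (- (2 * d * k) - y * s : ℝ) := by gcongr
        _ = C ^ (2 * d * k) * C ^ (2 * d) * (T : ℝ) ^ ((d : ℝ) * a' + (- (2 * d * k) - y * s)) := by
            rw [Real.rpow_add hTR, ← pow_mul]
            ring
        _ ≤ C ^ (2 * d * k) * C ^ (2 * d) * (T : ℝ) ^ (- e - d) := by
            have h1 : (T : ℝ) ^ ((d : ℝ) * a' + (- (2 * d * k) - y * s)) ≤ (T : ℝ) ^ (- e - d) :=
              Real.rpow_le_rpow_of_exponent_le hTR1 (by linarith only [hexp])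
            gcongr)
  have habs : |(Matrix.of fun r (c : Fin 2 × Fin d) => (v r : ℝ) ^ (c.1 : ℕ) * (a r c.2 : ℝ)).det| <
      1 := by
    rw [hrow, Matrix.det_mul_row, hprodT, abs_mul, abs_of_nonneg (a := (T : ℝ) ^ d) (by positivity)]
    calc (T : ℝ) ^ d * _ ≤ (T : ℝ) ^ d * ((Fintype.card (Fin (D + 2) × Fin 2) : ℝ) ^
          (Fintype.card (Fin 2 × Fin d)) * (C ^ (Fintype.card (Fin 2 × Fin d)) *
          ((Fintype.card (Fin 2 × Fin d)).factorial *
          (C ^ (2 * d * k) * C ^ (2 * d) * (T : ℝ) ^ (- e - d))))) := by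
          exact mul_le_mul_of_nonneg_left hbound (by positivity)
      _ = K * (T : ℝ) ^ (-e) := by
          have h1 : (T : ℝ) ^ (-e) = (T : ℝ) ^ d * (T : ℝ) ^ (- e - d) := by
            rw [← Real.rpow_natCast, ← Real.rpow_add hTR]
            congr 1
            ring
          rw [h1, hK, hJ]
          have h2 : Fintype.card (Fin (D + 2) × Fin 2) = (D + 2) * 2 := by simp
          rw [h2]
          ring
      _ < 1 := hT1 T ((le_max_left _ _).trans hT)
  rw [← hcast] at habs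
  have hz : |(Matrix.of fun r (c : Fin 2 × Fin d) => v r ^ (c.1 : ℕ) * a r c.2).det| < 1 := by
    exact_mod_cast habs
  exact Int.abs_lt_one_iff.mp hz

end Vale.Agent.P018
end

section

/-! # P018, Module M7, part 3: the curve carrying the points of a short interval of a line. -/

namespace Vale.Agent.P018

open Polynomial Finset

attribute [-instance] DivisionRing.toRatAlgebra

theorem finrank_EE_eq (f : ℤ[X]) (hm : f.Monic) : Module.finrank ℚ (EE f) = f.natDegree := by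
  have h := (AdjoinRoot.powerBasis (hm.map (Int.castRingHom ℚ)).ne_zero).finrank
  rw [AdjoinRoot.powerBasis_dim, natDegree_mapQ] at h
  exact h

theorem finite_EE_of (f : ℤ[X]) (hm : f.Monic) : FiniteDimensional ℚ (EE f) :=
  (AdjoinRoot.powerBasis (hm.map (Int.castRingHom ℚ)).ne_zero).finite

theorem minpoly_shiftZ (f b : ℤ[X]) (hm : f.Monic)
    (hirr : Irreducible (f.map (Int.castRingHom ℚ))) (t : ℤ) :
    (minpoly ℚ (evT f (b + C t))).natDegree = (minpoly ℚ (evT f b)).natDegree := by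
  have : Fact (Irreducible (f.map (Int.castRingHom ℚ))) := ⟨hirr⟩
  have := finite_EE_of f hm
  have h1 : evT f (b + C t) = evT f b + algebraMap ℚ (EE f) (t : ℚ) := by
    rw [map_add, evT_C, map_intCast]
  rw [h1, minpoly.add_algebraMap]
  rw [natDegree_comp, natDegree_X_sub_C, mul_one]

/-- from linear relation on `α` to the curve. -/
theorem curve_of_relation (f : ℤ[X]) (hirr : Irreducible (f.map (Int.castRingHom ℚ)))
    (k : ℕ) (B : (EE f)[X]) (lam0 lam1 : EE f →ₗ[ℚ] ℚ) (t0 t n : ℤ) (p : ℕ) (α : EE f)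
    (h : ((n : EE f) - th f) * (B ^ k).eval (t : EE f) = (p : EE f) ^ k * α)
    (hrel : lam0 α + ((t - t0 : ℤ) : ℚ) * lam1 α = 0) :
    haveI : Fact (Irreducible (f.map (Int.castRingHom ℚ))) := ⟨hirr⟩
    (n : ℚ) * (extL lam0 (B ^ k) + (X - C (t0 : ℚ)) * extL lam1 (B ^ k)).eval (t : ℚ) =
      (extL lam0 (C (th f) * B ^ k) + (X - C (t0 : ℚ)) * extL lam1 (C (th f) * B ^ k)).eval
        (t : ℚ) := by
  have : Fact (Irreducible (f.map (Int.castRingHom ℚ))) := ⟨hirr⟩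
  have key : ∀ lam : EE f →ₗ[ℚ] ℚ, (n : ℚ) * lam ((B ^ k).eval (t : EE f)) -
      lam (th f * (B ^ k).eval (t : EE f)) = (p : ℚ) ^ k * lam α := by
    intro lam
    have h1 : (n : EE f) * (B ^ k).eval (t : EE f) = (n : ℚ) • (B ^ k).eval (t : EE f) := by
      rw [Algebra.smul_def, map_intCast]
    have h2 : (p : EE f) ^ k * α = ((p : ℚ) ^ k) • α := by
      rw [Algebra.smul_def, map_pow, map_natCast]
    have h3 := congrArg lam h
    rw [h2, map_smul, sub_mul, map_sub, h1, map_smul] at h3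
    simpa using h3
  have ht : (algebraMap ℚ (EE f) (t : ℚ)) = (t : EE f) := map_intCast _ _
  simp only [eval_add, eval_mul, eval_sub, eval_X, eval_C]
  rw [extL_eval, extL_eval, extL_eval, extL_eval, ht]
  simp only [eval_mul, eval_C]
  have k0 := key lam0
  have k1 := key lam1
  push_cast at hrel
  have e : (n : ℚ) * (lam0 (eval (↑t) (B ^ k)) + (↑t - ↑t0) * lam1 (eval (↑t) (B ^ k))) -
      (lam0 (th f * eval (↑t) (B ^ k)) + (↑t - ↑t0) * lam1 (th f * eval (↑t) (B ^ k))) =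
      (p : ℚ) ^ k * (lam0 α + ((t : ℚ) - t0) * lam1 α) := by
    have e1 : (p : ℚ) ^ k * (lam0 α + ((t : ℚ) - t0) * lam1 α) =
        (p : ℚ) ^ k * lam0 α + ((t : ℚ) - t0) * ((p : ℚ) ^ k * lam1 α) := by ring
    rw [e1, ← k0, ← k1]
    ring
  rw [hrel, mul_zero] at e
  linarith

/-- the points of a short interval of a line lie on a curve `n A(t) = B(t)`. -/
theorem exists_curve (f : ℤ[X]) (hm : f.Monic) (hirr : Irreducible (f.map (Int.castRingHom ℚ)))
    (k h : ℕ) (hkh : k + h = f.natDegree) (hk : h + 1 ≤ k) (hh : 1 ≤ h) (hk3 : 3 ≤ k)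
    (C0 : ℕ) (δ : ℝ) (hδ : 0 < δ) :
    ∃ T0 : ℕ, ∀ T : ℕ, T0 ≤ T → ∀ b : ℤ[X], b.natDegree < f.natDegree →
      (∀ i, |b.coeff i| ≤ T) → ∀ t0 : ℤ, |t0| ≤ T → ∀ S : Finset (ℤ × ℤ × ℕ), S.Nonempty →
      (∀ z ∈ S, |z.1| ≤ T ∧
        |((z.1 - t0 : ℤ) : ℝ)| ≤ (T : ℝ) ^ (1 - (2 * h + 1 + δ) / (2 * (f.natDegree : ℝ) - 1)) ∧
        |z.2.1| ≤ C0 * (T : ℤ) ^ f.natDegree ∧ z.2.2.Prime ∧ T ^ f.natDegree ≤ C0 * z.2.2 ∧
        (z.2.2 : ℤ) ^ k ∣ f.eval z.2.1 ∧
        ∃ (a : ℤ[X]) (c : ℤ), a.natDegree < f.natDegree ∧ c ≠ 0 ∧ |c| ≤ C0 ∧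
          Algebra.norm ℚ (evT f (b + C z.1)) = (c : ℚ) * z.2.2 ∧
          (c : EE f) ^ k * ((z.2.1 : EE f) - th f) = evT f (b + C z.1) ^ k * evT f a ∧
          (minpoly ℚ (evT f (b + C z.1))).natDegree = f.natDegree) →
      ∃ (N : ℤ[X]) (A1 B1 : ℚ[X]), N.Monic ∧ N.natDegree = f.natDegree ∧
        Irreducible (N.map (Int.castRingHom ℚ)) ∧
        (∀ i, |N.coeff i| ≤ (T : ℤ) ^ (f.natDegree + 1)) ∧
        A1 ≠ 0 ∧ f.natDegree - 1 ≤ A1.natDegree ∧ A1.natDegree ≤ k * (f.natDegree - 1) + 1 ∧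
        B1.natDegree ≤ k * (f.natDegree - 1) + 1 ∧
        ∀ z ∈ S, (z.2.1 : ℚ) * A1.eval (z.1 : ℚ) = B1.eval (z.1 : ℚ) ∧
          ∃ c : ℤ, c ≠ 0 ∧ |c| ≤ C0 ∧ N.eval z.1 = c * z.2.2 := by
  classical
  have hd2 : 2 ≤ f.natDegree := by omega
  obtain ⟨C2, h2⟩ := line_poly f hm hirr hd2 k
  obtain ⟨Cn, hCn1, hCn2, hCn0⟩ : ∃ Cn : ℕ, 1 ≤ Cn ∧ C2 ≤ Cn ∧ C0 ≤ Cn :=
    ⟨max 1 (max C2 C0), le_max_left _ _, (le_max_left _ _).trans (le_max_right _ _),
      (le_max_right _ _).trans (le_max_right _ _)⟩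
  obtain ⟨T3, h3⟩ := line_det f.natDegree k h hkh hk hh (Cn : ℝ) δ (by exact_mod_cast hCn1) hδ
  refine ⟨max 1 (max T3 C2), ?_⟩
  intro T hT b hb hbT t0 ht0 S hne hS
  have hT1 : 1 ≤ T := (le_max_left _ _).trans hT
  have hT3 : T3 ≤ T := ((le_max_left _ _).trans (le_max_right _ _)).trans hT
  have hTC2 : C2 ≤ T := ((le_max_right _ _).trans (le_max_right _ _)).trans hT
  have hT1r : (1 : ℝ) ≤ T := by exact_mod_cast hT1
  have hT1z : (1 : ℤ) ≤ T := by exact_mod_cast hT1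
  obtain ⟨z0, hz0⟩ := hne
  have hmin : (minpoly ℚ (evT f b)).natDegree = f.natDegree := by
    rw [← minpoly_shiftZ f b hm hirr z0.1]
    obtain ⟨-, -, -, -, -, -, a, c, -, -, -, -, -, h6⟩ := hS z0 hz0
    exact h6
  obtain ⟨N, B, hNm, hNd, hNi, hNc, hB, hNn, hΓ⟩ := h2 T hT1 b hb hbT hmin
  obtain ⟨Γ, Γ', hΓd, hΓc, hΓt, hΓe⟩ := hΓ t0 ht0
  have hpt : ∀ z ∈ S, ∃ a : ℤ[X], a.natDegree < f.natDegree ∧
      (((z.2.1 : ℤ) : EE f) - th f) * (B ^ k).eval ((z.1 : ℤ) : EE f) =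
        ((z.2.2 : ℕ) : EE f) ^ k * evT f a ∧
      (∃ c : ℤ, c ≠ 0 ∧ |c| ≤ C0 ∧ N.eval z.1 = c * z.2.2) ∧
      ∀ j, (z.2.2 : ℤ) ^ k * a.coeff j = ∑ i ∈ range (k * (f.natDegree - 1) + 1),
        (z.1 - t0) ^ i * (z.2.1 * (Γ i).coeff j - (Γ' i).coeff j) := by
    intro z hz
    obtain ⟨-, -, -, -, -, -, a, c, ha, hc, hcC, hn, he, -⟩ := hS z hz
    have hN : N.eval z.1 = c * z.2.2 := by
      have h1 := hNn z.1
      rw [hn] at h1
      exact_mod_cast h1.symm
    have hp1 := line_point f hirr k b a c z.1 z.2.1 z.2.2 N B hB hN hc he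
    refine ⟨a, ha, hp1, ⟨c, hc, hcC, hN⟩, fun j => ?_⟩
    refine coeff_identity f (by omega) _ a (z.1 - t0) z.2.1 ((z.2.2 : ℤ) ^ k) Γ Γ' ha hΓd hΓt ?_ j
    have h1 := hΓe (((z.1 - t0 : ℤ)) : EE f)
    rw [← h1]
    have h4 : ((t0 : ℤ) : EE f) + ((z.1 - t0 : ℤ) : EE f) = ((z.1 : ℤ) : EE f) := by
      push_cast
      ring
    rw [h4, hp1]
    push_cast
    rfl
  choose! a ha1 ha2 ha3 ha4 using hpt
  have hdet : ∀ r : Fin 2 × Fin f.natDegree → ℤ × ℤ × ℕ, (∀ i, r i ∈ (S : Set (ℤ × ℤ × ℕ))) →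
      (Matrix.of fun i (j : Fin 2 × Fin f.natDegree) =>
        ((((r i).1 - t0) ^ (j.1 : ℕ) * (a (r i)).coeff j.2 : ℤ) : ℚ)).det = 0 := by
    intro r hr
    have h5 := h3 T hT3 ((Cn : ℝ) * (T : ℝ) ^ f.natDegree)
      (one_le_mul_of_one_le_of_one_le (by exact_mod_cast hCn1) (one_le_pow₀ hT1r)) le_rfl
      (fun i j => (Γ i).coeff j) (fun i j => (Γ' i).coeff j) (by
        intro i j hi
        have h6 := hΓc i j hi
        have h7 : ((C2 : ℤ) : ℝ) * (T : ℝ) ^ (k * (f.natDegree - 1) - i) ≤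
            (Cn : ℝ) * (T : ℝ) ^ (k * (f.natDegree - 1) - i) := by
          refine mul_le_mul_of_nonneg_right ?_ (by positivity)
          exact_mod_cast hCn2
        refine ⟨le_trans ?_ h7, le_trans ?_ h7⟩
        · exact_mod_cast h6.1
        · exact_mod_cast h6.2)
      (fun i => (r i).1 - t0) (fun i => (r i).2.1) (fun i => (r i).2.2)
      (fun i j => (a (r i)).coeff j) (by
        intro i
        obtain ⟨g1, g2, g3, g4, g5, -⟩ := hS (r i) (hr i)
        refine ⟨g2, ?_, ?_, fun j => ha4 (r i) (hr i) j⟩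
        · have h8 : |((r i).2.1 : ℝ)| ≤ (C0 : ℝ) * (T : ℝ) ^ f.natDegree := by exact_mod_cast g3
          refine h8.trans (mul_le_mul_of_nonneg_right (by exact_mod_cast hCn0) (by positivity))
        · have h8 : (T : ℝ) ^ f.natDegree ≤ (C0 : ℝ) * ((r i).2.2 : ℝ) := by exact_mod_cast g5
          refine h8.trans (mul_le_mul_of_nonneg_right (by exact_mod_cast hCn0) (by (clear * -; positivity))))
    have h6 := congrArg (Int.castRingHom ℚ) h5
    rw [RingHom.map_det, map_zero] at h6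
    rw [← h6]
    congr 1
  obtain ⟨L, hL0, hL⟩ := li_exists_relation (S : Set (ℤ × ℤ × ℕ))
    (fun z (j : Fin 2 × Fin f.natDegree) => (((z.1 - t0) ^ (j.1 : ℕ) * (a z).coeff j.2 : ℤ) : ℚ))
    hdet
  have hFact : Fact (Irreducible (f.map (Int.castRingHom ℚ))) := ⟨hirr⟩
  have hfin := finite_EE_of f hm
  have hlam : lamOf f hm (fun j => L (0, j)) ≠ 0 ∨ lamOf f hm (fun j => L (1, j)) ≠ 0 := by
    by_contra hcon
    push Not at hcon
    apply hL0
    have e0 : (fun j => L (0, j)) = 0 := by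
      by_contra h
      exact lamOf_ne_zero f hm _ h hcon.1
    have e1 : (fun j => L (1, j)) = 0 := by
      by_contra h
      exact lamOf_ne_zero f hm _ h hcon.2
    funext ij
    obtain ⟨i, j⟩ := ij
    fin_cases i
    · exact congrFun e0 j
    · exact congrFun e1 j
  have hB' : (X + C (evT f b)) * B =
      (N.map (Int.castRingHom ℚ)).map (algebraMap ℚ (EE f)) := by
    rw [hB, Polynomial.map_map]
    congr 1
  have hdeg : (N.map (Int.castRingHom ℚ)).natDegree = Module.finrank ℚ (EE f) := by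
    rw [natDegree_mapQ, finrank_EE_eq f hm, hNd]
  have hM4 := line_algebra (evT f b) (N.map (Int.castRingHom ℚ)) (hNm.map _) hNi hdeg B hB' k hk3
    (th f) (lamOf f hm (fun j => L (0, j))) (lamOf f hm (fun j => L (1, j))) hlam (t0 : ℚ)
  have hM4' := (line_algebra (evT f b) (N.map (Int.castRingHom ℚ)) (hNm.map _) hNi hdeg B hB' k hk3
    (1 : EE f) (lamOf f hm (fun j => L (0, j))) (lamOf f hm (fun j => L (1, j))) hlam
      (t0 : ℚ)).2.2
  rw [natDegree_mapQ, hNd] at hM4 hM4'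
  rw [C_1, one_mul] at hM4'
  refine ⟨N, _, _, hNm, hNd, hNi, ?_, hM4.2.1, hM4.1, hM4', hM4.2.2, ?_⟩
  · intro i
    by_cases hi : i ≤ f.natDegree
    · refine (hNc i hi).trans ?_
      rw [pow_succ, mul_comm]
      refine mul_le_mul (pow_le_pow_right₀ hT1z (by omega)) (by exact_mod_cast hTC2)
        (by (clear * -; positivity)) (by positivity)
    · rw [coeff_eq_zero_of_natDegree_lt (by omega)]
      simp
  · intro z hz
    refine ⟨?_, ha3 z hz⟩
    refine curve_of_relation f hirr k B _ _ t0 z.1 z.2.1 z.2.2 (evT f (a z)) (ha2 z hz) ?_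
    have h1 := hL z hz
    rw [Fintype.sum_prod_type, Fin.sum_univ_two] at h1
    rw [lamOf_evT f hm _ _ (ha1 z hz), lamOf_evT f hm _ _ (ha1 z hz), ← h1, mul_sum]
    congr 1
    · refine sum_congr rfl fun j _ => ?_
      simp
    · refine sum_congr rfl fun j _ => ?_
      simp
      ring

end Vale.Agent.P018
end
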