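import Mathlib
import Vale.Agent.P018.Bdl.B1
import Vale.Agent.P018.Bdl.B2

set_option linter.all false

section

/-! # P018, K-method, module K10: admissibility for `k ≥ (1/4 + ε) d`. -/

namespace Vale.Agent.P018.K

open Polynomial

end Vale.Agent.P018.K
end

section

/-! # P018, K-method, module K9a: numerical verification of admissibility for
`(7, 4)`, `(9, 5)`, `(11, 6)`. -/

set_option linter.all false

namespace Vale.Agent.P018.K

open Polynomial MeasureTheory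

end Vale.Agent.P018.K
end

section

/-! # P018, quartics, part (B): definitions.

In part (B) the element `z` (the `γ` of the solution) runs through a plane lattice
`u1 g1 + u2 g2`.  Over `ℂ` put `α j = φ (θ j)`, `g1 j = φ (el (θ j) g1)`, `g2 j` similarly; the
(cone over the) surface is `c (n - α j) = π j ^ 2 * (u1 g1 j + u2 g2 j)`, `π j = ∑ y_k α_j^k`,
dehomogenised by `u1 = 1`, `w = u2/u1`.  The functions are the monomials `u^a π^e` (values in
`𝓞 L`; sign changes of the `π j` multiply them by signs). -/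

namespace Vale.Agent.P018.QB

open Polynomial NumberField Vale.Agent.P018.Q

/-- short name for `K.ell`: `el t y = ∑ y_k t^k`. -/
abbrev el {R : Type*} [CommRing R] (t : R) (y : Fin 4 → ℤ) : R := K.ell t y

/-- exponents `(a1, a2)` of `u1, u2` and `e j` of the `π j`. -/
abbrev Ix := (ℕ × ℕ) × (Fin 4 → ℕ)

/-- the monomial `u1^a1 u2^a2 ∏ π_j^(e j)`. -/
def fv {R : Type*} [CommRing R] (u1 u2 : R) (pi : Fin 4 → R) (x : Ix) : R :=
  u1 ^ x.1.1 * u2 ^ x.1.2 * ∏ j, pi j ^ x.2 j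

/-- all monomials of degree `i` in `u` and degree `l` in `π`. -/
def mons (i l : ℕ) : Finset Ix :=
  (Finset.HasAntidiagonal.antidiagonal i) ×ˢ (Finset.piAntidiag Finset.univ l)

/-- a non special lattice: `α` injective, `c ≠ 0`, the four linear forms pairwise not
proportional (hence `g1 j`, `g2 j` are not both `0`). -/
structure Lat (α g1 g2 : Fin 4 → ℂ) (c : ℂ) : Prop where
  inj : Function.Injective α
  c0 : c ≠ 0
  ns : ∀ j k, j ≠ k → g1 j * g2 k ≠ g1 k * g2 j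

/-- a (generic or special) point of the surface over a field extension of `ℂ`. -/
structure Mdl (α g1 g2 : Fin 4 → ℂ) (c : ℂ) (Ω : Type) [Field Ω] [Algebra ℂ Ω] (n w : Ω)
    (pi : Fin 4 → Ω) : Prop where
  ne : ∀ j, algebraMap ℂ Ω (g1 j) + w * algebraMap ℂ Ω (g2 j) ≠ 0
  eq : ∀ j, pi j ^ 2 * (algebraMap ℂ Ω (g1 j) + w * algebraMap ℂ Ω (g2 j)) =
    algebraMap ℂ Ω c * (n - algebraMap ℂ Ω (α j))

/-- the span of the functions with exponents in `S` (at `u1 = 1`, `u2 = w`). -/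
noncomputable def spn {Ω : Type} [Field Ω] [Algebra ℂ Ω] (w : Ω) (pi : Fin 4 → Ω)
    (S : Set Ix) : Submodule ℂ Ω :=
  Submodule.span ℂ ((fun x => fv 1 w pi x) '' S)

/-- the value `Φ(n, w)`: `n` is the outer variable. -/
noncomputable def evB {Ω : Type} [Field Ω] [Algebra ℂ Ω] (n w : Ω) (Φ : ℂ[X][X]) : Ω :=
  Φ.eval₂ (aeval w : ℂ[X] →ₐ[ℂ] Ω).toRingHom n

/-- the complex polynomial of an integer polynomial. -/
noncomputable def toC (Φ : ℤ[X][X]) : ℂ[X][X] := Φ.map (mapRingHom (Int.castRingHom ℂ))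

/-- the data of a solution on the lattice `(g1, g2)`. -/
structure BDat {L : Type} [Field L] [NumberField L] (θ : Fin 4 → 𝓞 L) (C : ℕ) (X T U : ℝ)
    (c : ℤ) (g1 g2 : Fin 4 → ℤ) (N : ℤ) (p : ℕ) (y : Fin 4 → ℤ) (u1 u2 : ℤ) : Prop where
  dat : Dat θ C X T N p c y (fun j => u1 * g1 j + u2 * g2 j)
  lowN : X ≤ C * |(N : ℝ)|
  hu1 : |(u1 : ℝ)| ≤ U
  hu2 : |(u2 : ℝ)| ≤ U
  u10 : u1 ≠ 0

/-- the pair `(g1, g2)` is not special. -/
def NonSpec {L : Type} [Field L] [NumberField L] (θ : Fin 4 → 𝓞 L) (g1 g2 : Fin 4 → ℤ) : Prop :=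
  ∀ j k, j ≠ k → el (θ j) g1 * el (θ k) g2 ≠ el (θ k) g1 * el (θ j) g2

/-- `θ` are the four roots in `𝓞 L` of an irreducible monic integer quartic. -/
structure Root4 {L : Type} [Field L] [NumberField L] (θ : Fin 4 → 𝓞 L) (G : ℤ[X]) : Prop where
  monic : G.Monic
  deg : G.natDegree = 4
  irr : Irreducible (G.map (Int.castRingHom ℚ))
  inj : Function.Injective θ
  roots : G.map (algebraMap ℤ (𝓞 L)) = ∏ i, (X - C (θ i))

/-- the complex numbers `φ (el (θ j) g)`. -/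
noncomputable def cf {L : Type} [Field L] [NumberField L] (θ : Fin 4 → 𝓞 L) (φ : L →+* ℂ)
    (g : Fin 4 → ℤ) (j : Fin 4) : ℂ := φ ((el (θ j) g : 𝓞 L) : L)

/-- the elements `el (θ j) y`. -/
def pv {R : Type*} [CommRing R] (θ : Fin 4 → R) (y : Fin 4 → ℤ) (j : Fin 4) : R := el (θ j) y

end Vale.Agent.P018.QB
end

section

/-! # P018, (B), relation step: the determinant bound. -/

namespace Vale.Agent.P018.QB

open NumberField

/-- complex version of `det_bound`. -/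
theorem det_bound_complex {J T : Type*} [Fintype J] [DecidableEq J] [Fintype T] [DecidableEq T]
    (A : J → T → ℂ) (B : T → J → ℂ) (α : T → ℝ) (β Γ : ℝ)
    (hA : ∀ i t, ‖A i t‖ ≤ α t) (hB : ∀ t j, ‖B t j‖ ≤ β) (hβ : 0 ≤ β) (hΓ0 : 0 ≤ Γ)
    (hΓ : ∀ φ : J → T, Function.Injective φ → ∏ j, α (φ j) ≤ Γ) :
    ‖(Matrix.of fun i j => ∑ t, A i t * B t j).det‖ ≤
      (Fintype.card T : ℝ) ^ (Fintype.card J) *
        (β ^ (Fintype.card J) * ((Fintype.card J).factorial * Γ)) := by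
  rw [det_expand]
  refine (norm_sum_le _ _).trans ?_
  have hcard : (Fintype.card T : ℝ) ^ (Fintype.card J) = (Finset.univ : Finset (J → T)).card := by
    simp [Finset.card_univ]
  rw [hcard, ← nsmul_eq_mul, ← Finset.sum_const]
  refine Finset.sum_le_sum fun φ _ => ?_
  rw [norm_mul]
  have hprodB : ‖∏ j, B (φ j) j‖ ≤ β ^ (Fintype.card J) := by
    rw [norm_prod]
    calc ∏ j, ‖B (φ j) j‖ ≤ ∏ _j : J, β :=
          Finset.prod_le_prod (fun _ _ => norm_nonneg _) (fun j _ => hB _ _)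
      _ = β ^ (Fintype.card J) := by simp
  have hdet : ‖(Matrix.of fun i j => A i (φ j)).det‖ ≤ (Fintype.card J).factorial * Γ := by
    by_cases hinj : Function.Injective φ
    · rw [Matrix.det_apply]
      refine (norm_sum_le _ _).trans ?_
      have hperm : ((Fintype.card J).factorial : ℝ) = (Finset.univ : Finset (Equiv.Perm J)).card := by
        rw [Finset.card_univ, Fintype.card_perm]
      rw [hperm, ← nsmul_eq_mul, ← Finset.sum_const]
      refine Finset.sum_le_sum fun σ _ => ?_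
      have h3 : ‖Equiv.Perm.sign σ • ∏ i, (Matrix.of fun i j => A i (φ j)) (σ i) i‖ =
          ∏ i, ‖A (σ i) (φ i)‖ := by
        rcases Int.units_eq_one_or (Equiv.Perm.sign σ) with h | h
        · simp [h, norm_prod]
        · simp [h, norm_prod]
      rw [h3]
      calc ∏ i, ‖A (σ i) (φ i)‖ ≤ ∏ i, α (φ i) :=
            Finset.prod_le_prod (fun _ _ => norm_nonneg _) (fun i _ => hA _ _)
        _ ≤ Γ := hΓ φ hinj
    · rw [det_zero_of_not_injective A φ hinj]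
      simpa using mul_nonneg (Nat.cast_nonneg _) hΓ0
  exact mul_le_mul hprodB hdet (norm_nonneg _) (pow_nonneg hβ _)

/-- determinants of matrices whose entries are short Taylor polynomials in `(v, ω)` plus an error
(expand with `det_expand`, the errors are treated as additional monomials). -/
theorem det_small {J : Type} [Fintype J] [DecidableEq J] (R : ℕ) (M : Matrix J J ℂ)
    (rw' : J → ℂ) (cf : J → ℕ → ℕ → ℂ) (e : J → J → ℂ) (v ω : J → ℂ) (Bd Er V W Γ : ℝ)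
    (hM : ∀ k m, M k m = rw' k * (∑ τ ∈ Finset.range R, ∑ l ∈ Finset.range R,
      cf m τ l * v k ^ τ * ω k ^ l + e k m))
    (hrw : ∀ k, ‖rw' k‖ ≤ 1) (hcf : ∀ m τ l, ‖cf m τ l‖ ≤ Bd) (he : ∀ k m, ‖e k m‖ ≤ Bd * Er)
    (hv : ∀ k, ‖v k‖ ≤ V) (hω : ∀ k, ‖ω k‖ ≤ W) (hV0 : 0 ≤ V) (hW0 : 0 ≤ W) (hV : V ≤ 1)
    (hW : W ≤ 1) (hEr0 : 0 ≤ Er) (hEr : Er ≤ Γ) (hΓ1 : Er ≤ 1)
    (hΓ : ∀ S : Finset (ℕ × ℕ), S.card = Fintype.card J → ∏ s ∈ S, (V ^ s.1 * W ^ s.2) ≤ Γ) :
    ‖M.det‖ ≤ ((R : ℝ) ^ 2 + Fintype.card J) ^ Fintype.card J *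
      ((Fintype.card J).factorial * (Bd ^ Fintype.card J * Γ)) := by
  have hΓ0 : 0 ≤ Γ := hEr0.trans hEr
  rcases isEmpty_or_nonempty J with hJ | hJ
  · have h1 := hΓ ∅ (by simp)
    simp only [Finset.prod_empty] at h1
    simpa using h1
  obtain ⟨j0⟩ := hJ
  have hBd0 : 0 ≤ Bd := (norm_nonneg _).trans (hcf j0 0 0)
  rcases hBd0.eq_or_lt with hBd | hBd
  · have hM0 : M = 0 := by
      ext k m
      have h1 : e k m = 0 := by
        have := he k m
        rw [← hBd, zero_mul] at this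
        exact norm_le_zero_iff.1 this
      have h2 : ∀ τ l, cf m τ l = 0 := fun τ l => by
        have := hcf m τ l
        rw [← hBd] at this
        exact norm_le_zero_iff.1 this
      rw [hM, h1]
      simp [h2]
    have : Nonempty J := ⟨j0⟩
    rw [hM0, Matrix.det_zero, norm_zero]
    (clear * - hBd0 hΓ0; positivity)
  -- the main case
  let T := (Fin R × Fin R) ⊕ J
  let A : J → T → ℂ := fun k t => Sum.elim (fun p => rw' k * (v k ^ (p.1 : ℕ) * ω k ^ (p.2 : ℕ)))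
    (fun j => rw' k * (e k j / Bd)) t
  let B : T → J → ℂ := fun t m => Sum.elim (fun p => cf m (p.1 : ℕ) (p.2 : ℕ))
    (fun j => if j = m then (Bd : ℂ) else 0) t
  let α : T → ℝ := fun t => Sum.elim (fun p => V ^ (p.1 : ℕ) * W ^ (p.2 : ℕ)) (fun _ => Er) t
  have hBdC : (Bd : ℂ) ≠ 0 := by exact_mod_cast hBd.ne'
  have hMe : M = Matrix.of fun i j => ∑ t, A i t * B t j := by
    ext k m
    rw [hM, Matrix.of_apply, Fintype.sum_sum_type]
    simp only [A, B, Sum.elim_inl, Sum.elim_inr]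
    have e1 : ∑ x : Fin R × Fin R, rw' k * (v k ^ (x.1 : ℕ) * ω k ^ (x.2 : ℕ)) *
        cf m (x.1 : ℕ) (x.2 : ℕ) = rw' k * ∑ τ ∈ Finset.range R, ∑ l ∈ Finset.range R,
          cf m τ l * v k ^ τ * ω k ^ l := by
      rw [Fintype.sum_prod_type, Finset.mul_sum, Finset.sum_range]
      refine Finset.sum_congr rfl fun τ _ => ?_
      rw [Finset.mul_sum, Finset.sum_range]
      refine Finset.sum_congr rfl fun l _ => ?_
      ring
    have e2 : ∑ x : J, rw' k * (e k x / Bd) * (if x = m then (Bd : ℂ) else 0) =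
        rw' k * e k m := by
      rw [Finset.sum_eq_single m]
      · rw [if_pos rfl]
        field_simp
      · intro b _ hb
        rw [if_neg hb, mul_zero]
      · intro h
        exact absurd (Finset.mem_univ _) h
    rw [e1, e2]
    ring
  have hα0 : ∀ t, 0 ≤ α t := by
    rintro (t | t)
    · simp only [α, Sum.elim_inl]
      (clear * - hV0 hW0; positivity)
    · simpa only [α, Sum.elim_inr] using hEr0
  have hα1 : ∀ t, α t ≤ 1 := by
    rintro (t | t)
    · simp only [α, Sum.elim_inl]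
      exact mul_le_one₀ (pow_le_one₀ hV0 hV) (by positivity) (pow_le_one₀ hW0 hW)
    · simpa only [α, Sum.elim_inr] using hΓ1
  have hA : ∀ i t, ‖A i t‖ ≤ α t := by
    rintro i (t | t)
    · simp only [A, α, Sum.elim_inl]
      rw [norm_mul, norm_mul, norm_pow, norm_pow]
      calc ‖rw' i‖ * (‖v i‖ ^ (t.1 : ℕ) * ‖ω i‖ ^ (t.2 : ℕ)) ≤
          1 * (V ^ (t.1 : ℕ) * W ^ (t.2 : ℕ)) := by
            refine mul_le_mul (hrw i) ?_ (by (clear * -; positivity)) zero_le_one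
            exact mul_le_mul (pow_le_pow_left₀ (norm_nonneg _) (hv i) _)
              (pow_le_pow_left₀ (norm_nonneg _) (hω i) _) (by positivity) (by positivity)
        _ = _ := one_mul _
    · simp only [A, α, Sum.elim_inr]
      rw [norm_mul, norm_div, Complex.norm_real, Real.norm_eq_abs, abs_of_pos hBd]
      calc ‖rw' i‖ * (‖e i t‖ / Bd) ≤ 1 * Er := by
            refine mul_le_mul (hrw i) ?_ (by (clear * - hBd; positivity)) zero_le_one
            rw [div_le_iff₀ hBd, mul_comm]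
            exact he i t
        _ = Er := one_mul _
  have hB : ∀ t j, ‖B t j‖ ≤ Bd := by
    rintro (t | t) j
    · simp only [B, Sum.elim_inl]
      exact hcf _ _ _
    · simp only [B, Sum.elim_inr]
      split_ifs
      · rw [Complex.norm_real, Real.norm_eq_abs, abs_of_pos hBd]
      · rw [norm_zero]
        exact hBd.le
  have hprod : ∀ φ : J → T, Function.Injective φ → ∏ j, α (φ j) ≤ Γ := by
    intro φ hφ
    by_cases hinr : ∃ j, ∃ i, φ j = Sum.inr i
    · obtain ⟨j, i, hi⟩ := hinr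
      rw [← Finset.mul_prod_erase _ _ (Finset.mem_univ j)]
      have h1 : α (φ j) = Er := by rw [hi]; simp only [α, Sum.elim_inr]
      have h2 : ∏ x ∈ Finset.univ.erase j, α (φ x) ≤ 1 :=
        Finset.prod_le_one (fun x _ => hα0 _) (fun x _ => hα1 _)
      rw [h1]
      calc Er * ∏ x ∈ Finset.univ.erase j, α (φ x) ≤ Er * 1 :=
            mul_le_mul_of_nonneg_left h2 hEr0
        _ ≤ Γ := by rw [mul_one]; exact hEr
    · have hl : ∀ j, ∃ p : Fin R × Fin R, φ j = Sum.inl p := by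
        intro j
        rcases hj : φ j with p | i
        · exact ⟨p, rfl⟩
        · exact absurd ⟨j, i, hj⟩ hinr
      choose p hp using hl
      have hpinj : Function.Injective (fun j => (((p j).1 : ℕ), ((p j).2 : ℕ))) := by
        intro a b hab
        simp only [Prod.mk.injEq] at hab
        apply hφ
        rw [hp a, hp b]
        congr 1
        exact Prod.ext (Fin.ext hab.1) (Fin.ext hab.2)
      have h3 := hΓ (Finset.univ.image (fun j => (((p j).1 : ℕ), ((p j).2 : ℕ)))) (by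
        rw [Finset.card_image_of_injective _ hpinj, Finset.card_univ])
      rw [Finset.prod_image (fun x _ y _ h => hpinj h)] at h3
      refine le_trans (le_of_eq ?_) h3
      refine Finset.prod_congr rfl fun j _ => ?_
      rw [hp j]
      simp only [α, Sum.elim_inl]
  have hmain := det_bound_complex A B α Bd Γ hA hB hBd0 hΓ0 hprod
  rw [← hMe] at hmain
  refine hmain.trans (le_of_eq ?_)
  have hcT : (Fintype.card T : ℝ) = (R : ℝ) ^ 2 + Fintype.card J := by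
    simp only [T, Fintype.card_sum, Fintype.card_prod, Fintype.card_fin]
    push_cast
    ring
  rw [hcT]
  ring

/-- an algebraic integer all of whose conjugates are `< 1` vanishes. -/
theorem zero_of_conj {L : Type} [Field L] [NumberField L] (x : 𝓞 L)
    (h : ∀ φ : L →+* ℂ, ‖φ x‖ < 1) : x = 0 := by
  by_contra hx
  have hxL : (x : L) ≠ 0 := by
    intro h0
    exact hx (by exact_mod_cast h0)
  have h1 : (Algebra.norm ℤ x : ℚ) = Algebra.norm ℚ (x : L) := Algebra.coe_norm_int x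
  have h2 : Algebra.norm ℚ (x : L) ≠ 0 := Algebra.norm_ne_zero_iff.2 hxL
  have h3 := Algebra.norm_eq_prod_embeddings ℚ ℂ (x : L)
  have h4 : ‖(algebraMap ℚ ℂ) (Algebra.norm ℚ (x : L))‖ < 1 := by
    rw [h3, norm_prod]
    have hne : (Finset.univ : Finset (L →ₐ[ℚ] ℂ)).Nonempty := by
      rw [Finset.univ_nonempty_iff, ← Fintype.card_pos_iff, AlgHom.card]
      exact Module.finrank_pos
    calc ∏ σ : L →ₐ[ℚ] ℂ, ‖σ (x : L)‖ < ∏ _σ : L →ₐ[ℚ] ℂ, (1 : ℝ) := by
          refine Finset.prod_lt_prod_of_nonempty (fun σ _ => ?_) (fun σ _ => ?_) hne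
          · rw [norm_pos_iff]
            exact (map_ne_zero σ).2 hxL
          · exact h σ.toRingHom
      _ = 1 := by simp
  rw [← h1] at h4 h2
  have h5 : ‖(algebraMap ℚ ℂ) ((Algebra.norm ℤ x : ℤ) : ℚ)‖ = |((Algebra.norm ℤ x : ℤ) : ℝ)| := by
    simp
  rw [h5] at h4
  have h6 : Algebra.norm ℤ x ≠ 0 := by exact_mod_cast h2
  have h7 : (1 : ℝ) ≤ |((Algebra.norm ℤ x : ℤ) : ℝ)| := by
    exact_mod_cast Int.one_le_abs h6
  linarith

end Vale.Agent.P018.QB
end

section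

/-! # P018, (B): generic points of the surface and of a curve. -/

namespace Vale.Agent.P018.QB

open Polynomial NumberField Vale.Agent.P018.Q

/-- evaluation at the tautological point is the given ring homomorphism. -/
theorem evB_taut {Ω : Type} [Field Ω] [Algebra ℂ Ω] (i : ℂ[X][X] →+* Ω)
    (hi : ∀ z : ℂ, i (C (C z)) = algebraMap ℂ Ω z) (F : ℂ[X][X]) :
    evB (i X) (i (C X)) F = i F := by
  have h1 : (aeval (i (C X)) : ℂ[X] →ₐ[ℂ] Ω).toRingHom = i.comp C := by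
    refine Polynomial.ringHom_ext (fun z => ?_) ?_
    · show aeval (i (C X)) (C z) = i (C (C z))
      rw [aeval_C, hi]
    · show aeval (i (C X)) X = i (C X)
      rw [aeval_X]
  have h2 : eval₂RingHom (aeval (i (C X)) : ℂ[X] →ₐ[ℂ] Ω).toRingHom (i X) = i := by
    rw [h1]
    refine Polynomial.ringHom_ext (fun z => ?_) ?_
    · simp
    · simp
  exact congrArg (fun f : ℂ[X][X] →+* Ω => f F) h2

theorem gen_lin_ne {α g1 g2 : Fin 4 → ℂ} {c : ℂ} (h : Lat α g1 g2 c) (j : Fin 4) :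
    (C (g1 j) + X * C (g2 j) : ℂ[X]) ≠ 0 := by
  intro h0
  have h1 : g1 j = 0 := by
    have := congrArg (fun p : ℂ[X] => p.coeff 0) h0
    simpa using this
  have h2 : g2 j = 0 := by
    have := congrArg (fun p : ℂ[X] => p.coeff 1) h0
    simpa [coeff_X_mul, coeff_C] using this
  obtain ⟨k, hk⟩ : ∃ k : Fin 4, j ≠ k := by
    refine ⟨j + 1, ?_⟩
    fin_cases j <;> decide
  refine h.ns j k hk ?_
  rw [h1, h2]
  ring

/-- the point attached to a homomorphism to a domain. -/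
theorem gen_aux (α g1 g2 : Fin 4 → ℂ) (c : ℂ) (A : Type) [CommRing A] [IsDomain A]
    (q : ℂ[X][X] →+* A) (hne : ∀ j, q (C (C (g1 j) + X * C (g2 j))) ≠ 0) :
    ∃ (Ω : Type) (_ : Field Ω) (_ : Algebra ℂ Ω) (n w : Ω) (pi : Fin 4 → Ω),
      Mdl α g1 g2 c Ω n w pi ∧ ∀ F, evB n w F = 0 ↔ q F = 0 := by
  let Ω := AlgebraicClosure (FractionRing A)
  let e : A →+* Ω := (algebraMap (FractionRing A) Ω).comp (algebraMap A (FractionRing A))
  have hinj : Function.Injective e :=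
    (algebraMap (FractionRing A) Ω).injective.comp (IsFractionRing.injective A (FractionRing A))
  let i : ℂ[X][X] →+* Ω := e.comp q
  let alg : Algebra ℂ Ω := (i.comp ((C : ℂ[X] →+* ℂ[X][X]).comp (C : ℂ →+* ℂ[X]))).toAlgebra
  have hi : ∀ z : ℂ, i (C (C z)) = algebraMap ℂ Ω z := fun z => rfl
  have hi0 : ∀ F, i F = 0 ↔ q F = 0 := fun F => map_eq_zero_iff e hinj
  have hg : ∀ j, algebraMap ℂ Ω (g1 j) + i (C X) * algebraMap ℂ Ω (g2 j) ≠ 0 := by
    intro j h0
    apply hne j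
    rw [← hi0, C_add, C_mul, map_add, map_mul, hi, hi]
    exact h0
  choose v hv using fun j => IsAlgClosed.exists_pow_nat_eq
    (algebraMap ℂ Ω c * (i X - algebraMap ℂ Ω (α j)) /
      (algebraMap ℂ Ω (g1 j) + i (C X) * algebraMap ℂ Ω (g2 j))) (two_pos)
  refine ⟨Ω, inferInstance, alg, i X, i (C X), v, ⟨hg, fun j => ?_⟩, fun F => ?_⟩
  · rw [hv j, div_mul_cancel₀ _ (hg j)]
  · rw [evB_taut i hi F]
    exact hi0 F

/-- generic point of the surface: algebraic closure of the fraction field of `ℂ[w][n]`. -/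
theorem generic_surf (α g1 g2 : Fin 4 → ℂ) (c : ℂ) (h : Lat α g1 g2 c) :
    ∃ (Ω : Type) (_ : Field Ω) (_ : Algebra ℂ Ω) (n w : Ω) (pi : Fin 4 → Ω),
      Mdl α g1 g2 c Ω n w pi ∧ ∀ F, evB n w F = 0 → F = 0 := by
  obtain ⟨Ω, f, al, n, w, pi, h1, h2⟩ := gen_aux α g1 g2 c ℂ[X][X] (RingHom.id _)
    (fun j h0 => gen_lin_ne h j ((map_eq_zero_iff _ C_injective).1 h0))
  exact ⟨Ω, f, al, n, w, pi, h1, fun F hF => (h2 F).1 hF⟩

/-- generic point of an irreducible curve `Φ(n, w) = 0` which is not a line `w = w0`: algebraic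
closure of the fraction field of `ℂ[w][n]/(Φ)`. -/
theorem generic_curve (α g1 g2 : Fin 4 → ℂ) (c : ℂ) (h : Lat α g1 g2 c)
    (Φ : ℂ[X][X]) (hΦ : Irreducible Φ) (hw : Φ.natDegree ≠ 0) :
    ∃ (Ω : Type) (_ : Field Ω) (_ : Algebra ℂ Ω) (n w : Ω) (pi : Fin 4 → Ω),
      Mdl α g1 g2 c Ω n w pi ∧ ∀ F, evB n w F = 0 ↔ Φ ∣ F := by
  have hprime : (Ideal.span {Φ}).IsPrime :=
    (Ideal.span_singleton_prime hΦ.ne_zero).2 (UniqueFactorizationMonoid.irreducible_iff_prime.1 hΦ)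
  have hdom : IsDomain (ℂ[X][X] ⧸ Ideal.span {Φ}) := Ideal.Quotient.isDomain _
  have hk : ∀ F, Ideal.Quotient.mk (Ideal.span {Φ}) F = 0 ↔ Φ ∣ F := fun F => by
    rw [Ideal.Quotient.eq_zero_iff_mem, Ideal.mem_span_singleton]
  obtain ⟨Ω, f, al, n, w, pi, h1, h2⟩ := gen_aux α g1 g2 c (ℂ[X][X] ⧸ Ideal.span {Φ})
    (Ideal.Quotient.mk (Ideal.span {Φ})) (fun j h0 => by
      have h1 := (hk _).1 h0
      have h2 : (C (C (g1 j) + X * C (g2 j)) : ℂ[X][X]) ≠ 0 := fun h3 =>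
        gen_lin_ne h j ((map_eq_zero_iff _ C_injective).1 h3)
      have h3 := natDegree_le_of_dvd h1 h2
      rw [natDegree_C] at h3
      exact hw (Nat.le_zero.1 h3))
  exact ⟨Ω, f, al, n, w, pi, h1, fun F => (h2 F).trans (hk F)⟩

end Vale.Agent.P018.QB
end

section

/-! # P018, (B), curve step: an independent family of monomials with prescribed levels.

Everything in a commutative `ℂ`-algebra `A` (it will be the algebra of all complex functions on a
finite set of solutions). -/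

namespace Vale.Agent.P018.QB

open Polynomial NumberField Vale.Agent.P018.Q

/-- greedy choice of an independent family. -/
theorem exists_indep {K V ι : Type*} [Nonempty ι] [Field K] [AddCommGroup V] [Module K V]
    (A : ℕ → Set ι)
    (f : ι → V) (lev : ℕ → ℕ) (n : ℕ)
    (hmono : ∀ j k, j ≤ k → k < n →
      Submodule.span K (f '' A (lev j)) ≤ Submodule.span K (f '' A (lev k)))
    (hr : ∀ k < n, k < Module.finrank K (Submodule.span K (f '' A (lev k)))) :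
    ∃ x : ℕ → ι, (∀ k < n, x k ∈ A (lev k)) ∧
      LinearIndependent K (fun k : Fin n => f (x k)) := by
  induction n with
  | zero =>
    exact ⟨fun _ => Classical.arbitrary ι, fun k hk => absurd hk (Nat.not_lt_zero k),
      linearIndependent_empty_type⟩
  | succ n ih =>
    obtain ⟨x, hx, hli⟩ := ih (fun j k hjk hk => hmono j k hjk (hk.trans n.lt_succ_self))
      (fun k hk => hr k (hk.trans n.lt_succ_self))
    have hn := hr n n.lt_succ_self
    have hex : ∃ a ∈ A (lev n), f a ∉ Submodule.span K (Set.range fun k : Fin n => f (x k)) := by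
      by_contra hcon
      push Not at hcon
      have h1 : Submodule.span K (f '' A (lev n)) ≤
          Submodule.span K (Set.range fun k : Fin n => f (x k)) := by
        rw [Submodule.span_le]
        rintro _ ⟨a, ha, rfl⟩
        exact hcon a ha
      have : Module.Finite K (Submodule.span K (Set.range fun k : Fin n => f (x k))) :=
        FiniteDimensional.span_of_finite K (Set.finite_range _)
      have h2 := Submodule.finrank_mono h1
      have h3 := finrank_range_le_card (R := K) (fun k : Fin n => f (x k))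
      rw [Fintype.card_fin, Set.finrank] at h3
      omega
    obtain ⟨a, ha, hna⟩ := hex
    refine ⟨Function.update x n a, fun k hk => ?_, ?_⟩
    · rcases (Nat.lt_succ_iff.1 hk).eq_or_lt with h | h
      · subst h; simpa using ha
      · rw [Function.update_of_ne h.ne]; exact hx k h
    · rw [linearIndependent_finSucc']
      have e1 : Fin.init (fun k : Fin (n + 1) => f (Function.update x n a k)) =
          fun k : Fin n => f (x k) := by
        funext k
        simp only [Fin.init, Fin.val_castSucc]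
        rw [Function.update_of_ne k.2.ne]
      rw [e1]
      refine ⟨hli, ?_⟩
      simpa using hna

variable {A : Type*} [CommRing A] [Algebra ℂ A]

/-- the span of the functions with exponents in `S`. -/
noncomputable def spA (u1 u2 : A) (y : Fin 4 → A) (S : Set Ix) : Submodule ℂ A :=
  Submodule.span ℂ ((fun x => fv u1 u2 y x) '' S)

omit [Algebra ℂ A] in
theorem fv_add (u1 u2 : A) (y : Fin 4 → A) (x x' : Ix) :
    fv u1 u2 y (x + x') = fv u1 u2 y x * fv u1 u2 y x' := by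
  simp only [fv, Prod.fst_add, Prod.snd_add, Pi.add_apply, pow_add, Finset.prod_mul_distrib]
  ring

theorem mem_mons {i l : ℕ} {x : Ix} :
    x ∈ (mons i l : Set Ix) ↔ x.1.1 + x.1.2 = i ∧ ∑ j, x.2 j = l := by
  simp [mons, Finset.mem_piAntidiag]

theorem add_mem_mons {a l b m : ℕ} {x x' : Ix} (hx : x ∈ (mons a l : Set Ix))
    (hx' : x' ∈ (mons b m : Set Ix)) : x + x' ∈ (mons (a + b) (l + m) : Set Ix) := by
  rw [mem_mons] at *
  simp only [Prod.fst_add, Prod.snd_add, Pi.add_apply, Finset.sum_add_distrib]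
  omega

theorem spA_mul (u1 u2 : A) (y : Fin 4 → A) (a l b m : ℕ) {p q : A}
    (hp : p ∈ spA u1 u2 y (mons a l)) (hq : q ∈ spA u1 u2 y (mons b m)) :
    p * q ∈ spA u1 u2 y (mons (a + b) (l + m)) := by
  have h1 := Submodule.mul_mem_mul hp hq
  unfold spA at h1 ⊢
  rw [Submodule.span_mul_span] at h1
  refine Submodule.span_mono ?_ h1
  rintro _ ⟨_, ⟨x, hx, rfl⟩, _, ⟨x', hx', rfl⟩, rfl⟩
  exact ⟨x + x', add_mem_mons hx hx', fv_add u1 u2 y x x'⟩

/-- the spaces of functions are nested, if `mons 1 2` gives a nonzero constant. -/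
theorem spA_mono (u1 u2 : A) (y : Fin 4 → A) (κ : ℂ) (hκ : κ ≠ 0)
    (h : algebraMap ℂ A κ ∈ spA u1 u2 y (mons 1 2)) (i t t' : ℕ) (ht : t ≤ t') :
    spA u1 u2 y (mons (i + t) (2 * t)) ≤ spA u1 u2 y (mons (i + t') (2 * t')) := by
  induction t', ht using Nat.le_induction with
  | base => exact le_rfl
  | succ s _ ih =>
    refine ih.trans fun p hp => ?_
    have h1 := spA_mul u1 u2 y _ _ _ _ h hp
    have h2 := Submodule.smul_mem _ κ⁻¹ h1
    rw [← Algebra.smul_def, smul_smul, inv_mul_cancel₀ hκ, one_smul] at h2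
    have e1 : 1 + (i + s) = i + (s + 1) := by ring
    have e2 : 2 + 2 * s = 2 * (s + 1) := by ring
    rwa [e1, e2] at h2

theorem one_mem_spA (u1 u2 : A) (y : Fin 4 → A) : (1 : A) ∈ spA u1 u2 y (mons 0 0) := by
  refine Submodule.subset_span ⟨((0, 0), 0), ?_, ?_⟩
  · rw [mem_mons]; simp
  · simp [fv]

theorem u1_mem_spA (u1 u2 : A) (y : Fin 4 → A) : u1 ∈ spA u1 u2 y (mons 1 0) := by
  refine Submodule.subset_span ⟨((1, 0), 0), ?_, ?_⟩
  · rw [mem_mons]; simp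
  · simp [fv]

theorem u2_mem_spA (u1 u2 : A) (y : Fin 4 → A) : u2 ∈ spA u1 u2 y (mons 1 0) := by
  refine Submodule.subset_span ⟨((0, 1), 0), ?_, ?_⟩
  · rw [mem_mons]; simp
  · simp [fv]

theorem y_mem_spA (u1 u2 : A) (y : Fin 4 → A) (k : Fin 4) : y k ∈ spA u1 u2 y (mons 0 1) := by
  classical
  refine Submodule.subset_span ⟨((0, 0), Pi.single k 1), ?_, ?_⟩
  · rw [mem_mons]; simp
  · simp only [fv, pow_zero, one_mul]
    rw [Finset.prod_eq_single k]
    · simp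
    · intro j _ hj
      simp [Pi.single_eq_of_ne hj]
    · simp

theorem pow_mem_spA {u1 u2 : A} {y : Fin 4 → A} {a l : ℕ} {p : A}
    (hp : p ∈ spA u1 u2 y (mons a l)) (n : ℕ) : p ^ n ∈ spA u1 u2 y (mons (n * a) (n * l)) := by
  induction n with
  | zero => simpa using one_mem_spA u1 u2 y
  | succ n ih =>
    rw [pow_succ]
    have := spA_mul u1 u2 y _ _ _ _ ih hp
    rwa [← Nat.succ_mul, ← Nat.succ_mul] at this

theorem prod_mem_spA {ι : Type*} {u1 u2 : A} {y : Fin 4 → A} (s : Finset ι) {a l : ι → ℕ}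
    {p : ι → A} (hp : ∀ i ∈ s, p i ∈ spA u1 u2 y (mons (a i) (l i))) :
    ∏ i ∈ s, p i ∈ spA u1 u2 y (mons (∑ i ∈ s, a i) (∑ i ∈ s, l i)) := by
  classical
  induction s using Finset.induction_on with
  | empty => simpa using one_mem_spA u1 u2 y
  | insert i s hi ih =>
    rw [Finset.prod_insert hi, Finset.sum_insert hi, Finset.sum_insert hi]
    exact spA_mul u1 u2 y _ _ _ _ (hp i (Finset.mem_insert_self i s))
      (ih fun j hj => hp j (Finset.mem_insert_of_mem hj))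

theorem lin_mem_spA (u1 u2 : A) (y : Fin 4 → A) (M : Fin 4 → ℂ) :
    ∑ k, M k • y k ∈ spA u1 u2 y (mons 0 1) :=
  Submodule.sum_mem _ fun k _ => Submodule.smul_mem _ _ (y_mem_spA u1 u2 y k)

/-- linear change of variables. -/
theorem spA_change (u1 u2 : A) (y : Fin 4 → A) (M : Fin 4 → Fin 4 → ℂ) (a l : ℕ) :
    spA u1 u2 (fun j => ∑ k, M j k • y k) (mons a l) ≤ spA u1 u2 y (mons a l) := by
  rw [spA, Submodule.span_le]
  rintro _ ⟨x, hx, rfl⟩
  rw [mem_mons] at hx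
  have h1 := pow_mem_spA (u1_mem_spA u1 u2 y) x.1.1
  have h2 := pow_mem_spA (u2_mem_spA u1 u2 y) x.1.2
  have h3 := prod_mem_spA (Finset.univ : Finset (Fin 4))
    (fun j _ => pow_mem_spA (lin_mem_spA u1 u2 y (M j)) (x.2 j))
  have h4 := spA_mul u1 u2 y _ _ _ _ (spA_mul u1 u2 y _ _ _ _ h1 h2) h3
  simp only [mul_one, mul_zero, Finset.sum_const_zero, add_zero, zero_add, hx.1, hx.2] at h4
  exact h4

/-- the nonzero constant: `π_0^2 γ_0 - π_1^2 γ_1 = c (α_1 - α_0)`. -/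
theorem const_mem (α g1 g2 : Fin 4 → ℂ) (c : ℂ) (n u1 u2 : A) (y : Fin 4 → A)
    (h : ∀ j, (∑ k : Fin 4, (α j ^ (k : ℕ)) • y k) ^ 2 * (g1 j • u1 + g2 j • u2) =
      algebraMap ℂ A c * (n - algebraMap ℂ A (α j))) :
    algebraMap ℂ A (c * (α 1 - α 0)) ∈ spA u1 u2 y (mons 1 2) := by
  have h1 : algebraMap ℂ A (c * (α 1 - α 0)) =
      (∑ k : Fin 4, (α 0 ^ (k : ℕ)) • y k) ^ 2 * (g1 0 • u1 + g2 0 • u2) -
      (∑ k : Fin 4, (α 1 ^ (k : ℕ)) • y k) ^ 2 * (g1 1 • u1 + g2 1 • u2) := by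
    rw [h 0, h 1, map_mul, map_sub]; ring
  rw [h1]
  have h2 : ∀ j, (∑ k : Fin 4, (α j ^ (k : ℕ)) • y k) ^ 2 * (g1 j • u1 + g2 j • u2) ∈
      spA u1 u2 y (mons 1 2) := fun j => by
    have h3 := pow_mem_spA (lin_mem_spA u1 u2 y (fun k : Fin 4 => α j ^ (k : ℕ))) 2
    have h4 : g1 j • u1 + g2 j • u2 ∈ spA u1 u2 y (mons 1 0) :=
      Submodule.add_mem _ (Submodule.smul_mem _ _ (u1_mem_spA u1 u2 y))
        (Submodule.smul_mem _ _ (u2_mem_spA u1 u2 y))
    have h5 := spA_mul u1 u2 y _ _ _ _ h3 h4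
    simpa using h5
  exact Submodule.sub_mem _ (h2 0) (h2 1)

/-- the level of the `k`-th function. -/
def levC (i C0 k : ℕ) : ℕ :=
  if k < 2 * i + 5 * C0 then C0 else C0 + (k - (2 * i + 5 * C0)) / 6 + 1

theorem exists_fam (C0 i r : ℕ) (u1 u2 : A) (y : Fin 4 → A) (κ : ℂ) (hκ : κ ≠ 0)
    (h : algebraMap ℂ A κ ∈ spA u1 u2 y (mons 1 2))
    (hrk : ∀ t, C0 ≤ t → t ≤ C0 + r →
      2 * i + 6 * t ≤ C0 + Module.finrank ℂ (spA u1 u2 y (mons (i + t) (2 * t)))) :
    ∃ x : ℕ → Ix, (∀ k < 2 * i + 5 * C0 + 6 * r, x k ∈ mons (i + levC i C0 k) (2 * levC i C0 k)) ∧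
      LinearIndependent ℂ (fun k : Fin (2 * i + 5 * C0 + 6 * r) => fv u1 u2 y (x k)) := by
  refine exists_indep (fun t => (mons (i + t) (2 * t) : Set Ix)) (fun x => fv u1 u2 y x)
    (levC i C0) _ (fun j k hjk _ => ?_) (fun k hk => ?_)
  · refine spA_mono u1 u2 y κ hκ h i _ _ ?_
    unfold levC
    split_ifs <;> omega
  · have h1 := hrk (levC i C0 k) (by unfold levC; split_ifs <;> omega)
      (by unfold levC; split_ifs <;> omega)
    have h2 : k + C0 < 2 * i + 6 * levC i C0 k := by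
      unfold levC; split_ifs <;> omega
    unfold spA at h1
    omega

end Vale.Agent.P018.QB
end

section

/-! # P018, (B), curve step: functions congruent to polynomials in one parameter.

Tool: if `l ∣ z - 1` in a commutative ring then `l ^ ν ∣ z ^ (l ^ (ν - 1)) - 1`. -/

namespace Vale.Agent.P018.QB

open Polynomial NumberField Vale.Agent.P018.Q

/-- on `S` the function `F` is congruent to a polynomial in `x`, modulo `m`. -/
def IsPol {ι R : Type*} [CommRing R] (S : Set ι) (x : ι → ℤ) (m : ℤ) (F : ι → R) : Prop :=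
  ∃ Q : R[X], ∀ P ∈ S, (m : R) ∣ F P - Q.eval ((x P : ℤ) : R)

section

variable {ι R : Type*} [CommRing R] {S : Set ι} {x : ι → ℤ} {m : ℤ} {F G : ι → R}

theorem IsPol.const (c : R) : IsPol S x m fun _ => c :=
  ⟨C c, fun P _ => by rw [eval_C, sub_self]; exact dvd_zero _⟩

theorem IsPol.mul (hF : IsPol S x m F) (hG : IsPol S x m G) : IsPol S x m fun P => F P * G P := by
  obtain ⟨Q, hQ⟩ := hF
  obtain ⟨Q', hQ'⟩ := hG
  refine ⟨Q * Q', fun P hP => ?_⟩
  rw [eval_mul]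
  have e : F P * G P - Q.eval ((x P : ℤ) : R) * Q'.eval ((x P : ℤ) : R) =
      (F P - Q.eval ((x P : ℤ) : R)) * G P +
        Q.eval ((x P : ℤ) : R) * (G P - Q'.eval ((x P : ℤ) : R)) := by ring
  rw [e]
  exact dvd_add (Dvd.dvd.mul_right (hQ P hP) _) (Dvd.dvd.mul_left (hQ' P hP) _)

theorem IsPol.pow (hF : IsPol S x m F) (n : ℕ) : IsPol S x m fun P => F P ^ n := by
  induction n with
  | zero =>
    simp only [pow_zero]
    exact IsPol.const 1
  | succ n ih =>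
    simp only [pow_succ]
    exact ih.mul hF

theorem IsPol.congr (hF : IsPol S x m F) (h : ∀ P ∈ S, (m : R) ∣ G P - F P) :
    IsPol S x m G := by
  obtain ⟨Q, hQ⟩ := hF
  refine ⟨Q, fun P hP => ?_⟩
  have e : G P - Q.eval ((x P : ℤ) : R) = (G P - F P) + (F P - Q.eval ((x P : ℤ) : R)) := by ring
  rw [e]
  exact dvd_add (h P hP) (hQ P hP)

end

theorem qbc_pow {R : Type*} [CommRing R] {l ν : ℕ} (hν : 1 ≤ ν) {z : R} (h : (l : R) ∣ z - 1) :
    (((l : ℤ) ^ ν : ℤ) : R) ∣ z ^ (l ^ (ν - 1)) - 1 := by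
  have h1 := dvd_sub_pow_of_dvd_sub h (ν - 1)
  rw [one_pow, Nat.sub_add_cancel hν] at h1
  push_cast
  exact h1

/-- solution of `A F^2 = B` in one residue class. -/
theorem isPol_of_sq {ι R : Type*} [CommRing R] (S : Set ι) (x : ι → ℤ) (l ν : ℕ) (hl : Odd l)
    (hν : 1 ≤ ν) (A B F : ι → R) (A0 F0 V : R) (hA : IsPol S x ((l : ℤ) ^ ν) A)
    (hB : IsPol S x ((l : ℤ) ^ ν) B)
    (hAF : ∀ P ∈ S, (((l : ℤ) ^ ν : ℤ) : R) ∣ A P * F P ^ 2 - B P)
    (hA0 : ∀ P ∈ S, (l : R) ∣ A P - A0) (hF0 : ∀ P ∈ S, (l : R) ∣ F P - F0)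
    (hV : (l : R) ∣ V * (A0 * F0) - 1) : IsPol S x ((l : ℤ) ^ ν) F := by
  obtain ⟨k, hk⟩ := hl.pow (n := ν - 1)
  set L : R := (((l : ℤ) ^ ν : ℤ) : R) with hL
  have key : ∀ z : R, (l : R) ∣ z - 1 → L ∣ z ^ (2 * k) * z - 1 := by
    intro z hz
    have h1 := qbc_pow hν hz
    rwa [hk, pow_succ] at h1
  -- `z = V A F`
  have hz : ∀ P ∈ S, (l : R) ∣ V * (A P * F P) - 1 := by
    intro P hP
    have e : V * (A P * F P) - 1 = V * F P * (A P - A0) + V * A0 * (F P - F0) +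
        (V * (A0 * F0) - 1) := by ring
    rw [e]
    exact dvd_add (dvd_add (Dvd.dvd.mul_left (hA0 P hP) _) (Dvd.dvd.mul_left (hF0 P hP) _)) hV
  have h1 : IsPol S x ((l : ℤ) ^ ν) fun P => V * (A P * F P) := by
    refine (((IsPol.const (V ^ 2)).mul (hA.mul hB)).pow (k + 1)).congr fun P hP => ?_
    set z := V * (A P * F P) with hzd
    have h2 := key z (hz P hP)
    have h3 : L ∣ z ^ 2 - V ^ 2 * (A P * B P) := by
      have e : z ^ 2 - V ^ 2 * (A P * B P) = V ^ 2 * A P * (A P * F P ^ 2 - B P) := by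
        rw [hzd]; ring
      rw [e]
      exact Dvd.dvd.mul_left (hAF P hP) _
    have h4 : L ∣ (z ^ 2) ^ (k + 1) - (V ^ 2 * (A P * B P)) ^ (k + 1) :=
      h3.trans (sub_dvd_pow_sub_pow _ _ _)
    have e : z - (V ^ 2 * (A P * B P)) ^ (k + 1) = -(z * (z ^ (2 * k) * z - 1)) +
        ((z ^ 2) ^ (k + 1) - (V ^ 2 * (A P * B P)) ^ (k + 1)) := by ring
    rw [e]
    exact dvd_add ((Dvd.dvd.mul_left h2 _).neg_right) h4
  -- the inverse of `V`
  set c := V * (A0 * F0) with hc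
  have hW := key c hV
  -- the inverse of `A`
  have ht : ∀ P ∈ S, (l : R) ∣ V * F0 * A P - 1 := by
    intro P hP
    have e : V * F0 * A P - 1 = V * F0 * (A P - A0) + (c - 1) := by rw [hc]; ring
    rw [e]
    exact dvd_add (Dvd.dvd.mul_left (hA0 P hP) _) hV
  have h5 : IsPol S x ((l : ℤ) ^ ν) fun P =>
      (V * F0) * ((V * F0 * A P) ^ (2 * k) * ((A0 * F0 * c ^ (2 * k)) * (V * (A P * F P)))) :=
    (IsPol.const _).mul ((((IsPol.const _).mul hA).pow _).mul ((IsPol.const _).mul h1))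
  refine h5.congr fun P hP => ?_
  have h6 := key _ (ht P hP)
  have e : F P - (V * F0) * ((V * F0 * A P) ^ (2 * k) *
      ((A0 * F0 * c ^ (2 * k)) * (V * (A P * F P)))) =
      -(F P * ((V * F0 * A P) ^ (2 * k) * (V * F0 * A P) - 1)) -
        (V * F0) * (V * F0 * A P) ^ (2 * k) * (A P * F P) * (c ^ (2 * k) * c - 1) := by
    rw [hc]
    ring
  rw [e]
  exact dvd_sub ((Dvd.dvd.mul_left h6 _).neg_right) (Dvd.dvd.mul_left hW _)

/-- an inverse and a square root modulo `l ^ ν`. -/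
theorem sqrt_lift (l ν : ℕ) (hl : l.Prime) (hl2 : l ≠ 2) (hν : 1 ≤ ν) (u r κ : ℤ)
    (hu : ¬ (l : ℤ) ∣ u) (hr : ¬ (l : ℤ) ∣ r) (hκ : (l : ℤ) ∣ κ ^ 2 * r - u) :
    ∃ κ' lam : ℤ, (l : ℤ) ∣ κ' - κ ∧ (l : ℤ) ^ ν ∣ κ' ^ 2 * r - u ∧
      (l : ℤ) ^ ν ∣ κ' * lam - 1 := by
  have hlp : Prime (l : ℤ) := Nat.prime_iff_prime_int.1 hl
  have hodd : Odd l := hl.odd_of_ne_two hl2
  obtain ⟨k, hk⟩ := hodd.pow (n := ν - 1)
  have key : ∀ z : ℤ, (l : ℤ) ∣ z - 1 → (l : ℤ) ^ ν ∣ z ^ (2 * k) * z - 1 := by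
    intro z hz
    have h1 := qbc_pow (R := ℤ) hν hz
    rw [hk, pow_succ] at h1
    exact_mod_cast h1
  have hinv : ∀ a : ℤ, ¬ (l : ℤ) ∣ a → ∃ b : ℤ, (l : ℤ) ^ ν ∣ a * b - 1 := by
    intro a ha
    have h1 : IsCoprime ((l : ℤ) ^ ν) a := (hlp.coprime_iff_not_dvd.2 ha).pow_left
    obtain ⟨s, t, hst⟩ := h1
    refine ⟨t, -s, ?_⟩
    linear_combination hst
  have hκl : ¬ (l : ℤ) ∣ κ := by
    intro h
    apply hu
    have h1 : (l : ℤ) ∣ κ ^ 2 * r := Dvd.dvd.mul_right (dvd_pow h two_ne_zero) _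
    have h2 := dvd_sub h1 hκ
    rwa [sub_sub_cancel] at h2
  obtain ⟨r', hr'⟩ := hinv r hr
  obtain ⟨k', hk'⟩ := hinv κ hκl
  have hlL : (l : ℤ) ∣ (l : ℤ) ^ ν := dvd_pow_self _ (by omega)
  set y : ℤ := u * r' * k' ^ 2 with hy
  have hyl : (l : ℤ) ∣ y - 1 := by
    have e : y - 1 = -(r' * k' ^ 2 * (κ ^ 2 * r - u)) + (κ * k') ^ 2 * (r * r' - 1) +
        (κ * k' + 1) * (κ * k' - 1) := by
      rw [hy]; ring
    rw [e]
    exact dvd_add (dvd_add (Dvd.dvd.mul_left hκ _).neg_right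
      (Dvd.dvd.mul_left (hlL.trans hr') _)) (Dvd.dvd.mul_left (hlL.trans hk') _)
  have hyl2 : (l : ℤ) ∣ y ^ (k + 1) - 1 := by
    have h1 := hyl.trans (sub_dvd_pow_sub_pow y 1 (k + 1))
    rwa [one_pow] at h1
  have hκ' : (l : ℤ) ∣ κ * y ^ (k + 1) - κ := by
    have e : κ * y ^ (k + 1) - κ = κ * (y ^ (k + 1) - 1) := by ring
    rw [e]
    exact Dvd.dvd.mul_left hyl2 _
  have hκ'l : ¬ (l : ℤ) ∣ κ * y ^ (k + 1) := by
    intro h
    apply hκl
    have h1 := dvd_sub h hκ'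
    rwa [sub_sub_cancel] at h1
  obtain ⟨lam, hlam⟩ := hinv _ hκ'l
  refine ⟨κ * y ^ (k + 1), lam, hκ', ?_, hlam⟩
  have e : (κ * y ^ (k + 1)) ^ 2 * r - u = κ ^ 2 * r * y * (y ^ (2 * k) * y - 1) +
      u * ((κ * k') ^ 2 * (r * r' - 1) + (κ * k' + 1) * (κ * k' - 1)) := by
    have e1 : (κ * y ^ (k + 1)) ^ 2 * r - u = κ ^ 2 * r * y * (y ^ (2 * k) * y - 1) +
      (κ ^ 2 * r * y - u) := by ring
    rw [e1]
    congr 1
    rw [hy]
    ring
  rw [e]
  exact dvd_add (Dvd.dvd.mul_left (key y hyl) _) (Dvd.dvd.mul_left (dvd_add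
    (Dvd.dvd.mul_left hr' _) (Dvd.dvd.mul_left hk' _)) _)

end Vale.Agent.P018.QB
end

section

/-! # P018, (B), curve step: the numerical inequality `num_ineq`. -/

namespace Vale.Agent.P018.QB

open Finset

/-- the levels in the first block. -/
theorem levC_lo (i C0 k : ℕ) (hk : k < 2 * i + 5 * C0) : levC i C0 k = C0 := by
  unfold levC
  rw [if_pos hk]

/-- the levels in the later blocks. -/
theorem levC_hi (i C0 r b : ℕ) (hb : b < 6) :
    levC i C0 (2 * i + 5 * C0 + 6 * r + b) = C0 + r + 1 := by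
  unfold levC
  rw [if_neg (by omega)]
  have : (2 * i + 5 * C0 + 6 * r + b - (2 * i + 5 * C0)) / 6 = r := by omega
  rw [this]

/-- the sum of the levels. -/
theorem sum_levC (i C0 r : ℕ) :
    ∑ k ∈ range (2 * i + 5 * C0 + 6 * r), levC i C0 k =
      C0 * (2 * i + 5 * C0 + 6 * r) + 3 * (r * (r + 1)) := by
  induction r with
  | zero =>
    rw [Finset.sum_congr rfl (fun k hk => levC_lo i C0 k (by simpa using hk))]
    simp [Nat.mul_comm]
  | succ r ih =>
    have h : 2 * i + 5 * C0 + 6 * (r + 1) = 2 * i + 5 * C0 + 6 * r + 6 := by ring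
    have h0 := levC_hi i C0 r 0 (by norm_num)
    rw [Nat.add_zero] at h0
    rw [h, Finset.sum_range_succ, Finset.sum_range_succ, Finset.sum_range_succ,
      Finset.sum_range_succ, Finset.sum_range_succ, Finset.sum_range_succ, ih,
      levC_hi i C0 r 1 (by norm_num), levC_hi i C0 r 2 (by norm_num),
      levC_hi i C0 r 3 (by norm_num), levC_hi i C0 r 4 (by norm_num),
      levC_hi i C0 r 5 (by norm_num), h0]
    ring

/-- Numerics: with `n = 26 s + 5 C0`, `∑_{k<n} (4 s + levC k) = 131 s^2 + O(s)`,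
`∑_{k<n} 2 levC k = 54 s^2 + O(s)`, `n (n - 1) / 2 ≥ 338 s^2` (for `C0 ≥ 1`). -/
theorem num_ineq (C0 C : ℕ) (hC0 : 1 ≤ C0) (ε : ℝ) (hε : 0 < ε) :
    ∃ (s : ℕ) (K : ℝ), 1 ≤ s ∧ C0 ≤ s ∧ 1 ≤ K ∧ ∀ (T U q : ℝ), 1 ≤ T → 1 ≤ U → U ≤ C * T ^ 4 →
      K * (T ^ (27 / 169 + ε) * U ^ (131 / 338 : ℝ)) ≤ q →
      (2 * ((2 * (4 * s) + 5 * C0 + 6 * (3 * s) : ℕ) : ℝ)) ^ (2 * (4 * s) + 5 * C0 + 6 * (3 * s)) *
        ∏ k ∈ range (2 * (4 * s) + 5 * C0 + 6 * (3 * s)),
          (U ^ (4 * s + levC (4 * s) C0 k) * ((C + 1) * T) ^ (2 * levC (4 * s) C0 k)) ≤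
      q ^ ((2 * (4 * s) + 5 * C0 + 6 * (3 * s)) * (2 * (4 * s) + 5 * C0 + 6 * (3 * s) - 1) / 2) := by
  obtain ⟨s0, hs0⟩ := exists_nat_ge ((236 * (C0 : ℝ) + 54 + 30 * (C0 : ℝ) ^ 2) / (338 * ε))
  set s : ℕ := s0 + 1 + C0 with hs
  have hs1 : 1 ≤ s := by omega
  have hsC0 : C0 ≤ s := by omega
  have hsε : (236 * (C0 : ℝ) + 54 + 30 * (C0 : ℝ) ^ 2) ≤ 338 * ε * s := by
    have h1 : (236 * (C0 : ℝ) + 54 + 30 * (C0 : ℝ) ^ 2) / (338 * ε) ≤ s := by
      have hC00 : (0 : ℝ) ≤ C0 := Nat.cast_nonneg _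
      rw [hs]; push_cast; linarith only [hC00, hs0]
    rw [div_le_iff₀ (by positivity)] at h1
    linarith only [h1]
  clear_value s
  set n : ℕ := 2 * (4 * s) + 5 * C0 + 6 * (3 * s) with hn
  set D : ℕ := (46 * C0 + 9) * s + 5 * C0 ^ 2 with hD
  set B : ℕ := 54 * s ^ 2 + ((52 * C0 + 18) * s + 10 * C0 ^ 2) with hB
  have hsumL : ∑ k ∈ range n, levC (4 * s) C0 k = C0 * n + 3 * (3 * s * (3 * s + 1)) := by
    rw [hn]
    exact sum_levC (4 * s) C0 (3 * s)
  have hsumB : ∑ k ∈ range n, 2 * levC (4 * s) C0 k = B := by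
    rw [← Finset.mul_sum, hsumL, hB, hn]
    ring
  have hsumA : ∑ k ∈ range n, (4 * s + levC (4 * s) C0 k) = 131 * s ^ 2 + D := by
    rw [Finset.sum_add_distrib, hsumL, hD]
    simp only [Finset.sum_const, Finset.card_range, smul_eq_mul]
    rw [hn]
    ring
  set N : ℕ := n * (n - 1) / 2 with hN
  have hN1 : 338 * s ^ 2 ≤ N := by
    rw [hN, Nat.le_div_iff_mul_le (by norm_num)]
    have h1 : 26 * s + 5 ≤ n := by rw [hn]; omega
    have h2 : 26 * s + 4 ≤ n - 1 := by omega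
    calc 338 * s ^ 2 * 2 ≤ (26 * s + 5) * (26 * s + 4) := by nlinarith
      _ ≤ n * (n - 1) := Nat.mul_le_mul h1 h2
  have hN0 : N ≠ 0 := by
    have : 0 < s ^ 2 := by positivity
    omega
  have hn1 : 1 ≤ n := by rw [hn]; omega
  have hnR : (1 : ℝ) ≤ 2 * (n : ℝ) := by
    have : (1 : ℝ) ≤ n := by exact_mod_cast hn1
    linarith only [this]
  have hC1 : (1 : ℝ) ≤ (C : ℝ) + 1 := by
    have : (0 : ℝ) ≤ C := Nat.cast_nonneg _
    linarith only [this]
  refine ⟨s, (2 * (n : ℝ)) ^ n * ((C : ℝ) + 1) ^ (B + D), hs1, hsC0, ?_, ?_⟩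
  · exact one_le_mul_of_one_le_of_one_le (one_le_pow₀ hnR) (one_le_pow₀ hC1)
  intro T U q hT hU hUT hq
  rw [Finset.prod_mul_distrib, Finset.prod_pow_eq_pow_sum, Finset.prod_pow_eq_pow_sum, hsumA,
    hsumB]
  set K : ℝ := (2 * (n : ℝ)) ^ n * ((C : ℝ) + 1) ^ (B + D) with hK
  have hK1 : 1 ≤ K := one_le_mul_of_one_le_of_one_le (one_le_pow₀ hnR) (one_le_pow₀ hC1)
  have hT0 : 0 < T := by linarith only [hT]
  have hU0 : 0 < U := by linarith only [hU]
  have hTp : (1 : ℝ) ≤ T ^ (27 / 169 + ε) := Real.one_le_rpow hT (by positivity)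
  have hUp : (1 : ℝ) ≤ U ^ (131 / 338 : ℝ) := Real.one_le_rpow hU (by norm_num)
  have hUb : U ≤ ((C : ℝ) + 1) * T ^ 4 := by
    have : 0 < T ^ 4 := by positivity
    linarith only [this, hUT]
  -- the right side
  have hR1 : K * (T ^ (27 / 169 + ε) * U ^ (131 / 338 : ℝ)) ^ (338 * s ^ 2) ≤ q ^ N := by
    have hx : (1 : ℝ) ≤ T ^ (27 / 169 + ε) * U ^ (131 / 338 : ℝ) :=
      one_le_mul_of_one_le_of_one_le hTp hUp
    calc K * (T ^ (27 / 169 + ε) * U ^ (131 / 338 : ℝ)) ^ (338 * s ^ 2)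
        ≤ K ^ N * (T ^ (27 / 169 + ε) * U ^ (131 / 338 : ℝ)) ^ N := by
          apply mul_le_mul _ _ (by positivity) (by positivity)
          · exact le_self_pow₀ hK1 hN0
          · exact pow_le_pow_right₀ hx hN1
      _ = (K * (T ^ (27 / 169 + ε) * U ^ (131 / 338 : ℝ))) ^ N := (mul_pow K _ N).symm
      _ ≤ q ^ N := pow_le_pow_left₀ (by positivity) hq N
  have hU2 : (U ^ (131 / 338 : ℝ)) ^ (338 * s ^ 2) = U ^ (131 * s ^ 2) := by
    rw [← Real.rpow_natCast, ← Real.rpow_mul hU0.le, ← Real.rpow_natCast]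
    congr 1
    push_cast
    ring
  have hT2 : T ^ (B + 4 * D) ≤ (T ^ (27 / 169 + ε)) ^ (338 * s ^ 2) := by
    rw [← Real.rpow_natCast, ← Real.rpow_natCast, ← Real.rpow_mul hT0.le]
    apply Real.rpow_le_rpow_of_exponent_le hT
    rw [hB, hD]
    push_cast
    have hs1' : (1 : ℝ) ≤ s := by exact_mod_cast hs1
    have hs0' : (0 : ℝ) ≤ s := by linarith only [hs1']
    have h1 : (236 * (C0 : ℝ) + 54 + 30 * (C0 : ℝ) ^ 2) * s ≤ 338 * ε * s * s :=
      mul_le_mul_of_nonneg_right hsε hs0'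
    have h2 : 30 * (C0 : ℝ) ^ 2 ≤ 30 * (C0 : ℝ) ^ 2 * s := by
      have : 0 ≤ 30 * (C0 : ℝ) ^ 2 := by positivity
      linarith only [mul_nonneg (sub_nonneg.2 hs1') (sub_nonneg.2 this)]
    linarith only [h2, h1]
  calc (2 * (n : ℝ)) ^ n * (U ^ (131 * s ^ 2 + D) * (((C : ℝ) + 1) * T) ^ B)
      = (2 * (n : ℝ)) ^ n * (U ^ (131 * s ^ 2) * U ^ D * (((C : ℝ) + 1) * T) ^ B) := by
        rw [pow_add U (131 * s ^ 2) D]
    _ ≤ (2 * (n : ℝ)) ^ n * (U ^ (131 * s ^ 2) * (((C : ℝ) + 1) * T ^ 4) ^ D *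
          (((C : ℝ) + 1) * T) ^ B) := by
        gcongr
    _ = K * (T ^ (B + 4 * D) * U ^ (131 * s ^ 2)) := by
        rw [hK, mul_pow ((C : ℝ) + 1) T B, mul_pow ((C : ℝ) + 1) (T ^ 4) D,
          pow_add ((C : ℝ) + 1) B D, pow_add T B (4 * D), ← pow_mul T 4 D]
        ring
    _ ≤ K * ((T ^ (27 / 169 + ε)) ^ (338 * s ^ 2) * (U ^ (131 / 338 : ℝ)) ^ (338 * s ^ 2)) := by
        rw [hU2]
        gcongr
    _ = K * (T ^ (27 / 169 + ε) * U ^ (131 / 338 : ℝ)) ^ (338 * s ^ 2) := by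
        rw [← mul_pow]
    _ ≤ q ^ N := hR1

end Vale.Agent.P018.QB
end

section

/-! # P018, (B): determinants of square roots. -/

namespace Vale.Agent.P018.QB

open Matrix

/-- the divided differences of `t ↦ √(1 - a t)` in terms of the values. -/
noncomputable def fzd (a : ℂ) (g : Fin 4 → ℂ) : Fin 4 → ℂ :=
  ![g 0, -a / (g 0 + g 1), -a ^ 2 / ((g 0 + g 1) * (g 1 + g 2) * (g 0 + g 2)),
    -a ^ 3 * (g 0 + g 1 + g 2 + g 3) /
      ((g 0 + g 1) * (g 0 + g 2) * (g 0 + g 3) * (g 1 + g 2) * (g 1 + g 3) * (g 2 + g 3))]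

/-- the Newton basis. -/
def fzU (t : Fin 4 → ℂ) : Matrix (Fin 4) (Fin 4) ℂ :=
  !![1, 1, 1, 1;
    0, t 1 - t 0, t 2 - t 0, t 3 - t 0;
    0, 0, (t 2 - t 0) * (t 2 - t 1), (t 3 - t 0) * (t 3 - t 1);
    0, 0, 0, (t 3 - t 0) * (t 3 - t 1) * (t 3 - t 2)]

theorem fz_detU (t : Fin 4 → ℂ) : (fzU t).det =
    (t 1 - t 0) * (t 2 - t 0) * (t 3 - t 0) * (t 2 - t 1) * (t 3 - t 1) * (t 3 - t 2) := by
  unfold fzU
  rw [Matrix.det_succ_column_zero]
  simp [Fin.sum_univ_succ, Matrix.det_fin_three, Matrix.submatrix]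
  ring

/-- Newton interpolation. -/
theorem fz_newton (a : ℂ) (g t : Fin 4 → ℂ) (hg : ∀ k, g k ^ 2 = 1 - a * t k)
    (h : ∀ k l, g k + g l ≠ 0) (k : Fin 4) :
    ∑ i, fzd a g i * fzU t i k = g k := by
  have e : ∀ k l, a * (t l - t k) = g k ^ 2 - g l ^ 2 := by
    intro k l
    rw [hg, hg]
    ring
  have h01 := h 0 1
  have h02 := h 0 2
  have h03 := h 0 3
  have h12 := h 1 2
  have h13 := h 1 3
  have h23 := h 2 3
  rw [Fin.sum_univ_four]
  fin_cases k
  · simp [fzd, fzU]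
  · simp only [fzd, fzU, Fin.isValue, Matrix.cons_val_zero, Matrix.cons_val_one, Matrix.cons_val,
      Matrix.of_apply, Fin.mk_one]
    have e1 : -a / (g 0 + g 1) * (t 1 - t 0) = -(g 0 ^ 2 - g 1 ^ 2) / (g 0 + g 1) := by
      rw [← e 0 1]
      ring
    rw [e1, mul_zero, mul_zero, add_zero, add_zero]
    field_simp
    ring
  · simp only [fzd, fzU, Fin.isValue, Matrix.cons_val_zero, Matrix.cons_val_one, Matrix.cons_val,
      Matrix.of_apply, Fin.reduceFinMk]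
    have e1 : -a / (g 0 + g 1) * (t 2 - t 0) = -(g 0 ^ 2 - g 2 ^ 2) / (g 0 + g 1) := by
      rw [← e 0 2]
      ring
    have e2 : -a ^ 2 / ((g 0 + g 1) * (g 1 + g 2) * (g 0 + g 2)) *
        ((t 2 - t 0) * (t 2 - t 1)) = -((g 0 ^ 2 - g 2 ^ 2) * (g 1 ^ 2 - g 2 ^ 2)) /
          ((g 0 + g 1) * (g 1 + g 2) * (g 0 + g 2)) := by
      rw [← e 0 2, ← e 1 2]
      ring
    rw [e1, e2]
    field_simp
    ring
  · simp only [fzd, fzU, Fin.isValue, Matrix.cons_val_zero, Matrix.cons_val_one, Matrix.cons_val,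
      Matrix.of_apply, Fin.reduceFinMk]
    have e1 : -a / (g 0 + g 1) * (t 3 - t 0) = -(g 0 ^ 2 - g 3 ^ 2) / (g 0 + g 1) := by
      rw [← e 0 3]
      ring
    have e2 : -a ^ 2 / ((g 0 + g 1) * (g 1 + g 2) * (g 0 + g 2)) *
        ((t 3 - t 0) * (t 3 - t 1)) = -((g 0 ^ 2 - g 3 ^ 2) * (g 1 ^ 2 - g 3 ^ 2)) /
          ((g 0 + g 1) * (g 1 + g 2) * (g 0 + g 2)) := by
      rw [← e 0 3, ← e 1 3]
      ring
    have e3 : -a ^ 3 * (g 0 + g 1 + g 2 + g 3) /
        ((g 0 + g 1) * (g 0 + g 2) * (g 0 + g 3) * (g 1 + g 2) * (g 1 + g 3) * (g 2 + g 3)) *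
        ((t 3 - t 0) * (t 3 - t 1) * (t 3 - t 2)) =
        -((g 0 ^ 2 - g 3 ^ 2) * (g 1 ^ 2 - g 3 ^ 2) * (g 2 ^ 2 - g 3 ^ 2)) *
          (g 0 + g 1 + g 2 + g 3) /
        ((g 0 + g 1) * (g 0 + g 2) * (g 0 + g 3) * (g 1 + g 2) * (g 1 + g 3) * (g 2 + g 3)) := by
      rw [← e 0 3, ← e 1 3, ← e 2 3]
      ring
    rw [e1, e2, e3]
    field_simp
    ring

/-- the determinant of the values. -/
theorem fz_det (α : Fin 4 → ℂ) (f : Fin 4 → Fin 4 → ℂ) (t : Fin 4 → ℂ)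
    (hf : ∀ j k, f j k ^ 2 = 1 - α j * t k) (h : ∀ j k l, f j k + f j l ≠ 0) :
    (Matrix.of f).det = (Matrix.of fun j i => fzd (α j) (f j) i).det *
      ((t 1 - t 0) * (t 2 - t 0) * (t 3 - t 0) * (t 2 - t 1) * (t 3 - t 1) * (t 3 - t 2)) := by
  rw [← fz_detU, ← Matrix.det_mul]
  congr 1
  ext j k
  rw [Matrix.mul_apply]
  exact (fz_newton (α j) (f j) t (hf j) (h j) k).symm

/-- the determinant of the divided differences near `1`. -/
theorem fz_near (α : Fin 4 → ℂ) (hα : Function.Injective α) :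
    ∃ (δ B : ℝ), 0 < δ ∧ 0 < B ∧ ∀ f : Fin 4 → Fin 4 → ℂ, (∀ j k, ‖f j k - 1‖ < δ) →
      (Matrix.of fun j i => fzd (α j) (f j) i).det ≠ 0 ∧
      ‖(Matrix.of fun j i => fzd (α j) (f j) i).det‖ ≤ B := by
  set Dt : (Fin 4 → Fin 4 → ℂ) → ℂ := fun f => (Matrix.of fun j i => fzd (α j) (f j) i).det
    with hDt
  have hcont : ContinuousAt Dt (fun _ _ => 1) := by
    have h1 : ContinuousAt (fun f : Fin 4 → Fin 4 → ℂ =>
        (Matrix.of fun j i => fzd (α j) (f j) i : Matrix (Fin 4) (Fin 4) ℂ)) (fun _ _ => 1) := by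
      refine continuousAt_pi.2 fun j => continuousAt_pi.2 fun i => ?_
      have hc : ∀ k, ContinuousAt (fun f : Fin 4 → Fin 4 → ℂ => f j k) (fun _ _ => 1) :=
        fun k => ((continuous_apply k).comp (continuous_apply j)).continuousAt
      have c0 := hc 0
      have c1 := hc 1
      have c2 := hc 2
      have c3 := hc 3
      fin_cases i
      · exact c0
      · change ContinuousAt (fun f : Fin 4 → Fin 4 → ℂ => -α j / (f j 0 + f j 1)) _
        refine ContinuousAt.div continuousAt_const (c0.add c1) (by norm_num)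
      · change ContinuousAt (fun f : Fin 4 → Fin 4 → ℂ => -α j ^ 2 /
          ((f j 0 + f j 1) * (f j 1 + f j 2) * (f j 0 + f j 2))) _
        refine ContinuousAt.div continuousAt_const
          (((c0.add c1).mul (c1.add c2)).mul (c0.add c2)) (by norm_num)
      · change ContinuousAt (fun f : Fin 4 → Fin 4 → ℂ => -α j ^ 3 *
          (f j 0 + f j 1 + f j 2 + f j 3) /
          ((f j 0 + f j 1) * (f j 0 + f j 2) * (f j 0 + f j 3) * (f j 1 + f j 2) *
            (f j 1 + f j 3) * (f j 2 + f j 3))) _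
        refine ContinuousAt.div (continuousAt_const.mul (((c0.add c1).add c2).add c3))
          ((((((c0.add c1).mul (c0.add c2)).mul (c0.add c3)).mul (c1.add c2)).mul
            (c1.add c3)).mul (c2.add c3)) (by norm_num)
    exact ContinuousAt.comp (g := fun A : Matrix (Fin 4) (Fin 4) ℂ => A.det)
      (Continuous.matrix_det continuous_id).continuousAt h1
  have hval : Dt (fun _ _ => 1) ≠ 0 := by
    have h1 : (Matrix.of fun j i => fzd (α j) (fun _ => 1) i : Matrix (Fin 4) (Fin 4) ℂ) =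
        Matrix.vandermonde α * Matrix.diagonal ![1, -1 / 2, -1 / 8, -1 / 16] := by
      ext j i
      rw [Matrix.mul_diagonal, Matrix.vandermonde_apply]
      fin_cases i
      · simp [fzd]
      · simp [fzd]
        ring
      · simp [fzd]
        ring
      · simp [fzd]
        ring
    change (Matrix.of fun j i => fzd (α j) (fun _ => 1) i : Matrix (Fin 4) (Fin 4) ℂ).det ≠ 0
    rw [h1, Matrix.det_mul, Matrix.det_diagonal]
    refine mul_ne_zero (Matrix.det_vandermonde_ne_zero_iff.2 hα) ?_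
    rw [Fin.prod_univ_four]
    simp
  have hε : 0 < ‖Dt (fun _ _ => 1)‖ := norm_pos_iff.2 hval
  obtain ⟨δ, hδ, hball⟩ := Metric.continuousAt_iff.1 hcont ‖Dt (fun _ _ => 1)‖ hε
  refine ⟨δ, 2 * ‖Dt (fun _ _ => 1)‖, hδ, by linarith, fun f hf => ?_⟩
  have h1 : dist f (fun _ _ => (1 : ℂ)) < δ := by
    rw [dist_pi_lt_iff hδ]
    intro j
    rw [dist_pi_lt_iff hδ]
    intro k
    rw [dist_eq_norm]
    exact hf j k
  have h2 := hball h1
  rw [dist_eq_norm] at h2
  constructor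
  · intro h3
    have h4 : Dt f = 0 := h3
    rw [h4, zero_sub, norm_neg] at h2
    exact lt_irrefl _ h2
  · have h5 : ‖Dt f‖ ≤ ‖Dt f - Dt (fun _ _ => 1)‖ + ‖Dt (fun _ _ => 1)‖ := by
      simpa using norm_add_le (Dt f - Dt (fun _ _ => 1)) (Dt (fun _ _ => 1))
    change ‖Dt f‖ ≤ _
    linarith

/-- a square root near `1`. -/
theorem fz_sqrt (z : ℂ) : ∃ w : ℂ, w ^ 2 = 1 - z ∧ ‖w - 1‖ ≤ ‖z‖ := by
  obtain ⟨w, hw⟩ := IsAlgClosed.exists_pow_nat_eq (1 - z) (n := 2) (by norm_num)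
  have key : ∀ w : ℂ, w ^ 2 = 1 - z → 0 ≤ w.re → ‖w - 1‖ ≤ ‖z‖ := by
    intro w hw hre
    have h1 : (w - 1) * (w + 1) = -z := by linear_combination hw
    have h2 : ‖w - 1‖ * ‖w + 1‖ = ‖z‖ := by rw [← norm_mul, h1, norm_neg]
    have h3 : 1 ≤ ‖w + 1‖ := by
      have h4 : (w + 1).re ≤ ‖w + 1‖ := Complex.re_le_norm _
      rw [Complex.add_re, Complex.one_re] at h4
      linarith
    linarith only [mul_nonneg (sub_nonneg.2 h3) (sub_nonneg.2 (norm_nonneg (w - 1))), h2]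
  rcases le_total 0 w.re with h | h
  · exact ⟨w, hw, key w hw h⟩
  · refine ⟨-w, by rw [neg_sq, hw], key (-w) (by rw [neg_sq, hw]) ?_⟩
    rw [Complex.neg_re]
    linarith

end Vale.Agent.P018.QB
end

section

/-! # P018, (B): gap curves, counting solutions whose prime divides a given integer. -/

namespace Vale.Agent.P018.QB.GapC

open Polynomial NumberField Vale.Agent.P018.Q

theorem int_dvd_of_dvd {L : Type} [Field L] [NumberField L] (a b : ℤ)
    (h : (a : 𝓞 L) ∣ (b : 𝓞 L)) : a ∣ b := by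
  classical
  have h1 := map_dvd (Algebra.norm ℤ) h
  have h2 : ∀ x : ℤ, Algebra.norm ℤ ((x : 𝓞 L)) =
      x ^ (Fintype.card (Module.Free.ChooseBasisIndex ℤ (𝓞 L))) := by
    intro x
    have := Algebra.norm_algebraMap_of_basis (RingOfIntegers.basis L) x
    simpa using this
  rw [h2, h2] at h1
  exact (Int.pow_dvd_pow_iff Fintype.card_ne_zero).1 h1

/-- the prime divides `G(N)`. -/
theorem prime_dvd_G {L : Type} [Field L] [NumberField L] {θ : Fin 4 → 𝓞 L} {G : ℤ[X]}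
    (hG : Root4 θ G) {C : ℕ} {X T : ℝ} (hT : (C : ℝ) < T ^ 4) {N : ℤ} {q : ℕ} {c : ℤ}
    {y z : Fin 4 → ℤ} (h : Dat θ C X T N q c y z) : (q : ℤ) ∣ G.eval N := by
  obtain ⟨c', -, -, hc'⟩ := h.nrm
  have h1 : ∏ i, ((c : 𝓞 L) * ((N : 𝓞 L) - θ i)) = ∏ i, (K.ell (θ i) y ^ 2 * K.ell (θ i) z) :=
    Finset.prod_congr rfl fun i _ => h.eqn i
  rw [Finset.prod_mul_distrib, Finset.prod_mul_distrib, Finset.prod_pow, hc'] at h1
  have h2 : ∏ i, ((N : 𝓞 L) - θ i) = ((G.eval N : ℤ) : 𝓞 L) := by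
    have h3 := congrArg (Polynomial.eval (N : 𝓞 L)) hG.roots
    rw [Polynomial.eval_prod] at h3
    simp only [eval_sub, eval_X, eval_C] at h3
    rw [← h3, Polynomial.eval_map]
    have := Polynomial.eval₂_at_apply (algebraMap ℤ (𝓞 L)) N (p := G)
    simpa using this
  rw [h2, Finset.prod_const, Finset.card_univ, Fintype.card_fin] at h1
  have h4 : (q : ℤ) ∣ c ^ 4 * G.eval N := by
    apply int_dvd_of_dvd (L := L)
    refine ⟨((q : ℤ) * c' ^ 2 : ℤ) * ∏ i, K.ell (θ i) z, ?_⟩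
    have h5 : (((c ^ 4 * G.eval N : ℤ)) : 𝓞 L) = (c : 𝓞 L) ^ 4 * ((G.eval N : ℤ) : 𝓞 L) := by
      push_cast; ring
    rw [h5, h1]
    push_cast
    ring
  have hp : Prime ((q : ℕ) : ℤ) := Nat.prime_iff_prime_int.1 h.prime
  rcases hp.dvd_or_dvd h4 with h5 | h5
  · exfalso
    have h6 := hp.dvd_of_dvd_pow h5
    have h7 : (q : ℤ) ≤ |c| := by
      have := Int.le_of_dvd (abs_pos.2 h.c0) ((dvd_abs _ _).2 h6)
      exact this
    have h8 : (q : ℝ) ≤ C := by
      have := h7.trans h.cC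
      exact_mod_cast this
    have h9 := h.lo
    linarith
  · exact h5

/-- the number of solutions with a given prime. -/
theorem card_prime {L : Type} [Field L] [NumberField L] (θ : Fin 4 → 𝓞 L) (G : ℤ[X])
    (hG : Root4 θ G) (C : ℕ) (X T : ℝ) (hT : (C : ℝ) < T ^ 4) (hX1 : 1 ≤ X)
    (hX : X ≤ C * T ^ 4) (c : ℤ) (q : ℕ) (S : Finset ℤ) (y z : ℤ → Fin 4 → ℤ)
    (hS : ∀ N ∈ S, Dat θ C X T N q c (y N) (z N)) : S.card ≤ 4 * (2 * C ^ 2 + 1) := by
  classical
  rcases S.eq_empty_or_nonempty with rfl | ⟨N0, hN0⟩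
  · simp
  have hq : q.Prime := (hS N0 hN0).prime
  have hq0 : (0 : ℤ) < q := by exact_mod_cast hq.pos
  have : Fact q.Prime := ⟨hq⟩
  have hmon : (G.map (Int.castRingHom (ZMod q))).Monic := hG.monic.map _
  have hNb : ∀ N ∈ S, |N| ≤ (C : ℤ) ^ 2 * q := by
    intro N hN
    have h1 : |(N : ℝ)| ≤ (C : ℝ) ^ 2 * q := by
      have hC0 : (0 : ℝ) ≤ C := Nat.cast_nonneg C
      calc |(N : ℝ)| ≤ C * X := (hS N hN).hN
        _ ≤ C * (C * T ^ 4) := by gcongr
        _ ≤ C * (C * q) := by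
          have := (hS N hN).lo
          gcongr
        _ = _ := by ring
    exact_mod_cast h1
  have h1 : S.card ≤ (((G.map (Int.castRingHom (ZMod q))).roots.toFinset) ×ˢ
      (Finset.Icc (-(C : ℤ) ^ 2) ((C : ℤ) ^ 2))).card := by
    refine Finset.card_le_card_of_injOn (fun N => ((N : ZMod q), N / (q : ℤ))) ?_ ?_
    · intro N hN
      have hN' : N ∈ S := hN
      rw [Finset.mem_coe, Finset.mem_product]
      constructor
      · rw [Multiset.mem_toFinset, mem_roots hmon.ne_zero, IsRoot.def]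
        have h2 := prime_dvd_G hG hT (hS N hN')
        have h3 : ((G.eval N : ℤ) : ZMod q) = 0 := (ZMod.intCast_zmod_eq_zero_iff_dvd _ _).2 h2
        rw [← h3, Polynomial.eval_map]
        have := Polynomial.eval₂_at_apply (Int.castRingHom (ZMod q)) N (p := G)
        simpa using this
      · have h2 := abs_le.1 (hNb N hN')
        simp only [Finset.mem_Icc]
        constructor
        · apply Int.le_ediv_of_mul_le hq0
          linarith [h2.1]
        · exact Int.ediv_le_of_le_mul hq0 h2.2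
    · intro N hN N' hN' h
      simp only [Prod.mk.injEq] at h
      obtain ⟨ha, hb⟩ := h
      rw [ZMod.intCast_eq_intCast_iff] at ha
      have hc : N % q = N' % q := ha
      have e1 := Int.mul_ediv_add_emod N q
      have e2 := Int.mul_ediv_add_emod N' q
      rw [← e1, ← e2, hb, hc]
  refine h1.trans ?_
  rw [Finset.card_product]
  refine Nat.mul_le_mul ?_ ?_
  · calc _ ≤ Multiset.card (G.map (Int.castRingHom (ZMod q))).roots :=
          Multiset.toFinset_card_le _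
      _ ≤ (G.map (Int.castRingHom (ZMod q))).natDegree := card_roots' _
      _ ≤ G.natDegree := natDegree_map_le
      _ = 4 := hG.deg
  · rw [Int.card_Icc]
    have : (0 : ℤ) ≤ (C : ℤ) ^ 2 := by positivity
    have h2 : ((C : ℤ) ^ 2 + 1 - -(C : ℤ) ^ 2) = ((2 * C ^ 2 + 1 : ℕ) : ℤ) := by push_cast; ring
    rw [h2, Int.toNat_natCast]

/-- the number of solutions whose prime divides `E`. -/
theorem card_dvd {L : Type} [Field L] [NumberField L] (θ : Fin 4 → 𝓞 L) (G : ℤ[X])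
    (hG : Root4 θ G) (C : ℕ) (X T : ℝ) (hT : (C : ℝ) < T ^ 4) (hT1 : 1 < T ^ 4) (hX1 : 1 ≤ X)
    (hX : X ≤ C * T ^ 4) (c : ℤ) (E : ℤ) (hE : E ≠ 0) (r H : ℕ) (hEH : |E| ≤ (H : ℤ) ^ r)
    (hH : (H : ℝ) ≤ (T ^ 4) ^ 2) (S : Finset ℤ) (p : ℤ → ℕ) (y z : ℤ → Fin 4 → ℤ)
    (hS : ∀ N ∈ S, Dat θ C X T N (p N) c (y N) (z N) ∧ (p N : ℤ) ∣ E) :
    S.card ≤ 2 * r * (4 * (2 * C ^ 2 + 1)) := by
  classical
  have h1 := Finset.card_le_mul_card_image (f := p) S (4 * (2 * C ^ 2 + 1)) (by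
    intro q hq
    refine card_prime θ G hG C X T hT hX1 hX c q _ y z ?_
    intro N hN
    obtain ⟨h1, h2⟩ := Finset.mem_filter.1 hN
    rw [← h2]
    exact (hS N h1).1)
  have h2 : (S.image p).card ≤ 2 * r := by
    have hpr : ∀ q ∈ S.image p, q.Prime ∧ T ^ 4 ≤ q ∧ q ∣ E.natAbs := by
      intro q hq
      obtain ⟨N, hN, rfl⟩ := Finset.mem_image.1 hq
      exact ⟨(hS N hN).1.prime, (hS N hN).1.lo, Int.natCast_dvd.1 (hS N hN).2⟩
    have h3 : ∏ q ∈ S.image p, q ∣ E.natAbs :=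
      Finset.prod_primes_dvd _ (fun q hq => (hpr q hq).1.prime) (fun q hq => (hpr q hq).2.2)
    have h4 := Nat.le_of_dvd (Int.natAbs_pos.2 hE) h3
    have h5 : (T ^ 4) ^ (S.image p).card ≤ ((∏ q ∈ S.image p, q : ℕ) : ℝ) := by
      push_cast
      rw [← Finset.prod_const]
      exact Finset.prod_le_prod (fun _ _ => by positivity) (fun q hq => (hpr q hq).2.1)
    have h6 : ((E.natAbs : ℕ) : ℝ) ≤ (H : ℝ) ^ r := by
      have : ((E.natAbs : ℕ) : ℤ) ≤ (H : ℤ) ^ r := by rw [Int.natCast_natAbs]; exact hEH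
      exact_mod_cast this
    have h7 : (T ^ 4) ^ (S.image p).card ≤ (T ^ 4) ^ (2 * r) := by
      calc (T ^ 4) ^ (S.image p).card ≤ ((∏ q ∈ S.image p, q : ℕ) : ℝ) := h5
        _ ≤ (E.natAbs : ℝ) := by exact_mod_cast h4
        _ ≤ (H : ℝ) ^ r := h6
        _ ≤ ((T ^ 4) ^ 2) ^ r := by gcongr
        _ = _ := by rw [← pow_mul]
    exact (pow_le_pow_iff_right₀ hT1).1 h7
  calc S.card ≤ 4 * (2 * C ^ 2 + 1) * (S.image p).card := h1
    _ ≤ 4 * (2 * C ^ 2 + 1) * (2 * r) := Nat.mul_le_mul_left _ h2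
    _ = _ := by ring

end Vale.Agent.P018.QB.GapC
end
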