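import Mathlib
import Vale.Agent.P018.Bdl.B1
import Vale.Agent.P018.Bdl.B2

set_option linter.all false

section

/-! Counting the pairs in the sectors, with sharper information on the centres. -/

namespace Vale.Agent.P018

open Finset Polynomial

/-- The pairs whose ratio is close to `a/q` with `a ≥ 1`. -/
theorem sector_count2 (f : ℤ[X]) (k : ℕ) (β K : ℝ) (hK : 0 ≤ K) (hβ0 : 0 ≤ β) (hβ1 : β < 1)
    (P Q0 X : ℕ) (hX : 1 ≤ X) (hXP : X ≤ P) (hQ2 : 2 ≤ Q0)
    (hQXP : 1 / (Q0 : ℝ) ^ 2 ≤ (X : ℝ) / P)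
    (hfib : ∀ (a : ℤ) (q : ℕ), 1 ≤ q → q ≤ Q0 →
      Int.gcd a q = 1 → ∀ u0 : ℝ, 0 ≤ u0 → u0 ≤ 2 * ((X : ℝ) / P) → ∀ S : Finset (ℕ × ℕ),
      (∀ z ∈ S, 1 ≤ z.1 ∧ z.1 < z.2 ∧ P < z.2 ∧ z.2 ≤ 2 * P ∧ z.2.Prime ∧
        (z.2 : ℤ) ^ k ∣ f.eval (z.1 : ℤ) ∧ |(z.1 : ℝ) / z.2 - a / q| ≤ 1 / (Q0 * q) ∧
        |(z.1 : ℝ) / z.2 - u0| ≤ 1 / (Q0 : ℝ) ^ 2) →
      (S.card : ℝ) ≤ K * ((P : ℝ) / q) ^ β)
    (ρ : ℕ × ℕ → ℚ)
    (hρ : ∀ z, |(z.1 : ℝ) / z.2 - (ρ z : ℝ)| ≤ 1 / (((Q0 : ℝ) + 1) * (ρ z).den) ∧ (ρ z).den ≤ Q0)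
    (S : Finset (ℕ × ℕ)) (hS : ∀ z ∈ S, z ∈ pairs f k X P ∧ 0 < (ρ z).num) :
    (S.card : ℝ) ≤ 4 * K / (1 - β) * ((X : ℝ) / P) * (P : ℝ) ^ β * (Q0 : ℝ) ^ (2 - β) := by
  classical
  have hPpos : (0 : ℝ) < P := by
    have : 0 < P := by omega
    exact_mod_cast this
  have hXpos : (0 : ℝ) < X := by exact_mod_cast hX
  have hQr : (2 : ℝ) ≤ Q0 := by exact_mod_cast hQ2
  have hXPr : (X : ℝ) ≤ P := by exact_mod_cast hXP
  -- facts about members
  have hmem : ∀ z ∈ S, 1 ≤ z.1 ∧ z.1 ≤ X ∧ z.1 < z.2 ∧ P < z.2 ∧ z.2 ≤ 2 * P ∧ z.2.Prime ∧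
        (z.2 : ℤ) ^ k ∣ f.eval (z.1 : ℤ) := by
    intro z hz
    have h1 := (hS z hz).1
    simp only [pairs, mem_filter, mem_product, mem_Icc, mem_Ioc] at h1
    obtain ⟨⟨⟨h2, h3⟩, h4, h5⟩, h6, h7⟩ := h1
    exact ⟨h2, h3, by omega, h4, h5, h6, h7⟩
  have hq : ∀ q ∈ Icc 1 Q0, ((S.filter fun z => (ρ z).den = q).card : ℝ) ≤
      4 * K * Q0 * ((X : ℝ) / P) * (P : ℝ) ^ β * (q : ℝ) ^ (-β) := by
    intro q hq
    rw [mem_Icc] at hq
    have hq1 : (1 : ℝ) ≤ q := by exact_mod_cast hq.1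
    have hqQ : (q : ℝ) ≤ Q0 := by exact_mod_cast hq.2
    have hqpos : (0 : ℝ) < q := by linarith only [hq1]
    set Aq : ℕ := ⌊2 * (q : ℝ) * X / P⌋₊ with hAq
    let g : ℕ × ℕ → ℕ × ℕ := fun z => ((ρ z).num.toNat,
      ⌊((z.1 : ℝ) / z.2 - (ρ z : ℝ) + 1 / (Q0 * q)) * ((Q0 : ℝ) ^ 2 / 2)⌋₊)
    have hclose : ∀ z ∈ S, (ρ z).den = q →
        |(z.1 : ℝ) / z.2 - (ρ z : ℝ)| ≤ 1 / (Q0 * q) := by
      intro z hz hden
      refine (hρ z).1.trans ?_
      rw [hden]
      apply one_div_le_one_div_of_le (by (clear * - hQ2 hq1; positivity))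
      linarith only [hqpos]
    have hρcast : ∀ z, (ρ z).den = q → (ρ z : ℝ) = ((ρ z).num : ℝ) / q := by
      intro z hden
      rw [Rat.cast_def, hden]
    have hg : ∀ z ∈ S.filter (fun z => (ρ z).den = q), g z ∈ (Icc 1 Aq) ×ˢ (range (Q0 / q + 1)) := by
      intro z hz
      rw [mem_filter] at hz
      obtain ⟨hzS, hden⟩ := hz
      have hnum := (hS z hzS).2
      obtain ⟨h1, h2, h3, h4, h5, h6, h7⟩ := hmem z hzS
      have hz2 : (0 : ℝ) < z.2 := by
        have : 0 < z.2 := by omega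
        exact_mod_cast this
      have hcl := hclose z hzS hden
      rw [mem_product, mem_Icc, mem_range]
      refine ⟨⟨?_, ?_⟩, ?_⟩
      · simp only [g]
        omega
      · simp only [g]
        rw [hAq]
        apply Nat.le_floor
        have hnumR : (((ρ z).num.toNat : ℕ) : ℝ) = ((ρ z).num : ℝ) := by
          have : (((ρ z).num.toNat : ℕ) : ℤ) = (ρ z).num := Int.toNat_of_nonneg hnum.le
          exact_mod_cast this
        rw [hnumR]
        have h8 : (ρ z : ℝ) ≤ (z.1 : ℝ) / z.2 + 1 / (((Q0 : ℝ) + 1) * q) := by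
          have := (hρ z).1
          rw [hden] at this
          have := (abs_le.mp this).1
          linarith only [this]
        rw [hρcast z hden] at h8
        have h9 : (z.1 : ℝ) / z.2 ≤ X / P := by
          apply div_le_div₀ hXpos.le (by exact_mod_cast h2) hPpos (by exact_mod_cast h4.le)
        have h10 : ((ρ z).num : ℝ) ≤ q * (X / P) + 1 / 2 := by
          have h11 : ((ρ z).num : ℝ) / q ≤ X / P + 1 / (((Q0 : ℝ) + 1) * q) := by linarith only [h8, h9]
          rw [div_le_iff₀ hqpos] at h11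
          have h12 : (X / P + 1 / (((Q0 : ℝ) + 1) * q)) * q = q * (X / P) + 1 / ((Q0 : ℝ) + 1) := by
            field_simp
          rw [h12] at h11
          have h13 : 1 / ((Q0 : ℝ) + 1) ≤ 1 / 2 := one_div_le_one_div_of_le (by norm_num) (by linarith only [hQr])
          linarith only [h11, h13]
        have h14 : (1 : ℝ) ≤ ((ρ z).num : ℝ) := by exact_mod_cast hnum
        have h15 : 2 * (q : ℝ) * X / P = 2 * (q * (X / P)) := by ring
        rw [h15]
        linarith only [h10, h14]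
      · simp only [g]
        rw [Nat.lt_succ_iff, ← Nat.floor_div_eq_div (K := ℝ)]
        apply Nat.floor_le_floor
        have h8 := (abs_le.mp hcl).2
        have h9 : ((z.1 : ℝ) / z.2 - (ρ z : ℝ) + 1 / (Q0 * q)) ≤ 2 / (Q0 * q) := by
          have : (2 : ℝ) / (Q0 * q) = 1 / (Q0 * q) + 1 / (Q0 * q) := by ring
          linarith only [h8, this]
        calc ((z.1 : ℝ) / z.2 - (ρ z : ℝ) + 1 / (Q0 * q)) * ((Q0 : ℝ) ^ 2 / 2)
            ≤ 2 / (Q0 * q) * ((Q0 : ℝ) ^ 2 / 2) :=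
              mul_le_mul_of_nonneg_right h9 (by positivity)
          _ = (Q0 : ℝ) / q := by field_simp
    have hfibre : ∀ t ∈ (Icc 1 Aq) ×ˢ (range (Q0 / q + 1)),
        (((S.filter (fun z => (ρ z).den = q)).filter (fun z => g z = t)).card : ℝ) ≤
          K * ((P : ℝ) / q) ^ β := by
      intro t ht
      rw [mem_product, mem_Icc, mem_range] at ht
      rcases Finset.eq_empty_or_nonempty
        ((S.filter (fun z => (ρ z).den = q)).filter (fun z => g z = t)) with he | he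
      · rw [he]
        simp only [card_empty, Nat.cast_zero]
        (clear * - hK hPpos hq1; positivity)
      · obtain ⟨z0, hz0⟩ := he
        rw [mem_filter, mem_filter] at hz0
        obtain ⟨⟨hz0S, hden0⟩, hg0⟩ := hz0
        have hgcd : Int.gcd (t.1 : ℤ) q = 1 := by
          have h1 : ((ρ z0).num.toNat : ℤ) = (ρ z0).num := Int.toNat_of_nonneg (hS z0 hz0S).2.le
          have h2 : t.1 = (ρ z0).num.toNat := by rw [← hg0]
          rw [h2, h1, ← hden0]
          exact (ρ z0).reduced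
        have hQpos : (0 : ℝ) < Q0 := by linarith only [hQr]
        have ht1 : (1 : ℝ) ≤ (t.1 : ℝ) := by exact_mod_cast ht.1.1
        have hnear : ∀ z, z ∈ (S.filter (fun z => (ρ z).den = q)).filter (fun z => g z = t) →
            |(z.1 : ℝ) / z.2 - ((t.1 : ℤ) : ℝ) / q| ≤ 1 / (Q0 * q) ∧
            |(z.1 : ℝ) / z.2 - ((t.1 : ℝ) / q - 1 / (Q0 * q) + (2 * t.2 + 1) / (Q0 : ℝ) ^ 2)| ≤
              1 / (Q0 : ℝ) ^ 2 := by
          intro z hz
          rw [mem_filter, mem_filter] at hz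
          obtain ⟨⟨hzS, hden⟩, hgz⟩ := hz
          have hcl := hclose z hzS hden
          have h1 : (((ρ z).num.toNat : ℕ) : ℝ) = ((ρ z).num : ℝ) := by
            have : (((ρ z).num.toNat : ℕ) : ℤ) = (ρ z).num := Int.toNat_of_nonneg (hS z hzS).2.le
            exact_mod_cast this
          have h2 : (ρ z : ℝ) = (t.1 : ℝ) / q := by
            rw [hρcast z hden, ← h1]
            rw [← hgz]
          have h3 : ⌊((z.1 : ℝ) / z.2 - (ρ z : ℝ) + 1 / (Q0 * q)) * ((Q0 : ℝ) ^ 2 / 2)⌋₊ = t.2 := by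
            rw [← hgz]
          have h4 : 0 ≤ (z.1 : ℝ) / z.2 - (ρ z : ℝ) + 1 / (Q0 * q) := by
            have := (abs_le.mp hcl).1
            linarith only [this]
          have h5 : 0 ≤ ((z.1 : ℝ) / z.2 - (ρ z : ℝ) + 1 / (Q0 * q)) * ((Q0 : ℝ) ^ 2 / 2) := by
            (clear * - h4 hQ2; positivity)
          rw [Nat.floor_eq_iff h5] at h3
          rw [h2] at hcl h3
          refine ⟨by push_cast; exact hcl, ?_⟩
          have hQ2pos : (0 : ℝ) < (Q0 : ℝ) ^ 2 := by positivity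
          obtain ⟨h6, h7⟩ := h3
          set W := (z.1 : ℝ) / z.2 - (t.1 : ℝ) / q + 1 / (Q0 * q) with hW
          have h8 : 2 * (t.2 : ℝ) / (Q0 : ℝ) ^ 2 ≤ W := by
            rw [div_le_iff₀ hQ2pos]
            linarith only [h6]
          have h9 : W < 2 * ((t.2 : ℝ) + 1) / (Q0 : ℝ) ^ 2 := by
            rw [lt_div_iff₀ hQ2pos]
            linarith only [h7]
          have h10 : (z.1 : ℝ) / z.2 - ((t.1 : ℝ) / q - 1 / (Q0 * q) + (2 * t.2 + 1) / (Q0 : ℝ) ^ 2)
              = W - (2 * t.2 + 1) / (Q0 : ℝ) ^ 2 := by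
            rw [hW]
            ring
          rw [h10, abs_le]
          have h11 : 2 * ((t.2 : ℝ) + 1) / (Q0 : ℝ) ^ 2 =
            (2 * t.2 + 1) / (Q0 : ℝ) ^ 2 + 1 / (Q0 : ℝ) ^ 2 := by ring
          have h12 : 2 * (t.2 : ℝ) / (Q0 : ℝ) ^ 2 =
            (2 * t.2 + 1) / (Q0 : ℝ) ^ 2 - 1 / (Q0 : ℝ) ^ 2 := by ring
          rw [h11] at h9
          rw [h12] at h8
          constructor <;> linarith
        refine hfib (t.1 : ℤ) q hq.1 hq.2 hgcd
          ((t.1 : ℝ) / q - 1 / (Q0 * q) + (2 * t.2 + 1) / (Q0 : ℝ) ^ 2) ?_ ?_ _ ?_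
        · have h1 : 1 / ((Q0 : ℝ) * q) ≤ (t.1 : ℝ) / q := by
            have h0 : 1 ≤ (t.1 : ℝ) * Q0 := by (by_contra nlg; linarith only [mul_nonneg (le_of_lt (sub_pos.2 (not_le.1 nlg))) (sub_nonneg.2 hβ0), mul_pos (sub_pos.2 (not_le.1 nlg)) (sub_pos.2 hβ1), mul_nonneg (sub_nonneg.2 hβ0) (sub_nonneg.2 ht1), mul_nonneg (le_of_lt (sub_pos.2 hβ1)) (sub_nonneg.2 ht1), mul_nonneg (sub_nonneg.2 hQr) (sub_nonneg.2 ht1), hqQ, hq1])
            rw [div_le_div_iff₀ (by positivity) hqpos]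
            calc 1 * (q : ℝ) ≤ ((t.1 : ℝ) * Q0) * q := mul_le_mul_of_nonneg_right h0 hqpos.le
              _ = (t.1 : ℝ) * (Q0 * q) := by ring
          have h2 : 0 ≤ (2 * (t.2 : ℝ) + 1) / (Q0 : ℝ) ^ 2 := by (clear * - hQ2; positivity)
          linarith only [h2, h1]
        · have h1 := hnear z0 (by
            rw [mem_filter, mem_filter]
            exact ⟨⟨hz0S, hden0⟩, hg0⟩)
          obtain ⟨h11, h12, h13, h14, h15, h16, h17⟩ := hmem z0 hz0S
          have h2 : (z0.1 : ℝ) / z0.2 ≤ (X : ℝ) / P :=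
            div_le_div₀ hXpos.le (by exact_mod_cast h12) hPpos (by exact_mod_cast h14.le)
          have h5 := (abs_le.mp h1.2).1
          linarith only [hQXP, h2, h5]
        · intro z hz
          have h1 := hnear z hz
          rw [mem_filter, mem_filter] at hz
          obtain ⟨h11, h12, h13, h14, h15, h16, h17⟩ := hmem z hz.1.1
          exact ⟨h11, h13, h14, h15, h16, h17, h1.1, h1.2⟩
    have hmain := card_le_mul_of_fiber _ _ g hg _ hfibre
    refine hmain.trans ?_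
    rw [card_product, Nat.card_Icc, card_range]
    have hAqle : (Aq : ℝ) ≤ 2 * q * X / P := by
      rw [hAq]
      exact Nat.floor_le (by positivity)
    have hQqle : ((Q0 / q + 1 : ℕ) : ℝ) ≤ 2 * Q0 / q := by
      push_cast
      have h1 : ((Q0 / q : ℕ) : ℝ) ≤ (Q0 : ℝ) / q := Nat.cast_div_le
      have h2 : 1 ≤ (Q0 : ℝ) / q := by
        rw [le_div_iff₀ hqpos]
        linarith only [hqQ]
      have h3 : 2 * (Q0 : ℝ) / q = Q0 / q + Q0 / q := by ring
      linarith only [h3, h2, h1]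
    have hsplit : ((P : ℝ) / q) ^ β = (P : ℝ) ^ β * (q : ℝ) ^ (-β) := by
      rw [Real.div_rpow hPpos.le hqpos.le, Real.rpow_neg hqpos.le]
      rfl
    rw [hsplit]
    have hfac : (((Aq + 1 - 1) * (Q0 / q + 1) : ℕ) : ℝ) ≤ 4 * Q0 * ((X : ℝ) / P) := by
      rw [Nat.add_sub_cancel, Nat.cast_mul]
      calc (Aq : ℝ) * ((Q0 / q + 1 : ℕ) : ℝ) ≤ (2 * q * X / P) * (2 * Q0 / q) := by
            apply mul_le_mul hAqle hQqle (by positivity) (by (clear * - hq1 hX hPpos; positivity))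
        _ = 4 * Q0 * ((X : ℝ) / P) := by
            field_simp
            ring
    calc (((Aq + 1 - 1) * (Q0 / q + 1) : ℕ) : ℝ) * (K * ((P : ℝ) ^ β * (q : ℝ) ^ (-β)))
        ≤ (4 * Q0 * ((X : ℝ) / P)) * (K * ((P : ℝ) ^ β * (q : ℝ) ^ (-β))) := by
          apply mul_le_mul_of_nonneg_right hfac
          (clear * - hK hPpos hq1; positivity)
      _ = 4 * K * Q0 * ((X : ℝ) / P) * (P : ℝ) ^ β * (q : ℝ) ^ (-β) := by ring
  -- sum over q
  have hsum : (S.card : ℝ) = ∑ q ∈ Icc 1 Q0, ((S.filter fun z => (ρ z).den = q).card : ℝ) := by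
    have h1 : ∀ z ∈ S, (ρ z).den ∈ Icc 1 Q0 := by
      intro z _
      rw [mem_Icc]
      exact ⟨(ρ z).den_pos, (hρ z).2⟩
    rw [Finset.card_eq_sum_card_fiberwise h1]
    push_cast
    rfl
  rw [hsum]
  have hQ0pos : (0 : ℝ) < Q0 := by linarith only [hQr]
  have h1β : 0 < 1 - β := by linarith only [hβ1]
  calc ∑ q ∈ Icc 1 Q0, ((S.filter fun z => (ρ z).den = q).card : ℝ)
      ≤ ∑ q ∈ Icc 1 Q0, 4 * K * Q0 * ((X : ℝ) / P) * (P : ℝ) ^ β * (q : ℝ) ^ (-β) :=
        Finset.sum_le_sum hq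
    _ = 4 * K * Q0 * ((X : ℝ) / P) * (P : ℝ) ^ β * ∑ q ∈ Icc 1 Q0, (q : ℝ) ^ (-β) := by
        rw [Finset.mul_sum]
    _ ≤ 4 * K * Q0 * ((X : ℝ) / P) * (P : ℝ) ^ β * ((Q0 : ℝ) ^ (1 - β) / (1 - β)) := by
        apply mul_le_mul_of_nonneg_left (sum_rpow_neg_le β hβ0 hβ1 Q0)
        (clear * - hK hQ2 hX hPpos; positivity)
    _ = 4 * K / (1 - β) * ((X : ℝ) / P) * (P : ℝ) ^ β * ((Q0 : ℝ) * (Q0 : ℝ) ^ (1 - β)) := by
        field_simp
    _ = 4 * K / (1 - β) * ((X : ℝ) / P) * (P : ℝ) ^ β * (Q0 : ℝ) ^ (2 - β) := by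
        congr 1
        have h2 : (2 : ℝ) - β = 1 + (1 - β) := by ring
        rw [h2, Real.rpow_add hQ0pos, Real.rpow_one]

end Vale.Agent.P018
end

section

/-! # P018, module M1: small elements of `ℤ[θ]` dividing `n - θ`. -/

namespace Vale.Agent.P018

open Polynomial

/-! ### evaluation at `θ` -/

theorem lf_evT_C (f : ℤ[X]) (c : ℤ) : evT f (C c) = (c : EE f) := by
  unfold evT
  rw [coe_eval₂RingHom, eval₂_C, eq_intCast]

theorem lf_evT_X (f : ℤ[X]) : evT f X = th f := by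
  unfold evT
  rw [coe_eval₂RingHom, eval₂_X]

theorem lf_evT_self (f : ℤ[X]) : evT f f = 0 := by
  unfold evT
  have h := AdjoinRoot.eval₂_root (f.map (Int.castRingHom ℚ))
  rw [eval₂_map] at h
  rw [coe_eval₂RingHom]
  have h2 : (AdjoinRoot.of (f.map (Int.castRingHom ℚ))).comp (Int.castRingHom ℚ) =
      Int.castRingHom (EE f) := RingHom.ext_int _ _
  rw [h2] at h
  exact h

theorem lf_evT_mod (f : ℤ[X]) (g : ℤ[X]) : evT f (g %ₘ f) = evT f g := by
  conv_rhs => rw [← modByMonic_add_div g f]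
  rw [map_add, map_mul, lf_evT_self, zero_mul, add_zero]

theorem lf_evT_sum (f : ℤ[X]) (g : ℤ[X]) (hg : g.natDegree < f.natDegree) :
    evT f g = ∑ i : Fin f.natDegree, (g.coeff i : EE f) * th f ^ (i : ℕ) := by
  conv_lhs => rw [g.as_sum_range_C_mul_X_pow' hg]
  rw [map_sum, Finset.sum_range]
  apply Finset.sum_congr rfl
  intro i _
  rw [map_mul, map_pow, lf_evT_C, lf_evT_X]

/-! ### the matrix of a multiplication -/

/-- matrix of multiplication by `b(θ)` -/
noncomputable def lfMat (f b : ℤ[X]) : Matrix (Fin f.natDegree) (Fin f.natDegree) ℤ :=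
  Matrix.of fun i j => ((b * X ^ (j : ℕ)) %ₘ f).coeff i

theorem lf_mod_lt (f : ℤ[X]) (hm : f.Monic) (hd : 1 ≤ f.natDegree) (g : ℤ[X]) :
    (g %ₘ f).natDegree < f.natDegree := by
  apply natDegree_modByMonic_lt g hm
  intro h
  rw [h, natDegree_one] at hd
  omega

theorem lf_mul_pow (f : ℤ[X]) (hm : f.Monic) (hd : 1 ≤ f.natDegree) (b : ℤ[X])
    (j : Fin f.natDegree) :
    evT f b * th f ^ (j : ℕ) =
      ∑ i : Fin f.natDegree, ((lfMat f b i j : ℤ) : EE f) * th f ^ (i : ℕ) := by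
  have h1 : evT f b * th f ^ (j : ℕ) = evT f ((b * X ^ (j : ℕ)) %ₘ f) := by
    rw [lf_evT_mod, map_mul, map_pow, lf_evT_X]
  rw [h1, lf_evT_sum f _ (lf_mod_lt f hm hd _)]
  rfl

/-- the basis of powers of `θ` -/
noncomputable def lfBasis (f : ℤ[X]) (hm : f.Monic) : Module.Basis (Fin f.natDegree) ℚ (EE f) :=
  (AdjoinRoot.powerBasisAux' (hm.map (Int.castRingHom ℚ))).reindex
    (finCongr (hm.natDegree_map (Int.castRingHom ℚ)))

theorem lfBasis_apply (f : ℤ[X]) (hm : f.Monic) (i : Fin f.natDegree) :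
    lfBasis f hm i = th f ^ (i : ℕ) := by
  unfold lfBasis
  rw [Module.Basis.reindex_apply]
  exact (AdjoinRoot.powerBasis' (hm.map (Int.castRingHom ℚ))).basis_eq_pow _

theorem lf_intCast_smul (f : ℤ[X]) (c : ℤ) (x : EE f) : (c : EE f) * x = (c : ℚ) • x := by
  rw [Algebra.smul_def]
  congr 1

theorem lf_leftMul (f : ℤ[X]) (hm : f.Monic) (hd : 1 ≤ f.natDegree) (b : ℤ[X]) :
    Algebra.leftMulMatrix (lfBasis f hm) (evT f b) = (lfMat f b).map (Int.castRingHom ℚ) := by
  ext i j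
  rw [Algebra.leftMulMatrix_eq_repr_mul, lfBasis_apply, lf_mul_pow f hm hd b j]
  have h1 : (∑ i : Fin f.natDegree, ((lfMat f b i j : ℤ) : EE f) * th f ^ (i : ℕ)) =
      ∑ i : Fin f.natDegree, ((lfMat f b i j : ℤ) : ℚ) • lfBasis f hm i := by
    apply Finset.sum_congr rfl
    intro i _
    rw [lfBasis_apply, lf_intCast_smul]
  rw [h1, Module.Basis.repr_sum_self]
  rfl

theorem lf_norm (f : ℤ[X]) (hm : f.Monic) (hd : 1 ≤ f.natDegree) (b : ℤ[X]) :
    Algebra.norm ℚ (evT f b) = (((lfMat f b).det : ℤ) : ℚ) := by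
  rw [Algebra.norm_eq_matrix_det (lfBasis f hm), lf_leftMul f hm hd b]
  have := RingHom.map_det (Int.castRingHom ℚ) (lfMat f b)
  rw [eq_intCast] at this
  rw [this]
  rfl

theorem lf_evT_ne_zero (f : ℤ[X]) (hm : f.Monic) (b : ℤ[X]) (hb : b.natDegree < f.natDegree)
    (hb0 : b ≠ 0) : evT f b ≠ 0 := by
  intro h
  rw [lf_evT_sum f b hb] at h
  have h1 : (∑ i : Fin f.natDegree, ((b.coeff i : ℤ) : ℚ) • lfBasis f hm i) = 0 := by
    rw [← h]
    apply Finset.sum_congr rfl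
    intro i _
    rw [lfBasis_apply, lf_intCast_smul]
  have h2 := Fintype.linearIndependent_iff.mp (lfBasis f hm).linearIndependent _ h1
  apply hb0
  ext i
  rw [coeff_zero]
  rcases lt_or_ge i f.natDegree with hi | hi
  · have := h2 ⟨i, hi⟩
    exact_mod_cast this
  · exact coeff_eq_zero_of_natDegree_lt (by omega)

/-! ### the lattice of elements vanishing at `n` modulo `p` -/

/-- basis matrix of the lattice -/
def lfU (d : ℕ) (p : ℤ) (n : ℤ) : Matrix (Fin d) (Fin d) ℤ :=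
  Matrix.of fun i j => if (i : ℕ) = 0 then (if (j : ℕ) = 0 then p else - n ^ (j : ℕ)) else
    (if i = j then 1 else 0)

theorem lfU_det (d : ℕ) (hd : 1 ≤ d) (p n : ℤ) : (lfU d p n).det = p := by
  have ht : (lfU d p n).BlockTriangular id := by
    intro i j hij
    have hij' : (j : ℕ) < (i : ℕ) := hij
    have h1 : (i : ℕ) ≠ 0 := by omega
    have h2 : i ≠ j := by
      intro h
      rw [h] at hij'
      omega
    simp only [lfU, Matrix.of_apply, if_neg h1, if_neg h2]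
  rw [Matrix.det_of_upperTriangular ht]
  rw [Finset.prod_eq_single (⟨0, hd⟩ : Fin d)]
  · simp [lfU]
  · intro i _ hi
    have h1 : (i : ℕ) ≠ 0 := by
      intro h
      apply hi
      ext
      exact h
    simp only [lfU, Matrix.of_apply, if_neg h1, if_true]
  · intro h
    exact absurd (Finset.mem_univ _) h

/-- the coordinates with respect to the lattice basis -/
noncomputable def lfW (f b : ℤ[X]) (p n : ℤ) : Matrix (Fin f.natDegree) (Fin f.natDegree) ℤ :=
  Matrix.of fun i j => if (i : ℕ) = 0 then ((b * X ^ (j : ℕ)) %ₘ f).eval n / p else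
    ((b * X ^ (j : ℕ)) %ₘ f).coeff i

theorem lf_UW (f b : ℤ[X]) (hm : f.Monic) (hd : 1 ≤ f.natDegree) (p n : ℤ)
    (hf : p ∣ f.eval n) (hb : p ∣ b.eval n) :
    lfMat f b = lfU f.natDegree p n * lfW f b p n := by
  ext i j
  rw [Matrix.mul_apply]
  set g := (b * X ^ (j : ℕ)) %ₘ f with hg
  have hM : lfMat f b i j = g.coeff i := rfl
  rw [hM]
  have hW : ∀ l : Fin f.natDegree, lfW f b p n l j =
      if (l : ℕ) = 0 then g.eval n / p else g.coeff l := fun l => rfl
  by_cases hi : (i : ℕ) = 0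
  · have hU : ∀ l : Fin f.natDegree, lfU f.natDegree p n i l =
        if (l : ℕ) = 0 then p else - n ^ (l : ℕ) := by
      intro l
      simp only [lfU, Matrix.of_apply, if_pos hi]
    have hdvd : p ∣ g.eval n := by
      have h1 : g = b * X ^ (j : ℕ) - f * ((b * X ^ (j : ℕ)) /ₘ f) := by
        rw [hg, modByMonic_eq_sub_mul_div]
      rw [h1, eval_sub, eval_mul, eval_mul]
      exact dvd_sub (hb.mul_right _) (hf.mul_right _)
    have hev : g.eval n = ∑ l : Fin f.natDegree, g.coeff l * n ^ (l : ℕ) := by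
      rw [eval_eq_sum_range' (lf_mod_lt f hm hd _) n, Finset.sum_range]
    have h2 : ∀ l : Fin f.natDegree, lfU f.natDegree p n i l * lfW f b p n l j =
        (if (l : ℕ) = 0 then g.eval n + g.coeff l else 0) - g.coeff l * n ^ (l : ℕ) := by
      intro l
      rw [hU, hW]
      by_cases hl : (l : ℕ) = 0
      · rw [if_pos hl, if_pos hl, if_pos hl, hl, pow_zero, mul_one, Int.mul_ediv_cancel' hdvd]
        ring
      · rw [if_neg hl, if_neg hl, if_neg hl]
        ring
    rw [Finset.sum_congr rfl (fun l _ => h2 l), Finset.sum_sub_distrib, ← hev,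
      Finset.sum_eq_single i]
    · rw [if_pos hi]
      ring
    · intro l _ hl
      rw [if_neg]
      intro h
      apply hl
      ext
      omega
    · intro h
      exact absurd (Finset.mem_univ _) h
  · rw [Finset.sum_eq_single i]
    · rw [hW, if_neg hi]
      simp only [lfU, Matrix.of_apply, if_neg hi, if_true, one_mul]
    · intro l _ hl
      have h1 : lfU f.natDegree p n i l = 0 := by
        simp only [lfU, Matrix.of_apply, if_neg hi, if_neg (Ne.symm hl)]
      rw [h1, zero_mul]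
    · intro h
      exact absurd (Finset.mem_univ _) h

/-- The key relations. -/
theorem lf_key (f b : ℤ[X]) (hm : f.Monic) (hd : 2 ≤ f.natDegree) (p n : ℤ)
    (hf : p ∣ f.eval n) (hb : p ∣ b.eval n) :
    ∃ (c : ℤ) (u v : ℤ[X]), (lfMat f b).det = c * p ∧
      (c : EE f) * (p : EE f) = evT f b * evT f u ∧
      (c : EE f) * (th f - (n : EE f)) = evT f b * evT f v := by
  have hd1 : 1 ≤ f.natDegree := by omega
  have hUW := lf_UW f b hm hd1 p n hf hb
  set W := lfW f b p n with hW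
  set V := W.adjugate with hV
  have hMV : lfMat f b * V = W.det • lfU f.natDegree p n := by
    rw [hUW, Matrix.mul_assoc, hV, Matrix.mul_adjugate, Matrix.mul_smul, Matrix.mul_one]
  have key : ∀ l : Fin f.natDegree,
      evT f b * evT f (∑ j : Fin f.natDegree, C (V j l) * X ^ (j : ℕ)) =
        (W.det : EE f) * ∑ i : Fin f.natDegree,
          ((lfU f.natDegree p n i l : ℤ) : EE f) * th f ^ (i : ℕ) := by
    intro l
    have h1 : evT f (∑ j : Fin f.natDegree, C (V j l) * X ^ (j : ℕ)) =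
        ∑ j : Fin f.natDegree, (V j l : EE f) * th f ^ (j : ℕ) := by
      rw [map_sum]
      apply Finset.sum_congr rfl
      intro j _
      rw [map_mul, map_pow, lf_evT_C, lf_evT_X]
    rw [h1, Finset.mul_sum]
    have h2 : ∀ j : Fin f.natDegree, evT f b * ((V j l : EE f) * th f ^ (j : ℕ)) =
        ∑ i : Fin f.natDegree, ((lfMat f b i j * V j l : ℤ) : EE f) * th f ^ (i : ℕ) := by
      intro j
      calc evT f b * ((V j l : EE f) * th f ^ (j : ℕ))
          = (V j l : EE f) * (evT f b * th f ^ (j : ℕ)) := by ring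
        _ = _ := by
          rw [lf_mul_pow f hm hd1 b j, Finset.mul_sum]
          apply Finset.sum_congr rfl
          intro i _
          push_cast
          ring
    rw [Finset.sum_congr rfl (fun j _ => h2 j), Finset.sum_comm, Finset.mul_sum]
    apply Finset.sum_congr rfl
    intro i _
    rw [← Finset.sum_mul]
    have h3 := congrFun (congrFun hMV i) l
    rw [Matrix.mul_apply, Matrix.smul_apply, smul_eq_mul] at h3
    rw [← Int.cast_sum, h3]
    push_cast
    ring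
  refine ⟨W.det, ∑ j : Fin f.natDegree, C (V j ⟨0, by omega⟩) * X ^ (j : ℕ),
    ∑ j : Fin f.natDegree, C (V j ⟨1, by omega⟩) * X ^ (j : ℕ), ?_, ?_, ?_⟩
  · rw [hUW, Matrix.det_mul, lfU_det _ hd1, mul_comm]
  · rw [key]
    congr 1
    rw [Finset.sum_eq_single (⟨0, by omega⟩ : Fin f.natDegree)]
    · simp [lfU]
    · intro i _ hi
      have h1 : (i : ℕ) ≠ 0 := by
        intro h
        apply hi
        ext
        exact h
      simp only [lfU, Matrix.of_apply, if_neg h1, if_neg hi, Int.cast_zero, zero_mul]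
    · intro h
      exact absurd (Finset.mem_univ _) h
  · rw [key]
    congr 1
    rw [Finset.sum_eq_add (⟨1, by omega⟩ : Fin f.natDegree) (⟨0, by omega⟩ : Fin f.natDegree)]
    · simp [lfU, sub_eq_add_neg]
    · intro h
      have := congrArg Fin.val h
      simp at this
    · intro i _ hi
      have h1 : (i : ℕ) ≠ 0 := by
        intro h
        apply hi.2
        ext
        exact h
      simp only [lfU, Matrix.of_apply, if_neg h1, if_neg hi.1, Int.cast_zero, zero_mul]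
    · intro h
      exact absurd (Finset.mem_univ _) h
    · intro h
      exact absurd (Finset.mem_univ _) h

/-! ### sizes -/

theorem lf_entry_le (f : ℤ[X]) (hm : f.Monic) :
    ∃ K : ℕ, ∀ (b : ℤ[X]) (T : ℕ), b.natDegree < f.natDegree → (∀ i, |b.coeff i| ≤ T) →
      ∀ i j, |lfMat f b i j| ≤ K * T := by
  set d := f.natDegree with hd
  obtain ⟨K, hK⟩ : ∃ K : ℕ, ∀ m < 2 * d, ∀ i < d, |((X ^ m : ℤ[X]) %ₘ f).coeff i| ≤ (K : ℤ) := by
    refine ⟨∑ m ∈ Finset.range (2 * d), ∑ i ∈ Finset.range d,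
      (((X ^ m : ℤ[X]) %ₘ f).coeff i).natAbs, ?_⟩
    intro m hm i hi
    rw [Int.abs_eq_natAbs]
    norm_cast
    calc (((X ^ m : ℤ[X]) %ₘ f).coeff i).natAbs
        ≤ ∑ i ∈ Finset.range d, (((X ^ m : ℤ[X]) %ₘ f).coeff i).natAbs :=
          Finset.single_le_sum (f := fun i => (((X ^ m : ℤ[X]) %ₘ f).coeff i).natAbs)
            (fun _ _ => Nat.zero_le _) (Finset.mem_range.mpr hi)
      _ ≤ _ := Finset.single_le_sum
            (f := fun m => ∑ i ∈ Finset.range d, (((X ^ m : ℤ[X]) %ₘ f).coeff i).natAbs)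
            (fun _ _ => Nat.zero_le _) (Finset.mem_range.mpr hm)
  refine ⟨d * K, ?_⟩
  intro b T hb hbT i j
  have h1 : lfMat f b i j = ∑ l ∈ Finset.range d, b.coeff l * ((X ^ (l + j) : ℤ[X]) %ₘ f).coeff i := by
    have h2 : b * X ^ (j : ℕ) = ∑ l ∈ Finset.range d, b.coeff l • (X ^ (l + j) : ℤ[X]) := by
      conv_lhs => rw [b.as_sum_range_C_mul_X_pow' hb]
      rw [Finset.sum_mul]
      apply Finset.sum_congr rfl
      intro l _
      rw [smul_eq_C_mul, pow_add, mul_assoc]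
    have h3 : (b * X ^ (j : ℕ)) %ₘ f = modByMonicHom f (b * X ^ (j : ℕ)) := rfl
    change ((b * X ^ (j : ℕ)) %ₘ f).coeff i = _
    rw [h3, h2, map_sum, finsetSum_coeff]
    apply Finset.sum_congr rfl
    intro l _
    rw [map_smul, coeff_smul, smul_eq_mul]
    rfl
  rw [h1]
  calc |∑ l ∈ Finset.range d, b.coeff l * ((X ^ (l + j) : ℤ[X]) %ₘ f).coeff i|
      ≤ ∑ l ∈ Finset.range d, |b.coeff l * ((X ^ (l + j) : ℤ[X]) %ₘ f).coeff i| :=
        Finset.abs_sum_le_sum_abs _ _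
    _ ≤ ∑ l ∈ Finset.range d, (T : ℤ) * K := by
        apply Finset.sum_le_sum
        intro l hl
        rw [abs_mul]
        have h4 := Finset.mem_range.mp hl
        have h5 := j.isLt
        exact mul_le_mul (hbT l) (hK _ (by omega) _ i.isLt) (abs_nonneg _) (by positivity)
    _ = _ := by
        rw [Finset.sum_const, Finset.card_range]
        push_cast
        ring

theorem lf_det_le (f : ℤ[X]) (hm : f.Monic) :
    ∃ K : ℕ, ∀ (b : ℤ[X]) (T : ℕ), b.natDegree < f.natDegree → (∀ i, |b.coeff i| ≤ T) →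
      |(lfMat f b).det| ≤ K * (T : ℤ) ^ f.natDegree := by
  obtain ⟨K, hK⟩ := lf_entry_le f hm
  refine ⟨(f.natDegree).factorial * K ^ f.natDegree, ?_⟩
  intro b T hb hbT
  have h := Matrix.det_le (A := lfMat f b) (abv := AbsoluteValue.abs) (x := (K : ℤ) * T)
    (fun i j => hK b T hb hbT i j)
  rw [Fintype.card_fin] at h
  calc |(lfMat f b).det| ≤ _ := h
    _ = _ := by
      rw [nsmul_eq_mul, mul_pow]
      push_cast
      ring

/-! ### powers -/

theorem lf_power (f : ℤ[X]) (k : ℕ) (hk : 1 ≤ k) (p n c m s t : ℤ) (b u v : ℤ[X])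
    (hfn : f.eval n = p ^ k * m) (hst : s * (derivative f).eval n + t * p = 1)
    (hu : (c : EE f) * (p : EE f) = evT f b * evT f u)
    (hv : (c : EE f) * (th f - (n : EE f)) = evT f b * evT f v) :
    ∃ a : ℤ[X], (c : EE f) ^ k * ((n : EE f) - th f) = evT f b ^ k * evT f a := by
  obtain ⟨g, hg⟩ : ∃ g : ℤ[X], f = (X - C n) * g + C (f.eval n) := by
    refine ⟨f /ₘ (X - C n), ?_⟩
    have := modByMonic_add_div f (X - C n)
    rw [modByMonic_X_sub_C_eq_C_eval] at this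
    rw [add_comm]
    exact this.symm
  obtain ⟨g2, hg2⟩ : ∃ g2 : ℤ[X], g = (X - C n) * g2 + C (g.eval n) := by
    refine ⟨g /ₘ (X - C n), ?_⟩
    have := modByMonic_add_div g (X - C n)
    rw [modByMonic_X_sub_C_eq_C_eval] at this
    rw [add_comm]
    exact this.symm
  have hder : (derivative f).eval n = g.eval n := by
    rw [hg]
    simp
  set z : EE f := th f - (n : EE f) with hz
  have hzE : evT f (X - C n) = z := by rw [map_sub, lf_evT_X, lf_evT_C]
  have e1 : z * evT f g + (f.eval n : ℤ) = 0 := by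
    have h1 := congrArg (evT f) hg
    rw [lf_evT_self, map_add, map_mul, hzE, lf_evT_C] at h1
    exact h1.symm
  have e2 : evT f g = z * evT f g2 + (g.eval n : ℤ) := by
    have h1 := congrArg (evT f) hg2
    rw [map_add, map_mul, hzE, lf_evT_C] at h1
    exact h1
  -- z = A p^k + z y
  set y : EE f := (t : EE f) * p - (s : EE f) * z * evT f g2 with hy
  have e3 : z = -((s : EE f) * m) * (p : EE f) ^ k + z * y := by
    have h1 : ((s * (derivative f).eval n + t * p : ℤ) : EE f) = 1 := by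
      rw [hst, Int.cast_one]
    rw [hder] at h1
    push_cast at h1
    have h2 : ((f.eval n : ℤ) : EE f) = (p : EE f) ^ k * m := by
      rw [hfn]
      push_cast
      ring
    rw [h2] at e1
    rw [e2] at e1
    have h3 : z * ((g.eval n : ℤ) : EE f) = -((p : EE f) ^ k * m) - z * (z * evT f g2) := by
      linear_combination e1
    calc z = ((s : EE f) * (g.eval n : ℤ) + t * p) * z := by rw [h1, one_mul]
      _ = (s : EE f) * (z * (g.eval n : ℤ)) + t * p * z := by ring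
      _ = _ := by
        rw [h3, hy]
        ring
  have hzy : z * (1 - y) = -((s : EE f) * m) * (p : EE f) ^ k := by
    linear_combination e3
  have hcy : (c : EE f) * y = evT f b * evT f (C t * u - C s * g2 * v) := by
    rw [map_sub, map_mul, map_mul, map_mul, lf_evT_C, lf_evT_C, hy]
    linear_combination (t : EE f) * hu - (s : EE f) * evT f g2 * hv
  obtain ⟨j, rfl⟩ : ∃ j, k = j + 1 := ⟨k - 1, by omega⟩
  have e4 : z = -((s : EE f) * m) * (p : EE f) ^ (j + 1) * ∑ i ∈ Finset.range j, y ^ i + z * y ^ j := by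
    have h1 := mul_neg_geom_sum y j
    calc z = z * ((1 - y) * ∑ i ∈ Finset.range j, y ^ i) + z * y ^ j := by
          rw [h1]
          ring
      _ = _ := by
          rw [← mul_assoc, hzy]
  have hyE : y = evT f (C t * C p - C s * (X - C n) * g2) := by
    rw [map_sub, map_mul, map_mul, map_mul, lf_evT_C, lf_evT_C, lf_evT_C, hzE, hy]
  refine ⟨-(-(C s * C m) * u ^ (j + 1) *
    (∑ i ∈ Finset.range j, (C t * C p - C s * (X - C n) * g2) ^ i) +
      v * (C t * u - C s * g2 * v) ^ j), ?_⟩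
  have e5 : evT f (-(-(C s * C m) * u ^ (j + 1) *
    (∑ i ∈ Finset.range j, (C t * C p - C s * (X - C n) * g2) ^ i) +
      v * (C t * u - C s * g2 * v) ^ j)) =
      -(-((s : EE f) * m) * evT f u ^ (j + 1) * (∑ i ∈ Finset.range j, y ^ i) +
        evT f v * evT f (C t * u - C s * g2 * v) ^ j) := by
    rw [map_neg, map_add, map_mul, map_mul, map_neg, map_mul, map_pow, map_mul, map_pow, map_sum,
      lf_evT_C, lf_evT_C]
    congr 5
    funext i
    rw [map_pow, hyE]
  rw [e5]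
  have e6 : (n : EE f) - th f = -z := by rw [hz]; ring
  rw [e6]
  have e7 : (c : EE f) ^ (j + 1) * z = evT f b ^ (j + 1) *
      (-((s : EE f) * m) * evT f u ^ (j + 1) * (∑ i ∈ Finset.range j, y ^ i) +
        evT f v * evT f (C t * u - C s * g2 * v) ^ j) := by
    calc (c : EE f) ^ (j + 1) * z
        = (c : EE f) ^ (j + 1) * (-((s : EE f) * m) * (p : EE f) ^ (j + 1) *
            ∑ i ∈ Finset.range j, y ^ i + z * y ^ j) := by rw [← e4]
      _ = -((s : EE f) * m) * ((c : EE f) * p) ^ (j + 1) * (∑ i ∈ Finset.range j, y ^ i) +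
            ((c : EE f) * z) * ((c : EE f) * y) ^ j := by
          rw [mul_pow, mul_pow, pow_succ (c : EE f) j]
          ring
      _ = _ := by
          rw [hu, hv, hcy, mul_pow, mul_pow]
          ring
  linear_combination -e7

theorem lf_norm_ne_zero (f : ℤ[X]) (hm : f.Monic)
    (hirr : Irreducible (f.map (Int.castRingHom ℚ))) (x : EE f) (hx : x ≠ 0) :
    Algebra.norm ℚ x ≠ 0 := by
  have : Fact (Irreducible (f.map (Int.castRingHom ℚ))) := ⟨hirr⟩
  have : FiniteDimensional ℚ (EE f) := (lfBasis f hm).finiteDimensional_of_finite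
  exact Algebra.norm_ne_zero_iff.mpr hx

/-! ### the degree of `β` -/

theorem lf_isIntegral (f : ℤ[X]) (hm : f.Monic) (b : ℤ[X]) : IsIntegral ℤ (evT f b) := by
  have hth : IsIntegral ℤ (th f) := by
    refine ⟨f, hm, ?_⟩
    have := lf_evT_self f
    unfold evT at this
    rw [coe_eval₂RingHom] at this
    exact this
  induction b using Polynomial.induction_on' with
  | add p q hp hq =>
    rw [map_add]
    exact hp.add hq
  | monomial n a =>
    rw [← C_mul_X_pow_eq_monomial, map_mul, map_pow, lf_evT_C, lf_evT_X]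
    have ha : IsIntegral ℤ ((a : ℤ) : EE f) := isIntegral_intCast _
    exact ha.mul (hth.pow n)

theorem lf_degree (f : ℤ[X]) (hm : f.Monic) (hirr : Irreducible (f.map (Int.castRingHom ℚ)))
    (b : ℤ[X]) (c : ℤ) (p : ℕ) (hp : p.Prime) (hc : ¬ (p : ℤ) ∣ c)
    (hnorm : Algebra.norm ℚ (evT f b) = (c : ℚ) * p) :
    (minpoly ℚ (evT f b)).natDegree = f.natDegree := by
  have : Fact (Irreducible (f.map (Int.castRingHom ℚ))) := ⟨hirr⟩
  have : FiniteDimensional ℚ (EE f) := (lfBasis f hm).finiteDimensional_of_finite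
  have hfin : Module.finrank ℚ (EE f) = f.natDegree := by
    rw [Module.finrank_eq_card_basis (lfBasis f hm), Fintype.card_fin]
  have hint : IsIntegral ℤ (evT f b) := lf_isIntegral f hm b
  have hintQ : IsIntegral ℚ (evT f b) := IsIntegral.of_finite ℚ _
  set x : EE f := evT f b with hx
  have h1 := Algebra.norm_eq_norm_adjoin (K := ℚ) x
  have h2 : Module.finrank ℚ (IntermediateField.adjoin ℚ {x}) = (minpoly ℚ x).natDegree :=
    IntermediateField.adjoin.finrank hintQ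
  have h3 := Module.finrank_mul_finrank ℚ (IntermediateField.adjoin ℚ {x}) (EE f)
  rw [hfin, h2] at h3
  set e := Module.finrank (IntermediateField.adjoin ℚ {x}) (EE f) with he
  have hgen : IsIntegral ℤ (IntermediateField.AdjoinSimple.gen ℚ x) := by
    have h4 : IsIntegral ℤ (algebraMap (IntermediateField.adjoin ℚ {x}) (EE f)
        (IntermediateField.AdjoinSimple.gen ℚ x)) := by
      rw [IntermediateField.AdjoinSimple.algebraMap_gen]
      exact hint
    exact (isIntegral_algebraMap_iff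
      (algebraMap (IntermediateField.adjoin ℚ {x}) (EE f)).injective).mp h4
  have hint2 : IsIntegral ℤ (Algebra.norm ℚ (IntermediateField.AdjoinSimple.gen ℚ x)) :=
    Algebra.isIntegral_norm ℚ hgen
  obtain ⟨m, hm'⟩ := IsIntegrallyClosed.isIntegral_iff.mp hint2
  have hB : ((m : ℤ) : ℚ) = Algebra.norm ℚ (IntermediateField.AdjoinSimple.gen ℚ x) := hm'
  have h1' : (c : ℚ) * p = ((m : ℤ) : ℚ) ^ e :=
    (hnorm.symm.trans h1).trans (congrArg (fun w : ℚ => w ^ e) hB.symm)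
  have h5 : c * (p : ℤ) = m ^ e := by exact_mod_cast h1'
  by_cases he1 : e = 1
  · rw [he1, mul_one] at h3
    exact h3
  · exfalso
    have he0 : 0 < e := Module.finrank_pos
    have hpP : Prime (p : ℤ) := Nat.prime_iff_prime_int.mp hp
    have h6 : (p : ℤ) ∣ m := hpP.dvd_of_dvd_pow (n := e) (by rw [← h5]; exact dvd_mul_left _ _)
    have h7 : (p : ℤ) ^ 2 ∣ m ^ e :=
      (pow_dvd_pow_of_dvd h6 2).trans (pow_dvd_pow m (by omega))
    rw [← h5, pow_two] at h7
    exact hc (Int.dvd_of_mul_dvd_mul_right hpP.ne_zero h7)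

/-! ### pigeonhole -/

theorem lf_pigeon (d : ℕ) (hd : 1 ≤ d) (p T : ℕ) (hp : 0 < p) (hpT : p < (T + 1) ^ d) (n : ℤ) :
    ∃ b : ℤ[X], b ≠ 0 ∧ b.natDegree < d ∧ (∀ i, |b.coeff i| ≤ T) ∧ (p : ℤ) ∣ b.eval n := by
  have : NeZero p := ⟨hp.ne'⟩
  let F : (Fin d → Fin (T + 1)) → ZMod p := fun x => ∑ i : Fin d, ((x i : ℕ) : ZMod p) * (n : ZMod p) ^ (i : ℕ)
  obtain ⟨x, y, hxy, hF⟩ := Fintype.exists_ne_map_eq_of_card_lt F (by
    rw [ZMod.card, Fintype.card_fun, Fintype.card_fin, Fintype.card_fin]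
    exact hpT)
  set b : ℤ[X] := ∑ i : Fin d, C (((x i : ℕ) : ℤ) - ((y i : ℕ) : ℤ)) * X ^ (i : ℕ) with hb
  have hcoeff : ∀ i, b.coeff i = if h : i < d then
      (((x ⟨i, h⟩ : ℕ) : ℤ) - ((y ⟨i, h⟩ : ℕ) : ℤ)) else 0 := by
    intro i
    rw [hb, finsetSum_coeff]
    split_ifs with h
    · rw [Finset.sum_eq_single (⟨i, h⟩ : Fin d)]
      · rw [coeff_C_mul, coeff_X_pow, if_pos rfl, mul_one]
      · intro j _ hj
        rw [coeff_C_mul, coeff_X_pow, if_neg, mul_zero]
        intro h'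
        apply hj
        ext
        exact h'.symm
      · intro h'
        exact absurd (Finset.mem_univ _) h'
    · apply Finset.sum_eq_zero
      intro j _
      rw [coeff_C_mul, coeff_X_pow, if_neg, mul_zero]
      intro h'
      apply h
      rw [h']
      exact j.isLt
  refine ⟨b, ?_, ?_, ?_, ?_⟩
  · intro h0
    apply hxy
    funext i
    have h1 := hcoeff i
    rw [h0, coeff_zero, dif_pos i.isLt] at h1
    ext
    have h2 : (x ⟨(i : ℕ), i.isLt⟩ : ℕ) = (y ⟨(i : ℕ), i.isLt⟩ : ℕ) := by omega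
    exact h2
  · have h1 : b.natDegree ≤ d - 1 := by
      rw [natDegree_le_iff_coeff_eq_zero]
      intro i hi
      rw [hcoeff, dif_neg (by omega)]
    omega
  · intro i
    rw [hcoeff]
    split_ifs with h
    · have h1 := (x ⟨i, h⟩).isLt
      have h2 := (y ⟨i, h⟩).isLt
      rw [abs_le]
      constructor <;> omega
    · rw [abs_zero]
      positivity
  · rw [← ZMod.intCast_zmod_eq_zero_iff_dvd]
    have h1 : F x - F y = 0 := by rw [hF, sub_self]
    rw [← h1, hb, eval_finsetSum]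
    push_cast
    rw [← Finset.sum_sub_distrib]
    apply Finset.sum_congr rfl
    intro i _
    simp
    ring

/-- M1. For `f` monic and `p^k ∣ f(n)`: a small element `β = b(θ)` of norm `c p`
with `c^k (n - θ) = β^k α`. -/
theorem line_factor (f : ℤ[X]) (hm : f.Monic) (hirr : Irreducible (f.map (Int.castRingHom ℚ)))
    (hd : 2 ≤ f.natDegree) (k : ℕ) (hk : 1 ≤ k) :
    ∃ C P0 : ℕ, ∀ p T : ℕ, p.Prime → P0 ≤ p → p < (T + 1) ^ f.natDegree →
      T ^ f.natDegree ≤ 4 * p → ∀ n : ℤ, (p : ℤ) ^ k ∣ f.eval n →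
      ∃ (b a : ℤ[X]) (c : ℤ), b.natDegree < f.natDegree ∧ (∀ i, |b.coeff i| ≤ T) ∧
        a.natDegree < f.natDegree ∧ c ≠ 0 ∧ |c| ≤ C ∧
        Algebra.norm ℚ (evT f b) = (c : ℚ) * p ∧
        (c : EE f) ^ k * ((n : EE f) - th f) = evT f b ^ k * evT f a ∧
        (minpoly ℚ (evT f b)).natDegree = f.natDegree := by
  have hd1 : 1 ≤ f.natDegree := by omega
  obtain ⟨K, hK⟩ := lf_det_le f hm
  obtain ⟨U, V, R, hR, hUV⟩ := sv_bezout f hirr
  refine ⟨4 * K, 4 * K + R.natAbs + 1, ?_⟩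
  intro p T hp hpP hpT hTp n hdvd
  have hp0 : (0 : ℤ) < p := by exact_mod_cast hp.pos
  have hpf : (p : ℤ) ∣ f.eval n := (dvd_pow_self _ (by omega)).trans hdvd
  obtain ⟨b, hb0, hbd, hbT, hbn⟩ := lf_pigeon f.natDegree hd1 p T hp.pos hpT n
  obtain ⟨c, u, v, hdet, hu, hv⟩ := lf_key f b hm hd p n hpf hbn
  have hnorm : Algebra.norm ℚ (evT f b) = (c : ℚ) * p := by
    rw [lf_norm f hm hd1 b, hdet]
    push_cast
    ring
  have hne : Algebra.norm ℚ (evT f b) ≠ 0 :=
    lf_norm_ne_zero f hm hirr _ (lf_evT_ne_zero f hm b hbd hb0)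
  have hc0 : c ≠ 0 := by
    intro h
    apply hne
    rw [hnorm, h]
    simp
  have hcC : |c| ≤ ((4 * K : ℕ) : ℤ) := by
    have h1 := hK b T hbd hbT
    rw [hdet, abs_mul, abs_of_pos hp0] at h1
    have h2 : (T : ℤ) ^ f.natDegree ≤ 4 * p := by exact_mod_cast hTp
    have h3 : (K : ℤ) * (T : ℤ) ^ f.natDegree ≤ (K : ℤ) * (4 * p) :=
      mul_le_mul_of_nonneg_left h2 (by (clear * -; positivity))
    have h4 : |c| * (p : ℤ) ≤ ((4 * K : ℕ) : ℤ) * p := by
      push_cast
      linarith only [h1, h3]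
    exact le_of_mul_le_mul_right h4 hp0
  have hcp : ¬ (p : ℤ) ∣ c := by
    intro h
    have h1 : (p : ℤ) ≤ |c| := Int.le_of_dvd (abs_pos.mpr hc0) ((dvd_abs _ _).mpr h)
    have h2 : ((4 * K + R.natAbs + 1 : ℕ) : ℤ) ≤ p := by exact_mod_cast hpP
    push_cast at h2 hcC
    have h3 : (0 : ℤ) ≤ |R| := abs_nonneg R
    linarith only [h1, h2, hcC, h3]
  have hder : ¬ (p : ℤ) ∣ (derivative f).eval n := by
    intro h
    have h1 : (p : ℤ) ∣ R := by
      have h2 := congrArg (eval n) hUV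
      rw [eval_add, eval_mul, eval_mul, eval_C] at h2
      rw [← h2]
      exact dvd_add (hpf.mul_left _) (h.mul_left _)
    have h3 : p ∣ R.natAbs := Int.natCast_dvd.mp h1
    have h4 := Nat.le_of_dvd (Int.natAbs_pos.mpr hR) h3
    omega
  obtain ⟨s, t, hst⟩ : ∃ s t : ℤ, s * (derivative f).eval n + t * p = 1 := by
    have hcop : IsCoprime ((derivative f).eval n) (p : ℤ) :=
      ((Nat.prime_iff_prime_int.mp hp).coprime_iff_not_dvd.mpr hder).symm
    obtain ⟨s, t, h⟩ := hcop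
    exact ⟨s, t, h⟩
  obtain ⟨m, hm'⟩ := hdvd
  obtain ⟨a, ha⟩ := lf_power f k hk p n c m s t b u v hm' hst hu hv
  refine ⟨b, a %ₘ f, c, hbd, hbT, lf_mod_lt f hm hd1 a, hc0, hcC, hnorm, ?_,
    lf_degree f hm hirr b c p hp hcp hnorm⟩
  rw [lf_evT_mod]
  exact ha

end Vale.Agent.P018
end

section

/-! # P018, M6: the sum of the absolute values of the coefficients of an integer polynomial. -/

namespace Vale.Agent.P018

open Polynomial Finset

/-- sum of the absolute values of the coefficients. -/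
def nrm1 (P : ℤ[X]) : ℤ := ∑ i ∈ range (P.natDegree + 1), |P.coeff i|

theorem nrm1_eq (P : ℤ[X]) {n : ℕ} (h : P.natDegree < n) :
    nrm1 P = ∑ i ∈ range n, |P.coeff i| := by
  unfold nrm1
  refine sum_subset (range_subset_range.2 (by omega)) fun i _ hi => ?_
  rw [mem_range, not_lt] at hi
  rw [coeff_eq_zero_of_natDegree_lt (by omega), abs_zero]

theorem nrm1_nonneg (P : ℤ[X]) : 0 ≤ nrm1 P := sum_nonneg fun _ _ => abs_nonneg _

theorem nrm1_add_le (P Q : ℤ[X]) : nrm1 (P + Q) ≤ nrm1 P + nrm1 Q := by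
  have h1 := natDegree_add_le P Q
  rw [nrm1_eq (P + Q) (n := max P.natDegree Q.natDegree + 1) (by omega),
    nrm1_eq P (n := max P.natDegree Q.natDegree + 1) (by omega),
    nrm1_eq Q (n := max P.natDegree Q.natDegree + 1) (by omega), ← sum_add_distrib]
  refine sum_le_sum fun i _ => ?_
  rw [coeff_add]
  exact abs_add_le _ _

theorem nrm1_zero : nrm1 0 = 0 := by simp [nrm1]

theorem nrm1_sum_le {ι : Type*} (s : Finset ι) (P : ι → ℤ[X]) :
    nrm1 (∑ i ∈ s, P i) ≤ ∑ i ∈ s, nrm1 (P i) := by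
  classical
  induction s using Finset.induction_on with
  | empty => simp [nrm1_zero]
  | insert a s ha ih =>
    rw [sum_insert ha, sum_insert ha]
    exact (nrm1_add_le _ _).trans (by linarith)

theorem nrm1_C_mul (a : ℤ) (P : ℤ[X]) : nrm1 (C a * P) = |a| * nrm1 P := by
  rw [nrm1_eq (C a * P) (n := P.natDegree + 1) (by
    have := natDegree_C_mul_le a P
    omega), nrm1, mul_sum]
  refine sum_congr rfl fun i _ => ?_
  rw [coeff_C_mul, abs_mul]

theorem nrm1_X_pow_mul (n : ℕ) (P : ℤ[X]) : nrm1 (X ^ n * P) = nrm1 P := by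
  rw [nrm1_eq (X ^ n * P) (n := P.natDegree + 1 + n) (by
    have h1 := natDegree_mul_le (p := (X : ℤ[X]) ^ n) (q := P)
    have h2 : ((X : ℤ[X]) ^ n).natDegree = n := natDegree_X_pow n
    omega), nrm1]
  rw [add_comm (P.natDegree + 1) n, sum_range_add]
  rw [sum_eq_zero, zero_add]
  · refine sum_congr rfl fun i _ => ?_
    rw [coeff_X_pow_mul', if_pos (by omega), Nat.add_sub_cancel_left]
  · intro i hi
    rw [mem_range] at hi
    rw [coeff_X_pow_mul', if_neg (by omega), abs_zero]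

theorem nrm1_mul_le (P Q : ℤ[X]) : nrm1 (P * Q) ≤ nrm1 P * nrm1 Q := by
  have h : P * Q = ∑ i ∈ range (P.natDegree + 1), C (P.coeff i) * (X ^ i * Q) := by
    conv_lhs => rw [P.as_sum_range_C_mul_X_pow]
    rw [sum_mul]
    exact sum_congr rfl fun i _ => by ring
  rw [h]
  refine (nrm1_sum_le _ _).trans ?_
  conv_rhs => rw [nrm1, sum_mul]
  refine sum_le_sum fun i _ => ?_
  rw [nrm1_C_mul, nrm1_X_pow_mul]

theorem nrm1_C (a : ℤ) : nrm1 (C a) = |a| := by simp [nrm1]

theorem nrm1_one : nrm1 1 = 1 := by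
  rw [← C_1, nrm1_C, abs_one]

theorem nrm1_pow_le (P : ℤ[X]) (n : ℕ) : nrm1 (P ^ n) ≤ nrm1 P ^ n := by
  induction n with
  | zero => simp [nrm1_one]
  | succ n ih =>
    rw [pow_succ, pow_succ]
    exact (nrm1_mul_le _ _).trans (mul_le_mul_of_nonneg_right ih (nrm1_nonneg P))

theorem nrm1_prod_le {ι : Type*} (s : Finset ι) (P : ι → ℤ[X]) :
    nrm1 (∏ i ∈ s, P i) ≤ ∏ i ∈ s, nrm1 (P i) := by
  classical
  induction s using Finset.induction_on with
  | empty => simp [nrm1_one]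
  | insert a s ha ih =>
    rw [prod_insert ha, prod_insert ha]
    exact (nrm1_mul_le _ _).trans (mul_le_mul_of_nonneg_left ih (nrm1_nonneg _))

theorem nrm1_X_sub_C_le (a : ℤ) : nrm1 (X - C a) ≤ 1 + |a| := by
  have h : (X - C a : ℤ[X]) = X ^ 1 * 1 + C (-a) := by simp [sub_eq_add_neg]
  rw [h]
  refine (nrm1_add_le _ _).trans ?_
  rw [nrm1_X_pow_mul, nrm1_one, nrm1_C, abs_neg]

theorem abs_eval_le_nrm1 (P : ℤ[X]) (n B : ℤ) (hB : 1 ≤ B) (hn : |n| ≤ B) {d : ℕ}
    (hd : P.natDegree ≤ d) : |P.eval n| ≤ nrm1 P * B ^ d := by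
  rw [eval_eq_sum_range, nrm1, sum_mul]
  refine (abs_sum_le_sum_abs _ _).trans (sum_le_sum fun i hi => ?_)
  rw [mem_range] at hi
  rw [abs_mul, abs_pow]
  refine mul_le_mul_of_nonneg_left ?_ (abs_nonneg _)
  exact (pow_le_pow_left₀ (abs_nonneg _) hn i).trans (pow_le_pow_right₀ hB (by omega))

/-- coefficients of a factor whose cofactor is nonzero (Mahler measure). -/
theorem coeff_factor_le (H G : ℤ[X]) (hG : G ≠ 0) (D : ℕ) (hD : H.natDegree ≤ D) (i : ℕ) :
    |H.coeff i| ≤ 2 ^ D * nrm1 (H * G) := by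
  have h1 := norm_coeff_le_choose_mul_mahlerMeasure_of_one_le_mahlerMeasure i
    (H.map (Int.castRingHom ℂ)) (G.map (Int.castRingHom ℂ)) (one_le_mahlerMeasure_of_ne_zero hG)
  rw [← Polynomial.map_mul] at h1
  have h2 := mahlerMeasure_le_sum_norm_coeff ((H * G).map (Int.castRingHom ℂ))
  have h3 : ((H * G).map (Int.castRingHom ℂ)).sum (fun _ a => ‖a‖) = ((nrm1 (H * G) : ℤ) : ℝ) := by
    rw [sum_over_range' _ (by simp) ((H * G).natDegree + 1) (by
      have := natDegree_map_le (p := H * G) (f := Int.castRingHom ℂ)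
      omega), nrm1]
    push_cast
    refine sum_congr rfl fun i _ => ?_
    rw [coeff_map]
    simp
  rw [h3] at h2
  have h4 : ‖(H.map (Int.castRingHom ℂ)).coeff i‖ = ((|H.coeff i| : ℤ) : ℝ) := by
    rw [coeff_map]
    simp
  rw [h4] at h1
  have h5 : (((H.map (Int.castRingHom ℂ)).natDegree.choose i : ℕ) : ℝ) ≤ 2 ^ D := by
    have h6 : (H.map (Int.castRingHom ℂ)).natDegree.choose i ≤ 2 ^ D :=
      (Nat.choose_le_two_pow _ _).trans
        (Nat.pow_le_pow_right (by norm_num) (natDegree_map_le.trans hD))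
    exact_mod_cast h6
  have h6 : ((|H.coeff i| : ℤ) : ℝ) ≤ ((2 ^ D * nrm1 (H * G) : ℤ) : ℝ) := by
    push_cast
    push_cast at h1
    refine h1.trans ?_
    exact mul_le_mul h5 h2 (mahlerMeasure_nonneg _) (by positivity)
  exact_mod_cast h6

end Vale.Agent.P018
end

section

/-! # P018, M6: the polynomial case of the argument with lines. -/

namespace Vale.Agent.P018

open Polynomial Finset

/-- Integral version of Lagrange interpolation with control of the sizes. -/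
theorem interp_int (D0 : ℕ) (q : ℚ[X]) (hq : q.natDegree ≤ D0) (s : Finset (ℤ × ℤ))
    (hs : s.card = D0 + 1) (hinj : Set.InjOn Prod.fst (s : Set (ℤ × ℤ))) (B : ℤ) (hB : 1 ≤ B)
    (h : ∀ z ∈ s, |z.1| ≤ B ∧ |z.2| ≤ B ∧ (z.2 : ℚ) = q.eval (z.1 : ℚ)) :
    ∃ (a : ℤ) (Q : ℤ[X]), a ≠ 0 ∧ |a| ≤ (2 * B) ^ (D0 * (D0 + 1)) ∧
      Q.map (Int.castRingHom ℚ) = C (a : ℚ) * q ∧ Q.natDegree ≤ D0 ∧
      nrm1 Q ≤ (D0 + 1) * (2 * B) ^ (1 + D0 * D0 + D0) := by
  classical
  have h2B : 1 ≤ 2 * B := by linarith only [hB]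
  have hne : ∀ z ∈ s, ∀ w ∈ s.erase z, z.1 - w.1 ≠ 0 := by
    intro z hz w hw h0
    rw [mem_erase] at hw
    exact hw.1 (hinj hw.2 hz (by linarith))
  have hle : ∀ z ∈ s, ∀ w ∈ s.erase z, |z.1 - w.1| ≤ 2 * B := by
    intro z hz w hw
    have h1 := (h z hz).1
    have h2 := (h w (mem_of_mem_erase hw)).1
    exact (abs_sub _ _).trans (by linarith only [h2, h1])
  have hcard : ∀ z ∈ s, (s.erase z).card = D0 := by
    intro z hz
    rw [card_erase_of_mem hz, hs, Nat.add_sub_cancel]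
  set a : ℤ := ∏ z ∈ s, ∏ w ∈ s.erase z, (z.1 - w.1) with ha
  set Q : ℤ[X] := ∑ z ∈ s, C (z.2 * ∏ y ∈ s.erase z, ∏ w ∈ s.erase y, (y.1 - w.1)) *
    ∏ w ∈ s.erase z, (X - C w.1) with hQ
  have hprod : ∀ z ∈ s, |∏ w ∈ s.erase z, (z.1 - w.1)| ≤ (2 * B) ^ D0 := by
    intro z hz
    rw [abs_prod, ← hcard z hz, ← prod_const]
    exact prod_le_prod (fun _ _ => abs_nonneg _) (hle z hz)
  refine ⟨a, Q, ?_, ?_, ?_, ?_, ?_⟩
  · rw [ha]
    exact prod_ne_zero_iff.2 fun z hz => prod_ne_zero_iff.2 (hne z hz)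
  · rw [ha, abs_prod, pow_mul, ← hs, ← prod_const]
    exact prod_le_prod (fun _ _ => abs_nonneg _) hprod
  · have hinjQ : Set.InjOn (fun z : ℤ × ℤ => (z.1 : ℚ)) (s : Set (ℤ × ℤ)) := by
      intro z hz w hw hzw
      have hzw' : (z.1 : ℚ) = (w.1 : ℚ) := hzw
      exact hinj hz hw (by exact_mod_cast hzw')
    have hdeg : q.degree < (s.card : WithBot ℕ) := by
      rw [hs]
      exact lt_of_le_of_lt degree_le_natDegree (by exact_mod_cast Nat.lt_succ_of_le hq)
    rw [Lagrange.eq_interpolate (v := fun z : ℤ × ℤ => (z.1 : ℚ)) hinjQ hdeg]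
    rw [Lagrange.interpolate_apply, mul_sum, hQ, Polynomial.map_sum]
    refine sum_congr rfl fun z hz => ?_
    have h1 : a = (∏ w ∈ s.erase z, (z.1 - w.1)) *
        ∏ y ∈ s.erase z, ∏ w ∈ s.erase y, (y.1 - w.1) := by
      rw [ha, ← mul_prod_erase s _ hz]
    have h2 : C (((∏ w ∈ s.erase z, (z.1 - w.1) : ℤ)) : ℚ) *
        Lagrange.basis s (fun z : ℤ × ℤ => (z.1 : ℚ)) z =
        ∏ w ∈ s.erase z, (X - C (w.1 : ℚ)) := by
      unfold Lagrange.basis Lagrange.basisDivisor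
      push_cast
      rw [map_prod, ← prod_mul_distrib]
      refine prod_congr rfl fun w hw => ?_
      rw [← mul_assoc, ← C_mul, mul_inv_cancel₀, C_1, one_mul]
      have := hne z hz w hw
      exact_mod_cast this
    rw [← (h z hz).2.2, Polynomial.map_mul, map_C, Polynomial.map_prod, h1]
    simp only [Polynomial.map_sub, map_X, map_C]
    rw [← show ∏ w ∈ s.erase z, (X - C (w.1 : ℚ)) =
      ∏ w ∈ s.erase z, (X - C ((Int.castRingHom ℚ) w.1)) from rfl, ← h2]
    simp only [map_mul, Int.cast_mul, eq_intCast]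
    ring
  · rw [hQ]
    refine natDegree_sum_le_of_forall_le _ _ fun z hz => ?_
    refine (natDegree_C_mul_le _ _).trans ?_
    refine (natDegree_prod_le _ _).trans ?_
    rw [← hcard z hz, card_eq_sum_ones]
    refine sum_le_sum fun w _ => ?_
    rw [natDegree_X_sub_C]
  · rw [hQ]
    refine (nrm1_sum_le _ _).trans ?_
    have h1 : ∀ z ∈ s, nrm1 (C (z.2 * ∏ y ∈ s.erase z, ∏ w ∈ s.erase y, (y.1 - w.1)) *
        ∏ w ∈ s.erase z, (X - C w.1)) ≤ (2 * B) ^ (1 + D0 * D0 + D0) := by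
      intro z hz
      rw [nrm1_C_mul, abs_mul, pow_add, pow_add, pow_one]
      refine mul_le_mul (mul_le_mul ?_ ?_ (abs_nonneg _) (by positivity)) ?_ (nrm1_nonneg _)
        (by positivity)
      · exact (h z hz).2.1.trans (by linarith only [hB])
      · rw [abs_prod, pow_mul]
        rw [← hcard z hz, ← prod_const]
        refine prod_le_prod (fun _ _ => abs_nonneg _) fun y hy => ?_
        rw [hcard z hz]
        exact hprod y (mem_of_mem_erase hy)
      · refine (nrm1_prod_le _ _).trans ?_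
        rw [← hcard z hz, ← prod_const]
        refine prod_le_prod (fun _ _ => nrm1_nonneg _) fun w hw => ?_
        refine (nrm1_X_sub_C_le _).trans ?_
        have := (h w (mem_of_mem_erase hw)).1
        linarith only [this, hB]
    refine (sum_le_sum h1).trans ?_
    rw [sum_const, hs, nsmul_eq_mul]
    push_cast
    exact le_rfl

/-- the polynomial `a^d f(Q/a)`. -/
noncomputable def homog (f : ℤ[X]) (a : ℤ) (Q : ℤ[X]) : ℤ[X] :=
  ∑ i ∈ range (f.natDegree + 1), C (f.coeff i * a ^ (f.natDegree - i)) * Q ^ i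

theorem homog_map (f : ℤ[X]) (a : ℤ) (Q : ℤ[X]) (q : ℚ[X])
    (hQ : Q.map (Int.castRingHom ℚ) = C (a : ℚ) * q) :
    (homog f a Q).map (Int.castRingHom ℚ) =
      C ((a : ℚ) ^ f.natDegree) * (f.map (Int.castRingHom ℚ)).comp q := by
  unfold homog
  rw [Polynomial.map_sum, comp, eval₂_eq_sum_range' _ (n := f.natDegree + 1) (by
    have := natDegree_map_le (p := f) (f := Int.castRingHom ℚ)
    omega), mul_sum]
  refine sum_congr rfl fun i hi => ?_
  rw [mem_range] at hi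
  rw [Polynomial.map_mul, map_C, Polynomial.map_pow, hQ, coeff_map, mul_pow, ← C_pow]
  have h1 : (a : ℚ) ^ f.natDegree = (a : ℚ) ^ (f.natDegree - i) * (a : ℚ) ^ i := by
    rw [← pow_add]
    congr 1
    omega
  rw [h1]
  simp only [map_mul, map_pow, eq_intCast]
  ring

theorem homog_eval (f : ℤ[X]) (a : ℤ) (Q : ℤ[X]) (t n : ℤ) (h : Q.eval t = a * n) :
    (homog f a Q).eval t = a ^ f.natDegree * f.eval n := by
  unfold homog
  rw [eval_finsetSum, eval_eq_sum_range, mul_sum]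
  refine sum_congr rfl fun i hi => ?_
  rw [mem_range] at hi
  rw [eval_mul, eval_C, eval_pow, h, mul_pow]
  have h1 : a ^ f.natDegree = a ^ (f.natDegree - i) * a ^ i := by
    rw [← pow_add]
    congr 1
    omega
  rw [h1]
  ring

theorem homog_natDegree_le (f : ℤ[X]) (a : ℤ) (Q : ℤ[X]) (D : ℕ) (hQ : Q.natDegree ≤ D) :
    (homog f a Q).natDegree ≤ f.natDegree * D := by
  unfold homog
  refine natDegree_sum_le_of_forall_le _ _ fun i hi => ?_
  rw [mem_range] at hi
  refine (natDegree_C_mul_le _ _).trans ?_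
  refine natDegree_pow_le.trans ?_
  exact Nat.mul_le_mul (by omega) hQ

theorem homog_nrm1_le (f : ℤ[X]) (a : ℤ) (Q : ℤ[X]) (M : ℤ) (ha : |a| ≤ M)
    (hQ : nrm1 Q ≤ M) : nrm1 (homog f a Q) ≤ nrm1 f * M ^ f.natDegree := by
  have hM : 0 ≤ M := (abs_nonneg a).trans ha
  unfold homog
  refine (nrm1_sum_le _ _).trans ?_
  conv_rhs => rw [nrm1, sum_mul]
  refine sum_le_sum fun i hi => ?_
  rw [mem_range] at hi
  rw [nrm1_C_mul, abs_mul, mul_assoc]
  refine mul_le_mul_of_nonneg_left ?_ (abs_nonneg _)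
  have h1 : M ^ f.natDegree = M ^ (f.natDegree - i) * M ^ i := by
    rw [← pow_add]
    congr 1
    omega
  rw [h1, abs_pow]
  refine mul_le_mul (pow_le_pow_left₀ (abs_nonneg _) ha _) ?_ (nrm1_nonneg _) (by positivity)
  exact (nrm1_pow_le _ _).trans (pow_le_pow_left₀ (nrm1_nonneg _) hQ _)

/-- Counting: all the primes divide one nonzero integer of polynomial size. -/
theorem count_of_dvd (d C2 K1 T : ℕ) (hT : 2 ≤ T) (N : ℤ[X])
    (hNd : N.natDegree = d) (hd : 1 ≤ d) (S : Finset (ℤ × ℤ))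
    (hinj : Set.InjOn Prod.fst (S : Set (ℤ × ℤ))) (p : ℤ × ℤ → ℕ) (c : ℤ × ℤ → ℤ) (R : ℤ)
    (hR0 : R ≠ 0) (hR : |R| ≤ (T : ℤ) ^ K1)
    (h : ∀ z ∈ S, (p z).Prime ∧ T ≤ p z ∧ |c z| ≤ C2 ∧ N.eval z.1 = c z * p z ∧ (p z : ℤ) ∣ R) :
    S.card ≤ d * (K1 * (2 * C2 + 1)) := by
  classical
  set SP := S.image p with hSP
  have hRle' : R.natAbs ≤ T ^ K1 := by
    rw [Int.abs_eq_natAbs] at hR
    exact_mod_cast hR
  have hRpos : 0 < R.natAbs := Int.natAbs_pos.2 hR0
  have hSprime : ∀ r ∈ SP, r.Prime := by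
    intro r hr
    obtain ⟨z, hz, rfl⟩ := mem_image.1 hr
    exact (h z hz).1
  have hSdvd : ∏ r ∈ SP, r ∣ R.natAbs := by
    refine Finset.prod_primes_dvd _ (fun r hr => (hSprime r hr).prime) ?_
    intro r hr
    obtain ⟨z, hz, rfl⟩ := mem_image.1 hr
    exact Int.natCast_dvd.1 (h z hz).2.2.2.2
  have hScard : SP.card ≤ K1 := by
    have h1 : T ^ SP.card ≤ ∏ r ∈ SP, r := by
      rw [← prod_const]
      refine prod_le_prod' fun r hr => ?_
      obtain ⟨z, hz, rfl⟩ := mem_image.1 hr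
      exact (h z hz).2.1
    have h2 := (h1.trans (Nat.le_of_dvd hRpos hSdvd)).trans hRle'
    exact (Nat.pow_le_pow_iff_right (by omega)).1 h2
  set I := S.image (fun z => (p z, c z)) with hI
  have hIcard : I.card ≤ K1 * (2 * C2 + 1) := by
    have h1 : I ⊆ SP ×ˢ Icc (-(C2 : ℤ)) C2 := by
      intro x hx
      obtain ⟨z, hz, rfl⟩ := mem_image.1 hx
      rw [mem_product, mem_Icc]
      exact ⟨mem_image_of_mem p hz, abs_le.1 (h z hz).2.2.1⟩
    refine (card_le_card h1).trans ?_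
    rw [card_product, Int.card_Icc]
    refine Nat.mul_le_mul hScard ?_
    omega
  have hfib : ∀ b ∈ I, (S.filter fun z => (p z, c z) = b).card ≤ d := by
    rintro ⟨r, e⟩ hb
    set g : ℤ[X] := N - C (e * r) with hg
    have hg0 : g ≠ 0 := by
      intro h0
      have h1 : N = C (e * r) := by rw [← sub_eq_zero]; exact h0
      rw [h1, natDegree_C] at hNd
      omega
    have hgd : g.natDegree ≤ d := by
      rw [hg, natDegree_sub_C, hNd]
    have hinj' : Set.InjOn Prod.fst ((S.filter fun z => (p z, c z) = (r, e) : Finset (ℤ × ℤ)) :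
        Set (ℤ × ℤ)) := hinj.mono (by
          intro z hz
          exact mem_coe.2 (mem_filter.1 (mem_coe.1 hz)).1)
    rw [← card_image_of_injOn hinj']
    calc _ ≤ g.roots.toFinset.card := by
          refine card_le_card fun t ht => ?_
          obtain ⟨z, hz, rfl⟩ := mem_image.1 ht
          rw [mem_filter, Prod.mk.injEq] at hz
          rw [Multiset.mem_toFinset, mem_roots hg0, IsRoot.def, hg, eval_sub, eval_C,
            (h z hz.1).2.2.2.1, hz.2.1, hz.2.2, sub_self]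
      _ ≤ Multiset.card g.roots := g.roots.toFinset_card_le
      _ ≤ g.natDegree := card_roots' g
      _ ≤ d := hgd
  calc S.card ≤ d * I.card := card_le_mul_card_image S d hfib
    _ ≤ d * (K1 * (2 * C2 + 1)) := Nat.mul_le_mul_left _ hIcard

/-- the multiplicity of `N` in `f ∘ q` is less than `k`. -/
theorem not_pow_dvd_comp (f q N : ℚ[X]) (hf : Irreducible f)
    (k : ℕ) (hk : 2 ≤ k) (hq0 : 1 ≤ q.natDegree) (hq : q.natDegree ≤ (k - 1) * N.natDegree) :
    ¬ N ^ k ∣ f.comp q := by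
  intro hdvd
  have h1 : N ^ (k - 1) ∣ derivative (f.comp q) := pow_sub_one_dvd_derivative_of_pow_dvd hdvd
  rw [derivative_comp] at h1
  have h2 : IsCoprime f (derivative f) := hf.separable
  have h3 : IsCoprime (f.comp q) ((derivative f).comp q) := h2.map (compRingHom q)
  have h4 : IsCoprime N ((derivative f).comp q) :=
    h3.of_isCoprime_of_dvd_left ((dvd_pow_self N (by omega)).trans hdvd)
  have h5 : N ^ (k - 1) ∣ derivative q := (h4.pow_left (m := k - 1)).dvd_of_dvd_mul_right h1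
  have h6 : derivative q ≠ 0 := by
    intro h0
    have := derivative_eq_zero.1 h0
    omega
  have h7 := natDegree_le_of_dvd h5 h6
  rw [natDegree_pow] at h7
  have h8 := natDegree_derivative_lt (p := q) (by omega)
  omega

/-- M6. Polynomial case: few integer points `(t, n)` with `n = q(t)`, `N(t) = c p`,
`p^k ∣ f(n)`, if `deg q ≤ (k-1) deg N`. -/
theorem polynomial_case (f : ℤ[X]) (hirr : Irreducible (f.map (Int.castRingHom ℚ)))
    (hd : 2 ≤ f.natDegree) (k : ℕ) (hk : 2 ≤ k) (C1 C2 : ℕ) :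
    ∃ K T0 : ℕ, ∀ T : ℕ, T0 ≤ T → ∀ N : ℤ[X], N.Monic → N.natDegree = f.natDegree →
      Irreducible (N.map (Int.castRingHom ℚ)) → (∀ i, |N.coeff i| ≤ (T : ℤ) ^ C1) →
      ∀ q : ℚ[X], q.natDegree ≤ (k - 1) * f.natDegree → ∀ S : Finset (ℤ × ℤ),
      Set.InjOn Prod.fst (S : Set (ℤ × ℤ)) →
      (∀ z ∈ S, |z.1| ≤ T ∧ |z.2| ≤ (T : ℤ) ^ C1 ∧ (z.2 : ℚ) = q.eval (z.1 : ℚ) ∧
        ∃ (p : ℕ) (c : ℤ), p.Prime ∧ T ≤ p ∧ c ≠ 0 ∧ |c| ≤ C2 ∧ N.eval z.1 = c * p ∧
          (p : ℤ) ^ k ∣ f.eval z.2) →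
      S.card ≤ K := by
  classical
  have hinjQ : Function.Injective (Int.castRingHom ℚ) := Int.cast_injective
  obtain ⟨d, hddef⟩ : ∃ n, n = f.natDegree := ⟨_, rfl⟩
  rw [← hddef] at hd ⊢
  obtain ⟨D0, hD0⟩ : ∃ n, n = (k - 1) * d := ⟨_, rfl⟩
  obtain ⟨E1, hE1⟩ : ∃ n, n = 1 + (C1 + 2) * (1 + D0 * D0 + D0) := ⟨_, rfl⟩
  obtain ⟨E2, hE2⟩ : ∃ n, n = 1 + E1 * d := ⟨_, rfl⟩
  obtain ⟨E3, hE3⟩ : ∃ n, n = d * D0 + E2 := ⟨_, rfl⟩
  obtain ⟨KB, hKB⟩ : ∃ n, n = 1 + E3 * (d + d * D0) := ⟨_, rfl⟩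
  obtain ⟨KA, hKA⟩ : ∃ n, n = 1 + (C1 + 1) * d := ⟨_, rfl⟩
  rw [← hD0]
  refine ⟨max (D0 + 1) (max (d * (KA * (2 * C2 + 1))) (d * (KB * (2 * C2 + 1)))),
    max (max 2 (nrm1 f).natAbs) (max (max (C2 + 1) (D0 + 1)) (d + d * D0).factorial),
    fun T hT N hNm hNd hNirr hNc q hq S hinj h => ?_⟩
  have hT2 : 2 ≤ T := by omega
  have hTf : (nrm1 f).natAbs ≤ T := by omega
  have hTC : C2 + 1 ≤ T := by omega
  have hTD : D0 + 1 ≤ T := by omega
  have hTfac : (d + d * D0).factorial ≤ T := by omega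
  clear hT
  have hT1' : (1 : ℤ) ≤ T := by exact_mod_cast (by omega : 1 ≤ T)
  have hT2' : (2 : ℤ) ≤ T := by exact_mod_cast hT2
  have hTf' : nrm1 f ≤ T := by
    have h1 : ((nrm1 f).natAbs : ℤ) ≤ T := by exact_mod_cast hTf
    rwa [Int.natAbs_of_nonneg (nrm1_nonneg f)] at h1
  choose! p c hp using fun z hz => (h z hz).2.2.2
  by_cases hcard : S.card ≤ D0 + 1
  · exact le_max_of_le_left hcard
  refine le_max_of_le_right ?_
  by_cases hq0 : q.natDegree = 0
  · -- constant case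
    refine le_max_of_le_left ?_
    obtain ⟨q0, hq0'⟩ : ∃ q0, q = C q0 := ⟨_, eq_C_of_natDegree_eq_zero hq0⟩
    obtain ⟨z0, hz0⟩ : S.Nonempty := by
      rw [← card_pos]
      omega
    have hn : ∀ z ∈ S, z.2 = z0.2 := by
      intro z hz
      have h1 := (h z hz).2.2.1
      have h2 := (h z0 hz0).2.2.1
      rw [hq0', eval_C] at h1 h2
      exact_mod_cast h1.trans h2.symm
    have hR0 : f.eval z0.2 ≠ 0 := by
      intro h0
      have h1 : (f.map (Int.castRingHom ℚ)).IsRoot (z0.2 : ℚ) := by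
        rw [IsRoot.def, show (z0.2 : ℚ) = Int.castRingHom ℚ z0.2 from rfl, eval_map,
          eval₂_at_apply, h0, map_zero]
      have h2 : (f.map (Int.castRingHom ℚ)).natDegree = 1 :=
        natDegree_eq_of_degree_eq_some (degree_eq_one_of_irreducible_of_root hirr h1)
      rw [natDegree_map_eq_of_injective hinjQ, ← hddef] at h2
      omega
    have hR : |f.eval z0.2| ≤ (T : ℤ) ^ KA := by
      have h1 := abs_eval_le_nrm1 f z0.2 ((T : ℤ) ^ (C1 + 1)) (one_le_pow₀ hT1')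
        ((h z0 hz0).2.1.trans (pow_le_pow_right₀ hT1' (by omega))) (d := d) hddef.ge
      refine h1.trans ?_
      have h2 : (T : ℤ) ^ KA = T * ((T : ℤ) ^ (C1 + 1)) ^ d := by
        rw [hKA, pow_add, pow_one, ← pow_mul]
      rw [h2]
      exact mul_le_mul_of_nonneg_right hTf' (by positivity)
    refine count_of_dvd d C2 KA T hT2 N hNd (by omega) S hinj p c (f.eval z0.2) hR0 hR ?_
    intro z hz
    obtain ⟨h1, h2, -, h4, h5, h6⟩ := hp z hz
    refine ⟨h1, h2, h4, h5, ?_⟩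
    rw [hn z hz] at h6
    exact (dvd_pow_self _ (by omega)).trans h6
  -- nonconstant case
  refine le_max_of_le_right ?_
  obtain ⟨s, hsS, hs⟩ := exists_subset_card_eq (s := S) (n := D0 + 1) (by omega)
  obtain ⟨B, hB⟩ : ∃ x : ℤ, x = (T : ℤ) ^ (C1 + 1) := ⟨_, rfl⟩
  have hB1 : 1 ≤ B := by
    rw [hB]
    exact one_le_pow₀ hT1'
  have h2B : 2 * B ≤ (T : ℤ) ^ (C1 + 2) := by
    rw [hB, pow_succ (T : ℤ) (C1 + 1), mul_comm]
    exact mul_le_mul_of_nonneg_left hT2' (by positivity)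
  obtain ⟨a, Q, ha0, haB, hQ, hQd, hQn⟩ := interp_int D0 q hq s hs (hinj.mono (by exact_mod_cast hsS))
    B hB1 (by
      intro z hz
      obtain ⟨h1, h2, h3, -⟩ := h z (hsS hz)
      rw [hB]
      exact ⟨h1.trans (le_self_pow₀ hT1' (by omega)),
        h2.trans (pow_le_pow_right₀ hT1' (by omega)), h3⟩)
  have haT : |a| ≤ (T : ℤ) ^ E1 := by
    refine haB.trans ((pow_le_pow_left₀ (by linarith only [hB1]) h2B _).trans ?_)
    rw [← pow_mul]
    refine pow_le_pow_right₀ hT1' ?_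
    have h3 : D0 * (D0 + 1) ≤ 1 + D0 * D0 + D0 := by
      rw [mul_add, mul_one]
      omega
    have h4 := Nat.mul_le_mul_left (C1 + 2) h3
    omega
  have hQT : nrm1 Q ≤ (T : ℤ) ^ E1 := by
    refine hQn.trans ?_
    have h2 : (T : ℤ) ^ E1 = T * ((T : ℤ) ^ (C1 + 2)) ^ (1 + D0 * D0 + D0) := by
      rw [hE1, pow_add, pow_one, ← pow_mul]
    rw [h2]
    refine mul_le_mul (by exact_mod_cast hTD) (pow_le_pow_left₀ (by linarith only [hB1]) h2B _)
      (by (clear * - hB1; positivity)) (by positivity)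
  obtain ⟨F, hF⟩ : ∃ x, x = homog f a Q := ⟨_, rfl⟩
  have hFmap := homog_map f a Q q hQ
  rw [← hF, ← hddef] at hFmap
  have hFd : F.natDegree ≤ d * D0 := by
    rw [hF, hddef]
    exact homog_natDegree_le f a Q D0 hQd
  have hFn : nrm1 F ≤ (T : ℤ) ^ E2 := by
    rw [hF]
    refine (homog_nrm1_le f a Q _ haT hQT).trans ?_
    have h2 : (T : ℤ) ^ E2 = T * ((T : ℤ) ^ E1) ^ d := by
      rw [hE2, pow_add, pow_one, ← pow_mul]
    rw [h2, ← hddef]
    exact mul_le_mul_of_nonneg_right hTf' (by positivity)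
  have haQ : (a : ℚ) ^ d ≠ 0 := pow_ne_zero _ (by exact_mod_cast ha0)
  have hcomp0 : (f.map (Int.castRingHom ℚ)).comp q ≠ 0 := by
    intro h0
    rw [comp_eq_zero_iff] at h0
    rcases h0 with h0 | h0
    · exact hirr.ne_zero h0
    · apply hq0
      rw [h0.2, natDegree_C]
  have hF0 : F ≠ 0 := by
    intro h0
    rw [h0, Polynomial.map_zero] at hFmap
    exact mul_ne_zero (by rwa [Ne, C_eq_zero]) hcomp0 hFmap.symm
  have hNdeg : 0 < N.degree := natDegree_pos_iff_degree_pos.1 (by omega)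
  have hfm : FiniteMultiplicity N F := finiteMultiplicity_of_degree_pos_of_monic hNdeg hNm hF0
  obtain ⟨H, hFH, hNH⟩ := hfm.exists_eq_pow_mul_and_not_dvd
  generalize multiplicity N F = e at hFH
  have hek : e < k := by
    by_contra hle
    rw [not_lt] at hle
    have h1 : N ^ k ∣ F := (pow_dvd_pow N hle).trans (Dvd.intro _ hFH.symm)
    have h2 : (N.map (Int.castRingHom ℚ)) ^ k ∣ F.map (Int.castRingHom ℚ) := by
      rw [← Polynomial.map_pow]
      exact Polynomial.map_dvd _ h1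
    rw [hFmap] at h2
    have hu : IsUnit (C ((a : ℚ) ^ d)) := isUnit_C.2 (isUnit_iff_ne_zero.2 haQ)
    rw [hu.dvd_mul_left] at h2
    refine not_pow_dvd_comp _ q _ hirr k hk (by omega) ?_ h2
    rw [natDegree_map_eq_of_injective hinjQ, hNd, ← hD0]
    exact hq
  have hH0 : H ≠ 0 := by
    rintro rfl
    exact hNH (dvd_zero _)
  have hHd : H.natDegree ≤ d * D0 := by
    refine le_trans ?_ hFd
    rw [hFH, (hNm.pow e).natDegree_mul' hH0]
    omega
  have hHc : ∀ i, |H.coeff i| ≤ (T : ℤ) ^ E3 := by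
    intro i
    refine (coeff_factor_le H (N ^ e) (hNm.pow e).ne_zero (d * D0) hHd i).trans ?_
    rw [mul_comm H, ← hFH, hE3, pow_add]
    exact mul_le_mul (pow_le_pow_left₀ (by norm_num) hT2' _) hFn (nrm1_nonneg _) (by positivity)
  have hNc' : ∀ i, |N.coeff i| ≤ (T : ℤ) ^ E3 := by
    intro i
    refine (hNc i).trans (pow_le_pow_right₀ hT1' ?_)
    have h1 : C1 + 2 ≤ E1 := by
      have h3 : 1 ≤ 1 + D0 * D0 + D0 := by omega
      have h4 := Nat.mul_le_mul_left (C1 + 2) h3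
      omega
    have h2 : E1 ≤ E1 * d := Nat.le_mul_of_pos_right _ (by omega)
    omega
  have hcop : IsCoprime (N.map (Int.castRingHom ℚ)) (H.map (Int.castRingHom ℚ)) := by
    rcases EuclideanDomain.dvd_or_coprime (N.map (Int.castRingHom ℚ)) (H.map (Int.castRingHom ℚ))
      hNirr with h1 | h1
    · exfalso
      exact hNH ((Polynomial.map_dvd_map _ hinjQ hNm).1 h1)
    · exact h1
  have hRne : resultant N H N.natDegree H.natDegree ≠ 0 := by
    have h1 := resultant_ne_zero _ _ hcop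
    rw [natDegree_map_eq_of_injective hinjQ, natDegree_map_eq_of_injective hinjQ,
      resultant_map_map] at h1
    exact fun h0 => h1 (by rw [h0, map_zero])
  obtain ⟨u, v, -, -, huv⟩ := exists_mul_add_mul_eq_C_resultant N H le_rfl le_rfl
    (Or.inl (by omega))
  obtain ⟨R, hR⟩ : ∃ x, x = resultant N H N.natDegree H.natDegree := ⟨_, rfl⟩
  rw [← hR] at hRne huv
  have hRle : |R| ≤ (T : ℤ) ^ KB := by
    have h1 := resultant_abs_le N H ((T : ℤ) ^ E3) (by positivity) hNc' hHc N.natDegree H.natDegree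
    rw [← hR] at h1
    refine h1.trans ?_
    have h2 : (T : ℤ) ^ KB = T * ((T : ℤ) ^ E3) ^ (d + d * D0) := by
      rw [hKB, pow_add, pow_one, ← pow_mul]
    rw [hNd, h2]
    refine mul_le_mul ?_ (pow_le_pow_right₀ (one_le_pow₀ hT1') (by omega)) (by positivity)
      (by positivity)
    have h3 : (d + H.natDegree).factorial ≤ (d + d * D0).factorial :=
      Nat.factorial_le (by omega)
    exact_mod_cast h3.trans hTfac
  refine count_of_dvd d C2 KB T hT2 N hNd (by omega) S hinj p c R hRne hRle ?_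
  intro z hz
  obtain ⟨h1, h2, h3, h4, h5, h6⟩ := hp z hz
  refine ⟨h1, h2, h4, h5, ?_⟩
  have hpN : (p z : ℤ) ∣ N.eval z.1 := by
    rw [h5]
    exact dvd_mul_left _ _
  have hQz : Q.eval z.1 = a * z.2 := by
    have h7 : ((Q.eval z.1 : ℤ) : ℚ) = ((a * z.2 : ℤ) : ℚ) := by
      have h8 : ((Q.eval z.1 : ℤ) : ℚ) = (Q.map (Int.castRingHom ℚ)).eval (z.1 : ℚ) := by
        rw [show (z.1 : ℚ) = Int.castRingHom ℚ z.1 from rfl, eval_map, eval₂_at_apply]
        rfl
      rw [h8, hQ, eval_mul, eval_C, ← (h z hz).2.2.1]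
      push_cast
      rfl
    exact_mod_cast h7
  have hFz : (p z : ℤ) ^ k ∣ F.eval z.1 := by
    rw [hF, homog_eval f a Q z.1 z.2 hQz]
    exact h6.mul_left _
  have hpp : Prime (p z : ℤ) := Nat.prime_iff_prime_int.1 h1
  have hpc : ¬ (p z : ℤ) ∣ c z := by
    intro h7
    have h8 := Int.le_of_dvd (abs_pos.2 h3) ((dvd_abs _ _).2 h7)
    have h9 : (T : ℤ) ≤ p z := by exact_mod_cast h2
    have h10 : (C2 : ℤ) + 1 ≤ T := by exact_mod_cast hTC
    linarith only [h10, h9, h8, h4]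
  have hpH : (p z : ℤ) ∣ H.eval z.1 := by
    rw [hFH, eval_mul, eval_pow, h5, mul_pow, mul_comm (c z ^ e), mul_assoc] at hFz
    have h7 : (p z : ℤ) ^ k = (p z : ℤ) ^ e * (p z : ℤ) ^ (k - e) := by
      rw [← pow_add]
      congr 1
      omega
    rw [h7] at hFz
    have h8 := (mul_dvd_mul_iff_left (pow_ne_zero e hpp.ne_zero)).1 hFz
    have h9 : (p z : ℤ) ∣ c z ^ e * H.eval z.1 := (dvd_pow_self _ (by omega)).trans h8
    rcases hpp.dvd_or_dvd h9 with h10 | h10
    · exact absurd (hpp.dvd_of_dvd_pow h10) hpc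
    · exact h10
  have h7 := congrArg (fun g => g.eval z.1) huv
  simp only [eval_add, eval_mul, eval_C] at h7
  rw [← h7]
  exact dvd_add (hpN.mul_right _) (hpH.mul_right _)

end Vale.Agent.P018
end

section

/-! # P018, K2 (staircase), module A: a Fejer/Chebyshev type kernel polynomial.

`κ = (D_m(x) / (2m+1))^2`, `D_m(x) = 1 + 2 ∑_{j=1}^m T_j(1-2x²)`, `T_j` the Chebyshev polynomials;
with `x = sin ψ` one has `x D_m(x) = sin ((2m+1)ψ)`. -/

namespace Vale.Agent.P018.K2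

open Polynomial

/-- `D_m(x) = 1 + 2 ∑_{j=1}^m T_j(1-2x²)`, i.e. `sin((2m+1)ψ)/sin ψ` at `x = sin ψ`. -/
noncomputable def dirK (m : ℕ) : ℚ[X] :=
  1 + 2 * ∑ j ∈ Finset.range m, (Chebyshev.T ℚ ((j + 1 : ℕ) : ℤ)).comp (1 - 2 * X ^ 2)

lemma dirK_natDegree (m : ℕ) : (dirK m).natDegree ≤ 2 * m := by
  unfold dirK
  refine (natDegree_add_le _ _).trans (max_le (by simp) ?_)
  refine natDegree_mul_le.trans ?_
  have h2 : (2 : ℚ[X]).natDegree = 0 := natDegree_ofNat 2
  rw [h2, zero_add]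
  refine natDegree_sum_le_of_forall_le _ _ fun j hj => ?_
  refine natDegree_comp_le.trans ?_
  rw [Chebyshev.natDegree_T]
  have h3 : (1 - 2 * X ^ 2 : ℚ[X]).natDegree ≤ 2 := by
    compute_degree
  have h4 : ((j + 1 : ℕ) : ℤ).natAbs ≤ m := by
    have := Finset.mem_range.1 hj
    omega
  nlinarith

lemma dirK_cast (m : ℕ) (x : ℚ) : (((dirK m).eval x : ℚ) : ℝ) =
    1 + 2 * ∑ j ∈ Finset.range m,
      (Chebyshev.T ℝ ((j + 1 : ℕ) : ℤ)).eval (1 - 2 * (x : ℝ) ^ 2) := by
  have h : ∀ (n : ℤ) (y : ℚ), (((Chebyshev.T ℚ n).eval y : ℚ) : ℝ) =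
      (Chebyshev.T ℝ n).eval (y : ℝ) := fun n y => by
    simpa using Chebyshev.algebraMap_eval_T (R := ℚ) (R' := ℝ) y n
  unfold dirK
  simp only [eval_add, eval_one, eval_mul, eval_ofNat, eval_finsetSum, eval_comp, eval_sub,
    eval_pow, eval_X, Rat.cast_add, Rat.cast_one, Rat.cast_mul, Rat.cast_ofNat, Rat.cast_sum, h,
    Rat.cast_sub, Rat.cast_pow]

lemma dirK_zero (m : ℕ) : (dirK m).eval 0 = 2 * m + 1 := by
  unfold dirK
  simp [eval_finsetSum, eval_comp]
  ring

lemma dirK_sin (m : ℕ) (ψ : ℝ) : Real.sin ψ * (1 + 2 * ∑ j ∈ Finset.range m,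
    (Chebyshev.T ℝ ((j + 1 : ℕ) : ℤ)).eval (1 - 2 * (Real.sin ψ) ^ 2)) =
      Real.sin ((2 * m + 1) * ψ) := by
  have hc : 1 - 2 * (Real.sin ψ) ^ 2 = Real.cos (2 * ψ) := by
    rw [Real.cos_two_mul, Real.cos_sq']
    ring
  rw [hc]
  simp only [Chebyshev.T_real_cos]
  induction m with
  | zero => simp
  | succ m ih =>
    rw [Finset.sum_range_succ]
    have h1 : Real.sin ψ * (1 + 2 * (∑ j ∈ Finset.range m,
        Real.cos (((j + 1 : ℕ) : ℤ) * (2 * ψ)) + Real.cos (((m + 1 : ℕ) : ℤ) * (2 * ψ)))) =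
        Real.sin ψ * (1 + 2 * ∑ j ∈ Finset.range m, Real.cos (((j + 1 : ℕ) : ℤ) * (2 * ψ))) +
          2 * Real.sin ψ * Real.cos (((m + 1 : ℕ) : ℤ) * (2 * ψ)) := by ring
    rw [h1, ih]
    have h2 : ((2 * m + 1) * ψ : ℝ) = (((m + 1 : ℕ) : ℤ) * (2 * ψ)) - ψ := by
      push_cast
      ring
    have h3 : ((2 * ((m + 1 : ℕ) : ℝ) + 1) * ψ : ℝ) = (((m + 1 : ℕ) : ℤ) * (2 * ψ)) + ψ := by
      push_cast
      ring
    rw [h2, h3, Real.sin_sub, Real.sin_add]
    ring

lemma dirK_bounds (m : ℕ) (x : ℚ) (hx : |x| ≤ 1) :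
    ((dirK m).eval x) ^ 2 ≤ (2 * m + 1) ^ 2 ∧ (x * (dirK m).eval x) ^ 2 ≤ 1 := by
  have hx' : |(x : ℝ)| ≤ 1 := by exact_mod_cast hx
  have hxa := abs_le.1 hx'
  constructor
  · have h1 : |(((dirK m).eval x : ℚ) : ℝ)| ≤ 2 * m + 1 := by
      rw [dirK_cast]
      refine (abs_add_le _ _).trans ?_
      rw [abs_one, abs_mul, abs_two]
      have h2 : |∑ j ∈ Finset.range m,
          (Chebyshev.T ℝ ((j + 1 : ℕ) : ℤ)).eval (1 - 2 * (x : ℝ) ^ 2)| ≤ m := by
        refine (Finset.abs_sum_le_sum_abs _ _).trans ?_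
        refine (Finset.sum_le_card_nsmul _ _ 1 fun j _ => ?_).trans (by simp)
        refine Chebyshev.abs_eval_T_real_le_one _ ?_
        rw [abs_le]
        constructor <;> nlinarith [sq_nonneg (x : ℝ)]
      linarith
    have h3 : ((((dirK m).eval x : ℚ) : ℝ)) ^ 2 ≤ (2 * m + 1) ^ 2 := by
      rw [← sq_abs]
      exact pow_le_pow_left₀ (abs_nonneg _) h1 2
    exact_mod_cast h3
  · have h1 : Real.sin (Real.arcsin x) = x := Real.sin_arcsin hxa.1 hxa.2
    have h2 := dirK_sin m (Real.arcsin x)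
    rw [h1, ← dirK_cast] at h2
    have h3 : ((x : ℝ) * (((dirK m).eval x : ℚ) : ℝ)) ^ 2 ≤ 1 := by
      rw [h2]
      exact Real.sin_sq_le_one _
    exact_mod_cast h3

theorem exists_kernel_poly (δ : ℚ) (hδ : 0 < δ) : ∃ A : ℕ, ∀ N : ℕ, 1 ≤ N →
    ∃ κ : ℚ[X], κ.natDegree ≤ A * N ∧ κ.eval 0 = 1 ∧
      ∀ x : ℚ, |x| ≤ 1 → 0 ≤ κ.eval x ∧ κ.eval x ≤ 1 ∧ κ.eval x * ((N : ℚ) * x) ^ 2 ≤ δ := by
  obtain ⟨c, hc⟩ := exists_nat_ge (max 1 (1 / δ))
  have hc1 : (1 : ℚ) ≤ c := (le_max_left _ _).trans hc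
  have hc2 : 1 / δ ≤ c := (le_max_right _ _).trans hc
  rw [div_le_iff₀ hδ] at hc2
  refine ⟨4 * c, fun N hN => ?_⟩
  set m := N * c with hm
  have hM : (0 : ℚ) < 2 * m + 1 := by positivity
  refine ⟨C (1 / (2 * m + 1 : ℚ) ^ 2) * dirK m ^ 2, ?_, ?_, ?_⟩
  · refine (natDegree_C_mul_le _ _).trans ?_
    refine natDegree_pow_le.trans ?_
    have := dirK_natDegree m
    calc 2 * (dirK m).natDegree ≤ 2 * (2 * m) := by omega
      _ = 4 * c * N := by rw [hm]; ring
  · rw [eval_mul, eval_C, eval_pow, dirK_zero]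
    field_simp
  · intro x hx
    obtain ⟨h1, h2⟩ := dirK_bounds m x hx
    rw [eval_mul, eval_C, eval_pow]
    refine ⟨by (clear * -; positivity), ?_, ?_⟩
    · rw [one_div_mul_eq_div, div_le_one (by positivity)]
      exact h1
    · have h3 : 1 / (2 * m + 1 : ℚ) ^ 2 * (dirK m).eval x ^ 2 * (N * x) ^ 2 =
          (N : ℚ) ^ 2 * (x * (dirK m).eval x) ^ 2 / (2 * m + 1) ^ 2 := by ring
      rw [h3, div_le_iff₀ (by positivity)]
      have h4 : (m : ℚ) = N * c := by rw [hm]; push_cast; ring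
      have h5 : (1 : ℚ) ≤ c * (c * δ) := by (by_contra nlg; linarith only [mul_pos (sub_pos.2 (not_le.1 nlg)) (sub_pos.2 hδ), mul_nonneg (le_of_lt (sub_pos.2 hδ)) (sub_nonneg.2 hc1), mul_nonneg (sub_nonneg.2 hc2) (sub_nonneg.2 hc2), hc2])
      calc (N : ℚ) ^ 2 * (x * (dirK m).eval x) ^ 2 ≤ N ^ 2 * 1 :=
            mul_le_mul_of_nonneg_left h2 (by positivity)
        _ ≤ N ^ 2 * (c * (c * δ)) := mul_le_mul_of_nonneg_left h5 (by positivity)
        _ ≤ δ * (2 * m + 1) ^ 2 := by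
          rw [h4]
          have h6 : (0 : ℚ) ≤ N * c := by positivity
          linarith only [mul_nonneg hδ.le (mul_nonneg h6 h6), mul_nonneg hδ.le h6, hδ]

end Vale.Agent.P018.K2
end

section

/-! # P018, K2 (staircase), module B: points in distinct (far apart) cells are interpolated by
polynomials of degree `≤ A N`.

The points `y q` lie in cells `y0 + h u_q + [0,h)^d`, `u_q ∈ [0,N)^d`, `u` injective and all
`u_q ≡ u_q' mod 2` (so the cells are not adjacent).  Matrix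
`K(q,q') = ∏_j κ((y_{q,j} - y_{q',j}) / (h N))`, `κ` from `exists_kernel_poly (1/(8d))`
(or any small enough `δ`), diagonal entries `1`; if `v = u_{q'} - u_q = 2 v'`, `v_j ≠ 0`, then
`|y_{q,j}-y_{q',j}| ≥ h(|v_j|-1) ≥ h |v_j|/2 = h |v'_j|`, hence `κ ≤ δ / v'_j^2`; if `v_j = 0` use
`κ ≤ 1`.  Row sums off the diagonal are
`≤ (1 + 2 δ ∑_{m≥1} 1/m^2)^d - 1 ≤ (1+4δ)^d - 1 < 1`.  So the matrix is strictly diagonally dominant
(`det_ne_zero_of_sum_row_lt_diag`), and its columns are polynomials in `y` of total degree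
`≤ d A N`. Use `cnt_P_mul`, `cnt_P_prod`, ... and the `hcoord` step of `cnt_P_top` in
`Vale.Agent.P018.K.Count`. -/

namespace Vale.Agent.P018.K2

open Polynomial Vale.Agent.P018.K Finset

section k2b

variable {d : ℕ} {L : Type} [Field L] {ι : Type}

private theorem k2b_coord [CharZero L] (y : ι → Fin d → ℤ) (θ : Fin d → L)
    (hθ : Function.Injective θ) (j : Fin d) :
    (fun q => (y q j : L)) ∈ cnt_P (fun i q => ell (θ i) (y q)) 1 := by
  have hdet : IsUnit (Matrix.vandermonde θ).det :=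
    isUnit_iff_ne_zero.2 (Matrix.det_vandermonde_ne_zero_iff.2 hθ)
  have h1 : ∀ q, (Matrix.vandermonde θ).mulVec (fun j => (y q j : L)) =
      fun i => ell (θ i) (y q) := by
    intro q
    funext i
    simp only [Matrix.mulVec, dotProduct, Matrix.vandermonde_apply, ell]
    exact Finset.sum_congr rfl fun j _ => mul_comm _ _
  have h2 : (fun q => (y q j : L)) =
      ∑ i, ((Matrix.vandermonde θ)⁻¹ j i) • (fun q => ell (θ i) (y q)) := by
    funext q
    have h3 : (fun j => (y q j : L)) =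
        (Matrix.vandermonde θ)⁻¹.mulVec (fun i => ell (θ i) (y q)) := by
      rw [← h1 q, Matrix.mulVec_mulVec, Matrix.nonsing_inv_mul _ hdet, Matrix.one_mulVec]
    have h4 := congrFun h3 j
    simp only [Matrix.mulVec, dotProduct] at h4
    rw [h4, Finset.sum_apply]
    rfl
  rw [h2]
  exact Submodule.sum_mem _ fun i _ => Submodule.smul_mem _ _
    (cnt_P_var (fun i q => ell (θ i) (y q)) i)

private theorem k2b_pow {x : Fin d → ι → L} {v : ι → L} (hv : v ∈ cnt_P x 1) (i : ℕ) :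
    (fun q => v q ^ i) ∈ cnt_P x i := by
  induction i with
  | zero =>
    have e : (fun q => v q ^ 0) = (1 : ι → L) := by
      funext q
      simp
    rw [e]
    exact cnt_P_one x
  | succ i ih =>
    have e : (fun q => v q ^ (i + 1)) = (fun q => v q ^ i) * v := by
      funext q
      simp [pow_succ]
    rw [e]
    exact cnt_P_mul x ih hv

private theorem k2b_eval {x : Fin d → ι → L} {v : ι → L} (hv : v ∈ cnt_P x 1) {f : L[X]} {k : ℕ}
    (hf : f.natDegree ≤ k) : (fun q => f.eval (v q)) ∈ cnt_P x k := by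
  have e : (fun q => f.eval (v q)) = ∑ i ∈ range (k + 1), f.coeff i • (fun q => v q ^ i) := by
    funext q
    rw [Finset.sum_apply, eval_eq_sum_range' (Nat.lt_succ_of_le hf)]
    rfl
  rw [e]
  refine Submodule.sum_mem _ fun i hi => Submodule.smul_mem _ _ ?_
  exact cnt_P_mono x (Nat.le_of_lt_succ (Finset.mem_range.1 hi)) (k2b_pow hv i)

private theorem k2b_prod (x : Fin d → ι → L) {κ : Type} (T : Finset κ) (u : κ → ι → L) (k : ℕ)
    (h : ∀ s ∈ T, u s ∈ cnt_P x k) : ∏ s ∈ T, u s ∈ cnt_P x (T.card * k) := by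
  classical
  induction T using Finset.induction_on with
  | empty =>
    rw [Finset.prod_empty, Finset.card_empty, zero_mul]
    exact cnt_P_one x
  | insert s T hs ih =>
    rw [Finset.prod_insert hs, Finset.card_insert_of_notMem hs, add_mul, one_mul, add_comm]
    exact cnt_P_mul x (h s (Finset.mem_insert_self s T))
      (ih fun t ht => h t (Finset.mem_insert_of_mem ht))

/-- the weight of a difference -/
private def k2b_w (δ : ℚ) (m : ℤ) : ℚ := if m = 0 then 1 else δ / (m : ℚ) ^ 2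

private theorem k2b_w_nonneg {δ : ℚ} (hδ : 0 ≤ δ) (m : ℤ) : 0 ≤ k2b_w δ m := by
  unfold k2b_w
  split_ifs
  · exact zero_le_one
  · positivity

private theorem k2b_w_sum {δ : ℚ} (hδ : 0 ≤ δ) (N : ℕ) :
    ∑ m ∈ Finset.Icc (-((N : ℤ) + 1)) ((N : ℤ) + 1), k2b_w δ m ≤ 1 + 2 * δ * (2 - 1 / (N + 1)) := by
  induction N with
  | zero =>
    have e : Finset.Icc (-(((0 : ℕ) : ℤ) + 1)) (((0 : ℕ) : ℤ) + 1) = {-1, 0, 1} := by decide
    rw [e, Finset.sum_insert (by decide), Finset.sum_insert (by decide), Finset.sum_singleton]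
    simp only [k2b_w]
    norm_num
    linarith
  | succ N ih =>
    have e : Finset.Icc (-(((N + 1 : ℕ) : ℤ) + 1)) (((N + 1 : ℕ) : ℤ) + 1) =
        insert ((N : ℤ) + 2) (insert (-((N : ℤ) + 2))
          (Finset.Icc (-((N : ℤ) + 1)) ((N : ℤ) + 1))) := by
      ext m
      simp only [Finset.mem_Icc, Finset.mem_insert]
      push_cast
      omega
    rw [e, Finset.sum_insert, Finset.sum_insert]
    · have h1 : k2b_w δ ((N : ℤ) + 2) = δ / ((N : ℚ) + 2) ^ 2 := by
        unfold k2b_w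
        rw [if_neg (by omega)]
        push_cast
        rfl
      have h2 : k2b_w δ (-((N : ℤ) + 2)) = δ / ((N : ℚ) + 2) ^ 2 := by
        unfold k2b_w
        rw [if_neg (by omega)]
        push_cast
        rw [neg_sq]
      rw [h1, h2]
      have hN : (0 : ℚ) ≤ N := Nat.cast_nonneg N
      have h3 : (1 : ℚ) / ((N : ℚ) + 2) ^ 2 ≤ 1 / (N + 1) - 1 / (N + 2) := by
        rw [div_sub_div _ _ (by positivity) (by positivity), div_le_div_iff₀ (by positivity)
          (by positivity)]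
        linarith only [hN]
      have h4 : δ / ((N : ℚ) + 2) ^ 2 ≤ δ * (1 / (N + 1) - 1 / (N + 2)) := by
        rw [div_eq_mul_one_div]
        exact mul_le_mul_of_nonneg_left h3 hδ
      have h5 : (((N + 1 : ℕ) : ℚ) + 1) = (N : ℚ) + 2 := by
        push_cast
        ring
      rw [h5]
      linarith only [h4, ih]
    · simp only [Finset.mem_Icc]
      omega
    · simp only [Finset.mem_insert, Finset.mem_Icc]
      omega

private theorem k2b_pow_lt (d : ℕ) : (1 + 4 * (1 / (8 * ((d : ℚ) + 1)))) ^ d < 2 := by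
  have hd : (0 : ℚ) ≤ d := Nat.cast_nonneg d
  obtain ⟨x, hx⟩ : ∃ x : ℚ, x = 4 * (1 / (8 * ((d : ℚ) + 1))) := ⟨_, rfl⟩
  rw [← hx]
  have hx1 : x * (2 * ((d : ℚ) + 1)) = 1 := by
    rw [hx]
    field_simp
    ring
  have hx0 : 0 < x := by
    rw [hx]
    positivity
  have h1 : 1 + (d : ℚ) * (-x) ≤ (1 + (-x)) ^ d := by
    refine one_add_mul_le_pow ?_ d
    nlinarith
  have h2 : (1 + x) ^ d * (1 + (-x)) ^ d ≤ 1 := by
    rw [← mul_pow]
    refine pow_le_one₀ ?_ ?_
    · nlinarith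
    · linarith only [mul_pos (sub_pos.2 hx0) (sub_pos.2 hx0)]
  have h3 : (1 : ℚ) / 2 < (1 + (-x)) ^ d := by
    refine lt_of_lt_of_le ?_ h1
    linarith only [hx0, hx1]
  have h4 : 0 < (1 + x) ^ d := by positivity
  (by_contra nlg; linarith only [nlg, mul_nonneg (sub_nonneg.2 h1) (le_of_lt (sub_pos.2 h4)), mul_pos (sub_pos.2 hx0) (sub_pos.2 h4), mul_eq_zero_of_left (sub_eq_zero.2 hx1) ((1 + x) ^ d - (0)), mul_nonneg (mul_self_nonneg (1 : ℚ)) (sub_nonneg.2 h2), mul_nonneg (mul_self_nonneg (1 : ℚ)) (sub_nonneg.2 (not_lt.1 nlg))])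

end k2b

theorem cells_top (d : ℕ) : ∃ A : ℕ, ∀ (L : Type) [Field L] [CharZero L] (θ : Fin d → L),
    Function.Injective θ → ∀ (ι : Type) [Fintype ι] (y u : ι → Fin d → ℤ) (y0 : Fin d → ℤ)
    (h N : ℕ), 1 ≤ h → 1 ≤ N → Function.Injective u →
    (∀ q j, 0 ≤ u q j ∧ u q j < N) → (∀ q q' j, (2 : ℤ) ∣ u q j - u q' j) →
    (∀ q j, y0 j + h * u q j ≤ y q j ∧ y q j < y0 j + h * (u q j + 1)) →
    cnt_P (fun i q => ell (θ i) (y q)) (A * N) = ⊤ := by
  classical
  obtain ⟨δ, hδdef⟩ : ∃ δ : ℚ, δ = 1 / (8 * ((d : ℚ) + 1)) := ⟨_, rfl⟩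
  have hδ : 0 < δ := by
    rw [hδdef]
    positivity
  obtain ⟨A0, hA0⟩ := exists_kernel_poly δ hδ
  refine ⟨d * A0, ?_⟩
  intro L _ _ θ hθ ι _ y u y0 h N hh hN hu hu1 hu2 hy
  obtain ⟨κ, hκd, hκ0, hκ⟩ := hA0 N hN
  have hhQ : (0 : ℚ) < h := by exact_mod_cast hh
  have hNQ : (0 : ℚ) < N := by exact_mod_cast hN
  -- the arguments of the kernel
  let Xa : ι → ι → Fin d → ℚ := fun q' q j => ((y q j : ℚ) - y q' j) / (h * N)
  have hX : ∀ q' q j, |Xa q' q j| ≤ 1 := by
    intro q' q j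
    have h1 := hy q j
    have h2 := hy q' j
    have h3 := hu1 q j
    have h4 := hu1 q' j
    have hhZ : (0 : ℤ) < h := by exact_mod_cast hh
    have h5 : |y q j - y q' j| ≤ (h : ℤ) * N := by
      rw [abs_le]
      have e1 : (h : ℤ) * (u q j + 1) ≤ h * N := mul_le_mul_of_nonneg_left (by omega) hhZ.le
      have e2 : (h : ℤ) * (u q' j + 1) ≤ h * N := mul_le_mul_of_nonneg_left (by omega) hhZ.le
      have e3 : 0 ≤ (h : ℤ) * u q j := mul_nonneg hhZ.le h3.1
      have e4 : 0 ≤ (h : ℤ) * u q' j := mul_nonneg hhZ.le h4.1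
      constructor <;> linarith
    have h6 : |(y q j : ℚ) - y q' j| ≤ h * N := by exact_mod_cast h5
    show |((y q j : ℚ) - y q' j) / (h * N)| ≤ 1
    rw [abs_div, abs_of_pos (mul_pos hhQ hNQ), div_le_one (mul_pos hhQ hNQ)]
    exact h6
  -- the matrix
  let M : Matrix ι ι ℚ := fun q' q => ∏ j, κ.eval (Xa q' q j)
  have hM0 : ∀ q' q, 0 ≤ M q' q := fun q' q => Finset.prod_nonneg fun j _ => (hκ _ (hX q' q j)).1
  have hMd : ∀ q, M q q = 1 := by
    intro q
    refine Finset.prod_eq_one fun j _ => ?_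
    have e : Xa q q j = 0 := by simp [Xa]
    rw [e, hκ0]
  -- kernel bounds
  have hw : ∀ q' q j, κ.eval (Xa q' q j) ≤ k2b_w δ ((u q j - u q' j) / 2) := by
    intro q' q j
    obtain ⟨v, hv⟩ := hu2 q q' j
    have hv2 : (u q j - u q' j) / 2 = v := by omega
    rw [hv2]
    unfold k2b_w
    split_ifs with h0
    · exact (hκ _ (hX q' q j)).2.1
    · have h1 := hy q j
      have h2 := hy q' j
      have hhZ : (0 : ℤ) < h := by exact_mod_cast hh
      have hsq : ((h : ℤ) * v) ^ 2 ≤ (y q j - y q' j) ^ 2 := by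
        have hu3 : u q j = u q' j + 2 * v := by linarith
        rw [hu3] at h1
        rcases lt_or_gt_of_ne h0 with hv0 | hv0
        · have e1 : y q j - y q' j ≤ h * v := by
            have : (h : ℤ) * (2 * v + 1) ≤ h * v := mul_le_mul_of_nonneg_left (by omega) hhZ.le
            nlinarith
          have e2 : (h : ℤ) * v ≤ 0 := mul_nonpos_of_nonneg_of_nonpos hhZ.le hv0.le
          linarith only [mul_nonneg (sub_nonneg.2 e1) (sub_nonneg.2 e1), mul_nonneg (sub_nonneg.2 e1) (sub_nonneg.2 e2)]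
        · have e1 : (h : ℤ) * v ≤ y q j - y q' j := by
            have : (h : ℤ) * v ≤ h * (2 * v - 1) := mul_le_mul_of_nonneg_left (by omega) hhZ.le
            nlinarith
          have e2 : 0 ≤ (h : ℤ) * v := mul_nonneg hhZ.le hv0.le
          linarith only [mul_nonneg (sub_nonneg.2 e1) (sub_nonneg.2 e2), mul_nonneg (sub_nonneg.2 e1) (sub_nonneg.2 e1)]
      have hsqQ : ((h : ℚ) * v) ^ 2 ≤ ((y q j : ℚ) - y q' j) ^ 2 := by exact_mod_cast hsq
      have h3 := hκ _ (hX q' q j)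
      have h4 : ((N : ℚ) * Xa q' q j) ^ 2 = ((y q j : ℚ) - y q' j) ^ 2 / (h : ℚ) ^ 2 := by
        show ((N : ℚ) * (((y q j : ℚ) - y q' j) / (h * N))) ^ 2 = _
        field_simp
      have h5 : (v : ℚ) ^ 2 ≤ ((N : ℚ) * Xa q' q j) ^ 2 := by
        rw [h4, le_div_iff₀ (by positivity)]
        calc (v : ℚ) ^ 2 * (h : ℚ) ^ 2 = ((h : ℚ) * v) ^ 2 := by ring
          _ ≤ _ := hsqQ
      have hvQ : (0 : ℚ) < (v : ℚ) ^ 2 := by
        have : (v : ℚ) ≠ 0 := by exact_mod_cast h0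
        (clear * - h0; positivity)
      rw [le_div_iff₀ hvQ]
      exact (mul_le_mul_of_nonneg_left h5 h3.1).trans h3.2.2
  -- row sums
  have hrow : ∀ q', ∑ q ∈ univ.erase q', M q' q < 1 := by
    intro q'
    let f : ι → Fin d → ℤ := fun q j => (u q j - u q' j) / 2
    have hfinj : Function.Injective f := by
      intro q1 q2 h12
      apply hu
      funext j
      have e := congrFun h12 j
      have e1 := hu2 q1 q' j
      have e2 := hu2 q2 q' j
      simp only [f] at e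
      omega
    have hf0 : ∀ q ∈ (univ.erase q'), f q ≠ 0 := by
      intro q hq h0
      have e : f q = f q' := by
        rw [h0]
        funext j
        simp [f]
      exact (Finset.ne_of_mem_erase hq) (hfinj e)
    let B : Finset (Fin d → ℤ) := Fintype.piFinset fun _ => Finset.Icc (-(N : ℤ)) N
    have hfB : ∀ q, f q ∈ B := by
      intro q
      rw [Fintype.mem_piFinset]
      intro j
      have e1 := hu1 q j
      have e2 := hu1 q' j
      simp only [f, Finset.mem_Icc]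
      omega
    have h0B : (0 : Fin d → ℤ) ∈ B := by
      rw [Fintype.mem_piFinset]
      intro j
      simp only [Pi.zero_apply, Finset.mem_Icc]
      omega
    calc ∑ q ∈ univ.erase q', M q' q
        ≤ ∑ q ∈ univ.erase q', ∏ j, k2b_w δ (f q j) :=
          Finset.sum_le_sum fun q _ => Finset.prod_le_prod
            (fun j _ => (hκ _ (hX q' q j)).1) (fun j _ => hw q' q j)
      _ = ∑ v ∈ (univ.erase q').image f, ∏ j, k2b_w δ (v j) :=
          (Finset.sum_image (f := fun v : Fin d → ℤ => ∏ j, k2b_w δ (v j))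
            fun a _ b _ hab => hfinj hab).symm
      _ ≤ ∑ v ∈ B.erase 0, ∏ j, k2b_w δ (v j) := by
          refine Finset.sum_le_sum_of_subset_of_nonneg ?_ fun v _ _ =>
            Finset.prod_nonneg fun j _ => k2b_w_nonneg hδ.le _
          intro v hv
          obtain ⟨q, hq, rfl⟩ := Finset.mem_image.1 hv
          exact Finset.mem_erase.2 ⟨hf0 q hq, hfB q⟩
      _ = (∑ m ∈ Finset.Icc (-(N : ℤ)) N, k2b_w δ m) ^ d - 1 := by
          have e1 : ∑ v ∈ B, ∏ j, k2b_w δ (v j) =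
              (∑ m ∈ Finset.Icc (-(N : ℤ)) N, k2b_w δ m) ^ d := by
            rw [← Finset.prod_univ_sum (fun _ : Fin d => Finset.Icc (-(N : ℤ)) N)
              (fun _ m => k2b_w δ m), Finset.prod_const, Finset.card_univ, Fintype.card_fin]
          have e2 : ∏ j, k2b_w δ ((0 : Fin d → ℤ) j) + ∑ v ∈ B.erase 0, ∏ j, k2b_w δ (v j) =
              ∑ v ∈ B, ∏ j, k2b_w δ (v j) :=
            Finset.add_sum_erase B (fun v : Fin d → ℤ => ∏ j, k2b_w δ (v j)) h0B
          have e3 : ∏ j : Fin d, k2b_w δ ((0 : Fin d → ℤ) j) = 1 := by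
            simp [k2b_w]
          rw [e3, e1] at e2
          linarith
      _ < 1 := by
          obtain ⟨n, rfl⟩ : ∃ n, N = n + 1 := ⟨N - 1, by omega⟩
          have e1 := k2b_w_sum hδ.le n
          have e2 : ((n : ℚ) + 1) > 0 := by (clear * -; positivity)
          have e3 : (0 : ℚ) < 1 / ((n : ℚ) + 1) := by (clear * -; positivity)
          have e4 : ∑ m ∈ Finset.Icc (-(((n + 1 : ℕ) : ℤ))) ((n + 1 : ℕ) : ℤ), k2b_w δ m ≤
              1 + 4 * (1 / (8 * ((d : ℚ) + 1))) := by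
            rw [← hδdef]
            push_cast
            refine e1.trans ?_
            (by_contra nlg; linarith only [nlg, mul_pos (sub_pos.2 hδ) (sub_pos.2 e3), mul_nonneg (mul_self_nonneg (1 : ℚ)) (le_of_lt (sub_pos.2 (not_le.1 nlg)))])
          have e5 := pow_le_pow_left₀ (Finset.sum_nonneg fun m _ => k2b_w_nonneg hδ.le m) e4 d
          have e6 := k2b_pow_lt d
          linarith only [e6, e5]
  have hdet : M.det ≠ 0 := by
    have h1 : (M.map (Rat.castHom ℝ)).det ≠ 0 := by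
      refine det_ne_zero_of_sum_row_lt_diag fun q' => ?_
      simp only [Matrix.map_apply, Rat.coe_castHom, Real.norm_eq_abs]
      rw [hMd q']
      have e : ∑ q ∈ univ.erase q', |((M q' q : ℚ) : ℝ)| =
          ((∑ q ∈ univ.erase q', M q' q : ℚ) : ℝ) := by
        push_cast
        refine Finset.sum_congr rfl fun q _ => abs_of_nonneg ?_
        exact_mod_cast hM0 q' q
      rw [e]
      have := hrow q'
      simp only [Rat.cast_one, abs_one]
      exact_mod_cast this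
    intro h0
    apply h1
    have h2 := RingHom.map_det (Rat.castHom ℝ) M
    rw [h0, map_zero] at h2
    exact h2.symm
  -- over `L`
  let ML : Matrix ι ι L := (Rat.castHom L).mapMatrix M
  have hdetL : IsUnit ML.det := by
    rw [isUnit_iff_ne_zero]
    have h2 := RingHom.map_det (Rat.castHom L) M
    show ((Rat.castHom L).mapMatrix M).det ≠ 0
    rw [← h2]
    exact (map_ne_zero (Rat.castHom L)).2 hdet
  have hrows : ∀ q', (fun q => ML q' q) ∈ cnt_P (fun i q => ell (θ i) (y q)) (d * A0 * N) := by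
    intro q'
    have hlin : ∀ j, (fun q => ((Xa q' q j : ℚ) : L)) ∈
        cnt_P (fun i q => ell (θ i) (y q)) 1 := by
      intro j
      have e : (fun q => ((Xa q' q j : ℚ) : L)) =
          (((h : L) * N)⁻¹) • ((fun q => (y q j : L)) - (y q' j : L) • (1 : ι → L)) := by
        funext q
        simp only [Xa, Pi.smul_apply, Pi.sub_apply, Pi.one_apply, smul_eq_mul, mul_one]
        push_cast
        rw [div_eq_inv_mul]
      rw [e]
      exact Submodule.smul_mem _ _ (Submodule.sub_mem _ (k2b_coord y θ hθ j)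
        (Submodule.smul_mem _ _ (cnt_P_mono _ (Nat.zero_le 1) (cnt_P_one _))))
    have hf : (κ.map (Rat.castHom L)).natDegree ≤ A0 * N := (natDegree_map_le).trans hκd
    have h1 := k2b_prod (fun i q => ell (θ i) (y q)) (univ : Finset (Fin d))
      (fun j q => (κ.map (Rat.castHom L)).eval ((Xa q' q j : ℚ) : L)) (A0 * N)
      (fun j _ => k2b_eval (hlin j) hf)
    have e : (fun q => ML q' q) = ∏ j : Fin d,
        (fun q => (κ.map (Rat.castHom L)).eval ((Xa q' q j : ℚ) : L)) := by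
      funext q
      rw [Finset.prod_apply]
      show (Rat.castHom L) (∏ j, κ.eval (Xa q' q j)) = _
      rw [map_prod]
      refine Finset.prod_congr rfl fun j _ => ?_
      rw [eval_map]
      exact (eval₂_at_apply (Rat.castHom L) (Xa q' q j)).symm
    rw [e, mul_assoc]
    rw [Finset.card_univ, Fintype.card_fin] at h1
    exact h1
  rw [eq_top_iff]
  intro v _
  have e : v = ∑ q', (Matrix.vecMul v ML⁻¹) q' • (fun q => ML q' q) := by
    funext q
    have h1 : Matrix.vecMul (Matrix.vecMul v ML⁻¹) ML = v := by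
      rw [Matrix.vecMul_vecMul, Matrix.nonsing_inv_mul _ hdetL, Matrix.vecMul_one]
    have h2 := congrFun h1 q
    rw [← h2, Finset.sum_apply]
    rfl
  rw [e]
  exact Submodule.sum_mem _ fun q' _ => Submodule.smul_mem _ _ (hrows q')

end Vale.Agent.P018.K2
end

section

/-! # P018, K2: `loc_params2`, the real-variable facts on the scales. -/

namespace Vale.Agent.P018.K2

open Finset

/-- telescoping product of powers -/
theorem lp2_prod (X : ℝ) (hX : 0 < X) (c : ℕ → ℝ) (m : ℕ) :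
    ∏ i ∈ Icc 1 m, X ^ (c (i - 1) - c i) = X ^ (c 0 - c m) := by
  induction m with
  | zero => simp
  | succ m ih =>
    rw [Finset.prod_Icc_succ_top (by omega), ih, ← Real.rpow_add hX]
    congr 1
    simp

/-- summation by parts -/
theorem lp2_sum (c : ℕ → ℝ) (D : ℝ) (m : ℕ) :
    ∑ r ∈ Icc 1 m, ((r : ℝ) - D) * (c (r - 1) - c r) =
      -D * c 0 + ∑ r ∈ range (m + 1), c r - ((m : ℝ) + 1 - D) * c m := by
  induction m with
  | zero => simp; ring
  | succ m ih =>
    rw [Finset.sum_Icc_succ_top (by omega), ih, Finset.sum_range_succ (n := m + 1)]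
    simp only [Nat.add_sub_cancel]
    push_cast
    ring

/-- MODULE F. real-variable facts on the scales. With `ε' = ε0 / d`, `w = a / d`,
`b' r = min (b r) (w - ε')`, take `N r = ⌊X ^ (b' (r-1) - b' r)⌋₊`, `R = P ^ (1/d)`. -/
theorem loc_params2 (d : ℕ) (hd : 3 ≤ d) (a : ℝ) (ha : 1 ≤ a) (b : ℕ → ℝ) (hb0 : b 0 = a / d)
    (hanti : ∀ r, b (r + 1) ≤ b r) (hpos : 0 < b (d - 1)) (hfin : ∑ r ∈ range d, b r < 1) :
    ∃ ε0 η : ℝ, 0 < ε0 ∧ 0 < η ∧ ∀ ε : ℝ, 0 < ε → ε ≤ ε0 → ∀ X P : ℝ, 1 ≤ X → X ≤ P →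
      X ^ (a - ε) ≤ P → P ≤ X ^ (a + ε) → ∃ (R : ℝ) (N : ℕ → ℕ), R = P ^ (1 / d : ℝ) ∧ 1 ≤ R ∧
        R ^ d = P ∧ (∀ r, 1 ≤ N r) ∧
        (∀ r, 1 ≤ r → r + 1 ≤ d → N r ≠ 1 → b r < b (r - 1) ∧
          ((∏ i ∈ Icc 1 r, N i : ℕ) : ℝ) ≤ R * X ^ (-(b r))) ∧
        ((∏ i ∈ Icc 1 (d - 1), N i : ℕ) : ℝ) ≤ R ∧
        ((∏ r ∈ Icc 1 (d - 1), N r ^ r : ℕ) : ℝ) *
          (R / ((∏ i ∈ Icc 1 (d - 1), N i : ℕ) : ℝ)) ^ d ≤ 2 ^ (d * d) * X ^ (1 - η) := by
  have hd0 : (0 : ℝ) < d := by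
    have : 0 < d := by omega
    exact_mod_cast this
  have hd3 : (3 : ℝ) ≤ d := by exact_mod_cast hd
  set Sb : ℝ := ∑ r ∈ range d, b r with hSb
  refine ⟨min ((1 - Sb) / 4) (1 / 2), (1 - Sb) / 2, ?_, by linarith only [hfin], ?_⟩
  · refine lt_min (by linarith only [hfin]) (by norm_num)
  intro ε hε hε0 X P hX hXP hP1 hP2
  set ε0 : ℝ := min ((1 - Sb) / 4) (1 / 2) with hε0d
  have hε0a : ε0 ≤ (1 - Sb) / 4 := min_le_left _ _
  have hε0b : ε0 ≤ 1 / 2 := min_le_right _ _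
  have hε0p : 0 < ε0 := lt_of_lt_of_le hε hε0
  have hX0 : (0 : ℝ) < X := by linarith only [hε0p, hε0b, hX]
  have hP : (0 : ℝ) < P := by linarith only [hε0p, hε0b, hXP, hX]
  have hP1' : (1 : ℝ) ≤ P := by linarith only [hXP, hX]
  set w : ℝ := a / d with hw
  have hdw : (d : ℝ) * w = a := by rw [hw]; field_simp
  set ε' : ℝ := ε0 / d with hε'
  have hdε' : (d : ℝ) * ε' = ε0 := by rw [hε']; field_simp
  have hwε : 0 ≤ w - ε' := by
    have : (d : ℝ) * (w - ε') = a - ε0 := by rw [mul_sub, hdw, hdε']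
    have h2 : 0 ≤ (d : ℝ) * (w - ε') := by rw [this]; linarith only [hε0p, hε0b, ha]
    exact le_of_mul_le_mul_left (by simpa using h2) hd0
  have hε'0 : 0 < ε' := div_pos hε0p hd0
  have hbanti : Antitone b := antitone_nat_of_succ_le hanti
  set c : ℕ → ℝ := fun r => min (b r) (w - ε') with hc
  have hc0 : c 0 = w - ε' := by
    simp only [hc]
    rw [hb0]
    exact min_eq_right (by linarith only [hε'0])
  have hcanti : Antitone c := fun i j hij => min_le_min_right _ (hbanti hij)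
  have hcpos : ∀ r, r + 1 ≤ d → 0 ≤ c r := by
    intro r hr
    refine le_min ?_ hwε
    exact le_trans hpos.le (hbanti (by omega))
  set n : ℕ → ℝ := fun r => X ^ (c (r - 1) - c r) with hn
  have hn1 : ∀ r, 1 ≤ n r := by
    intro r
    refine Real.one_le_rpow hX ?_
    have := hcanti (Nat.sub_le r 1)
    linarith only [this]
  set N : ℕ → ℕ := fun r => ⌊n r⌋₊ with hN
  have hN1 : ∀ r, 1 ≤ N r := fun r => Nat.le_floor (by simpa using hn1 r)
  have hNn : ∀ r, (N r : ℝ) ≤ n r := fun r => Nat.floor_le (by linarith only [hn1 r, hε0p, hε0b])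
  have hnN : ∀ r, n r ≤ 2 * (N r : ℝ) := by
    intro r
    have h1 := Nat.lt_floor_add_one (n r)
    have h2 : (1 : ℝ) ≤ (N r : ℝ) := by exact_mod_cast hN1 r
    have h3 : n r < (N r : ℝ) + 1 := h1
    linarith only [h3, h2]
  have hprod : ∀ m, ((∏ i ∈ Icc 1 m, N i : ℕ) : ℝ) ≤ X ^ (w - ε' - c m) := by
    intro m
    rw [← hc0, ← lp2_prod X hX0 c m]
    push_cast
    exact Finset.prod_le_prod (fun i _ => Nat.cast_nonneg _) (fun i _ => hNn i)
  set R : ℝ := P ^ (1 / d : ℝ) with hR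
  have hRd : R ^ d = P := by
    rw [hR, ← Real.rpow_natCast, ← Real.rpow_mul hP.le, one_div, inv_mul_cancel₀ hd0.ne',
      Real.rpow_one]
  have hR1 : 1 ≤ R := Real.one_le_rpow hP1' (by positivity)
  have hRX : X ^ (w - ε') ≤ R := by
    have h1 : X ^ (a - ε0) ≤ P := by
      refine le_trans ?_ hP1
      exact Real.rpow_le_rpow_of_exponent_le hX (by linarith only [hε0])
    have h2 : X ^ (w - ε') = (X ^ (a - ε0)) ^ (1 / d : ℝ) := by
      rw [← Real.rpow_mul hX0.le]
      congr 1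
      rw [hw, hε']
      field_simp
    rw [h2, hR]
    exact Real.rpow_le_rpow (Real.rpow_nonneg hX0.le _) h1 (by positivity)
  refine ⟨R, N, rfl, hR1, hRd, hN1, ?_, ?_, ?_⟩
  · intro r hr1 hrd hNr
    have h1 : c r < c (r - 1) := by
      refine lt_of_le_of_ne (hcanti (Nat.sub_le r 1)) ?_
      intro heq
      apply hNr
      simp only [hN, hn]
      rw [heq, sub_self, Real.rpow_zero]
      simp
    have h2 : b r < b (r - 1) := by
      by_contra hh
      have : c (r - 1) ≤ c r := min_le_min_right _ (not_lt.1 hh)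
      linarith only [this, h1]
    have h3 : c r = b r := by
      have h4 : c r < w - ε' := lt_of_lt_of_le h1 (min_le_right _ _)
      rcases min_choice (b r) (w - ε') with h5 | h5
      · exact h5
      · exact absurd h4 (by simp only [hc]; rw [h5]; exact lt_irrefl _)
    refine ⟨h2, ?_⟩
    refine le_trans (hprod r) ?_
    rw [h3, sub_eq_add_neg (w - ε'), Real.rpow_add hX0]
    exact mul_le_mul_of_nonneg_right hRX (Real.rpow_nonneg hX0.le _)
  · refine le_trans (hprod (d - 1)) (le_trans ?_ hRX)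
    refine Real.rpow_le_rpow_of_exponent_le hX ?_
    have := hcpos (d - 1) (by omega)
    linarith only [this]
  · have hNpos : ∀ r, (0 : ℝ) < N r := fun r => by exact_mod_cast hN1 r
    have e1 : ((∏ r ∈ Icc 1 (d - 1), N r ^ r : ℕ) : ℝ) *
          (R / ((∏ i ∈ Icc 1 (d - 1), N i : ℕ) : ℝ)) ^ d =
        P * ∏ r ∈ Icc 1 (d - 1), ((N r : ℝ) ^ r / (N r : ℝ) ^ d) := by
      push_cast
      rw [div_pow, hRd, ← Finset.prod_pow, Finset.prod_div_distrib]
      ring
    have e2 : ∀ r, (N r : ℝ) ^ r / (N r : ℝ) ^ d ≤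
        2 ^ d * X ^ (((r : ℝ) - d) * (c (r - 1) - c r)) := by
      intro r
      have h1 : X ^ (((r : ℝ) - d) * (c (r - 1) - c r)) = n r ^ r / n r ^ d := by
        simp only [hn]
        rw [← Real.rpow_natCast, ← Real.rpow_natCast, ← Real.rpow_mul hX0.le,
          ← Real.rpow_mul hX0.le, ← Real.rpow_sub hX0]
        congr 1
        ring
      have hn0 : 0 < n r := by linarith only [hn1 r, hε0p, hε0b]
      rw [h1, ← mul_div_assoc, div_le_div_iff₀ (pow_pos (hNpos r) _) (pow_pos hn0 _)]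
      have h2 : (N r : ℝ) ^ r ≤ n r ^ r := pow_le_pow_left₀ (hNpos r).le (hNn r) _
      have h3 : n r ^ d ≤ 2 ^ d * (N r : ℝ) ^ d := by
        rw [← mul_pow]
        exact pow_le_pow_left₀ hn0.le (hnN r) _
      calc (N r : ℝ) ^ r * n r ^ d ≤ n r ^ r * (2 ^ d * (N r : ℝ) ^ d) :=
            mul_le_mul h2 h3 (pow_nonneg hn0.le _) (pow_nonneg hn0.le _)
        _ = 2 ^ d * n r ^ r * (N r : ℝ) ^ d := by ring
    have e3 : ∏ r ∈ Icc 1 (d - 1), ((N r : ℝ) ^ r / (N r : ℝ) ^ d) ≤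
        2 ^ (d * (d - 1)) * X ^ (-(d : ℝ) * c 0 + ∑ r ∈ range d, c r) := by
      refine le_trans (Finset.prod_le_prod (fun r _ => ?_) (fun r _ => e2 r)) ?_
      · exact div_nonneg (pow_nonneg (hNpos r).le _) (pow_nonneg (hNpos r).le _)
      rw [Finset.prod_mul_distrib, Finset.prod_const, Nat.card_Icc, ← pow_mul,
        ← Real.rpow_sum_of_pos hX0, lp2_sum]
      have h1 : d - 1 + 1 - 1 = d - 1 := by omega
      have h2 : d - 1 + 1 = d := by omega
      have h3 : ((d - 1 : ℕ) : ℝ) + 1 - d = 0 := by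
        rw [Nat.cast_sub (by omega)]
        push_cast
        ring
      rw [h1, h2, h3, zero_mul, sub_zero]
    have e4 : ∑ r ∈ range d, c r ≤ Sb := Finset.sum_le_sum fun r _ => min_le_left _ _
    rw [e1]
    calc P * ∏ r ∈ Icc 1 (d - 1), ((N r : ℝ) ^ r / (N r : ℝ) ^ d)
        ≤ X ^ (a + ε) * (2 ^ (d * (d - 1)) * X ^ (-(d : ℝ) * c 0 + ∑ r ∈ range d, c r)) :=
          mul_le_mul hP2 e3 (Finset.prod_nonneg fun r _ =>
            div_nonneg (pow_nonneg (hNpos r).le _) (pow_nonneg (hNpos r).le _))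
            (Real.rpow_nonneg hX0.le _)
      _ = 2 ^ (d * (d - 1)) * X ^ ((a + ε) + (-(d : ℝ) * c 0 + ∑ r ∈ range d, c r)) := by
          rw [Real.rpow_add hX0 (a + ε)]
          ring
      _ ≤ 2 ^ (d * d) * X ^ (1 - (1 - Sb) / 2) := by
          refine mul_le_mul ?_ ?_ (Real.rpow_nonneg hX0.le _) (by positivity)
          · exact pow_le_pow_right₀ (by norm_num) (Nat.mul_le_mul_left _ (Nat.sub_le _ _))
          · refine Real.rpow_le_rpow_of_exponent_le hX ?_
            rw [hc0]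
            have : -(d : ℝ) * (w - ε') = -a + ε0 := by
              rw [neg_mul, mul_sub, hdw, hdε']
              ring
            rw [this]
            linarith only [hε0, hε0a, e4]

end Vale.Agent.P018.K2
end

section

/-! # P018, quartics: the comaximality half of the relation step. -/

namespace Vale.Agent.P018.Q

open NumberField Finset

section ring

variable {R : Type*} [CommRing R]

theorem rd_pow {k a b : R} (h : k ∈ Ideal.span {a, b}) (m : ℕ) :
    k ^ (2 * m) ∈ Ideal.span {a ^ m, b ^ m} := by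
  obtain ⟨u, v, rfl⟩ := Ideal.mem_span_pair.1 h
  refine Ideal.add_pow_mem_of_pow_mem_of_le (m := m) (n := m) _ ?_ ?_ (by omega)
  · rw [mul_pow]
    exact Ideal.mul_mem_left _ _ (Ideal.subset_span (by simp))
  · rw [mul_pow]
    exact Ideal.mul_mem_left _ _ (Ideal.subset_span (by simp))

theorem rd_mul {k a b x : R} (h : k ∈ Ideal.span {a, b}) (ha : a ∣ x) (hb : b ∣ x) :
    a * b ∣ k * x := by
  obtain ⟨u, v, rfl⟩ := Ideal.mem_span_pair.1 h
  obtain ⟨y, hy⟩ := ha
  obtain ⟨z, hz⟩ := hb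
  refine ⟨u * z + v * y, ?_⟩
  calc (u * a + v * b) * x = u * a * x + v * b * x := by ring
    _ = u * a * (b * z) + v * b * (a * y) := by rw [← hz, ← hy]
    _ = a * b * (u * z + v * y) := by ring

theorem rd_span {k k' a b c : R} (h : k ∈ Ideal.span {a, c}) (h' : k' ∈ Ideal.span {b, c}) :
    k * k' ∈ Ideal.span {a * b, c} := by
  obtain ⟨u, v, rfl⟩ := Ideal.mem_span_pair.1 h
  obtain ⟨u', v', rfl⟩ := Ideal.mem_span_pair.1 h'
  exact Ideal.mem_span_pair.2 ⟨u * u', u * a * v' + v * (u' * b) + v * c * v', by ring⟩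

/-- four pairwise almost comaximal elements. -/
theorem rd_four {k x : R} {A : Fin 4 → R} (h : ∀ i j, i ≠ j → k ∈ Ideal.span {A i, A j})
    (hx : ∀ j, A j ∣ x) : ∏ j, A j ∣ k ^ 6 * x := by
  have h1 : A 0 * A 1 ∣ k * x := rd_mul (h 0 1 (by decide)) (hx 0) (hx 1)
  have h2 : k * k ∈ Ideal.span {A 0 * A 1, A 2} := rd_span (h 0 2 (by decide)) (h 1 2 (by decide))
  have h3 : A 0 * A 1 * A 2 ∣ k * k * (k * x) :=
    rd_mul h2 h1 (Dvd.dvd.mul_left (hx 2) _)
  have h4 : A 0 * A 1 ∣ k * x := h1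
  have h5 : k * k ∈ Ideal.span {A 0 * A 1, A 3} := rd_span (h 0 3 (by decide)) (h 1 3 (by decide))
  have h6 : k * k * k ∈ Ideal.span {A 0 * A 1 * A 2, A 3} := rd_span h5 (h 2 3 (by decide))
  have h7 : A 0 * A 1 * A 2 * A 3 ∣ k * k * k * (k * k * (k * x)) :=
    rd_mul h6 h3 (Dvd.dvd.mul_left (Dvd.dvd.mul_left (hx 3) _) _)
  rw [Fin.prod_univ_four]
  have h8 : k ^ 6 * x = k * k * k * (k * k * (k * x)) := by ring
  rw [h8]
  exact h7

end ring

/-- divisibility of rational integers in the ring of integers. -/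
theorem rd_int (L : Type*) [Field L] [NumberField L] {a b : ℤ} (h : (a : 𝓞 L) ∣ (b : 𝓞 L)) :
    a ∣ b := by
  obtain ⟨x, hx⟩ := h
  have h1 := congrArg (Algebra.norm ℤ) hx
  rw [map_mul] at h1
  have h2 : ∀ a : ℤ, Algebra.norm ℤ ((a : ℤ) : 𝓞 L) = a ^ Module.finrank ℤ (𝓞 L) := by
    intro a
    have := Algebra.norm_algebraMap (R := ℤ) (S := 𝓞 L) a
    simpa using this
  rw [h2, h2] at h1
  have h3 : Module.finrank ℤ (𝓞 L) ≠ 0 := Module.finrank_pos.ne'
  exact (Int.pow_dvd_pow_iff h3).1 ⟨_, h1⟩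

theorem rd_cop {p : ℕ} (hp : p.Prime) {a : ℤ} (ha : a ≠ 0) (hap : |a| < p) :
    IsCoprime (p : ℤ) a := by
  rw [Prime.coprime_iff_not_dvd (Nat.prime_iff_prime_int.1 hp)]
  intro h
  have h1 := Int.le_of_dvd (abs_pos.2 ha) ((dvd_abs _ _).2 h)
  omega

/-- the comaximality half of the relation step. -/
theorem rel_div {L : Type*} [Field L] [NumberField L] (θ : Fin 4 → 𝓞 L)
    (hθ : Function.Injective θ) : ∃ Δ : ℤ, Δ ≠ 0 ∧
      ∀ (π γ lam : Fin 4 → 𝓞 L) (N c c' N2 x : ℤ) (p m Nd D : ℕ), p.Prime → c ≠ 0 → |c| < p →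
        N2 ≠ 0 → |N2| < p → |Δ| < p →
        (∀ i, (c : 𝓞 L) * ((N : 𝓞 L) - θ i) = π i ^ 2 * γ i) →
        ∏ i, π i = (((p : ℤ) * c' : ℤ) : 𝓞 L) → ∏ i, lam i = (N2 : 𝓞 L) →
        (∀ j, π j ^ m ∣ (c : 𝓞 L) ^ Nd * lam j ^ D * (x : 𝓞 L)) → (p : ℤ) ^ m ∣ x := by
  classical
  set d : 𝓞 L := ∏ q ∈ (univ : Finset (Fin 4 × Fin 4)) with q.1 ≠ q.2, (θ q.1 - θ q.2) with hd
  have hd0 : d ≠ 0 := by
    rw [hd, Finset.prod_ne_zero_iff]
    intro q hq
    rw [Finset.mem_filter] at hq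
    exact sub_ne_zero.2 fun h => hq.2 (hθ h)
  have hdΔ : d ∣ ((Ideal.absNorm (Ideal.span {d}) : ℤ) : 𝓞 L) := by
    rw [← Ideal.mem_span_singleton]
    exact_mod_cast Ideal.absNorm_mem (Ideal.span {d})
  have hΔ0 : (Ideal.absNorm (Ideal.span {d}) : ℤ) ≠ 0 := by
    rw [Nat.cast_ne_zero, Ne, Ideal.absNorm_eq_zero_iff, Ideal.span_singleton_eq_bot]
    exact hd0
  refine ⟨Ideal.absNorm (Ideal.span {d}), hΔ0, ?_⟩
  generalize (Ideal.absNorm (Ideal.span {d}) : ℤ) = Δ at hdΔ hΔ0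
  intro π γ lam N c c' N2 x p m Nd D hp hc hcp hN2 hN2p hΔp heq hprod hlam hdiv
  -- the integer in all the ideals
  have hk : ∀ i j, i ≠ j → (((c * Δ : ℤ)) : 𝓞 L) ∈ Ideal.span {π i, π j} := by
    intro i j hij
    have h1 : θ i - θ j ∣ (Δ : 𝓞 L) := by
      refine dvd_trans ?_ hdΔ
      rw [hd]
      exact Finset.dvd_prod_of_mem (fun q : Fin 4 × Fin 4 => θ q.1 - θ q.2)
        (Finset.mem_filter.2 ⟨Finset.mem_univ (i, j), hij⟩)
    obtain ⟨w, hw⟩ := h1
    have h2 : (c : 𝓞 L) * (θ i - θ j) = π j ^ 2 * γ j - π i ^ 2 * γ i := by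
      rw [← heq i, ← heq j]
      ring
    rw [Int.cast_mul, hw, ← mul_assoc, h2]
    exact Ideal.mem_span_pair.2 ⟨-(π i * γ i * w), π j * γ j * w, by ring⟩
  have hk' : ∀ i j, i ≠ j → (((c * Δ : ℤ)) : 𝓞 L) ^ (2 * m) ∈ Ideal.span {π i ^ m, π j ^ m} :=
    fun i j hij => rd_pow (hk i j hij) m
  have hx : ∀ j, π j ^ m ∣ (((c ^ Nd * N2 ^ D * x : ℤ)) : 𝓞 L) := by
    intro j
    have h1 : lam j ∣ (N2 : 𝓞 L) := hlam ▸ Finset.dvd_prod_of_mem lam (Finset.mem_univ j)
    obtain ⟨w, hw⟩ := h1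
    have h2 : (((c ^ Nd * N2 ^ D * x : ℤ)) : 𝓞 L) =
        (c : 𝓞 L) ^ Nd * lam j ^ D * (x : 𝓞 L) * w ^ D := by
      push_cast
      rw [hw]
      ring
    rw [h2]
    exact Dvd.dvd.mul_right (hdiv j) _
  have h4 := rd_four (A := fun j => π j ^ m) hk' hx
  rw [Finset.prod_pow, hprod] at h4
  have h5 : (((p : ℤ) ^ m : ℤ) : 𝓞 L) ∣
      (((c * Δ) ^ (2 * m)) ^ 6 * (c ^ Nd * N2 ^ D * x) : ℤ) := by
    refine dvd_trans ?_ (show ((((p : ℤ) * c' : ℤ) : 𝓞 L)) ^ m ∣ _ by
      push_cast at h4 ⊢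
      exact h4)
    push_cast
    rw [mul_pow]
    exact dvd_mul_right _ _
  have h6 := rd_int L h5
  have hc1 : IsCoprime ((p : ℤ) ^ m) (((c * Δ) ^ (2 * m)) ^ 6 * (c ^ Nd * N2 ^ D)) := by
    have a1 := rd_cop hp hc hcp
    have a2 := rd_cop hp hΔ0 hΔp
    have a3 := rd_cop hp hN2 hN2p
    exact IsCoprime.pow_left (IsCoprime.mul_right
      (IsCoprime.pow_right (IsCoprime.pow_right (a1.mul_right a2)))
      (IsCoprime.mul_right a1.pow_right a3.pow_right))
  rw [← mul_assoc] at h6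
  exact hc1.dvd_of_dvd_mul_left h6

end Vale.Agent.P018.Q
end

section

/-! # P018, quartics: heights of factors, nonvanishing, prime numbers. -/

namespace Vale.Agent.P018.Q

open Polynomial Finset

/-- coefficients of the polynomial with the variables exchanged. -/
theorem ht_coeff_swap {R : Type*} [CommRing R] (p : R[X][X]) (i j : ℕ) :
    ((Bivariate.swap p).coeff i).coeff j = (p.coeff j).coeff i := by
  induction p using Polynomial.induction_on' with
  | add p q hp hq => simp only [map_add, coeff_add, hp, hq]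
  | monomial n a =>
    induction a using Polynomial.induction_on' with
    | add p q hp hq => simp only [map_add, coeff_add, hp, hq]
    | monomial m r =>
      rw [Bivariate.swap_monomial_monomial]
      simp only [coeff_monomial]
      split_ifs with h1 h2 h2
      · simp only [coeff_monomial, h1, h2, if_true]
      · simp only [coeff_monomial, h2, if_false, coeff_zero]
      · simp only [coeff_monomial, h1, if_false, coeff_zero]
      · simp only [coeff_zero]

theorem ht_inner_le_iff {R : Type*} [CommRing R] (p : R[X][X]) (D : ℕ) :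
    (∀ i, (p.coeff i).natDegree ≤ D) ↔ (Bivariate.swap p).natDegree ≤ D := by
  simp only [natDegree_le_iff_coeff_eq_zero]
  constructor
  · intro h N hN
    ext j
    rw [ht_coeff_swap, h j N hN, coeff_zero]
  · intro h i N hN
    rw [← ht_coeff_swap, h N hN, coeff_zero]

theorem ht_biDeg {f F : ℤ[X][X]} {D : ℕ} (h : BiDeg D D F) (hF : F ≠ 0) (hd : f ∣ F) :
    BiDeg D D f := by
  refine ⟨(natDegree_le_of_dvd hd hF).trans h.1, ?_⟩
  rw [ht_inner_le_iff]
  refine (natDegree_le_of_dvd (map_dvd Bivariate.swap hd) ?_).trans ((ht_inner_le_iff F D).1 h.2)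
  rwa [Ne, EmbeddingLike.map_eq_zero_iff]

section loc

attribute [local instance] Polynomial.algebra

theorem ht_prime_map {f : ℤ[X][X]} (hf : Prime f)
    (hu : ¬ IsUnit (f.map (mapRingHom (Int.castRingHom ℚ)))) :
    Prime (f.map (mapRingHom (Int.castRingHom ℚ))) := by
  have h1 : IsLocalization ((nonZeroDivisors ℤ).map (C : ℤ →+* ℤ[X])) ℚ[X] :=
    Polynomial.isLocalization (nonZeroDivisors ℤ) ℚ
  have h2 : IsLocalization (((nonZeroDivisors ℤ).map (C : ℤ →+* ℤ[X])).map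
      (C : ℤ[X] →+* ℤ[X][X])) ℚ[X][X] :=
    Polynomial.isLocalization _ ℚ[X]
  have h0 : f.map (mapRingHom (Int.castRingHom ℚ)) ≠ 0 := by
    rw [Ne, Polynomial.map_eq_zero_iff]
    · exact hf.ne_zero
    · exact Polynomial.map_injective _ (RingHom.injective_int _)
  have h3 : (Ideal.span {f} : Ideal ℤ[X][X]).IsPrime :=
    (Ideal.span_singleton_prime hf.ne_zero).2 hf
  have h4 := IsLocalization.isPrime_of_isPrime_disjoint (((nonZeroDivisors ℤ).map
      (C : ℤ →+* ℤ[X])).map (C : ℤ[X] →+* ℤ[X][X])) ℚ[X][X] (Ideal.span {f}) h3 ?_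
  · rw [Ideal.map_span, Set.image_singleton] at h4
    exact (Ideal.span_singleton_prime h0).1 h4
  · rw [Set.disjoint_left]
    rintro _ ⟨_, ⟨n, hn, rfl⟩, rfl⟩ hx
    rw [SetLike.mem_coe, Ideal.mem_span_singleton] at hx
    refine hu (isUnit_of_dvd_unit (map_dvd (mapRingHom (mapRingHom (Int.castRingHom ℚ))) hx) ?_)
    have hn0 : (Int.castRingHom ℚ) n ≠ 0 := by
      rw [eq_intCast]
      exact_mod_cast nonZeroDivisors.ne_zero hn
    have e : mapRingHom (mapRingHom (Int.castRingHom ℚ)) (C (C n)) =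
        C (C ((Int.castRingHom ℚ) n)) := by
      rw [coe_mapRingHom, map_C, coe_mapRingHom, map_C]
    rw [e]
    exact ((isUnit_iff_ne_zero.2 hn0).map C).map C

end loc

/-- Gauss: a factor over `ℚ` comes from a factor over `ℤ`. -/
theorem ht_int_factor {F : ℤ[X][X]} (hF : F ≠ 0) {g : ℚ[X][X]} (hg : Irreducible g)
    (hd : g ∣ F.map (mapRingHom (Int.castRingHom ℚ))) :
    ∃ f : ℤ[X][X], f ∣ F ∧ Associated g (f.map (mapRingHom (Int.castRingHom ℚ))) := by
  have h1 := UniqueFactorizationMonoid.factors_prod hF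
  have h2 : g ∣ ((UniqueFactorizationMonoid.factors F).map
      (mapRingHom (mapRingHom (Int.castRingHom ℚ)))).prod := by
    rw [← map_multiset_prod]
    exact hd.trans (map_dvd (mapRingHom (mapRingHom (Int.castRingHom ℚ))) h1.symm.dvd)
  obtain ⟨f, hf, hgf⟩ := hg.prime.exists_mem_multiset_map_dvd h2
  have hfp := UniqueFactorizationMonoid.prime_of_factor f hf
  have hfF : f ∣ F := (Multiset.dvd_prod hf).trans h1.dvd
  refine ⟨f, hfF, ?_⟩
  have hgf' : g ∣ f.map (mapRingHom (Int.castRingHom ℚ)) := hgf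
  have := ht_prime_map hfp fun hu => hg.not_isUnit (isUnit_of_dvd_unit hgf' hu)
  exact hg.associated_of_dvd this.irreducible hgf'

/-- Kronecker substitution. -/
theorem ht_coeff_kron {G : ℤ[X][X]} {D : ℕ} (h : ∀ i, (G.coeff i).natDegree ≤ D) (i j : ℕ)
    (hj : j ≤ D) : (G.eval (X ^ (D + 1))).coeff ((D + 1) * i + j) = (G.coeff i).coeff j := by
  rw [eval_eq_sum_range' (n := G.natDegree + 1 + (i + 1)) (by omega), finsetSum_coeff,
    Finset.sum_eq_single i]
  · rw [← pow_mul, coeff_mul_X_pow', if_pos (Nat.le_add_right _ _), Nat.add_sub_cancel_left]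
  · intro k _ hk
    rw [← pow_mul, coeff_mul_X_pow']
    split_ifs with h1
    · apply coeff_eq_zero_of_natDegree_lt
      refine (h k).trans_lt ?_
      have h2 : k < i := by
        by_contra h3
        have h4 : i + 1 ≤ k := by omega
        have : (D + 1) * (i + 1) ≤ (D + 1) * k := Nat.mul_le_mul_left _ h4
        linarith only [this, h1, hj]
      have : (D + 1) * (k + 1) ≤ (D + 1) * i := Nat.mul_le_mul_left _ h2
      have h5 : (D + 1) * (k + 1) = (D + 1) * k + (D + 1) := by ring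
      omega
    · rfl
  · intro hk
    exact absurd (Finset.mem_range.2 (by omega)) hk

theorem ht_natDegree_kron {G : ℤ[X][X]} {D : ℕ} (h : BiDeg D D G) :
    (G.eval (X ^ (D + 1))).natDegree ≤ (D + 1) * D + D := by
  rw [eval_eq_sum_range]
  refine natDegree_sum_le_of_forall_le _ _ fun k hk => ?_
  have h1 : k ≤ D := (Nat.lt_succ_iff.1 (Finset.mem_range.1 hk)).trans h.1
  refine natDegree_mul_le.trans ?_
  rw [← pow_mul, natDegree_X_pow]
  have : (D + 1) * k ≤ (D + 1) * D := Nat.mul_le_mul_left _ h1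
  have := h.2 k
  omega

theorem ht_mignotte {P Q : ℤ[X]} (hP : P ≠ 0) (hQ : Q ∣ P) {n H : ℕ} (hn : P.natDegree ≤ n)
    (hH : ∀ i, |P.coeff i| ≤ H) (k : ℕ) : |Q.coeff k| ≤ (2 : ℤ) ^ n * (n + 1) * H := by
  obtain ⟨K, rfl⟩ := hQ
  have hinj : Function.Injective (Int.castRingHom ℂ) := RingHom.injective_int _
  have hK : K ≠ 0 := right_ne_zero_of_mul hP
  have hQ0 : Q ≠ 0 := left_ne_zero_of_mul hP
  have h1 : 1 ≤ (K.map (Int.castRingHom ℂ)).mahlerMeasure := by
    apply one_le_mahlerMeasure_of_one_le_norm_leadingCoeff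
    rw [leadingCoeff_map_of_injective hinj]
    have : (1 : ℤ) ≤ |K.leadingCoeff| := Int.one_le_abs (leadingCoeff_ne_zero.2 hK)
    rw [eq_intCast, Complex.norm_intCast]
    exact_mod_cast this
  have h2 := norm_coeff_le_choose_mul_mahlerMeasure_of_one_le_mahlerMeasure k
    (Q.map (Int.castRingHom ℂ)) (K.map (Int.castRingHom ℂ)) h1
  rw [← Polynomial.map_mul] at h2
  have h3 := mahlerMeasure_le_sqrt_natDegree_add_one_mul_supNorm
    ((Q * K).map (Int.castRingHom ℂ))
  have h4 : ((Q * K).map (Int.castRingHom ℂ)).supNorm ≤ H := by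
    obtain ⟨i, hi⟩ := exists_eq_supNorm (p := (Q * K).map (Int.castRingHom ℂ))
    rw [hi, coeff_map, eq_intCast, Complex.norm_intCast]
    exact_mod_cast hH i
  have h5 : ((Q * K).map (Int.castRingHom ℂ)).natDegree ≤ n := natDegree_map_le.trans hn
  have h6 : (Q.map (Int.castRingHom ℂ)).natDegree ≤ n :=
    natDegree_map_le.trans ((natDegree_le_of_dvd (dvd_mul_right Q K) hP).trans hn)
  have h7 : √((((Q * K).map (Int.castRingHom ℂ)).natDegree : ℝ) + 1) ≤ (n : ℝ) + 1 := by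
    rw [Real.sqrt_le_left (by positivity)]
    have : (((Q * K).map (Int.castRingHom ℂ)).natDegree : ℝ) ≤ n := by exact_mod_cast h5
    (by_contra nlg; linarith only [nlg, mul_nonneg (sub_nonneg.2 this) (sub_nonneg.2 this), mul_nonneg (le_of_lt (sub_pos.2 (not_le.1 nlg))) (sub_nonneg.2 this), mul_pos (sub_pos.2 (not_le.1 nlg)) (sub_pos.2 (not_le.1 nlg)), mul_nonneg (sq_nonneg (↑n + 1 : ℝ)) (sub_nonneg.2 ((Nat.cast_nonneg n : (0 : ℝ) ≤ n))), mul_nonneg (sq_nonneg (↑n + 1 : ℝ)) (sub_nonneg.2 this), mul_nonneg (sq_nonneg (↑n + 1 : ℝ)) (le_of_lt (sub_pos.2 (not_le.1 nlg)))])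
  have h8 : (((Q.map (Int.castRingHom ℂ)).natDegree.choose k : ℕ) : ℝ) ≤ 2 ^ n := by
    have : (Q.map (Int.castRingHom ℂ)).natDegree.choose k ≤ 2 ^ n :=
      (Nat.choose_le_two_pow _ _).trans (Nat.pow_le_pow_right (by norm_num) h6)
    exact_mod_cast this
  have h9 : (((|Q.coeff k| : ℤ)) : ℝ) ≤ 2 ^ n * (n + 1) * H := by
    have e : ‖(Q.map (Int.castRingHom ℂ)).coeff k‖ = ((|Q.coeff k| : ℤ) : ℝ) := by
      rw [coeff_map, eq_intCast, Complex.norm_intCast]
      push_cast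
      rfl
    rw [← e]
    calc ‖(Q.map (Int.castRingHom ℂ)).coeff k‖ ≤ _ := h2
      _ ≤ 2 ^ n * (((n : ℝ) + 1) * H) := by
        refine mul_le_mul h8 (h3.trans ?_) (mahlerMeasure_nonneg _) (by positivity)
        exact mul_le_mul h7 h4 (supNorm_nonneg _) (by (clear * -; positivity))
      _ = _ := by ring
  exact_mod_cast h9

/-- an irreducible factor over `ℚ` of an integer polynomial in two variables has an integral
multiple with coefficients bounded by a power of the height. -/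
theorem factor_height (D : ℕ) : ∃ C : ℕ, ∀ (H : ℕ) (F : ℤ[X][X]) (g : ℚ[X][X]), 2 ≤ H → F ≠ 0 →
    BiDeg D D F → (∀ i j, |(F.coeff i).coeff j| ≤ H) → Irreducible g →
    g ∣ F.map (mapRingHom (Int.castRingHom ℚ)) →
    ∃ (g' : ℤ[X][X]), Associated g (g'.map (mapRingHom (Int.castRingHom ℚ))) ∧ BiDeg D D g' ∧
      g' ∣ F ∧ (∀ i j, |(g'.coeff i).coeff j| ≤ (H : ℤ) ^ C) := by
  obtain ⟨n, hn⟩ : ∃ n : ℕ, n = (D + 1) * D + D := ⟨_, rfl⟩
  refine ⟨n + n + 1, fun H F g hH hF hFD hFH hg hd => ?_⟩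
  obtain ⟨f, hfF, hgf⟩ := ht_int_factor hF hg hd
  have hfD := ht_biDeg hFD hF hfF
  refine ⟨f, hgf, hfD, hfF, fun i j => ?_⟩
  have hP0 : F.eval (X ^ (D + 1)) ≠ 0 := by
    intro h0
    apply hF
    ext i j
    rw [coeff_zero, coeff_zero]
    by_cases hj : j ≤ D
    · rw [← ht_coeff_kron hFD.2 i j hj, h0, coeff_zero]
    · exact coeff_eq_zero_of_natDegree_lt ((hFD.2 i).trans_lt (not_le.1 hj))
  have hQP : f.eval (X ^ (D + 1)) ∣ F.eval (X ^ (D + 1)) :=
    map_dvd (evalRingHom (X ^ (D + 1))) hfF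
  have hPH : ∀ k, |(F.eval (X ^ (D + 1))).coeff k| ≤ H := by
    intro k
    have h1 : k = (D + 1) * (k / (D + 1)) + k % (D + 1) := (Nat.div_add_mod k (D + 1)).symm
    have h2 : k % (D + 1) ≤ D := Nat.lt_succ_iff.1 (Nat.mod_lt _ (Nat.succ_pos D))
    rw [h1, ht_coeff_kron hFD.2 _ _ h2]
    exact hFH _ _
  have hfin : (2 : ℤ) ^ n * (n + 1) * H ≤ (H : ℤ) ^ (n + n + 1) := by
    have h1 : 2 ^ n * (n + 1) * H ≤ H ^ (n + n + 1) := by
      have h2 : 2 ^ n ≤ H ^ n := Nat.pow_le_pow_left hH n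
      have h3 : n + 1 ≤ H ^ n := (Nat.lt_two_pow_self).trans_le h2
      calc 2 ^ n * (n + 1) * H ≤ H ^ n * H ^ n * H :=
            Nat.mul_le_mul_right _ (Nat.mul_le_mul h2 h3)
        _ = H ^ (n + n + 1) := by rw [pow_succ, pow_add]
    exact_mod_cast h1
  by_cases hj : j ≤ D
  · rw [← ht_coeff_kron hfD.2 i j hj]
    exact (ht_mignotte hP0 hQP (hn ▸ ht_natDegree_kron hFD) hPH _).trans hfin
  · rw [coeff_eq_zero_of_natDegree_lt ((hfD.2 i).trans_lt (not_le.1 hj)), abs_zero]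
    positivity


/-- an additive degree function: it is positive at non-units. -/
theorem ht_card_le {s : Multiset ℚ[X][X]} (hs : ∀ g ∈ s, Irreducible g) :
    s.card ≤ s.prod.natDegree + s.prod.leadingCoeff.natDegree := by
  induction s using Multiset.induction_on with
  | empty => simp
  | cons g s ih =>
    have hg := hs g (Multiset.mem_cons_self _ _)
    have hs' : ∀ g ∈ s, Irreducible g := fun x hx => hs x (Multiset.mem_cons_of_mem hx)
    have ih' := ih hs'
    have h0 : s.prod ≠ 0 := by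
      rw [Ne, Multiset.prod_eq_zero_iff]
      exact fun h => (hs' 0 h).ne_zero rfl
    rw [Multiset.prod_cons, Multiset.card_cons, natDegree_mul hg.ne_zero h0, leadingCoeff_mul,
      natDegree_mul (leadingCoeff_ne_zero.2 hg.ne_zero) (leadingCoeff_ne_zero.2 h0)]
    have h1 : 1 ≤ g.natDegree + g.leadingCoeff.natDegree := by
      by_contra hcon
      have h2 : g.natDegree = 0 := by omega
      have h3 : g.leadingCoeff.natDegree = 0 := by omega
      have h4 : g = C g.leadingCoeff := by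
        conv_lhs => rw [eq_C_of_natDegree_eq_zero h2]
        rw [leadingCoeff, h2]
      have h5 : g.leadingCoeff = C (g.leadingCoeff.coeff 0) := eq_C_of_natDegree_eq_zero h3
      have h6 : g.leadingCoeff.coeff 0 ≠ 0 := by
        intro h6
        rw [h6, C_0] at h5
        exact hg.ne_zero (leadingCoeff_eq_zero.1 h5)
      apply hg.not_isUnit
      rw [h4, h5]
      exact ((isUnit_iff_ne_zero.2 h6).map C).map C
    omega

theorem ht_ev_mul (g h : ℚ[X][X]) (κ σ : ℚ) : ev (g * h) κ σ = ev g κ σ * ev h κ σ := by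
  rw [ev, Polynomial.map_mul, eval_mul]
  rfl

theorem ht_ev_multiset {s : Multiset ℚ[X][X]} {κ σ : ℚ} (h : ev s.prod κ σ = 0) :
    ∃ g ∈ s, ev g κ σ = 0 := by
  induction s using Multiset.induction_on with
  | empty => simp [ev] at h
  | cons g s ih =>
    rw [Multiset.prod_cons, ht_ev_mul] at h
    rcases mul_eq_zero.1 h with h | h
    · exact ⟨g, Multiset.mem_cons_self _ _, h⟩
    · obtain ⟨g', hg', h'⟩ := ih h
      exact ⟨g', Multiset.mem_cons_of_mem hg', h'⟩

theorem ht_ev_of_dvd {g h : ℚ[X][X]} {κ σ : ℚ} (hd : g ∣ h) (hg : ev g κ σ = 0) :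
    ev h κ σ = 0 := by
  obtain ⟨k, rfl⟩ := hd
  rw [ht_ev_mul, hg, zero_mul]

/-- the number of irreducible factors, as a finite set of integer polynomials. -/
theorem factor_set (D : ℕ) : ∃ C : ℕ, ∀ (H : ℕ) (F : ℤ[X][X]), 2 ≤ H → F ≠ 0 →
    BiDeg D D F → (∀ i j, |(F.coeff i).coeff j| ≤ H) →
    ∃ T : Finset (ℤ[X][X]), T.card ≤ C ∧
      (∀ g ∈ T, Irreducible (g.map (mapRingHom (Int.castRingHom ℚ))) ∧ BiDeg D D g ∧
        (∀ i j, |(g.coeff i).coeff j| ≤ (H : ℤ) ^ C)) ∧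
      (∀ κ σ : ℚ, ev (F.map (mapRingHom (Int.castRingHom ℚ))) κ σ = 0 →
        ∃ g ∈ T, ev (g.map (mapRingHom (Int.castRingHom ℚ))) κ σ = 0) := by
  classical
  obtain ⟨C1, hC1⟩ := factor_height D
  refine ⟨C1 + (D + D), fun H F hH hF hFD hFH => ?_⟩
  have hinj : Function.Injective (mapRingHom (Int.castRingHom ℚ)) :=
    Polynomial.map_injective _ (RingHom.injective_int _)
  obtain ⟨FQ, hFQ⟩ : ∃ FQ, FQ = F.map (mapRingHom (Int.castRingHom ℚ)) := ⟨_, rfl⟩
  have hFQ0 : FQ ≠ 0 := by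
    rw [hFQ, Ne, Polynomial.map_eq_zero_iff hinj]
    exact hF
  have h1 := UniqueFactorizationMonoid.factors_prod hFQ0
  have hirr : ∀ g ∈ UniqueFactorizationMonoid.factors FQ, Irreducible g :=
    fun g hg => UniqueFactorizationMonoid.irreducible_of_factor g hg
  have hdvd : ∀ g ∈ UniqueFactorizationMonoid.factors FQ, g ∣ FQ :=
    fun g hg => (Multiset.dvd_prod hg).trans h1.dvd
  have key : ∀ g : ℚ[X][X], ∃ g' : ℤ[X][X], g ∈ UniqueFactorizationMonoid.factors FQ →
      Associated g (g'.map (mapRingHom (Int.castRingHom ℚ))) ∧ BiDeg D D g' ∧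
      g' ∣ F ∧ (∀ i j, |(g'.coeff i).coeff j| ≤ (H : ℤ) ^ C1) := by
    intro g
    by_cases hg : g ∈ UniqueFactorizationMonoid.factors FQ
    · obtain ⟨g', hg'⟩ := hC1 H F g hH hF hFD hFH (hirr g hg) (hFQ ▸ hdvd g hg)
      exact ⟨g', fun _ => hg'⟩
    · exact ⟨0, fun h => absurd h hg⟩
  choose f hf using key
  have hH1 : (1 : ℤ) ≤ H := by exact_mod_cast (by omega : 1 ≤ H)
  refine ⟨((UniqueFactorizationMonoid.factors FQ).map f).toFinset, ?_, ?_, ?_⟩
  · refine (Multiset.toFinset_card_le _).trans ?_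
    rw [Multiset.card_map]
    have h2 := ht_card_le hirr
    have hp0 : (UniqueFactorizationMonoid.factors FQ).prod ≠ 0 := by
      intro h0
      rw [h0] at h1
      exact hFQ0 ((associated_zero_iff_eq_zero _).1 h1.symm)
    have h3 : (UniqueFactorizationMonoid.factors FQ).prod.natDegree ≤ D := by
      refine (natDegree_le_of_dvd h1.dvd hFQ0).trans ?_
      rw [hFQ]
      exact natDegree_map_le.trans hFD.1
    have h4 : (UniqueFactorizationMonoid.factors FQ).prod.leadingCoeff.natDegree ≤ D := by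
      have h5 : (UniqueFactorizationMonoid.factors FQ).prod.leadingCoeff ∣ FQ.leadingCoeff := by
        obtain ⟨k, hk⟩ := h1.dvd
        have hk' := congrArg leadingCoeff hk
        rw [leadingCoeff_mul] at hk'
        exact ⟨_, hk'⟩
      refine (natDegree_le_of_dvd h5 (leadingCoeff_ne_zero.2 hFQ0)).trans ?_
      rw [hFQ, leadingCoeff, coeff_map]
      exact natDegree_map_le.trans (hFD.2 _)
    omega
  · intro g' hg'
    rw [Multiset.mem_toFinset, Multiset.mem_map] at hg'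
    obtain ⟨g, hg, rfl⟩ := hg'
    obtain ⟨h2, h3, -, h5⟩ := hf g hg
    refine ⟨h2.irreducible (hirr g hg), h3, fun i j => (h5 i j).trans ?_⟩
    exact pow_le_pow_right₀ hH1 (Nat.le_add_right _ _)
  · intro κ σ h0
    rw [← hFQ] at h0
    obtain ⟨g, hg, h2⟩ := ht_ev_multiset (ht_ev_of_dvd h1.symm.dvd h0)
    refine ⟨f g, Multiset.mem_toFinset.2 (Multiset.mem_map_of_mem f hg), ?_⟩
    exact ht_ev_of_dvd (hf g hg).1.dvd h2

/-- a canonical choice of the representatives: associated members are equal. -/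
theorem factor_normal : ∃ nf : ℤ[X][X] → ℤ[X][X], ∀ g g' : ℤ[X][X],
    Irreducible (g.map (mapRingHom (Int.castRingHom ℚ))) →
    Irreducible (g'.map (mapRingHom (Int.castRingHom ℚ))) →
    (Associated (g.map (mapRingHom (Int.castRingHom ℚ))) (g'.map (mapRingHom (Int.castRingHom ℚ)))
      ↔ nf g = nf g') := by
  classical
  let mk : ℤ[X][X] → Associates ℚ[X][X] := fun g =>
    Associates.mk (g.map (mapRingHom (Int.castRingHom ℚ)))
  let nf : ℤ[X][X] → ℤ[X][X] := fun g =>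
    if h : ∃ g0, mk g0 = mk g then h.choose else 0
  have key : ∀ g, mk (nf g) = mk g := by
    intro g
    have h : ∃ g0, mk g0 = mk g := ⟨g, rfl⟩
    have : nf g = h.choose := dif_pos h
    rw [this]
    exact h.choose_spec
  refine ⟨nf, fun g g' _ _ => ⟨fun h => ?_, fun h => ?_⟩⟩
  · have h1 : mk g = mk g' := Associates.mk_eq_mk_iff_associated.2 h
    show (if h : ∃ g0, mk g0 = mk g then h.choose else 0) =
      (if h : ∃ g0, mk g0 = mk g' then h.choose else 0)
    rw [h1]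
  · have h1 : mk g = mk g' := by rw [← key g, ← key g', h]
    exact Associates.mk_eq_mk_iff_associated.1 h1

/-- a nonzero integer of size `≤ H^C` is divisible by at most `C / η` primes `> H^η`. -/
theorem few_bad_primes (M C r : ℕ) (H b : ℕ) (n : ℤ) (ℓ : Fin M → ℕ) (hinj : Function.Injective ℓ)
    (hℓ : ∀ i, (ℓ i).Prime ∧ b < ℓ i) (hH : 2 ≤ H) (hn : n ≠ 0) (hnC : |n| ≤ (H : ℤ) ^ C)
    (hr : (H : ℕ) ^ C < b ^ (r + 1)) :
    (univ.filter (fun i => ((ℓ i : ℤ)) ∣ n)).card ≤ r := by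
  by_contra hcon
  push Not at hcon
  obtain ⟨S, hS, hcard⟩ := Finset.exists_subset_card_eq (Nat.succ_le_of_lt hcon)
  have h1 : ∏ p ∈ S.image ℓ, p ∣ n.natAbs := by
    refine Finset.prod_primes_dvd _ (fun a ha => ?_) (fun a ha => ?_)
    · obtain ⟨i, -, rfl⟩ := Finset.mem_image.1 ha
      exact (hℓ i).1.prime
    · obtain ⟨i, hi, rfl⟩ := Finset.mem_image.1 ha
      exact Int.natCast_dvd.1 (Finset.mem_filter.1 (hS hi)).2
  rw [Finset.prod_image (fun x _ y _ h => hinj h)] at h1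
  have h2 : b ^ (r + 1) ≤ ∏ i ∈ S, ℓ i := by
    have h3 : b ^ (r + 1) = ∏ i ∈ S, b := by
      rw [Finset.prod_const, hcard]
    rw [h3]
    exact Finset.prod_le_prod' fun i _ => (hℓ i).2.le
  have h4 : ∏ i ∈ S, ℓ i ≤ n.natAbs := Nat.le_of_dvd (Int.natAbs_pos.2 hn) h1
  have h5 : n.natAbs ≤ H ^ C := by
    have : ((n.natAbs : ℕ) : ℤ) ≤ ((H ^ C : ℕ) : ℤ) := by
      rw [Int.natCast_natAbs]
      exact_mod_cast hnC
    exact_mod_cast this
  omega

end Vale.Agent.P018.Q
end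

section

/-! # P018, quartics, (B): a Bezout bound over a field. -/

namespace Vale.Agent.P018.QB

open Polynomial Finset Vale.Agent.P018.Q

variable {k : Type*} [Field k]

/-- the value of `g(κ, σ)`: `κ` is the outer variable. -/
noncomputable def evK (g : k[X][X]) (κ σ : k) : k := (g.map (evalRingHom σ)).eval κ

theorem bb_natDegree_det_le {n : ℕ} (M : Matrix (Fin n) (Fin n) k[X]) (d : ℕ)
    (h : ∀ i j, (M i j).natDegree ≤ d) : M.det.natDegree ≤ n * d := by
  rw [Matrix.det_apply]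
  refine natDegree_sum_le_of_forall_le _ _ fun σ _ => ?_
  refine (natDegree_smul_le _ _).trans ?_
  refine (natDegree_prod_le _ _).trans ?_
  refine (Finset.sum_le_sum fun i _ => h _ _).trans ?_
  simp

theorem bb_natDegree_resultant_le {g Ψ : k[X][X]} {D : ℕ} {m n : ℕ}
    (h1 : ∀ i, (g.coeff i).natDegree ≤ D) (h2 : ∀ i, (Ψ.coeff i).natDegree ≤ D) :
    (resultant g Ψ m n).natDegree ≤ (m + n) * D := by
  refine bb_natDegree_det_le _ _ fun i j => ?_
  simp only [sylvester, Matrix.of_apply]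
  refine Fin.addCases (fun j => ?_) (fun j => ?_) j
  · simp only [Fin.addCases_left]
    split_ifs
    · exact h2 _
    · simp
  · simp only [Fin.addCases_right]
    split_ifs
    · exact h1 _
    · simp

theorem bb_C_dvd {g : k[X][X]} {σ : k} (h : g.map (evalRingHom σ) = 0) :
    C (X - C σ) ∣ g := by
  rw [C_dvd_iff_dvd_coeff]
  intro i
  rw [dvd_iff_isRoot, IsRoot.def]
  have := congrArg (fun p => p.coeff i) h
  simpa using this

theorem bb_resultant_ne_zero {g Ψ : k[X][X]} (hg : Irreducible g) (hd : g.natDegree ≠ 0)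
    (h : ¬ g ∣ Ψ) : resultant g Ψ ≠ 0 := by
  have hp : g.IsPrimitive := hg.isPrimitive hd
  let φ := algebraMap k[X] (FractionRing k[X])
  have hφ : Function.Injective φ := IsFractionRing.injective _ _
  have hirr : Irreducible (g.map φ) := hp.irreducible_iff_irreducible_map_fraction_map.1 hg
  have hcop : IsCoprime (g.map φ) (Ψ.map φ) := by
    rcases (hirr.coprime_iff_not_dvd (n := Ψ.map φ)) with ⟨_, h2⟩
    exact h2 fun hdvd => h (hp.dvd_of_fraction_map_dvd_fraction_map hdvd)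
  intro h0
  have h1 : resultant (g.map φ) (Ψ.map φ) = 0 := by
    have := resultant_map_map g Ψ g.natDegree Ψ.natDegree φ
    rw [h0, map_zero] at this
    rwa [natDegree_map_eq_of_injective hφ, natDegree_map_eq_of_injective hφ]
  exact (resultant_eq_zero_iff.1 h1).2 hcop

theorem bb_card_fiber_le [DecidableEq k] {S : Finset (k × k)} {g : k[X][X]} {D : ℕ} (hd : g.natDegree ≤ D)
    (h : ∀ z ∈ S, evK g z.1 z.2 = 0) (σ : k) (h0 : g.map (evalRingHom σ) ≠ 0) :
    (S.filter fun z => z.2 = σ).card ≤ D := by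
  have h1 : (S.filter fun z => z.2 = σ).card =
      ((S.filter fun z => z.2 = σ).image Prod.fst).card := by
    rw [Finset.card_image_of_injOn]
    intro x hx y hy hxy
    simp only [Finset.coe_filter, Set.mem_setOf_eq] at hx hy
    exact Prod.ext hxy (hx.2.trans hy.2.symm)
  rw [h1]
  have h2 : ((S.filter fun z => z.2 = σ).image Prod.fst) ⊆ (g.map (evalRingHom σ)).roots.toFinset := by
    intro κ hκ
    obtain ⟨z, hz, rfl⟩ := Finset.mem_image.1 hκ
    obtain ⟨hz1, rfl⟩ := Finset.mem_filter.1 hz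
    rw [Multiset.mem_toFinset, mem_roots h0]
    exact h z hz1
  refine (Finset.card_le_card h2).trans ?_
  refine (Multiset.toFinset_card_le _).trans ?_
  exact (card_roots' _).trans (natDegree_map_le.trans hd)

/-- Bezout for rational points. -/
theorem bezK (k : Type*) [Field k] [DecidableEq k] (D1 D2 : ℕ) : ∃ C : ℕ, ∀ g Ψ : k[X][X], Irreducible g → ¬ g ∣ Ψ →
    BiDeg D1 D1 g → BiDeg D2 D2 Ψ → ∀ S : Finset (k × k),
    (∀ z ∈ S, evK g z.1 z.2 = 0 ∧ evK Ψ z.1 z.2 = 0) → S.card ≤ C := by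
  refine ⟨D1 * ((D1 + D2) * (D1 + D2)) + D2 * D1, fun g Ψ hg hdvd hg1 hΨ S hS => ?_⟩
  by_cases hd : g.natDegree = 0
  · -- `g` does not depend on `κ`
    obtain ⟨g0, rfl⟩ : ∃ g0, g = C g0 := ⟨_, eq_C_of_natDegree_eq_zero hd⟩
    have hg0 : Irreducible g0 := Irreducible.of_map (f := (C : k[X] →+* k[X][X])) hg
    have h1 : (S.image Prod.snd).card ≤ D1 := by
      have : S.image Prod.snd ⊆ g0.roots.toFinset := by
        intro σ hσ
        obtain ⟨z, hz, rfl⟩ := Finset.mem_image.1 hσ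
        rw [Multiset.mem_toFinset, mem_roots hg0.ne_zero]
        have := (hS z hz).1
        simpa [evK] using this
      refine (Finset.card_le_card this).trans ?_
      refine (Multiset.toFinset_card_le _).trans ?_
      refine (card_roots' _).trans ?_
      simpa using hg1.2 0
    have h2 : S.card ≤ D2 * (S.image Prod.snd).card := by
      refine Finset.card_le_mul_card_image S D2 fun σ hσ => ?_
      obtain ⟨z, hz, rfl⟩ := Finset.mem_image.1 hσ
      refine bb_card_fiber_le hΨ.1 (fun z hz => (hS z hz).2) _ fun h0 => hdvd ?_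
      have h3 : (X - C z.2) ∣ g0 := by
        rw [dvd_iff_isRoot]
        have := (hS z hz).1
        simpa [evK] using this
      have h4 : Associated (X - C z.2) g0 :=
        (irreducible_X_sub_C z.2).associated_of_dvd hg0 h3
      exact (map_dvd (C : k[X] →+* k[X][X]) h4.symm.dvd).trans (bb_C_dvd h0)
    calc S.card ≤ D2 * (S.image Prod.snd).card := h2
      _ ≤ D2 * D1 := Nat.mul_le_mul_left _ h1
      _ ≤ _ := Nat.le_add_left _ _
  · have hp : g.IsPrimitive := hg.isPrimitive hd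
    have hr : resultant g Ψ ≠ 0 := bb_resultant_ne_zero hg hd hdvd
    obtain ⟨p, q, -, -, e⟩ := exists_mul_add_mul_eq_C_resultant (m := g.natDegree)
      (n := Ψ.natDegree) g Ψ le_rfl le_rfl (Or.inl hd)
    have h1 : (S.image Prod.snd).card ≤ (D1 + D2) * (D1 + D2) := by
      have : S.image Prod.snd ⊆ (resultant g Ψ).roots.toFinset := by
        intro σ hσ
        obtain ⟨z, hz, rfl⟩ := Finset.mem_image.1 hσ
        rw [Multiset.mem_toFinset, mem_roots hr, IsRoot.def]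
        have h3 := congrArg (fun P : k[X][X] => (P.map (evalRingHom z.2)).eval z.1) e
        have h4 := (hS z hz).1
        have h5 := (hS z hz).2
        unfold evK at h4 h5
        simp only [Polynomial.map_add, Polynomial.map_mul, eval_add, eval_mul, h4, h5, zero_mul,
          add_zero, map_C, eval_C, coe_evalRingHom] at h3
        exact h3.symm
      refine (Finset.card_le_card this).trans ?_
      refine (Multiset.toFinset_card_le _).trans ?_
      refine (card_roots' _).trans ?_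
      refine (bb_natDegree_resultant_le (D := D1 + D2) (fun i => (hg1.2 i).trans (Nat.le_add_right _ _))
        (fun i => (hΨ.2 i).trans (Nat.le_add_left _ _))).trans ?_
      exact Nat.mul_le_mul_right _ (add_le_add hg1.1 hΨ.1)
    have h2 : S.card ≤ D1 * (S.image Prod.snd).card := by
      refine Finset.card_le_mul_card_image S D1 fun σ hσ => ?_
      refine bb_card_fiber_le hg1.1 (fun z hz => (hS z hz).1) _ fun h0 => ?_
      exact not_isUnit_X_sub_C σ (isPrimitive_iff_isUnit_of_C_dvd.1 hp _ (bb_C_dvd h0))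
    calc S.card ≤ D1 * (S.image Prod.snd).card := h2
      _ ≤ D1 * ((D1 + D2) * (D1 + D2)) := Nat.mul_le_mul_left _ h1
      _ ≤ _ := Nat.le_add_right _ _

end Vale.Agent.P018.QB
end

section

/-! # P018, (B): numerical verification. -/

namespace Vale.Agent.P018.QB

private theorem bnum_one (x : ℝ) (T : ℕ) :
    ∑ τ ∈ Finset.range T, max (x - τ) 0 ≤ (max (x + 1) 0) ^ 2 / 2 := by
  have key : ∀ T : ℕ, ∑ τ ∈ Finset.range T, max (x - τ) 0 ≤
      ((max (x + 1) 0) ^ 2 - (max (x + 1 - T) 0) ^ 2) / 2 := by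
    intro T
    induction T with
    | zero => simp
    | succ T ih =>
      rw [Finset.sum_range_succ]
      have h : max (x - T) 0 ≤
          ((max (x + 1 - T) 0) ^ 2 - (max (x + 1 - ((T + 1 : ℕ) : ℝ)) 0) ^ 2) / 2 := by
        push_cast
        have e : x + 1 - ((T : ℝ) + 1) = x - T := by ring
        rw [e]
        rcases le_total 0 (x - T) with h | h
        · rw [max_eq_left h, max_eq_left (by linarith only [h])]
          linarith only []
        · rw [max_eq_right h]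
          linarith only [sq_nonneg (max (x + 1 - (T : ℝ)) 0)]
      linarith
  refine (key T).trans ?_
  linarith only [sq_nonneg (max (x + 1 - (T : ℝ)) 0)]

private theorem bnum_two (y b : ℝ) (hb : 0 < b) (K : ℕ) :
    ∑ k ∈ Finset.range K, (max (y - b * k) 0) ^ 2 / 2 ≤ (max (y + b) 0) ^ 3 / (6 * b) := by
  have key : ∀ K : ℕ, ∑ k ∈ Finset.range K, (max (y - b * k) 0) ^ 2 / 2 ≤
      ((max (y + b) 0) ^ 3 - (max (y + b - b * K) 0) ^ 3) / (6 * b) := by
    intro K
    induction K with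
    | zero => simp
    | succ K ih =>
      rw [Finset.sum_range_succ]
      have h : (max (y - b * K) 0) ^ 2 / 2 ≤
          ((max (y + b - b * K) 0) ^ 3 - (max (y + b - b * ((K + 1 : ℕ) : ℝ)) 0) ^ 3) / (6 * b) := by
        push_cast
        have e : y + b - b * ((K : ℝ) + 1) = y - b * K := by ring
        rw [e, le_div_iff₀ (by positivity)]
        rcases le_total 0 (y - b * K) with h | h
        · rw [max_eq_left h, max_eq_left (by linarith only [h, hb])]
          set z := y - b * K with hz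
          have : y + b - b * K = z + b := by rw [hz]; ring
          rw [this]
          linarith only [mul_nonneg (mul_nonneg h hb.le) hb.le, pow_pos hb 3]
        · rw [max_eq_right h]
          have := pow_nonneg (le_max_right (y + b - b * (K : ℝ)) 0) 3
          linarith only [this]
      have hadd : ((max (y + b) 0) ^ 3 - (max (y + b - b * K) 0) ^ 3) / (6 * b)
          + ((max (y + b - b * K) 0) ^ 3 - (max (y + b - b * ((K + 1 : ℕ) : ℝ)) 0) ^ 3) / (6 * b)
          = ((max (y + b) 0) ^ 3 - (max (y + b - b * ((K + 1 : ℕ) : ℝ)) 0) ^ 3) / (6 * b) := by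
        rw [← add_div]
        congr 1
        ring
      rw [← hadd]
      exact add_le_add ih h
  refine (key K).trans ?_
  gcongr
  have := pow_nonneg (le_max_right (y + b - b * (K : ℝ)) 0) 3
  linarith

/-- lattice sums: for every finite `S ⊆ ℕ²` and `R ≥ 0`,
`∑_{(τ,k) ∈ S} (τ + b k) ≥ |S| R - (R+1+b)^3/(6b)`. -/
theorem sum_lower (b R : ℝ) (hb : 0 < b) (hR : 0 ≤ R) (S : Finset (ℕ × ℕ)) :
    S.card * R - (R + 1 + b) ^ 3 / (6 * b) ≤ ∑ s ∈ S, ((s.1 : ℝ) + b * s.2) := by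
  obtain ⟨T, hT⟩ : ∃ T : ℕ, ∀ s ∈ S, s.1 < T := by
    refine ⟨S.sup Prod.fst + 1, fun s hs => Nat.lt_succ_of_le ?_⟩
    exact Finset.le_sup (f := Prod.fst) hs
  obtain ⟨K, hK⟩ : ∃ K : ℕ, ∀ s ∈ S, s.2 < K := by
    refine ⟨S.sup Prod.snd + 1, fun s hs => Nat.lt_succ_of_le ?_⟩
    exact Finset.le_sup (f := Prod.snd) hs
  have h1 : ∑ s ∈ S, (R - ((s.1 : ℝ) + b * s.2)) ≤ (R + 1 + b) ^ 3 / (6 * b) := by
    calc ∑ s ∈ S, (R - ((s.1 : ℝ) + b * s.2))
        ≤ ∑ s ∈ S, max (R - b * s.2 - s.1) 0 := by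
          refine Finset.sum_le_sum fun s _ => ?_
          refine le_trans (le_of_eq ?_) (le_max_left _ _)
          ring
      _ ≤ ∑ s ∈ Finset.range T ×ˢ Finset.range K, max (R - b * (s.2 : ℝ) - (s.1 : ℝ)) 0 := by
          refine Finset.sum_le_sum_of_subset_of_nonneg ?_ fun s _ _ => le_max_right _ _
          intro s hs
          rw [Finset.mem_product, Finset.mem_range, Finset.mem_range]
          exact ⟨hT s hs, hK s hs⟩
      _ = ∑ k ∈ Finset.range K, ∑ τ ∈ Finset.range T, max (R - b * (k : ℝ) - (τ : ℝ)) 0 := by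
          rw [Finset.sum_product_right]
      _ ≤ ∑ k ∈ Finset.range K, (max (R + 1 - b * k) 0) ^ 2 / 2 := by
          refine Finset.sum_le_sum fun k _ => ?_
          refine (bnum_one (R - b * k) T).trans (le_of_eq ?_)
          have : R - b * (k : ℝ) + 1 = R + 1 - b * k := by ring
          rw [this]
      _ ≤ (max (R + 1 + b) 0) ^ 3 / (6 * b) := bnum_two (R + 1) b hb K
      _ = (R + 1 + b) ^ 3 / (6 * b) := by
          rw [max_eq_left (by linarith)]
  rw [Finset.sum_sub_distrib, Finset.sum_const, nsmul_eq_mul] at h1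
  linarith only [h1]

/-- the numerical condition in the exponents `T = X^w`, `|g1| = X^m1`, cost `X^β`;
`A = 1 - 2w - m1` is the exponent of `U`. -/
def NumB (w m1 β : ℝ) : Prop :=
  ∃ (i m : ℕ) (b δ : ℝ), 2 ≤ m ∧ 0 < b ∧ 0 < δ ∧
    (∀ S : Finset (ℕ × ℕ), S.card = 8 * (m - 1) * (m - 1 + i) →
      (8 * (m - 1) * (m - 1 + i) : ℕ) * (i * (1 - 2 * w - m1) + 2 * m * w) + δ ≤
        ∑ s ∈ S, ((s.1 : ℝ) + b * s.2)) ∧
    b + 27 / 169 * w + 131 / 338 * (1 - 2 * w - m1) < β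

/-- take `i = 16 k`, `m = 11 k`, `k = 1000`, `N0 = 8 (m-1)(m-1+i)`,
`b = 9/8 (A i + 2 m w + 2)^2 / N0`, `R = √(2 b N0)`. -/
theorem numB (w m1 m2 : ℝ) (hw : 0.3488 ≤ w) (hw' : w ≤ 0.38) (h0 : 0 ≤ m1) (h1 : m1 ≤ m2)
    (h2 : m1 + m2 ≤ 2 / 3 * (1 - 2 * w)) : ∃ β : ℝ, 0 < β ∧ 5 * m1 + 3 * m2 + β < 1 ∧
      NumB w m1 β := by
  have hm1 : m1 ≤ (1 - 2 * w) / 3 := by linarith only [h2, h1]
  obtain ⟨X, hX⟩ : ∃ X : ℝ, X = 16002 - 10000 * w - 16000 * m1 := ⟨_, rfl⟩
  have hXl : 10901 ≤ X := by rw [hX]; linarith only [hm1, hw]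
  have hXu : X ≤ 12514 := by rw [hX]; linarith only [h0, hw]
  obtain ⟨b, hb⟩ : ∃ b : ℝ, b = 9 / 8 * X ^ 2 / 2375696008 := ⟨_, rfl⟩
  have hXsq : X ^ 2 ≤ 23415 * X - 10901 * 12514 := by
    have := mul_nonneg (sub_nonneg.2 hXl) (sub_nonneg.2 hXu)
    linarith only [this]
  have hbpos : 0 < b := by rw [hb]; positivity
  have hbu : b ≤ 9 / 8 * (23415 * X - 10901 * 12514) / 2375696008 := by
    rw [hb]
    gcongr
  have hb1 : b ≤ 1 / 10 := by linarith only [hbu, hbpos, hXu]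
  have hbl : 1 / 20 ≤ b := by
    rw [hb]
    have : (10901 : ℝ) ^ 2 ≤ X ^ 2 := by gcongr
    rw [le_div_iff₀ (by norm_num)]
    norm_num at this ⊢
    linarith only [this]
  have hfin : 5 * m1 + 3 * m2 + (b + 27 / 169 * w + 131 / 338 * (1 - 2 * w - m1)) < 1 := by
    have : 5 * m1 + 3 * m2 ≤ 2 * m1 + 2 * (1 - 2 * w) := by linarith only [h2]
    rw [hX] at hbu
    linarith only [this, hbu, hbpos, hm1, hw]
  have hpos : 0 < b + 27 / 169 * w + 131 / 338 * (1 - 2 * w - m1) := by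
    have : 0 ≤ 1 - 2 * w - m1 := by linarith only [hm1, h0]
    linarith only [hm1, hbpos, this]
  obtain ⟨e, he⟩ : ∃ e : ℝ,
      e = 1 - (5 * m1 + 3 * m2 + (b + 27 / 169 * w + 131 / 338 * (1 - 2 * w - m1))) := ⟨_, rfl⟩
  refine ⟨b + 27 / 169 * w + 131 / 338 * (1 - 2 * w - m1) + e / 2, by linarith only [he, hbpos, hm1, h2, hw], by linarith only [he, hfin],
    16000, 11000, b, 1, by norm_num, hbpos, one_pos, ?_, by linarith only [he, hfin]⟩
  intro S hS
  have hSc : (S.card : ℝ) = 2375696008 := by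
    rw [hS]
    norm_num
  have hlow := sum_lower b (3 / 2 * X) hbpos (by linarith only [hbpos, hbu]) S
  rw [hSc] at hlow
  refine le_trans ?_ hlow
  have hcast : ((8 * (11000 - 1) * (11000 - 1 + 16000) : ℕ) : ℝ) = 2375696008 := by norm_num
  rw [hcast]
  have hlin : ((16000 : ℕ) : ℝ) * (1 - 2 * w - m1) + 2 * ((11000 : ℕ) : ℝ) * w = X - 2 := by
    rw [hX]
    push_cast
    ring
  rw [hlin]
  -- `(R+1+b)^3 / (6 b) ≤ N0 (X/2 + 1 + b) + small`
  have hXb : (3 / 2 * X) ^ 2 = 2 * b * 2375696008 := by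
    rw [hb]
    ring
  have hdiv : (3 / 2 * X + 1 + b) ^ 3 / (6 * b) ≤ 2375696008 * (X / 2 + 1 + b) + 2000000 := by
    rw [div_le_iff₀ (by positivity)]
    have e3 : (3 / 2 * X + 1 + b) ^ 3 = (3 / 2 * X) ^ 2 * (3 / 2 * X) + 3 * (3 / 2 * X) ^ 2 * (1 + b)
        + 3 * (3 / 2 * X) * (1 + b) ^ 2 + (1 + b) ^ 3 := by ring
    rw [e3, hXb]
    have hs1 : (1 + b) ^ 2 ≤ 2 := by
      have : (1 + b) ^ 2 ≤ (11 / 10) ^ 2 := by
        gcongr
        linarith only [hb1]
      norm_num at this ⊢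
      linarith only [this]
    have hs2 : (1 + b) ^ 3 ≤ 2 := by
      have : (1 + b) ^ 3 ≤ (11 / 10) ^ 3 := by
        gcongr
        linarith only [hb1]
      norm_num at this ⊢
      linarith only [this]
    have hs3 : 3 * (3 / 2 * X) * (1 + b) ^ 2 ≤ 3 * (3 / 2 * X) * 2 := by
      have : 0 ≤ 3 * (3 / 2 * X) := by linarith only [hbu, hbpos]
      exact mul_le_mul_of_nonneg_left hs1 this
    have e4 : (2375696008 * (X / 2 + 1 + b) + 2000000) * (6 * b) =
        2 * b * 2375696008 * (3 / 2 * X) + 3 * (2 * b * 2375696008) * (1 + b)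
          + 12000000 * b := by ring
    rw [e4]
    linarith only [hs3, hs2, hbl, hbpos, hXu]
  linarith only [hdiv, hb1, hbpos]

end Vale.Agent.P018.QB
end
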