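import Mathlib
import Vale.Agent.P018.Bdl.B7
import Vale.Agent.P018.Bdl.B5
import Vale.Agent.P018.Bdl.B1
import Vale.Agent.P018.Bdl.B4
import Vale.Agent.P018.Bdl.B6
import Vale.Agent.P018.Bdl.B3
import Vale.Agent.P018.Bdl.B8

set_option linter.all false

section

/-! # P018, K-method, module K9: numerical verification of admissibility for `2 k > d`
(in `NumA` and `NumB`). -/
end

section

/-! The asymptotic formula for `k`-free values when `9 k ≥ 5 deg f + 3`. -/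

namespace Vale.Agent.P018

open Polynomial Filter Topology Asymptotics

/-- The tail for `k < d` and `9 k ≥ 5 d + 3`. -/
theorem tail_small_k (f : ℤ[X]) (hirr : Irreducible (f.map (Int.castRingHom ℚ))) (k : ℕ)
    (hk : 2 ≤ k) (hkd : k < f.natDegree) (hr : 5 * f.natDegree + 3 ≤ 9 * k) :
    Tendsto (fun X : ℕ => (tail f k X : ℝ) / X) atTop (𝓝 0) :=
  tail_of_pairs f hirr k hk hkd (fun A hA => pairs_bound f hirr k hk hkd hr A hA)

theorem main (f : ℤ[X]) (k : ℕ) (hk : 2 ≤ k)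
    (hirr : Irreducible (f.map (Int.castRingHom ℚ)))
    (hloc : ∀ p : ℕ, p.Prime → rho f (p ^ k) < p ^ k)
    (hr : 5 * f.natDegree + 3 ≤ 9 * k) :
    0 < density f k ∧
    (fun X : ℕ => (countPF f k X : ℝ) - density f k * X) =o[atTop] (fun X : ℕ => (X : ℝ)) := by
  refine sieve_main f k hk hirr hloc ?_
  rcases lt_or_ge k f.natDegree with h | h
  · exact tail_small_k f hirr k hk h hr
  · exact tail_large_k f hirr k hk h

end Vale.Agent.P018
end

section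

/-! The bound for the number of pairs in a sector and in a rescaled patch. -/

namespace Vale.Agent.P018

open Finset Polynomial

/-- points of a bounded degree curve in the sector around `a/q`. -/
theorem fiber_of_curve (f : ℤ[X]) (hirr : Irreducible (f.map (Int.castRingHom ℚ)))
    (hd : 2 ≤ f.natDegree) (Δ : ℕ) (ε : ℝ) (hε : 0 < ε) :
    ∃ (K : ℝ) (P0 : ℕ), 0 < K ∧ ∀ P : ℕ, P0 ≤ P → ∀ Q0 : ℕ, 2 ≤ Q0 →
      Q0 ≤ P → ∀ (a : ℤ) (q : ℕ), 1 ≤ q → q ≤ Q0 →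
      Int.gcd a q = 1 → ∀ C : MvPolynomial (Fin 2) ℚ, C ≠ 0 → C.totalDegree ≤ Δ →
      ∀ S : Finset (ℕ × ℕ),
      (∀ z ∈ S, 1 ≤ z.1 ∧ z.1 < z.2 ∧ P < z.2 ∧ z.2 ≤ 2 * P ∧ z.2.Prime ∧
        (z.2 : ℤ) ∣ f.eval (z.1 : ℤ) ∧ |(z.1 : ℝ) / z.2 - a / q| ≤ 1 / (Q0 * q) ∧
        evQ ((z.1 : ℤ), (z.2 : ℤ)) C = 0) →
      (S.card : ℝ) ≤ K * ((P : ℝ) / q) ^ (1 / (f.natDegree : ℝ) + ε) := by
  classical
  obtain ⟨K, P2, hK0, hcurve⟩ := curve_count f hirr hd Δ ε hε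
  set β : ℝ := 1 / (f.natDegree : ℝ) + ε with hβ
  have hβ0 : 0 ≤ β := by positivity
  refine ⟨K * 5 ^ β, max P2 1, by positivity, ?_⟩
  intro P hP Q0 hQ0 hQP a q hq1 hqQ hgcd C hC0 hCΔ S hS
  have hP2 : P2 ≤ P := le_trans (le_max_left _ _) hP
  have hP3 : 1 ≤ P := le_trans (le_max_right _ _) hP
  have hPr : (1 : ℝ) ≤ P := by exact_mod_cast hP3
  have hqr : (1 : ℝ) ≤ q := by exact_mod_cast hq1
  have hQr : (2 : ℝ) ≤ Q0 := by exact_mod_cast hQ0
  have hqQr : (q : ℝ) ≤ Q0 := by exact_mod_cast hqQ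
  have hqPr : (q : ℝ) ≤ P := by exact_mod_cast hqQ.trans hQP
  let e : ℕ × ℕ → ℤ × ℤ := fun z => ((z.1 : ℤ), (z.2 : ℤ))
  have he : Function.Injective e := by
    intro z w hzw
    simp only [e, Prod.mk.injEq, Nat.cast_inj] at hzw
    exact Prod.ext hzw.1 hzw.2
  obtain ⟨b, r, hdet, hr0, hrq⟩ := exists_unimodular a q (by omega) hgcd
  set Y : ℕ := 4 * P / q + 1 with hY
  have hY1 : 4 * (P : ℝ) / q ≤ Y := by
    rw [div_le_iff₀ (by linarith only [hqr])]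
    have h1 : 4 * P < q * (4 * P / q + 1) := Nat.lt_mul_div_succ _ (by omega)
    have h2 : ((4 * P : ℕ) : ℝ) < ((q * (4 * P / q + 1) : ℕ) : ℝ) := by exact_mod_cast h1
    push_cast at h2
    rw [hY]
    push_cast
    linarith only [h2]
  have hY2 : (Y : ℝ) ≤ 5 * (P / q) := by
    have h1 : ((4 * P / q : ℕ) : ℝ) ≤ ((4 * P : ℕ) : ℝ) / q := Nat.cast_div_le
    push_cast at h1
    have h2 : 1 ≤ (P : ℝ) / q := by
      rw [le_div_iff₀ (by linarith only [hqr])]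
      linarith only [hqPr]
    rw [hY]
    push_cast
    have h3 : 4 * (P : ℝ) / q = 4 * (P / q) := by ring
    rw [h3] at h1
    linarith only [h2, h1]
  have hY3 : 2 ≤ Y := by
    have h1 : 1 ≤ 4 * P / q := by
      rw [Nat.one_le_div_iff (by omega)]
      have : q ≤ P := hqQ.trans hQP
      omega
    omega
  have hmain := hcurve P hP2 Y hY3 a b q r hdet C hC0 hCΔ (S.image e) (by
    intro w hw
    rw [mem_image] at hw
    obtain ⟨z, hz, rfl⟩ := hw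
    obtain ⟨h1, h2, h3, h4, h5, h6, h7, h8⟩ := hS z hz
    simp only [e]
    have hzpos : (0 : ℝ) < z.2 := by
      have : 0 < z.2 := by omega
      exact_mod_cast this
    have h4r : (z.2 : ℝ) ≤ 2 * P := by exact_mod_cast h4
    have hA : |(a : ℝ) * z.2 - q * z.1| ≤ z.2 / Q0 := by
      have h9 : (a : ℝ) * z.2 - q * z.1 = -(q * z.2) * ((z.1 : ℝ) / z.2 - a / q) := by
        field_simp
        ring
      rw [h9, abs_mul, abs_neg, abs_of_pos (by positivity)]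
      calc (q : ℝ) * z.2 * |(z.1 : ℝ) / z.2 - a / q| ≤ q * z.2 * (1 / (Q0 * q)) :=
            mul_le_mul_of_nonneg_left h7 (by positivity)
        _ = z.2 / Q0 := by
            field_simp
    have hA2 : (z.2 : ℝ) / Q0 ≤ z.2 / q :=
      div_le_div_of_nonneg_left hzpos.le (by linarith only [hqr]) hqQr
    have hA3 : (z.2 : ℝ) / q ≤ 2 * P / q := by
      apply div_le_div_of_nonneg_right h4r (by linarith only [hqPr])
    refine ⟨by exact_mod_cast h1, by exact_mod_cast h2, by exact_mod_cast h3,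
      by exact_mod_cast h4, Nat.prime_iff_prime_int.mp h5, h6,
      ?_, ?_, h8⟩
    · have hB : |(r : ℝ) * z.1 - b * z.2| ≤ Y := by
        have hdetR : (a : ℝ) * r - b * q = 1 := by exact_mod_cast hdet
        have h9 : (q : ℝ) * ((r : ℝ) * z.1 - b * z.2) = z.2 - r * (a * z.2 - q * z.1) := by
          linear_combination (z.2 : ℝ) * hdetR
        have h10 : (q : ℝ) * |(r : ℝ) * z.1 - b * z.2| ≤ z.2 + q * (z.2 / q) := by
          rw [← abs_of_pos (by linarith only [hqr] : (0 : ℝ) < q), ← abs_mul, abs_of_pos (by linarith only [hqr] : (0 : ℝ) < q),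
            h9]
          refine (abs_sub _ _).trans ?_
          rw [abs_of_pos hzpos, abs_mul]
          have h11 : |(r : ℝ)| ≤ q := by
            rw [abs_of_nonneg (by exact_mod_cast hr0)]
            exact_mod_cast hrq
          have h12 := mul_le_mul h11 (hA.trans hA2) (abs_nonneg _) (by linarith only [h11])
          linarith only [h12]
        have h13 : (q : ℝ) * (z.2 / q) = z.2 := by field_simp
        rw [h13] at h10
        have h14 : |(r : ℝ) * z.1 - b * z.2| ≤ 2 * z.2 / q := by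
          rw [le_div_iff₀ (by linarith only [hqr])]
          linarith only [h10]
        refine h14.trans (le_trans ?_ hY1)
        apply div_le_div_of_nonneg_right _ (by linarith only [h13])
        linarith only [h4r]
      have hB' : |((r * (z.1 : ℤ) - b * (z.2 : ℤ) : ℤ) : ℝ)| ≤ ((Y : ℤ) : ℝ) := by
        push_cast
        exact hB
      exact_mod_cast hB'
    · have hB : |(a : ℝ) * z.2 - q * z.1| ≤ Y := by
        refine hA.trans (hA2.trans (hA3.trans (le_trans ?_ hY1)))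
        apply div_le_div_of_nonneg_right _ (by linarith only [hqPr])
        linarith only [h4r, hzpos]
      have hB' : |((a * (z.2 : ℤ) - (q : ℤ) * (z.1 : ℤ) : ℤ) : ℝ)| ≤ ((Y : ℤ) : ℝ) := by
        push_cast
        exact hB
      exact_mod_cast hB')
  rw [Finset.card_image_of_injective _ he] at hmain
  refine hmain.trans ?_
  rw [mul_assoc]
  apply mul_le_mul_of_nonneg_left _ hK0.le
  calc (Y : ℝ) ^ β ≤ (5 * (P / q)) ^ β := Real.rpow_le_rpow (by positivity) hY2 hβ0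
    _ = 5 ^ β * ((P : ℝ) / q) ^ β := Real.mul_rpow (by norm_num) (by positivity)

theorem fiber_bound2 (f : ℤ[X]) (hirr : Irreducible (f.map (Int.castRingHom ℚ))) (k : ℕ)
    (hk : 2 ≤ k) (hkd : k < f.natDegree) (x0 x1 ε : ℝ)
    (hx0 : 9 * ((f.natDegree : ℝ) - k) / (4 * f.natDegree) < x0)
    (hx1 : 9 * ((f.natDegree : ℝ) - k) / (4 * f.natDegree) *
      (((k : ℝ) + f.natDegree) / (3 * k)) ^ 2 < x1) (hε : 0 < ε) :
    ∃ (K : ℝ) (X0 : ℕ), 0 < K ∧ ∀ X P : ℕ, X0 ≤ X → X ≤ P → ∀ l : ℝ, 0 ≤ l → l ≤ 1 →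
      (P : ℝ) = (X : ℝ) ^ (1 + l * (((f.natDegree : ℝ) - k) / k)) → ∀ Q0 : ℕ, 2 ≤ Q0 →
      (P : ℝ) / X * (X : ℝ) ^ ((1 - l) * x0 + l * x1) ≤ (Q0 : ℝ) ^ 2 → Q0 ≤ P →
      ∀ (a : ℤ) (q : ℕ), 1 ≤ q → q ≤ Q0 →
      Int.gcd a q = 1 → ∀ u0 : ℝ, 0 ≤ u0 → u0 ≤ 2 * ((X : ℝ) / P) → ∀ S : Finset (ℕ × ℕ),
      (∀ z ∈ S, 1 ≤ z.1 ∧ z.1 < z.2 ∧ P < z.2 ∧ z.2 ≤ 2 * P ∧ z.2.Prime ∧
        (z.2 : ℤ) ^ k ∣ f.eval (z.1 : ℤ) ∧ |(z.1 : ℝ) / z.2 - a / q| ≤ 1 / (Q0 * q) ∧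
        |(z.1 : ℝ) / z.2 - u0| ≤ 1 / (Q0 : ℝ) ^ 2) →
      (S.card : ℝ) ≤ K * ((P : ℝ) / q) ^ (1 / (f.natDegree : ℝ) + ε) := by
  classical
  obtain ⟨Δ, X1, hpatch⟩ := patch_curve2 f k (by omega) hkd x0 x1 hx0 hx1
  obtain ⟨K, P2, hK0, hcurve⟩ := fiber_of_curve f hirr (by omega) Δ ε hε
  refine ⟨K, max (max X1 P2) 1, hK0, ?_⟩
  intro X P hX hXP l hl0 hl1 hPX Q0 hQ0 hQx hQP a q hq1 hqQ hgcd u0 hu0 hu2 S hS
  have hX1 : X1 ≤ X := le_trans (le_trans (le_max_left _ _) (le_max_left _ _)) hX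
  have hP2 : P2 ≤ P := le_trans (le_trans (le_trans (le_max_right _ _) (le_max_left _ _)) hX) hXP
  have hX3 : 1 ≤ X := le_trans (le_max_right _ _) hX
  have hXpos : (0 : ℝ) < X := by exact_mod_cast hX3
  have hPpos : (0 : ℝ) < P := by
    have : 0 < P := by omega
    exact_mod_cast this
  have hQpos : (0 : ℝ) < Q0 := by
    have : 0 < Q0 := by omega
    exact_mod_cast this
  let e : ℕ × ℕ → ℤ × ℤ := fun z => ((z.1 : ℤ), (z.2 : ℤ))
  obtain ⟨C, hC0, hCΔ, hCz⟩ := hpatch X P hX1 hXP l hl0 hl1 hPX (u0 * (P / X)) (by (clear * - hu0 hPpos hX3; positivity))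
    (by
      calc u0 * (P / X) ≤ (2 * ((X : ℝ) / P)) * (P / X) :=
            mul_le_mul_of_nonneg_right hu2 (by positivity)
        _ = 2 := by field_simp) (S.image e) (by
    intro w hw
    rw [mem_image] at hw
    obtain ⟨z, hz, rfl⟩ := hw
    obtain ⟨h1, h2, h3, h4, h5, h6, h7, h8⟩ := hS z hz
    simp only [e]
    refine ⟨by exact_mod_cast h3, by exact_mod_cast h4, ?_, h6⟩
    push_cast
    have h9 : (z.1 : ℝ) / z.2 * ((P : ℝ) / X) - u0 * (P / X) =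
        ((z.1 : ℝ) / z.2 - u0) * ((P : ℝ) / X) := by ring
    rw [h9, abs_mul, abs_of_pos (show (0 : ℝ) < (P : ℝ) / X by (clear * - hPpos hX3; positivity))]
    rw [Real.rpow_neg hXpos.le]
    calc |(z.1 : ℝ) / z.2 - u0| * ((P : ℝ) / X) ≤ 1 / (Q0 : ℝ) ^ 2 * ((P : ℝ) / X) :=
          mul_le_mul_of_nonneg_right h8 (by (clear * - hPpos hX3; positivity))
      _ ≤ ((X : ℝ) ^ ((1 - l) * x0 + l * x1))⁻¹ := by
          have hpos : 0 < (X : ℝ) ^ ((1 - l) * x0 + l * x1) := by positivity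
          rw [div_mul_eq_mul_div, one_mul, div_le_iff₀ (by positivity)]
          calc (P : ℝ) / X = ((X : ℝ) ^ ((1 - l) * x0 + l * x1))⁻¹ *
                ((P : ℝ) / X * (X : ℝ) ^ ((1 - l) * x0 + l * x1)) := by
                field_simp
            _ ≤ _ := mul_le_mul_of_nonneg_left hQx (by positivity))
  refine hcurve P hP2 Q0 hQ0 hQP a q hq1 hqQ hgcd C hC0 hCΔ S ?_
  intro z hz
  obtain ⟨h1, h2, h3, h4, h5, h6, h7, h8⟩ := hS z hz
  exact ⟨h1, h2, h3, h4, h5, (dvd_pow_self _ (by omega)).trans h6, h7,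
    hCz (e z) (mem_image_of_mem _ hz)⟩

end Vale.Agent.P018
end

section

/-! The bound for the number of pairs when `P ≥ X^(1+c)`. -/

namespace Vale.Agent.P018

open Finset Polynomial

theorem affine_le (A B l1 l C : ℝ) (h1 : A + B * l1 ≤ C) (h2 : A + B ≤ C) (hl1 : l1 ≤ l)
    (hl : l ≤ 1) : A + B * l ≤ C := by
  rcases le_total 0 B with h | h
  · linarith only [mul_nonneg (sub_nonneg.2 hl) (sub_nonneg.2 h), h2]
  · linarith only [mul_nonneg (sub_nonneg.2 hl1) (sub_nonneg.2 h), h1]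

theorem choose_params2 (d k c1 : ℝ) (hk : 0 < k) (hkd : k < d) (hc1 : 0 < c1)
    (hd2 : 2 ≤ d)
    (hc : (1 - 1 / (2 * d)) * ((1 - c1 * k / (d - k)) * (9 * (d - k) / (4 * d)) +
      c1 * k / (d - k) * (9 * (d - k) / (4 * d) * ((k + d) / (3 * k)) ^ 2)) +
      (1 / (2 * d)) * (2 + c1) < 1)
    (hc' : (1 - 1 / (2 * d)) * (9 * (d - k) / (4 * d) * ((k + d) / (3 * k)) ^ 2) +
      (1 / (2 * d)) * (2 + (d - k) / k) < 1) :
    ∃ e η : ℝ, 0 < e ∧ 0 < η ∧ 1 / d + e < 1 ∧ ∀ l : ℝ, c1 * k / (d - k) ≤ l → l ≤ 1 →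
      ((1 - l) * (9 * (d - k) / (4 * d) + e) +
        l * (9 * (d - k) / (4 * d) * ((k + d) / (3 * k)) ^ 2 + e)) * (1 - (1 / d + e) / 2) +
        (1 / d + e) * (2 + l * ((d - k) / k)) / 2 ≤ 1 - η ∧
      (l * ((d - k) / k) - ((1 - l) * (9 * (d - k) / (4 * d) + e) +
        l * (9 * (d - k) / (4 * d) * ((k + d) / (3 * k)) ^ 2 + e))) / 2 ≤ -η := by
  have hd : 0 < d := by linarith only [hd2]
  have hh : 0 < d - k := by linarith only [hkd]
  have hx1 : (d - k) / k < 9 * (d - k) / (4 * d) * ((k + d) / (3 * k)) ^ 2 := by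
    rw [div_pow, div_mul_div_comm, div_lt_div_iff₀ hk (by positivity)]
    have h1 : 0 < (d - k) ^ 2 := by positivity
    have h2 : 4 * d * k < (k + d) ^ 2 := by linarith only [h1]
    have h3 : 0 < 9 * (d - k) * k := by positivity
    calc (d - k) * (4 * d * (3 * k) ^ 2) = 9 * (d - k) * k * (4 * d * k) := by ring
      _ < 9 * (d - k) * k * (k + d) ^ 2 := mul_lt_mul_of_pos_left h2 h3
      _ = 9 * (d - k) * (k + d) ^ 2 * k := by ring
  generalize hX1 : 9 * (d - k) / (4 * d) * ((k + d) / (3 * k)) ^ 2 = X1 at hc hc' hx1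
  have hX0 : 0 < 9 * (d - k) / (4 * d) := by positivity
  generalize hX0' : 9 * (d - k) / (4 * d) = X0 at hc hX0
  generalize hl1 : c1 * k / (d - k) = l1 at hc
  have hl1κ : l1 * ((d - k) / k) = c1 := by
    rw [← hl1]
    field_simp
  generalize (d - k) / k = κ at hc' hx1 hl1κ
  let F : ℝ → ℝ → ℝ := fun l e => ((1 - l) * (X0 + e) + l * (X1 + e)) * (1 - (1 / d + e) / 2) +
        (1 / d + e) * (2 + l * κ) / 2
  have hF1 : Continuous (F l1) := by
    simp only [F]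
    fun_prop
  have hF2 : Continuous (F 1) := by
    simp only [F]
    fun_prop
  have hF10 : F l1 0 < 1 := by
    have : F l1 0 = (1 - 1 / (2 * d)) * ((1 - l1) * X0 + l1 * X1) + (1 / (2 * d)) * (2 + c1) := by
      simp only [F]
      rw [hl1κ]
      field_simp
      ring
    rw [this]
    exact hc
  have hF20 : F 1 0 < 1 := by
    have : F 1 0 = (1 - 1 / (2 * d)) * X1 + (1 / (2 * d)) * (2 + κ) := by
      simp only [F]
      field_simp
      ring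
    rw [this]
    exact hc'
  have hev1 := (hF1.tendsto 0).eventually (gt_mem_nhds hF10)
  have hev2 := (hF2.tendsto 0).eventually (gt_mem_nhds hF20)
  have hev3 : ∀ᶠ e : ℝ in nhds 0, e < 1 / 2 := gt_mem_nhds (by norm_num)
  have hev := ((hev1.and (hev2.and hev3)).filter_mono nhdsWithin_le_nhds).and
    (self_mem_nhdsWithin (a := (0 : ℝ)) (s := Set.Ioi 0))
  obtain ⟨e, ⟨he1, he2, he3⟩, he4⟩ := hev.exists
  have he0 : 0 < e := he4
  refine ⟨e, min (min (1 - F l1 e) (1 - F 1 e)) (min (X0 / 2) ((X1 - κ) / 2)), he0, ?_, ?_, ?_⟩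
  · apply lt_min (lt_min (by linarith only [he1]) (by linarith only [he2])) (lt_min (by linarith only [hX0]) (by linarith only [hx1]))
  · have : 1 / d ≤ 1 / 2 := one_div_le_one_div_of_le (by norm_num) hd2
    linarith only [this, he3]
  · intro l hll hl
    have m1 : min (min (1 - F l1 e) (1 - F 1 e)) (min (X0 / 2) ((X1 - κ) / 2)) ≤ 1 - F l1 e :=
      (min_le_left _ _).trans (min_le_left _ _)
    have m2 : min (min (1 - F l1 e) (1 - F 1 e)) (min (X0 / 2) ((X1 - κ) / 2)) ≤ 1 - F 1 e :=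
      (min_le_left _ _).trans (min_le_right _ _)
    have m3 : min (min (1 - F l1 e) (1 - F 1 e)) (min (X0 / 2) ((X1 - κ) / 2)) ≤ X0 / 2 :=
      (min_le_right _ _).trans (min_le_left _ _)
    have m4 : min (min (1 - F l1 e) (1 - F 1 e)) (min (X0 / 2) ((X1 - κ) / 2)) ≤ (X1 - κ) / 2 :=
      (min_le_right _ _).trans (min_le_right _ _)
    generalize min (min (1 - F l1 e) (1 - F 1 e)) (min (X0 / 2) ((X1 - κ) / 2)) = η at m1 m2 m3 m4
    have hl0 : 0 ≤ l := by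
      refine le_trans ?_ hll
      rw [← hl1]
      positivity
    constructor
    · have e1 : ∀ l, F l e = ((X0 + e) * (1 - (1 / d + e) / 2) + (1 / d + e)) +
          ((X1 - X0) * (1 - (1 / d + e) / 2) + (1 / d + e) * κ / 2) * l := by
        intro l
        simp only [F]
        ring
      have h1 := affine_le ((X0 + e) * (1 - (1 / d + e) / 2) + (1 / d + e))
        ((X1 - X0) * (1 - (1 / d + e) / 2) + (1 / d + e) * κ / 2) l1 l (1 - η)
        (by rw [← e1]; linarith only [m1]) (by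
          have := e1 1
          rw [mul_one] at this
          rw [← this]; linarith only [m2]) hll hl
      rw [← e1] at h1
      exact h1
    · have h1 := affine_le (-(X0 + e) / 2) ((κ - (X1 - X0)) / 2) 0 l (-η) (by linarith only [m3, he0]) (by linarith only [m4, he0])
        hl0 hl
      calc (l * κ - ((1 - l) * (X0 + e) + l * (X1 + e))) / 2 =
          -(X0 + e) / 2 + (κ - (X1 - X0)) / 2 * l := by ring
        _ ≤ -η := h1

theorem q0_choice2 (R : ℝ) (P : ℕ) (hR1 : 1 < R) (hRP : R ≤ (P : ℝ) ^ 2) :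
    ∃ Q0 : ℕ, 2 ≤ Q0 ∧ (Q0 : ℝ) ≤ 2 * R ^ (1 / 2 : ℝ) ∧ R ^ (1 / 2 : ℝ) ≤ Q0 ∧ Q0 ≤ P ∧
      R ≤ (Q0 : ℝ) ^ 2 := by
  have hR0 : 0 < R := by linarith
  set Q0 : ℕ := ⌈R ^ (1 / 2 : ℝ)⌉₊ with hQ0
  have hpow1 : 1 < R ^ (1 / 2 : ℝ) := Real.one_lt_rpow hR1 (by norm_num)
  have hQge : R ^ (1 / 2 : ℝ) ≤ Q0 := Nat.le_ceil _
  refine ⟨Q0, ?_, ?_, hQge, ?_, ?_⟩
  · have : 1 < Q0 := by
      rw [hQ0, Nat.lt_ceil]
      exact_mod_cast hpow1
    omega
  · have := Nat.ceil_lt_add_one (a := R ^ (1 / 2 : ℝ)) (by positivity)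
    rw [← hQ0] at this
    linarith only [this, hpow1]
  · rw [hQ0, Nat.ceil_le]
    calc R ^ (1 / 2 : ℝ) ≤ ((P : ℝ) ^ 2) ^ (1 / 2 : ℝ) :=
          Real.rpow_le_rpow hR0.le hRP (by norm_num)
      _ = P := by
          rw [← Real.rpow_natCast, ← Real.rpow_mul (by positivity)]
          norm_num
  · calc R = (R ^ (1 / 2 : ℝ)) ^ 2 := by
          rw [← Real.rpow_natCast, ← Real.rpow_mul hR0.le]
          norm_num
      _ ≤ (Q0 : ℝ) ^ 2 := by
          apply pow_le_pow_left₀ (by positivity) hQge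

theorem sector_algebra2 (X P Q t x β η : ℝ) (hX1 : 1 ≤ X) (hPX : P = X ^ (1 + t)) (hQpos : 0 < Q)
    (hβ0 : 0 ≤ β) (hβ1 : β < 1) (hQle : Q ≤ 2 * (P / X * X ^ x) ^ (1 / 2 : ℝ))
    (hη : x * (1 - β / 2) + β * (2 + t) / 2 ≤ 1 - η) :
    (X / P) * P ^ β * Q ^ (2 - β) ≤ 4 * X ^ (1 - η) := by
  have hXpos : 0 < X := by linarith only [hX1]
  have hPpos : 0 < P := by rw [hPX]; positivity
  have hR : P / X * X ^ x = X ^ (t + x) := by
    rw [hPX, Real.rpow_add hXpos, Real.rpow_add hXpos, Real.rpow_one]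
    field_simp
  rw [hR] at hQle
  have h2 : Q ^ (2 - β) ≤ 4 * X ^ ((t + x) * (1 - β / 2)) := by
    calc Q ^ (2 - β) ≤ (2 * (X ^ (t + x)) ^ (1 / 2 : ℝ)) ^ (2 - β) :=
          Real.rpow_le_rpow hQpos.le hQle (by linarith only [hβ1])
      _ = 2 ^ (2 - β) * ((X ^ (t + x)) ^ (1 / 2 : ℝ)) ^ (2 - β) :=
          Real.mul_rpow (by norm_num) (by positivity)
      _ = 2 ^ (2 - β) * X ^ ((t + x) * (1 - β / 2)) := by
          rw [← Real.rpow_mul hXpos.le, ← Real.rpow_mul hXpos.le]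
          congr 2
          ring
      _ ≤ 4 * X ^ ((t + x) * (1 - β / 2)) := by
          apply mul_le_mul_of_nonneg_right _ (by positivity)
          calc (2 : ℝ) ^ (2 - β) ≤ 2 ^ (2 : ℝ) :=
                Real.rpow_le_rpow_of_exponent_le (by norm_num) (by linarith only [hβ0])
            _ = 4 := by norm_num
  calc (X / P) * P ^ β * Q ^ (2 - β)
      ≤ (X / P) * P ^ β * (4 * X ^ ((t + x) * (1 - β / 2))) := by
        apply mul_le_mul_of_nonneg_left h2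
        positivity
    _ = 4 * X ^ (x * (1 - β / 2) + β * (2 + t) / 2) := by
        have h3 : X / P = X ^ (-t) := by
          rw [hPX, Real.rpow_add hXpos, Real.rpow_one, Real.rpow_neg hXpos.le]
          field_simp
        have h4 : P ^ β = X ^ ((1 + t) * β) := by
          rw [hPX, ← Real.rpow_mul hXpos.le]
        rw [h3, h4]
        have h5 : x * (1 - β / 2) + β * (2 + t) / 2 = -t + (1 + t) * β + (t + x) * (1 - β / 2) := by
          ring
        rw [h5, Real.rpow_add hXpos, Real.rpow_add hXpos]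
        ring
    _ ≤ 4 * X ^ (1 - η) := by
        apply mul_le_mul_of_nonneg_left _ (by norm_num)
        exact Real.rpow_le_rpow_of_exponent_le hX1 hη

theorem zero_algebra2 (X P t x η : ℝ) (hX1 : 1 ≤ X) (hPX : P = X ^ (1 + t))
    (hη : (t - x) / 2 ≤ -η) :
    P / (P / X * X ^ x) ^ (1 / 2 : ℝ) ≤ X ^ (1 - η) := by
  have hXpos : 0 < X := by linarith
  have hR : P / X * X ^ x = X ^ (t + x) := by
    rw [hPX, Real.rpow_add hXpos, Real.rpow_add hXpos, Real.rpow_one]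
    field_simp
  rw [hR, hPX, ← Real.rpow_mul hXpos.le, ← Real.rpow_sub hXpos]
  apply Real.rpow_le_rpow_of_exponent_le hX1
  linarith only [hη]

theorem small_of_num_nonpos2 (n p P Q0 : ℕ) (R : ℝ) (hQ : 0 < Q0) (hR : 0 < R)
    (hQge : R ≤ Q0) (hp : 0 < p) (hp2 : p ≤ 2 * P) (ρ : ℚ)
    (hρ : |(n : ℝ) / p - (ρ : ℝ)| ≤ 1 / (((Q0 : ℝ) + 1) * ρ.den)) (hnum : ¬ 0 < ρ.num) :
    (n : ℝ) ≤ 2 * (P / R) := by
  have hQpos : (0 : ℝ) < Q0 := by exact_mod_cast hQ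
  have hz2 : (0 : ℝ) < p := by exact_mod_cast hp
  have hnum' : (ρ : ℝ) ≤ 0 := by
    have : ρ ≤ 0 := Rat.num_nonpos.mp (not_lt.mp hnum)
    exact_mod_cast this
  have h8 := (abs_le.mp hρ).2
  have h9 : 1 / (((Q0 : ℝ) + 1) * ρ.den) ≤ 1 / Q0 := by
    apply one_div_le_one_div_of_le hQpos
    have : (1 : ℝ) ≤ ρ.den := by exact_mod_cast ρ.den_pos
    linarith only [mul_nonneg (le_of_lt (sub_pos.2 hQpos)) (sub_nonneg.2 this), this]
  have h10 : (n : ℝ) / p ≤ 1 / Q0 := by linarith only [h9, h8, hnum']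
  rw [div_le_iff₀ hz2] at h10
  have h11 : (p : ℝ) ≤ 2 * P := by exact_mod_cast hp2
  have h12 : 1 / (Q0 : ℝ) ≤ 1 / R := one_div_le_one_div_of_le hR hQge
  calc (n : ℝ) ≤ 1 / Q0 * p := h10
    _ ≤ 1 / R * (2 * P) := mul_le_mul h12 h11 hz2.le (by positivity)
    _ = 2 * (P / R) := by ring

theorem range2_core (f : ℤ[X]) (hirr : Irreducible (f.map (Int.castRingHom ℚ))) (k : ℕ)
    (hk : 1 ≤ k) (hd2 : 2 ≤ f.natDegree) (K β η x t : ℝ) (hK0 : 0 < K) (hβ0 : 0 ≤ β) (hβ1 : β < 1)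
    (X P : ℕ) (hX2 : 2 ≤ X) (hXP : X ≤ P)
    (hXA : ∑ i ∈ range (f.natDegree + 1), |(f.coeff i : ℝ)| < X)
    (hPt : (P : ℝ) = (X : ℝ) ^ (1 + t)) (hx0 : 0 < x) (hx2 : x ≤ 2)
    (hp1 : x * (1 - β / 2) + β * (2 + t) / 2 ≤ 1 - η) (hp2 : (t - x) / 2 ≤ -η)
    (hfib' : ∀ Q0 : ℕ, 2 ≤ Q0 → (P : ℝ) / X * (X : ℝ) ^ x ≤ (Q0 : ℝ) ^ 2 → Q0 ≤ P →
      ∀ (a : ℤ) (q : ℕ), 1 ≤ q → q ≤ Q0 →
      Int.gcd a q = 1 → ∀ u0 : ℝ, 0 ≤ u0 → u0 ≤ 2 * ((X : ℝ) / P) → ∀ S : Finset (ℕ × ℕ),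
      (∀ z ∈ S, 1 ≤ z.1 ∧ z.1 < z.2 ∧ P < z.2 ∧ z.2 ≤ 2 * P ∧ z.2.Prime ∧
        (z.2 : ℤ) ^ k ∣ f.eval (z.1 : ℤ) ∧ |(z.1 : ℝ) / z.2 - a / q| ≤ 1 / (Q0 * q) ∧
        |(z.1 : ℝ) / z.2 - u0| ≤ 1 / (Q0 : ℝ) ^ 2) →
      (S.card : ℝ) ≤ K * ((P : ℝ) / q) ^ β) :
    ((pairs f k X P).card : ℝ) ≤ (4 * K / (1 - β) * 4 + 2 * f.natDegree) * (X : ℝ) ^ (1 - η) := by
  classical
  have h1β : 0 < 1 - β := by linarith only [hβ1]
  have hXr2 : (2 : ℝ) ≤ X := by exact_mod_cast hX2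
  have hXr : (1 : ℝ) ≤ X := by linarith only [hXr2]
  have hXpos : (0 : ℝ) < X := by linarith only [hXr2]
  have hXPr : (X : ℝ) ≤ P := by exact_mod_cast hXP
  have hPpos : (0 : ℝ) < P := by linarith only [hXPr, hXr2]
  have hXx1 : 1 < (X : ℝ) ^ x := Real.one_lt_rpow (by linarith only [hXr2]) hx0
  have hXx2 : (X : ℝ) ^ x ≤ (X : ℝ) ^ (2 : ℝ) := Real.rpow_le_rpow_of_exponent_le hXr hx2
  have hPX1 : 1 ≤ (P : ℝ) / X := by
    rw [le_div_iff₀ hXpos]
    linarith only [hXPr]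
  have hR1 : 1 < (P : ℝ) / X * (X : ℝ) ^ x := by (by_contra nlg; linarith only [nlg, mul_nonneg (le_of_lt (sub_pos.2 hXx1)) (sub_nonneg.2 hPX1), mul_pos (sub_pos.2 h1β) (sub_pos.2 hXx1), mul_nonneg (sub_nonneg.2 hx2) (sub_nonneg.2 hPX1), mul_nonneg (le_of_lt (sub_pos.2 hx0)) (sub_nonneg.2 hPX1), mul_nonneg (sub_nonneg.2 hβ0) (le_of_lt (sub_pos.2 hXx1)), mul_nonneg (sub_nonneg.2 (not_lt.1 nlg)) (sub_nonneg.2 hx2), mul_nonneg (sub_nonneg.2 (not_lt.1 nlg)) (le_of_lt (sub_pos.2 hx0))])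
  have hRP : (P : ℝ) / X * (X : ℝ) ^ x ≤ (P : ℝ) ^ 2 := by
    calc (P : ℝ) / X * (X : ℝ) ^ x ≤ (P : ℝ) / X * (X : ℝ) ^ (2 : ℝ) :=
          mul_le_mul_of_nonneg_left hXx2 (by (clear * - hPpos hX2; positivity))
      _ = P * X := by
          rw [Real.rpow_two]
          field_simp
      _ ≤ (P : ℝ) ^ 2 := by
          rw [sq]
          exact mul_le_mul_of_nonneg_left hXPr hPpos.le
  obtain ⟨Q0, hQ2, hQle, hQge, hQP, hQR⟩ := q0_choice2 _ P hR1 hRP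
  have hQpos : (0 : ℝ) < Q0 := by
    have : 0 < Q0 := by omega
    exact_mod_cast this
  have hQXP : 1 / (Q0 : ℝ) ^ 2 ≤ (X : ℝ) / P := by
    rw [div_le_div_iff₀ (by positivity) hPpos, one_mul]
    have h1 : (P : ℝ) / X ≤ (Q0 : ℝ) ^ 2 := by
      refine le_trans ?_ hQR
      (by_contra nlg; linarith only [nlg, mul_pos (sub_pos.2 hXx1) (sub_pos.2 hR1), mul_pos (sub_pos.2 h1β) (sub_pos.2 hXx1), mul_nonneg (sub_nonneg.2 hβ0) (le_of_lt (sub_pos.2 hXx1)), mul_pos (sub_pos.2 (not_le.1 nlg)) (sub_pos.2 hXx1), mul_nonneg (le_of_lt (sub_pos.2 (not_le.1 nlg))) (sub_nonneg.2 hx2), mul_pos (sub_pos.2 (not_le.1 nlg)) (sub_pos.2 hx0)])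
    rw [div_le_iff₀ hXpos] at h1
    linarith only [h1]
  have hdir : ∀ z : ℕ × ℕ, ∃ q : ℚ, |(z.1 : ℝ) / z.2 - (q : ℝ)| ≤ 1 / (((Q0 : ℝ) + 1) * q.den) ∧
      q.den ≤ Q0 := fun z =>
    Real.exists_rat_abs_sub_le_and_den_le ((z.1 : ℝ) / z.2) (by omega)
  choose ρ hρ using hdir
  have hcard : ((pairs f k X P).card : ℝ) =
      (((pairs f k X P).filter (fun z => 0 < (ρ z).num)).card : ℝ) +
      ((pairs f k X P).filter (fun z => ¬ 0 < (ρ z).num)).card := by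
    rw [← Finset.card_filter_add_card_filter_not (s := pairs f k X P) (fun z => 0 < (ρ z).num)]
    push_cast
    rfl
  have hb1 : (((pairs f k X P).filter (fun z => 0 < (ρ z).num)).card : ℝ) ≤
      4 * K / (1 - β) * 4 * (X : ℝ) ^ (1 - η) := by
    have h1 := sector_count2 f k β K hK0.le hβ0 hβ1 P Q0 X (by omega) hXP hQ2 hQXP
      (hfib' Q0 hQ2 hQR hQP) ρ hρ
      ((pairs f k X P).filter (fun z => 0 < (ρ z).num)) (fun z hz => by
        rw [mem_filter] at hz; exact hz)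
    refine h1.trans ?_
    have h2 := sector_algebra2 X P Q0 t x β η hXr hPt hQpos hβ0 hβ1 hQle hp1
    calc 4 * K / (1 - β) * ((X : ℝ) / P) * (P : ℝ) ^ β * (Q0 : ℝ) ^ (2 - β)
        = 4 * K / (1 - β) * (((X : ℝ) / P) * (P : ℝ) ^ β * (Q0 : ℝ) ^ (2 - β)) := by ring
      _ ≤ 4 * K / (1 - β) * (4 * (X : ℝ) ^ (1 - η)) := by
          apply mul_le_mul_of_nonneg_left h2
          positivity
      _ = 4 * K / (1 - β) * 4 * (X : ℝ) ^ (1 - η) := by ring
  have hb0 : (((pairs f k X P).filter (fun z => ¬ 0 < (ρ z).num)).card : ℝ) ≤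
      2 * f.natDegree * (X : ℝ) ^ (1 - η) := by
    have hRpos : 0 < ((P : ℝ) / X * (X : ℝ) ^ x) ^ (1 / 2 : ℝ) := by positivity
    have h1 := zero_sector f hirr k hk hd2 X P (by omega) hXP hXA
      (2 * (P / ((P : ℝ) / X * (X : ℝ) ^ x) ^ (1 / 2 : ℝ))) (by (clear * - hPpos hX2; positivity))
      ((pairs f k X P).filter (fun z => ¬ 0 < (ρ z).num)) (fun z hz => by
        rw [mem_filter] at hz
        refine ⟨hz.1, ?_⟩
        have h1 := hz.1
        simp only [pairs, mem_filter, mem_product, mem_Icc, mem_Ioc] at h1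
        exact small_of_num_nonpos2 z.1 z.2 P Q0 _ (by omega) hRpos hQge (by omega)
          h1.1.2.2 (ρ z) (hρ z).1 hz.2)
    refine h1.trans ?_
    have h2 := zero_algebra2 X P t x η hXr hPt hp2
    calc 2 * (P / ((P : ℝ) / X * (X : ℝ) ^ x) ^ (1 / 2 : ℝ)) * f.natDegree
        = 2 * f.natDegree * (P / ((P : ℝ) / X * (X : ℝ) ^ x) ^ (1 / 2 : ℝ)) := by ring
      _ ≤ 2 * f.natDegree * (X : ℝ) ^ (1 - η) := by
          apply mul_le_mul_of_nonneg_left h2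
          positivity
  rw [hcard, add_mul]
  exact add_le_add hb1 hb0

/-- The range `P ≥ X^(1+c)` when `P^k ≤ X^d`. -/
theorem pairs_range2_aux (f : ℤ[X]) (hirr : Irreducible (f.map (Int.castRingHom ℚ))) (k : ℕ)
    (hk : 2 ≤ k) (hkd : k < f.natDegree) (c1 : ℝ) (hc1 : 0 < c1)
    (hc : (1 - 1 / (2 * (f.natDegree : ℝ))) * ((1 - c1 * k / ((f.natDegree : ℝ) - k)) *
      (9 * ((f.natDegree : ℝ) - k) / (4 * (f.natDegree : ℝ))) +
      c1 * k / ((f.natDegree : ℝ) - k) * (9 * ((f.natDegree : ℝ) - k) / (4 * (f.natDegree : ℝ)) *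
      (((k : ℝ) + (f.natDegree : ℝ)) / (3 * k)) ^ 2)) + (1 / (2 * (f.natDegree : ℝ))) * (2 + c1) < 1)
    (hc' : (1 - 1 / (2 * (f.natDegree : ℝ))) * (9 * ((f.natDegree : ℝ) - k) /
      (4 * (f.natDegree : ℝ)) * (((k : ℝ) + (f.natDegree : ℝ)) / (3 * k)) ^ 2) +
      (1 / (2 * (f.natDegree : ℝ))) * (2 + ((f.natDegree : ℝ) - k) / k) < 1) :
    ∃ η K : ℝ, 0 < η ∧ 0 < K ∧ ∃ X0 : ℕ, ∀ X P : ℕ, X0 ≤ X → (X : ℝ) ^ (1 + c1) ≤ P →
      (P : ℝ) ^ k ≤ (X : ℝ) ^ f.natDegree →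
      ((pairs f k X P).card : ℝ) ≤ K * (X : ℝ) ^ (1 - η) := by
  classical
  have hkr : (2 : ℝ) ≤ k := by exact_mod_cast hk
  have hkdr : (k : ℝ) < f.natDegree := by exact_mod_cast hkd
  have hd2 : (2 : ℝ) ≤ f.natDegree := by linarith only [hkdr, hkr]
  have hhpos : 0 < (f.natDegree : ℝ) - k := by linarith only [hkdr]
  have hkpos : (0 : ℝ) < k := by linarith only [hkr]
  obtain ⟨e, η, he0, hη0, hβ1, hpar⟩ := choose_params2 _ _ c1 (by linarith only [hkr]) hkdr hc1 hd2 hc hc'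
  obtain ⟨K, X1, hK0, hfib⟩ := fiber_bound2 f hirr k hk hkd
    (9 * ((f.natDegree : ℝ) - k) / (4 * (f.natDegree : ℝ)) + e)
    (9 * ((f.natDegree : ℝ) - k) / (4 * (f.natDegree : ℝ)) *
      (((k : ℝ) + (f.natDegree : ℝ)) / (3 * k)) ^ 2 + e) e (by linarith only [he0]) (by linarith only [he0]) he0
  have hXa : 0 < 9 * ((f.natDegree : ℝ) - k) / (4 * (f.natDegree : ℝ)) + e := by (clear * - hkdr hd2 he0; positivity)
  have hXb : 0 < 9 * ((f.natDegree : ℝ) - k) / (4 * (f.natDegree : ℝ)) *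
      (((k : ℝ) + (f.natDegree : ℝ)) / (3 * k)) ^ 2 + e := by (clear * - hkdr hd2 hk he0; positivity)
  generalize 9 * ((f.natDegree : ℝ) - k) / (4 * (f.natDegree : ℝ)) + e = x0 at hpar hfib hXa
  generalize 9 * ((f.natDegree : ℝ) - k) / (4 * (f.natDegree : ℝ)) *
      (((k : ℝ) + (f.natDegree : ℝ)) / (3 * k)) ^ 2 + e = x1 at hpar hfib hXb
  generalize hβ : 1 / (f.natDegree : ℝ) + e = β at hβ1 hpar hfib
  have hβ0 : 0 ≤ β := by rw [← hβ]; (clear * - hd2 he0; positivity)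
  have h1β : 0 < 1 - β := by linarith only [hβ1]
  refine ⟨η, 4 * K / (1 - β) * 4 + 2 * f.natDegree, hη0, by positivity,
    max (max X1 2) (⌊∑ i ∈ range (f.natDegree + 1), |(f.coeff i : ℝ)|⌋₊ + 1), ?_⟩
  intro X P hX0 hXP1 hPA
  have hX1 : X1 ≤ X := le_trans (le_trans (le_max_left _ _) (le_max_left _ _)) hX0
  have hX2 : 2 ≤ X := le_trans (le_trans (le_max_right _ _) (le_max_left _ _)) hX0
  have hXA : ∑ i ∈ range (f.natDegree + 1), |(f.coeff i : ℝ)| < X := by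
    have h1 := le_trans (le_max_right _ _) hX0
    exact (Nat.floor_lt' (by omega)).mp (Nat.lt_of_succ_le h1)
  have hXr2 : (2 : ℝ) ≤ X := by exact_mod_cast hX2
  have hXr : (1 : ℝ) ≤ X := by linarith only [hXr2]
  have hXpos : (0 : ℝ) < X := by linarith only [hXr2]
  have hXPr : (X : ℝ) ≤ P := by
    refine le_trans ?_ hXP1
    calc (X : ℝ) = (X : ℝ) ^ (1 : ℝ) := (Real.rpow_one _).symm
      _ ≤ (X : ℝ) ^ (1 + c1) := Real.rpow_le_rpow_of_exponent_le hXr (by linarith only [hc1])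
  have hXP : X ≤ P := by exact_mod_cast hXPr
  have hPpos : (0 : ℝ) < P := by linarith only [hXPr, hXr2]
  -- the parameter `l`
  have hlogX : 0 < Real.log X := Real.log_pos (by linarith only [hXr2])
  obtain ⟨t, ht⟩ : ∃ t : ℝ, t = Real.log P / Real.log X - 1 := ⟨_, rfl⟩
  have hPt : (P : ℝ) = (X : ℝ) ^ (1 + t) := by
    rw [ht, add_sub_cancel, Real.rpow_def_of_pos hXpos, mul_div_cancel₀ _ hlogX.ne',
      Real.exp_log hPpos]
  have htc : c1 ≤ t := by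
    rw [hPt] at hXP1
    have := (Real.rpow_le_rpow_left_iff (x := (X : ℝ)) (by linarith only [hXr2])).mp hXP1
    linarith only [this]
  have htk : t ≤ ((f.natDegree : ℝ) - k) / k := by
    rw [hPt, ← Real.rpow_natCast, ← Real.rpow_natCast, ← Real.rpow_mul hXpos.le] at hPA
    have := (Real.rpow_le_rpow_left_iff (x := (X : ℝ)) (by linarith only [hXr2])).mp hPA
    rw [le_div_iff₀ hkpos]
    linarith only [this]
  obtain ⟨l, hl⟩ : ∃ l : ℝ, l = t / (((f.natDegree : ℝ) - k) / k) := ⟨_, rfl⟩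
  have hlt : l * (((f.natDegree : ℝ) - k) / k) = t := by
    rw [hl]
    field_simp
  have hl1 : c1 * k / ((f.natDegree : ℝ) - k) ≤ l := by
    rw [hl, div_div_eq_mul_div]
    apply div_le_div_of_nonneg_right _ hhpos.le
    exact mul_le_mul_of_nonneg_right htc hkpos.le
  have hl0 : 0 ≤ l := le_trans (by positivity) hl1
  have hl2 : l ≤ 1 := by
    rw [hl, div_le_one (by positivity)]
    exact htk
  obtain ⟨hp1, hp2⟩ := hpar l hl1 hl2
  rw [hlt] at hp1 hp2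
  have hfib' := hfib X P hX1 hXP l hl0 hl2 (by rw [hlt]; exact hPt)
  have hx0 : 0 < (1 - l) * x0 + l * x1 := by
    rcases eq_or_lt_of_le hl0 with h | h
    · rw [← h]
      simpa using hXa
    · have h1 : 0 ≤ (1 - l) * x0 := mul_nonneg (by linarith only [hl2]) hXa.le
      have h2 : 0 < l * x1 := mul_pos h hXb
      linarith only [hp2, htc, hη0, hc1]
  generalize (1 - l) * x0 + l * x1 = x at hp1 hp2 hfib' hx0
  have hx2 : x ≤ 2 := by
    have ht0 : 0 ≤ β * (2 + t) / 2 := by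
      have : 0 ≤ 2 + t := by linarith only [htc, hc1]
      (clear * - hβ0 this; positivity)
    (by_contra nlg; linarith only [nlg, mul_nonneg (sub_nonneg.2 hl2) (sub_nonneg.2 ht0), mul_nonneg (sub_nonneg.2 hl2) (sub_nonneg.2 hp1), mul_nonneg (sub_nonneg.2 hl0) (sub_nonneg.2 ht0), mul_nonneg (sub_nonneg.2 hl0) (sub_nonneg.2 hp1), mul_nonneg (le_of_lt (sub_pos.2 h1β)) (sub_nonneg.2 hp2), mul_nonneg (le_of_lt (sub_pos.2 h1β)) (sub_nonneg.2 htc), mul_pos (sub_pos.2 hη0) (sub_pos.2 h1β), mul_nonneg (le_of_lt (sub_pos.2 hη0)) (sub_nonneg.2 hβ0), mul_pos (sub_pos.2 hc1) (sub_pos.2 h1β), mul_nonneg (le_of_lt (sub_pos.2 (not_le.1 nlg))) (sub_nonneg.2 hl2), mul_nonneg (le_of_lt (sub_pos.2 (not_le.1 nlg))) (sub_nonneg.2 hl0)])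
  exact range2_core f hirr k (by omega) (by omega) K β η x t hK0 hβ0 hβ1 X P hX2 hXP hXA hPt
    hx0 hx2 hp1 hp2 hfib'

end Vale.Agent.P018
end

section

/-! The bound for the number of pairs when `P ≥ X^(1 + 2/(5d))` and `9 k = 5 d + 2`. -/

namespace Vale.Agent.P018

open Finset Polynomial

theorem pairs_mono (f : ℤ[X]) (k X X' P : ℕ) (h : X ≤ X') : pairs f k X P ⊆ pairs f k X' P := by
  intro z hz
  simp only [pairs, mem_filter, mem_product, mem_Icc] at hz ⊢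
  exact ⟨⟨⟨hz.1.1.1, hz.1.1.2.trans h⟩, hz.1.2⟩, hz.2⟩

theorem pairs_range2_gen (f : ℤ[X]) (hirr : Irreducible (f.map (Int.castRingHom ℚ))) (k : ℕ)
    (hk : 2 ≤ k) (hkd : k < f.natDegree) (c1 c : ℝ) (hc1 : 0 < c1) (hcc : c1 < c)
    (hc : (1 - 1 / (2 * (f.natDegree : ℝ))) * ((1 - c1 * k / ((f.natDegree : ℝ) - k)) *
      (9 * ((f.natDegree : ℝ) - k) / (4 * (f.natDegree : ℝ))) +
      c1 * k / ((f.natDegree : ℝ) - k) * (9 * ((f.natDegree : ℝ) - k) / (4 * (f.natDegree : ℝ)) *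
      (((k : ℝ) + (f.natDegree : ℝ)) / (3 * k)) ^ 2)) + (1 / (2 * (f.natDegree : ℝ))) * (2 + c1) < 1)
    (hc' : (1 - 1 / (2 * (f.natDegree : ℝ))) * (9 * ((f.natDegree : ℝ) - k) /
      (4 * (f.natDegree : ℝ)) * (((k : ℝ) + (f.natDegree : ℝ)) / (3 * k)) ^ 2) +
      (1 / (2 * (f.natDegree : ℝ))) * (2 + ((f.natDegree : ℝ) - k) / k) < 1)
    (A : ℝ) :
    ∃ η K : ℝ, 0 < η ∧ 0 < K ∧ ∃ X0 : ℕ, ∀ X P : ℕ, X0 ≤ X → (X : ℝ) ^ (1 + c) ≤ P →
      (P : ℝ) ^ k ≤ A * (X : ℝ) ^ f.natDegree →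
      ((pairs f k X P).card : ℝ) ≤ K * (X : ℝ) ^ (1 - η) := by
  obtain ⟨η, K, hη, hK, X1, hmain⟩ := pairs_range2_aux f hirr k hk hkd c1 hc1 hc hc'
  obtain ⟨a, ha⟩ : ∃ a : ℕ, a = ⌈A⌉₊ + 1 := ⟨_, rfl⟩
  have haA : A ≤ a := by
    have := Nat.le_ceil A
    rw [ha]
    push_cast
    linarith only [this]
  have ha1 : (1 : ℝ) ≤ a := by
    have : 1 ≤ a := by omega
    exact_mod_cast this
  have hapos : (0 : ℝ) < a := by linarith only [ha1]
  have hlim : Filter.Tendsto (fun X : ℕ => (X : ℝ) ^ (c - c1)) Filter.atTop Filter.atTop :=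
    (tendsto_rpow_atTop (by linarith only [hcc])).comp tendsto_natCast_atTop_atTop
  obtain ⟨X2, hX2⟩ := Filter.eventually_atTop.mp (hlim.eventually_ge_atTop ((a : ℝ) ^ (1 + c1)))
  refine ⟨η, K * (a : ℝ) ^ (1 - η), hη, by positivity, max (max X1 X2) 1, ?_⟩
  intro X P hX hXP hPA
  have hX1 : X1 ≤ X := le_trans (le_trans (le_max_left _ _) (le_max_left _ _)) hX
  have hX2' : X2 ≤ X := le_trans (le_trans (le_max_right _ _) (le_max_left _ _)) hX
  have hX3 : 1 ≤ X := le_trans (le_max_right _ _) hX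
  have hXpos : (0 : ℝ) < X := by exact_mod_cast hX3
  have hXa : X ≤ a * X := Nat.le_mul_of_pos_left _ (by omega)
  have h1 : ((a * X : ℕ) : ℝ) ^ (1 + c1) ≤ P := by
    refine le_trans ?_ hXP
    push_cast
    rw [Real.mul_rpow hapos.le hXpos.le]
    calc (a : ℝ) ^ (1 + c1) * (X : ℝ) ^ (1 + c1) ≤ (X : ℝ) ^ (c - c1) * (X : ℝ) ^ (1 + c1) :=
          mul_le_mul_of_nonneg_right (hX2 X hX2') (by positivity)
      _ = (X : ℝ) ^ (1 + c) := by
          rw [← Real.rpow_add hXpos]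
          congr 1
          ring
  have h2 : (P : ℝ) ^ k ≤ ((a * X : ℕ) : ℝ) ^ f.natDegree := by
    refine hPA.trans ?_
    push_cast
    rw [mul_pow]
    apply mul_le_mul_of_nonneg_right _ (by positivity)
    exact haA.trans (le_self_pow₀ ha1 (by omega))
  have h3 := hmain (a * X) P (hX1.trans hXa) h1 h2
  have h4 : ((pairs f k X P).card : ℝ) ≤ ((pairs f k (a * X) P).card : ℝ) := by
    exact_mod_cast Finset.card_le_card (pairs_mono f k X (a * X) P hXa)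
  refine h4.trans (h3.trans (le_of_eq ?_))
  push_cast
  rw [Real.mul_rpow hapos.le hXpos.le]
  ring

/-- RANGE 2 for `9 k = 5 d + 2`. -/
theorem pairs_range2 (f : ℤ[X]) (hirr : Irreducible (f.map (Int.castRingHom ℚ))) (k : ℕ)
    (hk : 2 ≤ k) (hkd : k < f.natDegree) (hr : 9 * k = 5 * f.natDegree + 2) (A : ℝ) :
    ∃ η K : ℝ, 0 < η ∧ 0 < K ∧ ∃ X0 : ℕ, ∀ X P : ℕ, X0 ≤ X →
      (X : ℝ) ^ (1 + 2 / (5 * (f.natDegree : ℝ))) ≤ P →
      (P : ℝ) ^ k ≤ A * (X : ℝ) ^ f.natDegree →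
      ((pairs f k X P).card : ℝ) ≤ K * (X : ℝ) ^ (1 - η) := by
  have hd5 : 5 ≤ f.natDegree := by omega
  have hkr : (k : ℝ) = (5 * (f.natDegree : ℝ) + 2) / 9 := by
    rw [eq_div_iff (by norm_num)]
    have : ((9 * k : ℕ) : ℝ) = ((5 * f.natDegree + 2 : ℕ) : ℝ) := by exact_mod_cast hr
    push_cast at this
    linarith
  have hd5r : (5 : ℝ) ≤ f.natDegree := by exact_mod_cast hd5
  refine pairs_range2_gen f hirr k hk hkd (3 / (8 * (f.natDegree : ℝ)))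
    (2 / (5 * (f.natDegree : ℝ))) (by positivity) ?_ ?_ ?_ A
  · rw [div_lt_div_iff₀ (by positivity) (by positivity)]
    linarith only [hd5r]
  · rw [hkr]
    generalize (f.natDegree : ℝ) = d at hd5r
    have hd0 : 0 < d := by linarith only [hd5r]
    have h1 : d - (5 * d + 2) / 9 = (4 * d - 2) / 9 := by ring
    have h2 : 0 < 4 * d - 2 := by linarith only [hd5r]
    rw [h1]
    have h3 : (1 - 1 / (2 * d)) * ((1 - 3 / (8 * d) * ((5 * d + 2) / 9) / ((4 * d - 2) / 9)) *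
      (9 * ((4 * d - 2) / 9) / (4 * d)) +
      3 / (8 * d) * ((5 * d + 2) / 9) / ((4 * d - 2) / 9) * (9 * ((4 * d - 2) / 9) / (4 * d) *
      (((5 * d + 2) / 9 + d) / (3 * ((5 * d + 2) / 9))) ^ 2)) + (1 / (2 * d)) * (2 + 3 / (8 * d)) =
      1 - ((2 * d - 1) * (d + 4) * (29 * d + 8) - 84 * d * (5 * d + 2)) /
        (192 * d ^ 3 * (5 * d + 2)) := by
      obtain ⟨y, hy⟩ : ∃ y : ℝ, d = (y + 1) / 2 := ⟨2 * d - 1, by ring⟩
      have hy0 : 0 < y := by linarith only [hy, hd5r]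
      have hy1 : y ≠ 0 := hy0.ne'
      have hy2 : y + 1 ≠ 0 := by positivity
      have hy3 : 5 * y + 9 ≠ 0 := by positivity
      rw [hy]
      have e1 : 4 * ((y + 1) / 2) - 2 = 2 * y := by ring
      have e2 : 5 * ((y + 1) / 2) + 2 = (5 * y + 9) / 2 := by ring
      rw [e1, e2]
      field_simp
      ring
    rw [h3]
    have h6 : 0 < (2 * d - 1) * (d + 4) * (29 * d + 8) - 84 * d * (5 * d + 2) := by
      linarith only [mul_nonneg (mul_nonneg (sub_nonneg.mpr hd5r) (sub_nonneg.mpr hd5r)) hd0.le, mul_nonneg (sub_nonneg.mpr hd5r) (sub_nonneg.mpr hd5r), hd5r]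
    have h7 : 0 < ((2 * d - 1) * (d + 4) * (29 * d + 8) - 84 * d * (5 * d + 2)) /
        (192 * d ^ 3 * (5 * d + 2)) := by positivity
    linarith only [h7]
  · rw [hkr]
    generalize (f.natDegree : ℝ) = d at hd5r
    have hd0 : 0 < d := by linarith only [hd5r]
    have h1 : d - (5 * d + 2) / 9 = (4 * d - 2) / 9 := by ring
    have h2 : 0 < 4 * d - 2 := by linarith only [hd5r]
    rw [h1]
    have h3 : (1 - 1 / (2 * d)) * (9 * ((4 * d - 2) / 9) / (4 * d) *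
      (((5 * d + 2) / 9 + d) / (3 * ((5 * d + 2) / 9))) ^ 2) +
      (1 / (2 * d)) * (2 + ((4 * d - 2) / 9) / ((5 * d + 2) / 9)) =
      1 - ((2 * d - 1) ^ 2 * (d + 4) * (29 * d + 8) - 9 * (5 * d + 2) ^ 2 -
        36 * d * (2 * d - 1) * (5 * d + 2)) / (36 * d ^ 2 * (5 * d + 2) ^ 2) := by
      have h5 : (5 * d + 2) ≠ 0 := by positivity
      field_simp
      ring
    rw [h3]
    have h6 : 0 < (2 * d - 1) ^ 2 * (d + 4) * (29 * d + 8) - 9 * (5 * d + 2) ^ 2 -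
        36 * d * (2 * d - 1) * (5 * d + 2) := by
      obtain ⟨y, hy⟩ : ∃ y : ℝ, d = 5 + y := ⟨d - 5, by ring⟩
      have hy0 : 0 ≤ y := by linarith only [hy, hd5r]
      rw [hy]
      have h8 : (2 * (5 + y) - 1) ^ 2 * (5 + y + 4) * (29 * (5 + y) + 8) -
        9 * (5 * (5 + y) + 2) ^ 2 - 36 * (5 + y) * (2 * (5 + y) - 1) * (5 * (5 + y) + 2) =
        61236 + 54108 * y + 17172 * y ^ 2 + 2340 * y ^ 3 + 116 * y ^ 4 := by
        ring
      rw [h8]
      (clear * - hy0; positivity)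
    have h7 : 0 < ((2 * d - 1) ^ 2 * (d + 4) * (29 * d + 8) - 9 * (5 * d + 2) ^ 2 -
        36 * d * (2 * d - 1) * (5 * d + 2)) / (36 * d ^ 2 * (5 * d + 2) ^ 2) := by (clear * - h6 hd5r; positivity)
    linarith only [h7]

end Vale.Agent.P018
end

section

/-! Assembly for `9 k = 5 d + 2`. -/

namespace Vale.Agent.P018

open Polynomial Filter Topology Asymptotics

theorem pairs_bound_two (f : ℤ[X]) (hirr : Irreducible (f.map (Int.castRingHom ℚ))) (k : ℕ)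
    (hk : 2 ≤ k) (hkd : k < f.natDegree) (hr : 9 * k = 5 * f.natDegree + 2)
    (hlines : ∀ (h : ℕ) (_hkh : k + h = f.natDegree) (_hk : h + 1 ≤ k) (_hh : 1 ≤ h) (_hk3 : 3 ≤ k)
      (θ0 : ℝ) (_hθ0 : 0 ≤ θ0)
      (_hθ : (1 + θ0) * ((f.natDegree : ℝ) - 1 + (2 * h + 1) / (2 * (f.natDegree : ℝ) - 1)) <
        f.natDegree),
      ∃ η K : ℝ, 0 < η ∧ 0 < K ∧ ∃ X0 : ℕ, ∀ X P : ℕ, X0 ≤ X → X ≤ P →
        (P : ℝ) ≤ (X : ℝ) ^ (1 + θ0) →
        ((pairs f k X P).card : ℝ) ≤ K * (X : ℝ) ^ (1 - η)) (A : ℝ) :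
    ∃ η K : ℝ, 0 < η ∧ 0 < K ∧ ∃ X0 : ℕ, ∀ X P : ℕ, X0 ≤ X → X ≤ P →
      (P : ℝ) ^ k ≤ A * (X : ℝ) ^ f.natDegree →
      ((pairs f k X P).card : ℝ) ≤ K * (X : ℝ) ^ (1 - η) := by
  obtain ⟨h, hh⟩ : ∃ h : ℕ, k + h = f.natDegree := ⟨f.natDegree - k, by omega⟩
  have hd5 : 5 ≤ f.natDegree := by omega
  have hd5r : (5 : ℝ) ≤ f.natDegree := by exact_mod_cast hd5
  have hhr : (h : ℝ) = (4 * (f.natDegree : ℝ) - 2) / 9 := by
    rw [eq_div_iff (by norm_num)]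
    have : ((9 * h + 2 : ℕ) : ℝ) = ((4 * f.natDegree : ℕ) : ℝ) := by
      congr 1
      omega
    push_cast at this
    linarith
  obtain ⟨η1, K1, hη1, hK1, X1, h1⟩ := hlines h hh (by omega) (by omega) (by omega)
    (2 / (5 * (f.natDegree : ℝ))) (by positivity) (by
      rw [hhr]
      generalize (f.natDegree : ℝ) = d at hd5r
      have hd1 : 0 < 2 * d - 1 := by linarith only [hd5r]
      have e1 : (1 + 2 / (5 * d)) * (d - 1 + (2 * ((4 * d - 2) / 9) + 1) / (2 * d - 1)) =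
        (5 * d + 2) * ((9 * d - 9) * (2 * d - 1) + 8 * d + 5) / (45 * d * (2 * d - 1)) := by
        field_simp
        ring
      rw [e1, div_lt_iff₀ (by positivity)]
      linarith only [mul_nonneg (sub_nonneg.mpr hd5r) (sub_nonneg.mpr hd5r), hd5r])
  obtain ⟨η2, K2, hη2, hK2, X2, h2⟩ := pairs_range2 f hirr k hk hkd hr A
  refine ⟨min η1 η2, max K1 K2, lt_min hη1 hη2, lt_max_of_lt_left hK1, max (max X1 X2) 1, ?_⟩
  intro X P hX hXP hPA
  have hX1 : X1 ≤ X := le_trans (le_trans (le_max_left _ _) (le_max_left _ _)) hX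
  have hX2 : X2 ≤ X := le_trans (le_trans (le_max_right _ _) (le_max_left _ _)) hX
  have hX3 : 1 ≤ X := le_trans (le_max_right _ _) hX
  have hXr : (1 : ℝ) ≤ X := by exact_mod_cast hX3
  rcases le_total (P : ℝ) ((X : ℝ) ^ (1 + 2 / (5 * (f.natDegree : ℝ)))) with hP | hP
  · refine (h1 X P hX1 hXP hP).trans ?_
    exact mul_le_mul (le_max_left _ _)
      (Real.rpow_le_rpow_of_exponent_le hXr (by linarith only [min_le_left η1 η2]))
      (by positivity) (by positivity)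
  · refine (h2 X P hX2 hP hPA).trans ?_
    exact mul_le_mul (le_max_right _ _)
      (Real.rpow_le_rpow_of_exponent_le hXr (by linarith only [min_le_right η1 η2]))
      (by positivity) (by positivity)

end Vale.Agent.P018
end

section

/-! # P018, Module M7: solutions on a short interval of a line. -/

namespace Vale.Agent.P018

open Polynomial Finset

attribute [-instance] DivisionRing.toRatAlgebra

/-- removing the common factor. -/
theorem coprime_split (A1 B1 : ℚ[X]) (hA : A1 ≠ 0) :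
    ∃ g A2 B2 : ℚ[X], g ≠ 0 ∧ IsCoprime A2 B2 ∧ A1 = g * A2 ∧ B1 = g * B2 := by
  have h1 : EuclideanDomain.gcd A1 B1 ≠ 0 := by
    intro h
    exact hA (EuclideanDomain.gcd_eq_zero_iff.1 h).1
  obtain ⟨A2, hA2⟩ := EuclideanDomain.gcd_dvd_left A1 B1
  obtain ⟨B2, hB2⟩ := EuclideanDomain.gcd_dvd_right A1 B1
  refine ⟨EuclideanDomain.gcd A1 B1, A2, B2, h1, ?_, hA2, hB2⟩
  have h2 := EuclideanDomain.gcd_eq_gcd_ab A1 B1
  refine ⟨EuclideanDomain.gcdA A1 B1, EuclideanDomain.gcdB A1 B1, ?_⟩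
  apply mul_left_cancel₀ h1
  rw [mul_one]
  calc EuclideanDomain.gcd A1 B1 * (EuclideanDomain.gcdA A1 B1 * A2 +
        EuclideanDomain.gcdB A1 B1 * B2)
      = (EuclideanDomain.gcd A1 B1 * A2) * EuclideanDomain.gcdA A1 B1 +
        (EuclideanDomain.gcd A1 B1 * B2) * EuclideanDomain.gcdB A1 B1 := by ring
    _ = A1 * EuclideanDomain.gcdA A1 B1 + B1 * EuclideanDomain.gcdB A1 B1 := by
        rw [← hA2, ← hB2]
    _ = EuclideanDomain.gcd A1 B1 := h2.symm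

/-- the prime is determined by `t`. -/
theorem prime_unique (C0 T d : ℕ) (hT : C0 < T) (hd : 2 ≤ d) (N : ℤ[X]) (t t' : ℤ) (p p' : ℕ)
    (c c' : ℤ) (hp : p.Prime) (hp' : p'.Prime) (h : T ^ d ≤ C0 * p) (hc' : c' ≠ 0)
    (hcC' : |c'| ≤ C0) (hN : N.eval t = c * p) (hN' : N.eval t' = c' * p') (ht : t = t') :
    p = p' := by
  have hlt : C0 < p := by
    by_contra hcon
    have h5 : C0 * p ≤ C0 * C0 := Nat.mul_le_mul_left _ (not_lt.1 hcon)
    have h6 : T ^ 2 ≤ T ^ d := Nat.pow_le_pow_right (by omega) hd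
    nlinarith
  have h4 : (p : ℤ) ∣ c' * p' := by
    rw [← hN', ← ht, hN]
    exact Dvd.intro_left _ rfl
  have hpz : Prime (p : ℤ) := Nat.prime_iff_prime_int.1 hp
  rcases hpz.dvd_or_dvd h4 with h5 | h5
  · exfalso
    have h6 := Int.le_of_dvd (abs_pos.2 hc') ((dvd_abs _ _).2 h5)
    have h7 : (C0 : ℤ) < p := by exact_mod_cast hlt
    linarith
  · exact (Nat.prime_dvd_prime_iff_eq hp hp').1 (by exact_mod_cast h5)

/-- the points with `t` in a finite set. -/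
theorem card_fixed_t (f : ℤ[X]) (hm : f.Monic) (k : ℕ) (hk : 1 ≤ k) (C0 T : ℕ) (hT : C0 < T)
    (N : ℤ[X]) (g : ℚ[X]) (hg : g ≠ 0) (S : Finset (ℤ × ℤ × ℕ)) (hd : 2 ≤ f.natDegree)
    (hgS : ∀ z ∈ S, g.eval (z.1 : ℚ) = 0)
    (hS : ∀ z ∈ S, |z.2.1| ≤ C0 * (T : ℤ) ^ f.natDegree ∧ z.2.2.Prime ∧
      T ^ f.natDegree ≤ C0 * z.2.2 ∧ (z.2.2 : ℤ) ^ k ∣ f.eval z.2.1 ∧
      ∃ c : ℤ, c ≠ 0 ∧ |c| ≤ C0 ∧ N.eval z.1 = c * z.2.2) :
    S.card ≤ (f.natDegree * (2 * (C0 * C0) + 1)) * g.natDegree := by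
  classical
  have hp : ∀ z ∈ S, ∀ w ∈ S, z.1 = w.1 → z.2.2 = w.2.2 := by
    intro z hz w hw hzw
    obtain ⟨-, h2, h3, -, c, hc, hcC, hcN⟩ := hS z hz
    obtain ⟨-, h2', h3', -, c', hc', hcC', hcN'⟩ := hS w hw
    exact prime_unique C0 T f.natDegree hT hd N z.1 w.1 z.2.2 w.2.2 c c' h2 h2' h3 hc' hcC' hcN
      hcN' hzw
  have hfib : ∀ b ∈ S.image Prod.fst, (S.filter fun z => z.1 = b).card ≤
      f.natDegree * (2 * (C0 * C0) + 1) := by
    intro b hb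
    obtain ⟨w, hw, rfl⟩ := mem_image.1 hb
    have hinj : Set.InjOn (fun z : ℤ × ℤ × ℕ => z.2.1)
        ((S.filter fun z => z.1 = w.1 : Finset (ℤ × ℤ × ℕ)) : Set (ℤ × ℤ × ℕ)) := by
      intro x hx y hy hxy
      simp only [coe_filter, Set.mem_ofPred_eq] at hx hy
      have h1 : x.1 = y.1 := hx.2.trans hy.2.symm
      exact Prod.ext h1 (Prod.ext hxy (hp x hx.1 y hy.1 h1))
    rw [← card_image_of_injOn hinj]
    obtain ⟨-, h2, h3, -⟩ := hS w hw
    refine card_roots_box f hm h2 (C0 * C0) _ ?_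
    intro n hn
    obtain ⟨z, hz, rfl⟩ := mem_image.1 hn
    rw [mem_filter] at hz
    obtain ⟨g1, g2, g3, g4, -⟩ := hS z hz.1
    have e := hp z hz.1 w hw hz.2
    rw [e] at g4
    refine ⟨?_, (dvd_pow_self _ (by omega)).trans g4⟩
    refine g1.trans ?_
    have h5 : (T : ℤ) ^ f.natDegree ≤ C0 * w.2.2 := by exact_mod_cast h3
    calc (C0 : ℤ) * (T : ℤ) ^ f.natDegree ≤ C0 * (C0 * w.2.2) :=
          mul_le_mul_of_nonneg_left h5 (by positivity)
      _ = ((C0 * C0 : ℕ) : ℤ) * w.2.2 := by push_cast; ring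
  have himg : (S.image Prod.fst).card ≤ g.natDegree := by
    calc (S.image Prod.fst).card = ((S.image Prod.fst).image fun t : ℤ => (t : ℚ)).card :=
          (card_image_of_injective _ Int.cast_injective).symm
      _ ≤ g.roots.toFinset.card := by
          refine card_le_card fun x hx => ?_
          obtain ⟨t, ht, rfl⟩ := mem_image.1 hx
          obtain ⟨z, hz, rfl⟩ := mem_image.1 ht
          rw [Multiset.mem_toFinset, mem_roots hg]
          exact hgS z hz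
      _ ≤ Multiset.card g.roots := Multiset.toFinset_card_le _
      _ ≤ g.natDegree := card_roots' _
  exact (card_le_mul_card_image S _ hfib).trans (Nat.mul_le_mul_left _ himg)

/-- the points with `g(t) ≠ 0` give integer points on the reduced curve. -/
theorem reduce_points (k d : ℕ) (f : ℤ[X]) (C0 T : ℕ) (hT : C0 < T) (hd : 2 ≤ d)
    (N : ℤ[X]) (g A2 B2 : ℚ[X]) (hcop : IsCoprime A2 B2) (S1 : Finset (ℤ × ℤ × ℕ))
    (hg : ∀ z ∈ S1, g.eval (z.1 : ℚ) ≠ 0)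
    (hS : ∀ z ∈ S1, |z.1| ≤ T ∧ |z.2.1| ≤ C0 * (T : ℤ) ^ d ∧ z.2.2.Prime ∧
      T ^ d ≤ C0 * z.2.2 ∧ (z.2.2 : ℤ) ^ k ∣ f.eval z.2.1 ∧
      (z.2.1 : ℚ) * (g * A2).eval (z.1 : ℚ) = (g * B2).eval (z.1 : ℚ) ∧
      ∃ c : ℤ, c ≠ 0 ∧ |c| ≤ C0 ∧ N.eval z.1 = c * z.2.2) :
    ∃ S2 : Finset (ℤ × ℤ), S1.card = S2.card ∧ Set.InjOn Prod.fst (S2 : Set (ℤ × ℤ)) ∧
      ∀ z ∈ S2, |z.1| ≤ T ∧ |z.2| ≤ (T : ℤ) ^ (d + 1) ∧
        (z.2 : ℚ) * A2.eval (z.1 : ℚ) = B2.eval (z.1 : ℚ) ∧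
        ∃ (p : ℕ) (c : ℤ), p.Prime ∧ T ≤ p ∧ c ≠ 0 ∧ |c| ≤ C0 ∧ N.eval z.1 = c * p ∧
          (p : ℤ) ^ k ∣ f.eval z.2 := by
  classical
  have hcurve : ∀ z ∈ S1, (z.2.1 : ℚ) * A2.eval (z.1 : ℚ) = B2.eval (z.1 : ℚ) := by
    intro z hz'
    obtain ⟨-, -, -, -, -, h7, -⟩ := hS z hz'
    rw [eval_mul, eval_mul] at h7
    apply mul_left_cancel₀ (hg z hz')
    linarith
  have hA2ne : ∀ z ∈ S1, A2.eval (z.1 : ℚ) ≠ 0 := by
    intro z hz' h7
    have h8 := hcurve z hz'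
    rw [h7, mul_zero] at h8
    obtain ⟨u, v, huv⟩ := hcop
    have h9 := congrArg (fun q => q.eval (z.1 : ℚ)) huv
    simp only [eval_add, eval_mul, eval_one] at h9
    rw [h7, ← h8] at h9
    simp at h9
  refine ⟨S1.image fun z => (z.1, z.2.1), ?_, ?_, ?_⟩
  · refine (card_image_of_injOn ?_).symm
    intro z hz w hw hzw
    simp only [Prod.mk.injEq] at hzw
    obtain ⟨-, -, h2, h3, -, -, c, hc, hcC, hcN⟩ := hS z hz
    obtain ⟨-, -, h2', h3', -, -, c', hc', hcC', hcN'⟩ := hS w hw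
    exact Prod.ext hzw.1 (Prod.ext hzw.2 (prime_unique C0 T d hT hd N z.1 w.1 z.2.2 w.2.2 c c'
      h2 h2' h3 hc' hcC' hcN hcN' hzw.1))
  · intro x hx y hy hxy
    rw [mem_coe, mem_image] at hx hy
    obtain ⟨z, hz', rfl⟩ := hx
    obtain ⟨w, hw', rfl⟩ := hy
    simp only at hxy
    have h8 := hcurve z hz'
    have h9 := hcurve w hw'
    have h10 := hA2ne w hw'
    rw [hxy] at h8
    have h11 : (z.2.1 : ℚ) = (w.2.1 : ℚ) := by
      apply mul_right_cancel₀ h10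
      rw [h8, h9]
    exact Prod.ext hxy (by exact_mod_cast h11)
  · intro x hx
    rw [mem_image] at hx
    obtain ⟨z, hz', rfl⟩ := hx
    obtain ⟨g1, g3, g4, g5, g6, -, c, hc0, hcC, hcN⟩ := hS z hz'
    refine ⟨g1, ?_, hcurve z hz', z.2.2, c, g4, ?_, hc0, hcC, hcN, g6⟩
    · refine g3.trans ?_
      rw [pow_succ, mul_comm]
      exact mul_le_mul_of_nonneg_left (by exact_mod_cast hT.le) (by positivity)
    · by_contra hcon
      have h7 : C0 * z.2.2 ≤ C0 * T := Nat.mul_le_mul_left _ (not_le.1 hcon).le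
      have h8 : T ^ 2 ≤ T ^ d := Nat.pow_le_pow_right (by omega) hd
      have h9 : C0 * T < T * T := Nat.mul_lt_mul_of_pos_right hT (by omega)
      linarith only [h9, h8, h7, g5]

theorem natDegree_count (k d g b2 : ℕ) (hk : 2 ≤ k) (hd : 1 ≤ d) (hg : d - 1 ≤ g)
    (hb : b2 ≤ k * (d - 1) + 1 - g) : b2 ≤ (k - 1) * d := by
  have h8 : k * (d - 1) + 1 - g ≤ k * (d - 1) + 1 - (d - 1) := by omega
  refine hb.trans (h8.trans ?_)
  obtain ⟨k', rfl⟩ : ∃ k', k = k' + 1 := ⟨k - 1, by omega⟩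
  obtain ⟨d', rfl⟩ : ∃ d', d = d' + 1 := ⟨d - 1, by omega⟩
  simp only [Nat.add_sub_cancel]
  have : (k' + 1) * d' + 1 - d' = k' * d' + 1 := by
    rw [add_mul, one_mul]
    omega
  rw [this, mul_add, mul_one]
  omega

/-- counting the points on a curve `n A(t) = B(t)`. -/
theorem li_curve_count (f : ℤ[X]) (hm : f.Monic) (hirr : Irreducible (f.map (Int.castRingHom ℚ)))
    (k : ℕ) (hk : 2 ≤ k) (hd2 : 2 ≤ f.natDegree) (C0 : ℕ) (ε : ℝ) (hε : 0 < ε) :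
    ∃ (K : ℝ) (T0 : ℕ), 0 < K ∧ ∀ T : ℕ, T0 ≤ T → ∀ (N : ℤ[X]) (A1 B1 : ℚ[X]), N.Monic →
      N.natDegree = f.natDegree → Irreducible (N.map (Int.castRingHom ℚ)) →
      (∀ i, |N.coeff i| ≤ (T : ℤ) ^ (f.natDegree + 1)) →
      A1 ≠ 0 → f.natDegree - 1 ≤ A1.natDegree → A1.natDegree ≤ k * (f.natDegree - 1) + 1 →
      B1.natDegree ≤ k * (f.natDegree - 1) + 1 → ∀ S : Finset (ℤ × ℤ × ℕ),
      (∀ z ∈ S, |z.1| ≤ T ∧ |z.2.1| ≤ C0 * (T : ℤ) ^ f.natDegree ∧ z.2.2.Prime ∧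
        T ^ f.natDegree ≤ C0 * z.2.2 ∧ (z.2.2 : ℤ) ^ k ∣ f.eval z.2.1 ∧
        (z.2.1 : ℚ) * A1.eval (z.1 : ℚ) = B1.eval (z.1 : ℚ) ∧
        ∃ c : ℤ, c ≠ 0 ∧ |c| ≤ C0 ∧ N.eval z.1 = c * z.2.2) →
      (S.card : ℝ) ≤ K * (T : ℝ) ^ ε := by
  classical
  obtain ⟨K5, hK5, h5⟩ := rational_case (k * (f.natDegree - 1) + 1) (f.natDegree + 1) ε hε
  obtain ⟨K6, T6, h6⟩ := polynomial_case f hirr hd2 k (by omega) (f.natDegree + 1) C0
  obtain ⟨M, hM⟩ : ∃ M : ℕ, M = (f.natDegree * (2 * (C0 * C0) + 1)) *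
    (k * (f.natDegree - 1) + 1) := ⟨_, rfl⟩
  refine ⟨K5 + K6 + M + 1, max 2 (max T6 (C0 + 1)), by positivity, ?_⟩
  intro T hT N A1 B1 hNm hNd hNi hNc hA0 hAd hAd' hBd S hS
  have hT2 : 2 ≤ T := (le_max_left _ _).trans hT
  have hT6 : T6 ≤ T := ((le_max_left _ _).trans (le_max_right _ _)).trans hT
  have hTC0 : C0 < T := ((le_max_right _ _).trans (le_max_right _ _)).trans hT
  have hT1r : (1 : ℝ) ≤ T := by exact_mod_cast (by omega : 1 ≤ T)
  have hTe : 1 ≤ (T : ℝ) ^ ε := Real.one_le_rpow hT1r hε.le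
  obtain ⟨g, A2, B2, hg0, hcop, hA2, hB2⟩ := coprime_split A1 B1 hA0
  have hA20 : A2 ≠ 0 := by
    rintro rfl
    exact hA0 (by rw [hA2, mul_zero])
  have hdA : A1.natDegree = g.natDegree + A2.natDegree := by
    rw [hA2, natDegree_mul hg0 hA20]
  have hB2d : B2.natDegree ≤ k * (f.natDegree - 1) + 1 - g.natDegree := by
    by_cases hB20 : B2 = 0
    · rw [hB20, natDegree_zero]
      exact Nat.zero_le _
    · have h7 : B1.natDegree = g.natDegree + B2.natDegree := by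
        rw [hB2, natDegree_mul hg0 hB20]
      omega
  -- the part with `g(t) = 0`
  have h0 : (S.filter fun z => g.eval (z.1 : ℚ) = 0).card ≤ M := by
    refine (card_fixed_t f hm k (by omega) C0 T hTC0 N g hg0 _ hd2 ?_ ?_).trans ?_
    · intro z hz'
      exact (mem_filter.1 hz').2
    · intro z hz'
      obtain ⟨-, g3, g4, g5, g6, -, g7⟩ := hS z (mem_filter.1 hz').1
      exact ⟨g3, g4, g5, g6, g7⟩
    · rw [hM]
      exact Nat.mul_le_mul_left _ (by omega)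
  -- the part with `g(t) ≠ 0`
  obtain ⟨S2, hS12, hinj2, hbox⟩ := reduce_points k f.natDegree f C0 T hTC0 hd2 N g A2 B2 hcop
    (S.filter fun z => ¬ g.eval (z.1 : ℚ) = 0) (fun z hz' => (mem_filter.1 hz').2)
    (fun z hz' => by rw [← hA2, ← hB2]; exact hS z (mem_filter.1 hz').1)
  have h1 : ((S.filter fun z => ¬ g.eval (z.1 : ℚ) = 0).card : ℝ) ≤
      (K5 + K6) * (T : ℝ) ^ ε := by
    rw [hS12]
    by_cases hA2d : 1 ≤ A2.natDegree
    · have h7 := h5 T hT2 A2 B2 hcop (by omega) (by omega) hA2d S2 hinj2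
        (fun z hz' => ⟨(hbox z hz').1, (hbox z hz').2.1, (hbox z hz').2.2.1⟩)
      refine h7.trans ?_
      refine mul_le_mul_of_nonneg_right ?_ (by positivity)
      have : (0 : ℝ) ≤ (K6 : ℝ) := by positivity
      linarith only [this]
    · have hA2d0 : A2.natDegree = 0 := by omega
      obtain ⟨a2, ha2⟩ := natDegree_eq_zero.1 hA2d0
      have ha20 : a2 ≠ 0 := by
        rintro rfl
        exact hA20 (by rw [← ha2, C_0])
      have hqd : (C a2⁻¹ * B2).natDegree ≤ (k - 1) * f.natDegree :=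
        (natDegree_C_mul_le _ _).trans (natDegree_count k f.natDegree g.natDegree _ (by omega)
          (by omega) (by omega) hB2d)
      have h7 := h6 T hT6 N hNm hNd hNi hNc (C a2⁻¹ * B2) hqd S2 hinj2 (by
        intro z hz'
        obtain ⟨g1, g2, g3, g4⟩ := hbox z hz'
        refine ⟨g1, g2, ?_, g4⟩
        rw [eval_mul, eval_C, ← g3, ← ha2, eval_C]
        field_simp)
      have h8 : (S2.card : ℝ) ≤ K6 := by exact_mod_cast h7
      calc (S2.card : ℝ) ≤ K6 := h8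
        _ ≤ (K5 + K6) * 1 := by linarith only [hK5]
        _ ≤ (K5 + K6) * (T : ℝ) ^ ε :=
            mul_le_mul_of_nonneg_left hTe (by (clear * - hK5; positivity))
  have hsplit : (S.card : ℝ) = ((S.filter fun z => g.eval (z.1 : ℚ) = 0).card : ℝ) +
      (S.filter fun z => ¬ g.eval (z.1 : ℚ) = 0).card := by
    exact_mod_cast (card_filter_add_card_filter_not (s := S)
      (fun z => g.eval (z.1 : ℚ) = 0)).symm
  rw [hsplit]
  have h0' : ((S.filter fun z => g.eval (z.1 : ℚ) = 0).card : ℝ) ≤ M := by exact_mod_cast h0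
  calc ((S.filter fun z => g.eval (z.1 : ℚ) = 0).card : ℝ) +
        (S.filter fun z => ¬ g.eval (z.1 : ℚ) = 0).card
      ≤ M + (K5 + K6) * (T : ℝ) ^ ε := add_le_add h0' h1
    _ ≤ M * (T : ℝ) ^ ε + (K5 + K6) * (T : ℝ) ^ ε := by
        have : (M : ℝ) * 1 ≤ M * (T : ℝ) ^ ε := mul_le_mul_of_nonneg_left hTe (by (clear * -; positivity))
        linarith only [this]
    _ ≤ (K5 + K6 + M + 1) * (T : ℝ) ^ ε := by linarith only [hTe]

/-- M7. Solutions on a short interval of a line. -/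
theorem line_interval (f : ℤ[X]) (hm : f.Monic) (hirr : Irreducible (f.map (Int.castRingHom ℚ)))
    (k h : ℕ) (hkh : k + h = f.natDegree) (hk : h + 1 ≤ k) (hh : 1 ≤ h) (hk3 : 3 ≤ k)
    (C0 : ℕ) (δ ε : ℝ) (hδ : 0 < δ) (hε : 0 < ε) :
    ∃ (K : ℝ) (T0 : ℕ), 0 < K ∧ ∀ T : ℕ, T0 ≤ T → ∀ b : ℤ[X], b.natDegree < f.natDegree →
      (∀ i, |b.coeff i| ≤ T) → ∀ t0 : ℤ, |t0| ≤ T → ∀ S : Finset (ℤ × ℤ × ℕ),
      (∀ z ∈ S, |z.1| ≤ T ∧
        |((z.1 - t0 : ℤ) : ℝ)| ≤ (T : ℝ) ^ (1 - (2 * h + 1 + δ) / (2 * (f.natDegree : ℝ) - 1)) ∧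
        |z.2.1| ≤ C0 * (T : ℤ) ^ f.natDegree ∧ z.2.2.Prime ∧ T ^ f.natDegree ≤ C0 * z.2.2 ∧
        (z.2.2 : ℤ) ^ k ∣ f.eval z.2.1 ∧
        ∃ (a : ℤ[X]) (c : ℤ), a.natDegree < f.natDegree ∧ c ≠ 0 ∧ |c| ≤ C0 ∧
          Algebra.norm ℚ (evT f (b + C z.1)) = (c : ℚ) * z.2.2 ∧
          (c : EE f) ^ k * ((z.2.1 : EE f) - th f) = evT f (b + C z.1) ^ k * evT f a ∧
          (minpoly ℚ (evT f (b + C z.1))).natDegree = f.natDegree) →
      (S.card : ℝ) ≤ K * (T : ℝ) ^ ε := by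
  obtain ⟨Tc, hc⟩ := exists_curve f hm hirr k h hkh hk hh hk3 C0 δ hδ
  obtain ⟨K, TK, hK, hKT⟩ := li_curve_count f hm hirr k (by omega) (by omega) C0 ε hε
  refine ⟨K, max Tc TK, hK, ?_⟩
  intro T hT b hb hbT t0 ht0 S hS
  rcases S.eq_empty_or_nonempty with rfl | hne
  · simp only [card_empty, Nat.cast_zero]
    (clear * - hK; positivity)
  obtain ⟨N, A1, B1, hNm, hNd, hNi, hNc, hA0, hAd, hAd', hBd, hz⟩ :=
    hc T ((le_max_left _ _).trans hT) b hb hbT t0 ht0 S hne hS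
  refine hKT T ((le_max_right _ _).trans hT) N A1 B1 hNm hNd hNi hNc hA0 hAd hAd' hBd S ?_
  intro z hzS
  obtain ⟨g1, -, g3, g4, g5, g6, -⟩ := hS z hzS
  exact ⟨g1, g3, g4, g5, g6, (hz z hzS).1, (hz z hzS).2⟩

end Vale.Agent.P018
end

section

/-! # P018, module M8: the bound for the number of pairs with `X ≤ P ≤ X^(1+θ)`. -/

namespace Vale.Agent.P018

open Polynomial

/-- reduction to a monic polynomial. -/
theorem exists_monic_model (f : ℤ[X]) (hirr : Irreducible (f.map (Int.castRingHom ℚ))) :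
    ∃ g : ℤ[X], g.Monic ∧ Irreducible (g.map (Int.castRingHom ℚ)) ∧ g.natDegree = f.natDegree ∧
      ∀ n : ℤ, f.eval n ∣ g.eval (f.leadingCoeff * n) := by
  have hf0 : f ≠ 0 := by
    intro h
    rw [h, Polynomial.map_zero] at hirr
    exact not_irreducible_zero hirr
  have hd1 : 1 ≤ f.natDegree := by
    have h1 := hirr.natDegree_pos
    rw [natDegree_map_eq_of_injective (RingHom.injective_int _)] at h1
    exact h1
  have hlc : (f.leadingCoeff : ℚ) ≠ 0 := by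
    exact_mod_cast leadingCoeff_ne_zero.mpr hf0
  refine ⟨f.integralNormalization, monic_integralNormalization hf0, ?_,
    natDegree_integralNormalization, ?_⟩
  · -- the identity `g(a X) = a^(d-1) f(X)`.
    have h1 := integralNormalization_eval₂_leadingCoeff_mul hd1 (C : ℤ →+* ℤ[X]) X
    rw [eval₂_C_X, ← C_pow] at h1
    change (f.integralNormalization).comp (C f.leadingCoeff * X) = _ at h1
    have h2 := congrArg (Polynomial.map (Int.castRingHom ℚ)) h1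
    rw [Polynomial.map_comp, Polynomial.map_mul, Polynomial.map_mul, map_C, map_C, map_X] at h2
    let _ : Invertible ((Int.castRingHom ℚ) f.leadingCoeff) := invertibleOfNonzero (by simpa using hlc)
    have h3 : algEquivCMulXAddC ((Int.castRingHom ℚ) f.leadingCoeff) 0
        (f.integralNormalization.map (Int.castRingHom ℚ)) =
        C ((Int.castRingHom ℚ) (f.leadingCoeff ^ (f.natDegree - 1))) *
          f.map (Int.castRingHom ℚ) := by
      rw [← h2, algEquivCMulXAddC_apply, C_0, add_zero, aeval_def]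
      rfl
    rw [← MulEquiv.irreducible_iff (algEquivCMulXAddC ((Int.castRingHom ℚ) f.leadingCoeff) 0), h3,
      irreducible_isUnit_mul]
    · exact hirr
    · rw [isUnit_C, isUnit_iff_ne_zero]
      simpa using pow_ne_zero _ hlc
  · intro n
    have h1 := integralNormalization_eval₂_leadingCoeff_mul hd1 (RingHom.id ℤ) n
    simp only [RingHom.id_apply, eval₂_id] at h1
    rw [h1]
    exact Dvd.intro_left _ rfl

theorem exists_root_floor (d N : ℕ) (hd : 1 ≤ d) (hN : 1 ≤ N) :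
    ∃ T : ℕ, 1 ≤ T ∧ T ^ d ≤ N ∧ N < (T + 1) ^ d := by
  classical
  have hex : ∃ m : ℕ, N < m ^ d := ⟨N + 1, by
    calc N < N + 1 := Nat.lt_succ_self N
      _ = (N + 1) ^ 1 := (pow_one _).symm
      _ ≤ (N + 1) ^ d := Nat.pow_le_pow_right (Nat.succ_pos N) hd⟩
  have h1 := Nat.find_spec hex
  have h2 : Nat.find hex ≠ 0 := by
    intro h
    rw [h, zero_pow (by omega)] at h1
    omega
  have h3 : Nat.find hex ≠ 1 := by
    intro h
    rw [h, one_pow] at h1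
    omega
  refine ⟨Nat.find hex - 1, by omega, ?_, ?_⟩
  · exact not_lt.mp (Nat.find_min hex (m := Nat.find hex - 1) (by omega))
  · have : Nat.find hex - 1 + 1 = Nat.find hex := by omega
    rw [this]
    exact h1

/-- The exponents. -/
theorem lines_params (d h θ0 : ℝ) (hd : 3 ≤ d) (hh : 1 ≤ h) (hhd : 2 * h + 4 ≤ 2 * d)
    (hθ0 : 0 ≤ θ0) (hθ : (1 + θ0) * (d - 1 + (2 * h + 1) / (2 * d - 1)) < d) :
    ∃ ε η : ℝ, 0 < ε ∧ 0 < η ∧ 0 < (2 * h + 1 + ε) / (2 * d - 1) ∧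
      (2 * h + 1 + ε) / (2 * d - 1) < 1 ∧
      (1 + θ0) * ((d - 1 + (2 * h + 1 + ε) / (2 * d - 1) + ε) / d) ≤ 1 - η := by
  have hden : 0 < 2 * d - 1 := by linarith
  obtain ⟨gap, hgap⟩ : ∃ gap : ℝ, gap = d - (1 + θ0) * (d - 1 + (2 * h + 1) / (2 * d - 1)) :=
    ⟨_, rfl⟩
  have hgap0 : 0 < gap := by
    rw [hgap]
    linarith
  have h1θ : 0 < 1 + θ0 := by linarith
  refine ⟨min 1 (gap / (4 * (1 + θ0))), gap / (2 * d), by positivity, by positivity, by positivity,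
    ?_, ?_⟩
  · rw [div_lt_one hden]
    have : min 1 (gap / (4 * (1 + θ0))) ≤ 1 := min_le_left _ _
    linarith only [this, hhd]
  · obtain ⟨ε, hε⟩ : ∃ ε : ℝ, ε = min 1 (gap / (4 * (1 + θ0))) := ⟨_, rfl⟩
    have hε0 : 0 < ε := by
      rw [hε]
      positivity
    rw [← hε]
    have hε1 : (1 + θ0) * ε ≤ gap / 4 := by
      have h1 : ε ≤ gap / (4 * (1 + θ0)) := by
        rw [hε]
        exact min_le_right _ _
      calc (1 + θ0) * ε ≤ (1 + θ0) * (gap / (4 * (1 + θ0))) := by gcongr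
        _ = gap / 4 := by field_simp
    have h2 : (2 * h + 1 + ε) / (2 * d - 1) ≤ (2 * h + 1) / (2 * d - 1) + ε := by
      rw [add_div]
      have : ε / (2 * d - 1) ≤ ε := div_le_self hε0.le (by linarith only [hhd, hh])
      linarith only [this]
    have h3 : (1 + θ0) * (d - 1 + (2 * h + 1 + ε) / (2 * d - 1) + ε) ≤ d - gap / 2 := by
      calc (1 + θ0) * (d - 1 + (2 * h + 1 + ε) / (2 * d - 1) + ε)
          ≤ (1 + θ0) * (d - 1 + ((2 * h + 1) / (2 * d - 1) + ε) + ε) := by gcongr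
        _ = (1 + θ0) * (d - 1 + (2 * h + 1) / (2 * d - 1)) + 2 * ((1 + θ0) * ε) := by ring
        _ ≤ (d - gap) + 2 * (gap / 4) := by
            have : (1 + θ0) * (d - 1 + (2 * h + 1) / (2 * d - 1)) = d - gap := by
              rw [hgap]
              ring
            rw [this]
            gcongr
        _ = d - gap / 2 := by ring
    rw [← mul_div_assoc, div_le_iff₀ (by linarith only [hhd, hh])]
    have h4 : (1 - gap / (2 * d)) * d = d - gap / 2 := by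
      field_simp
    rw [h4]
    exact h3

theorem lines_count (d T w : ℕ) (y ε K : ℝ) (hd : 1 ≤ d) (hT : 1 ≤ T) (hw : 1 ≤ w)
    (hw2 : (T : ℝ) ^ (1 - y) ≤ 2 * w) (hy : 0 < y) (hK : 0 ≤ K) (c : ℝ)
    (hc : c ≤ ((2 * T + 1) ^ (d - 1) * (2 * (T / w) + 1) : ℕ) * (K * (T : ℝ) ^ ε)) :
    c ≤ 3 ^ (d - 1) * 5 * K * (T : ℝ) ^ ((d : ℝ) - 1 + y + ε) := by
  have hTR : (1 : ℝ) ≤ T := by exact_mod_cast hT
  have hTR0 : (0 : ℝ) < T := by linarith
  have hwR : (0 : ℝ) < w := by exact_mod_cast hw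
  have h1 : ((T / w : ℕ) : ℝ) ≤ 2 * (T : ℝ) ^ y := by
    refine Nat.cast_div_le.trans ?_
    rw [div_le_iff₀ hwR]
    have h2 : (T : ℝ) = (T : ℝ) ^ y * (T : ℝ) ^ (1 - y) := by
      rw [← Real.rpow_add hTR0, add_sub_cancel, Real.rpow_one]
    calc (T : ℝ) = (T : ℝ) ^ y * (T : ℝ) ^ (1 - y) := h2
      _ ≤ (T : ℝ) ^ y * (2 * w) := by gcongr
      _ = 2 * (T : ℝ) ^ y * w := by ring
  have h2 : (1 : ℝ) ≤ (T : ℝ) ^ y := Real.one_le_rpow hTR hy.le
  have h3 : (((2 * T + 1) ^ (d - 1) * (2 * (T / w) + 1) : ℕ) : ℝ) ≤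
      (3 * (T : ℝ)) ^ (d - 1) * (5 * (T : ℝ) ^ y) := by
    rw [Nat.cast_mul, Nat.cast_pow]
    have h4 : ((2 * T + 1 : ℕ) : ℝ) ≤ 3 * T := by
      push_cast
      linarith only [hTR]
    have h5 : ((2 * (T / w) + 1 : ℕ) : ℝ) ≤ 5 * (T : ℝ) ^ y := by
      rw [Nat.cast_add, Nat.cast_mul]
      push_cast at h1 ⊢
      linarith only [h2, h1]
    gcongr
  refine hc.trans ?_
  calc (((2 * T + 1) ^ (d - 1) * (2 * (T / w) + 1) : ℕ) : ℝ) * (K * (T : ℝ) ^ ε)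
      ≤ ((3 * (T : ℝ)) ^ (d - 1) * (5 * (T : ℝ) ^ y)) * (K * (T : ℝ) ^ ε) := by gcongr
    _ = 3 ^ (d - 1) * 5 * K * ((T : ℝ) ^ (d - 1) * (T : ℝ) ^ y * (T : ℝ) ^ ε) := by
        rw [mul_pow]
        ring
    _ = _ := by
        rw [← Real.rpow_natCast (T : ℝ) (d - 1), ← Real.rpow_add hTR0, ← Real.rpow_add hTR0,
          Nat.cast_sub hd, Nat.cast_one]

/-- truncated division: the representative point of an interval. -/
theorem tdiv_facts (t : ℤ) (T w : ℕ) (ht : |t| ≤ T) (hw : 1 ≤ w) :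
    |(w : ℤ) * t.tdiv w| ≤ T ∧ |t - w * t.tdiv w| ≤ (w : ℤ) ∧ |t.tdiv w| ≤ ((T / w : ℕ) : ℤ) := by
  have hw0 : (0 : ℤ) < w := by exact_mod_cast hw
  have h1 : (t.tdiv w).natAbs = t.natAbs / w := by
    rw [Int.natAbs_tdiv]
    rfl
  have ht' : t.natAbs ≤ T := by
    rw [Int.abs_eq_natAbs] at ht
    exact_mod_cast ht
  refine ⟨?_, ?_, ?_⟩
  · have h2 : (w * (t.natAbs / w) : ℕ) ≤ T := (Nat.mul_div_le _ _).trans ht'
    rw [abs_mul, ← Int.natCast_natAbs (t.tdiv w), h1, Nat.abs_cast]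
    exact_mod_cast h2
  · have h2 : t - w * t.tdiv w = t.tmod w := by
      have := Int.tmod_add_mul_tdiv t w
      linarith
    rw [h2]
    have h3 : |t.tmod w| < |(w : ℤ)| := by
      rw [Int.abs_eq_natAbs, Int.abs_eq_natAbs, Int.natAbs_tmod]
      have : t.natAbs % (w : ℤ).natAbs < (w : ℤ).natAbs := Nat.mod_lt _ (by
        rw [Int.natAbs_natCast]
        omega)
      exact_mod_cast this
    rw [Nat.abs_cast] at h3
    exact h3.le
  · rw [← Int.natCast_natAbs (t.tdiv w), h1]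
    exact_mod_cast Nat.div_le_div_right ht'

/-- M8. The bound for the number of pairs in the range `X ≤ P ≤ X^(1+θ)`. -/
theorem lines_bound (f : ℤ[X]) (hirr : Irreducible (f.map (Int.castRingHom ℚ)))
    (k h : ℕ) (hkh : k + h = f.natDegree) (hk : h + 1 ≤ k) (hh : 1 ≤ h) (hk3 : 3 ≤ k)
    (θ0 : ℝ) (hθ0 : 0 ≤ θ0)
    (hθ : (1 + θ0) * ((f.natDegree : ℝ) - 1 + (2 * h + 1) / (2 * (f.natDegree : ℝ) - 1)) <
      f.natDegree) :
    ∃ η K : ℝ, 0 < η ∧ 0 < K ∧ ∃ X0 : ℕ, ∀ X P : ℕ, X0 ≤ X → X ≤ P →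
      (P : ℝ) ≤ (X : ℝ) ^ (1 + θ0) →
      ((pairs f k X P).card : ℝ) ≤ K * (X : ℝ) ^ (1 - η) := by
  classical
  obtain ⟨g, hgm, hgirr, hgd, hdvd⟩ := exists_monic_model f hirr
  obtain ⟨d, hd⟩ : ∃ d : ℕ, d = f.natDegree := ⟨_, rfl⟩
  rw [← hd] at hgd hkh hθ
  obtain ⟨L, hL⟩ : ∃ L : ℤ, L = f.leadingCoeff := ⟨_, rfl⟩
  have hf0 : f ≠ 0 := by
    intro h
    rw [h, Polynomial.map_zero] at hirr
    exact not_irreducible_zero hirr
  have hL0 : L ≠ 0 := by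
    rw [hL]
    exact leadingCoeff_ne_zero.mpr hf0
  rw [← hL] at hdvd
  have hd4 : 4 ≤ d := by omega
  have hdR : (4 : ℝ) ≤ d := by exact_mod_cast hd4
  have hhR : (1 : ℝ) ≤ h := by exact_mod_cast hh
  have hhd : 2 * (h : ℝ) + 4 ≤ 2 * d := by
    have : h + 2 ≤ d := by omega
    have : (h : ℝ) + 2 ≤ d := by exact_mod_cast this
    linarith only [this]
  obtain ⟨ε, η, hε, hη, hy0, hy1, hmain⟩ := lines_params (d : ℝ) h θ0 (by linarith only [hdR]) hhR hhd hθ0 hθ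
  obtain ⟨y, hy⟩ : ∃ y : ℝ, y = (2 * h + 1 + ε) / (2 * (d : ℝ) - 1) := ⟨_, rfl⟩
  rw [← hy] at hy0 hy1 hmain
  obtain ⟨CC, P0, hM1⟩ := line_factor g hgm hgirr (by omega) k (by omega)
  obtain ⟨C0, hC0⟩ : ∃ C0 : ℕ, C0 = CC + L.natAbs * 2 ^ d + 2 := ⟨_, rfl⟩
  obtain ⟨K, T0, hK, hM7⟩ := line_interval g hgm hgirr k h (by omega) hk hh hk3 C0 ε ε hε hε
  rw [hgd] at hM1 hM7
  rw [← hy] at hM7
  refine ⟨η, 3 ^ (d - 1) * 5 * K * 2 ^ ((d - 1 + y + ε) / d : ℝ), hη, by positivity,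
    max P0 (T0 ^ d) + 1, fun X P hX hXP hPX => ?_⟩
  have hX1 : 1 ≤ X := by omega
  have hP1 : 1 ≤ P := by omega
  have hP0 : P0 ≤ P := by
    have := le_max_left P0 (T0 ^ d)
    omega
  obtain ⟨T, hT1, hTd, hTd'⟩ := exists_root_floor d (2 * P) (by omega) (by omega)
  have hT0 : T0 ≤ T := by
    by_contra hcon
    have h1 : (T + 1) ^ d ≤ T0 ^ d := Nat.pow_le_pow_left (by omega) d
    have := le_max_right P0 (T0 ^ d)
    omega
  have hTR : (1 : ℝ) ≤ T := by exact_mod_cast hT1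
  have hTR0 : (0 : ℝ) < T := by linarith only [hTR, hy0, hy1]
  -- the width of the intervals
  obtain ⟨w, hw⟩ : ∃ w : ℕ, w = ⌊(T : ℝ) ^ (1 - y)⌋₊ := ⟨_, rfl⟩
  have hTy1 : (1 : ℝ) ≤ (T : ℝ) ^ (1 - y) := Real.one_le_rpow hTR (by linarith only [hy1])
  have hw1 : 1 ≤ w := by
    rw [hw]
    exact Nat.le_floor (by exact_mod_cast hTy1)
  have hwle : (w : ℝ) ≤ (T : ℝ) ^ (1 - y) := by
    rw [hw]
    exact Nat.floor_le (by positivity)
  have hw2 : (T : ℝ) ^ (1 - y) ≤ 2 * w := by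
    have h1 : (T : ℝ) ^ (1 - y) < w + 1 := by
      rw [hw]
      exact Nat.lt_floor_add_one _
    have h2 : (1 : ℝ) ≤ w := by exact_mod_cast hw1
    linarith only [h2, h1]
  -- the choice of the factor
  have hex : ∀ z : ℕ × ℕ, z ∈ pairs f k X P → ∃ b : ℤ[X], b.natDegree < d ∧
      (∀ i, |b.coeff i| ≤ T) ∧ ∃ (a : ℤ[X]) (c : ℤ), a.natDegree < d ∧ c ≠ 0 ∧ |c| ≤ CC ∧
        Algebra.norm ℚ (evT g b) = (c : ℚ) * z.2 ∧
        (c : EE g) ^ k * (((L * z.1 : ℤ) : EE g) - th g) = evT g b ^ k * evT g a ∧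
        (minpoly ℚ (evT g b)).natDegree = d := by
    intro z hz
    simp only [pairs, Finset.mem_filter, Finset.mem_product, Finset.mem_Icc, Finset.mem_Ioc] at hz
    obtain ⟨⟨⟨hz1, hz2⟩, hz3, hz4⟩, hz5, hz6⟩ := hz
    obtain ⟨b, a, c, h1, h2, h3, h4, h5, h6, h7, h8⟩ := hM1 z.2 T hz5 (by omega) (by omega)
      (by omega) (L * z.1) (hz6.trans (hdvd z.1))
    exact ⟨b, h1, h2, a, c, h3, h4, h5, h6, h7, h8⟩
  choose! b hb1 hb2 hb3 using hex
  -- the fibration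
  obtain ⟨G, hG⟩ : ∃ G : ℕ × ℕ → (Fin (d - 1) → ℤ) × ℤ, G = fun z =>
    (fun i : Fin (d - 1) => (b z).coeff ((i : ℕ) + 1), ((b z).coeff 0).tdiv w) := ⟨_, rfl⟩
  obtain ⟨I, hI⟩ : ∃ I : Finset ((Fin (d - 1) → ℤ) × ℤ), I =
    (Fintype.piFinset fun _ : Fin (d - 1) => Finset.Icc (-(T : ℤ)) T) ×ˢ
      Finset.Icc (-((T / w : ℕ) : ℤ)) ((T / w : ℕ) : ℤ) := ⟨_, rfl⟩
  have hIcard : I.card = (2 * T + 1) ^ (d - 1) * (2 * (T / w) + 1) := by
    rw [hI, Finset.card_product, Fintype.card_piFinset]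
    simp only [Int.card_Icc, Finset.prod_const, Finset.card_univ, Fintype.card_fin]
    congr 1
    · congr 1
      omega
    · omega
  have hGI : ∀ z ∈ pairs f k X P, G z ∈ I := by
    intro z hz
    rw [hG, hI, Finset.mem_product, Fintype.mem_piFinset]
    refine ⟨fun i => ?_, ?_⟩
    · rw [Finset.mem_Icc]
      exact abs_le.mp (hb2 z hz _)
    · rw [Finset.mem_Icc]
      exact abs_le.mp (tdiv_facts _ T w (hb2 z hz 0) hw1).2.2
  have hfib : ∀ u ∈ I, (((pairs f k X P).filter fun z => G z = u).card : ℝ) ≤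
      K * (T : ℝ) ^ ε := by
    intro u _
    rcases Finset.eq_empty_or_nonempty ((pairs f k X P).filter fun z => G z = u) with he | hne
    · rw [he]
      simp
      (clear * - hK hT1; positivity)
    obtain ⟨z0, hz0⟩ := hne
    rw [Finset.mem_filter] at hz0
    obtain ⟨hz0, hz0u⟩ := hz0
    obtain ⟨b', hb'⟩ : ∃ b' : ℤ[X], b' = b z0 - C ((b z0).coeff 0) := ⟨_, rfl⟩
    have hb'0 : b'.coeff 0 = 0 := by
      rw [hb']
      simp
    have hb's : ∀ i, b'.coeff (i + 1) = (b z0).coeff (i + 1) := by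
      intro i
      rw [hb', coeff_sub, coeff_C_succ, sub_zero]
    have hb'd : b'.natDegree < d := by
      rw [hb']
      refine lt_of_le_of_lt (natDegree_sub_le _ _) ?_
      rw [natDegree_C]
      exact max_lt (hb1 z0 hz0) (by omega)
    have hb'T : ∀ i, |b'.coeff i| ≤ T := by
      intro i
      rcases i with _ | i
      · rw [hb'0, abs_zero]
        positivity
      · rw [hb's]
        exact hb2 z0 hz0 _
    have hline : ∀ z ∈ (pairs f k X P).filter fun z => G z = u,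
        b z = b' + C ((b z).coeff 0) ∧ ((b z).coeff 0).tdiv w = u.2 := by
      intro z hz
      rw [Finset.mem_filter] at hz
      obtain ⟨hz, hzu⟩ := hz
      have h1 : G z = G z0 := hzu.trans hz0u.symm
      rw [hG] at h1 hzu
      have h2 : ((b z).coeff 0).tdiv w = u.2 := congrArg Prod.snd hzu
      refine ⟨?_, h2⟩
      ext i
      rcases i with _ | i
      · rw [coeff_add, hb'0, coeff_C_zero, zero_add]
      · rw [coeff_add, coeff_C_succ, add_zero, hb's]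
        by_cases hi : i < d - 1
        · have h3 := congrFun (congrArg Prod.fst h1) ⟨i, hi⟩
          exact h3
        · rw [coeff_eq_zero_of_natDegree_lt (lt_of_lt_of_le (hb1 z hz) (by omega)),
            coeff_eq_zero_of_natDegree_lt (lt_of_lt_of_le (hb1 z0 hz0) (by omega))]
    have hz0' : z0 ∈ (pairs f k X P).filter fun z => G z = u := by
      rw [Finset.mem_filter]
      exact ⟨hz0, hz0u⟩
    have hinj : Set.InjOn (fun z : ℕ × ℕ => (((b z).coeff 0, L * (z.1 : ℤ), z.2) : ℤ × ℤ × ℕ))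
        (((pairs f k X P).filter fun z => G z = u : Finset (ℕ × ℕ)) : Set (ℕ × ℕ)) := by
      intro z _ z' _ hzz
      simp only [Prod.mk.injEq] at hzz
      obtain ⟨_, h2, h3⟩ := hzz
      have h4 : (z.1 : ℤ) = z'.1 := mul_left_cancel₀ hL0 h2
      exact Prod.ext (by exact_mod_cast h4) h3
    rw [← Finset.card_image_of_injOn hinj]
    refine hM7 T hT0 b' hb'd hb'T (w * u.2) ?_ _ ?_
    · rw [← (hline z0 hz0').2]
      exact (tdiv_facts _ T w (hb2 z0 hz0 0) hw1).1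
    · intro s hs
      rw [Finset.mem_image] at hs
      obtain ⟨z, hzf, rfl⟩ := hs
      obtain ⟨hzl, hzq⟩ := hline z hzf
      rw [Finset.mem_filter] at hzf
      obtain ⟨hz, _⟩ := hzf
      have hzp := hz
      simp only [pairs, Finset.mem_filter, Finset.mem_product, Finset.mem_Icc,
        Finset.mem_Ioc] at hzp
      obtain ⟨⟨⟨hz1, hz2⟩, hz3, hz4⟩, hz5, hz6⟩ := hzp
      obtain ⟨a, c, ha, hc, hcC, hnorm, hrel, hmin⟩ := hb3 z hz
      have hCC0 : (CC : ℤ) ≤ C0 := by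
        rw [hC0]
        push_cast
        have : (0 : ℤ) ≤ |L| * 2 ^ d := by (clear * - hL0; positivity)
        linarith only [this]
      refine ⟨hb2 z hz 0, ?_, ?_, hz5, ?_, hz6.trans (hdvd z.1), a, c, ha, hc, hcC.trans hCC0,
        ?_, ?_, ?_⟩
      · -- width
        dsimp only
        rw [← hzq]
        have h1 := (tdiv_facts _ T w (hb2 z hz 0) hw1).2.1
        have h2 : |(((b z).coeff 0 - w * ((b z).coeff 0).tdiv w : ℤ) : ℝ)| ≤ w := by
          rw [← Int.cast_abs]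
          exact_mod_cast h1
        exact h2.trans hwle
      · -- size of n
        dsimp only
        rw [abs_mul, Nat.abs_cast]
        have h1 : (z.1 : ℤ) ≤ 2 ^ d * (T : ℤ) ^ d := by
          have h2 : z.1 ≤ (2 * T) ^ d := by
            have : (T + 1) ^ d ≤ (2 * T) ^ d := Nat.pow_le_pow_left (by omega) d
            omega
          rw [mul_pow] at h2
          exact_mod_cast h2
        have h3 : (|L| : ℤ) * 2 ^ d ≤ C0 := by
          rw [hC0, Int.abs_eq_natAbs]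
          push_cast
          linarith only [hCC0]
        calc |L| * (z.1 : ℤ) ≤ |L| * (2 ^ d * (T : ℤ) ^ d) := by gcongr
          _ = (|L| * 2 ^ d) * (T : ℤ) ^ d := by ring
          _ ≤ C0 * (T : ℤ) ^ d := by gcongr
      · -- T^d ≤ C0 p
        dsimp only
        have h1 : 2 ≤ C0 := by omega
        calc T ^ d ≤ 2 * P := hTd
          _ ≤ C0 * z.2 := Nat.mul_le_mul h1 (by omega)
      · dsimp only
        rw [← hzl]
        exact hnorm
      · dsimp only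
        rw [← hzl]
        exact hrel
      · dsimp only
        rw [← hzl]
        exact hmin
  have hcount := card_le_mul_of_fiber (pairs f k X P) I G hGI _ hfib
  rw [hIcard] at hcount
  have hfin := lines_count d T w y ε K (by omega) hT1 hw1 hw2 hy0 hK.le _ hcount
  refine hfin.trans ?_
  have hE0 : (0 : ℝ) ≤ (d - 1 + y + ε) / d := by
    have : (0 : ℝ) ≤ d - 1 + y + ε := by linarith only [hy0, hy1, hε, hdR]
    (clear * - this hd4; positivity)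
  have hXR : (1 : ℝ) ≤ X := by exact_mod_cast hX1
  have h1 : (T : ℝ) ^ ((d : ℝ) - 1 + y + ε) ≤
      2 ^ ((d - 1 + y + ε) / d : ℝ) * (X : ℝ) ^ (1 - η) := by
    have h2 : (T : ℝ) ^ ((d : ℝ) - 1 + y + ε) = ((T : ℝ) ^ d) ^ (((d : ℝ) - 1 + y + ε) / d) := by
      rw [← Real.rpow_natCast (T : ℝ) d, ← Real.rpow_mul hTR0.le, mul_div_cancel₀]
      linarith only [hy0, hy1, hdR]
    have h3 : (T : ℝ) ^ d ≤ 2 * (X : ℝ) ^ (1 + θ0) := by
      have : ((T ^ d : ℕ) : ℝ) ≤ ((2 * P : ℕ) : ℝ) := by exact_mod_cast hTd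
      push_cast at this
      linarith only [this, hPX]
    rw [h2]
    calc ((T : ℝ) ^ d) ^ (((d : ℝ) - 1 + y + ε) / d)
        ≤ (2 * (X : ℝ) ^ (1 + θ0)) ^ (((d : ℝ) - 1 + y + ε) / d) :=
          Real.rpow_le_rpow (by (clear * - hT1; positivity)) h3 hE0
      _ = 2 ^ ((d - 1 + y + ε) / d : ℝ) * (X : ℝ) ^ ((1 + θ0) * (((d : ℝ) - 1 + y + ε) / d)) := by
          rw [Real.mul_rpow (by norm_num) (by positivity), ← Real.rpow_mul (by (clear * - hX1; positivity))]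
      _ ≤ 2 ^ ((d - 1 + y + ε) / d : ℝ) * (X : ℝ) ^ (1 - η) := by
          have h4 : (X : ℝ) ^ ((1 + θ0) * (((d : ℝ) - 1 + y + ε) / d)) ≤ (X : ℝ) ^ (1 - η) :=
            Real.rpow_le_rpow_of_exponent_le hXR hmain
          gcongr
  calc 3 ^ (d - 1) * 5 * K * (T : ℝ) ^ ((d : ℝ) - 1 + y + ε)
      ≤ 3 ^ (d - 1) * 5 * K * (2 ^ ((d - 1 + y + ε) / d : ℝ) * (X : ℝ) ^ (1 - η)) := by gcongr
    _ = _ := by ring

end Vale.Agent.P018
end

section

/-! The asymptotic formula for `k`-free values when `9 k ≥ 5 deg f + 2`. -/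

namespace Vale.Agent.P018

open Polynomial Filter Topology Asymptotics

/-- The tail for `k < d` and `9 k ≥ 5 d + 2`. -/
theorem tail_small_k2 (f : ℤ[X]) (hirr : Irreducible (f.map (Int.castRingHom ℚ))) (k : ℕ)
    (hk : 2 ≤ k) (hkd : k < f.natDegree) (hr : 5 * f.natDegree + 2 ≤ 9 * k) :
    Tendsto (fun X : ℕ => (tail f k X : ℝ) / X) atTop (𝓝 0) := by
  rcases Nat.lt_or_ge (5 * f.natDegree + 2) (9 * k) with h | h
  · exact tail_small_k f hirr k hk hkd (by omega)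
  · refine tail_of_pairs f hirr k hk hkd (fun A _ => pairs_bound_two f hirr k hk hkd (by omega)
      (fun h' hkh hk' hh hk3 θ0 hθ0 hθ => lines_bound f hirr k h' hkh hk' hh hk3 θ0 hθ0 hθ) A)

theorem main2 (f : ℤ[X]) (k : ℕ) (hk : 2 ≤ k)
    (hirr : Irreducible (f.map (Int.castRingHom ℚ)))
    (hloc : ∀ p : ℕ, p.Prime → rho f (p ^ k) < p ^ k)
    (hr : 5 * f.natDegree + 2 ≤ 9 * k) :
    0 < density f k ∧
    (fun X : ℕ => (countPF f k X : ℝ) - density f k * X) =o[atTop] (fun X : ℕ => (X : ℝ)) := by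
  refine sieve_main f k hk hirr hloc ?_
  rcases lt_or_ge k f.natDegree with h | h
  · exact tail_small_k2 f hirr k hk h hr
  · exact tail_large_k f hirr k hk h

end Vale.Agent.P018
end

section

/-! # P018, K-method, module K11: final assembly. -/

namespace Vale.Agent.P018.K

open Polynomial Filter Topology Asymptotics

/-- the property proved by compactness -/
def FinP (f : ℤ[X]) (k : ℕ) (s : Set ℝ) : Prop :=
  ∃ η K : ℝ, 0 < η ∧ 0 < K ∧ ∃ X0 : ℕ, ∀ X P : ℕ, X0 ≤ X → X ≤ P →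
    Real.log P / Real.log X ∈ s → ((pairs f k X P).card : ℝ) ≤ K * (X : ℝ) ^ (1 - η)

theorem fin_union (f : ℤ[X]) (k : ℕ) {s t : Set ℝ} (hs : FinP f k s) (ht : FinP f k t) :
    FinP f k (s ∪ t) := by
  obtain ⟨η1, K1, hη1, hK1, X1, h1⟩ := hs
  obtain ⟨η2, K2, hη2, hK2, X2, h2⟩ := ht
  refine ⟨min η1 η2, max K1 K2, lt_min hη1 hη2, lt_max_of_lt_left hK1, max (max X1 X2) 1, ?_⟩
  intro X P hX hXP hmem
  have hX1 : X1 ≤ X := le_trans (le_trans (le_max_left _ _) (le_max_left _ _)) hX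
  have hX2 : X2 ≤ X := le_trans (le_trans (le_max_right _ _) (le_max_left _ _)) hX
  have hXr : (1 : ℝ) ≤ X := by exact_mod_cast le_trans (le_max_right _ _) hX
  rcases hmem with h | h
  · refine (h1 X P hX1 hXP h).trans ?_
    exact mul_le_mul (le_max_left _ _)
      (Real.rpow_le_rpow_of_exponent_le hXr (by linarith [min_le_left η1 η2]))
      (by positivity) (by positivity)
  · refine (h2 X P hX2 hXP h).trans ?_
    exact mul_le_mul (le_max_right _ _)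
      (Real.rpow_le_rpow_of_exponent_le hXr (by linarith [min_le_right η1 η2]))
      (by positivity) (by positivity)

end Vale.Agent.P018.K
end

section

/-! # P018, quartics: the data attached to the pairs `(n, p)`. -/

namespace Vale.Agent.P018.Q

open Polynomial NumberField Finset

/-! ### Sizes -/

theorem data_upper {R : Type*} [CommRing R] (ψ : R →+* ℂ) (t : R) (y : Fin 4 → ℤ) (B : ℝ)
    (hB : ∀ j, |(y j : ℝ)| ≤ B) : ‖ψ (K.ell t y)‖ ≤ B * ∑ j : Fin 4, ‖ψ t‖ ^ (j : ℕ) := by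
  rw [K.loc_map_ell]
  unfold K.ell
  rw [mul_sum]
  refine (norm_sum_le _ _).trans (sum_le_sum fun j _ => ?_)
  rw [norm_mul, norm_pow, Complex.norm_intCast]
  exact mul_le_mul_of_nonneg_right (hB j) (by positivity)

theorem data_low (x : Fin 4 → ℝ) (U W : ℝ) (h0 : ∀ i, 0 ≤ x i) (h1 : ∀ i, x i ≤ U) (hU : 0 < U)
    (hW : W ≤ ∏ i, x i) (i : Fin 4) : W / U ^ 3 ≤ x i := by
  rw [div_le_iff₀ (by positivity)]
  refine hW.trans ?_
  rw [← mul_prod_erase univ x (mem_univ i)]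
  refine mul_le_mul_of_nonneg_left ?_ (h0 i)
  calc ∏ j ∈ univ.erase i, x j ≤ ∏ _j ∈ univ.erase i, U :=
        prod_le_prod (fun j _ => h0 j) fun j _ => h1 j
    _ = U ^ 3 := by
        rw [prod_const, card_erase_of_mem (mem_univ i)]
        simp

theorem data_sizes {L : Type} [Field L] [NumberField L] (θ : Fin 4 → 𝓞 L) :
    ∃ A : ℝ, 1 ≤ A ∧ ∀ (φ : L →+* ℂ) (y : Fin 4 → ℤ) (B W : ℝ) (m : ℤ), 0 < B →
      (∀ j, |(y j : ℝ)| ≤ B) → ∏ i, K.ell (θ i) y = ((m : ℤ) : 𝓞 L) → W ≤ |(m : ℝ)| →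
      ∀ i, ‖φ (K.ell (θ i) y : 𝓞 L)‖ ≤ A * B ∧
        W / (A * B) ^ 3 ≤ ‖φ (K.ell (θ i) y : 𝓞 L)‖ := by
  classical
  refine ⟨1 + ∑ φ : L →+* ℂ, ∑ i, ∑ j : Fin 4, ‖φ (θ i : L)‖ ^ (j : ℕ), ?_, ?_⟩
  · have : 0 ≤ ∑ φ : L →+* ℂ, ∑ i, ∑ j : Fin 4, ‖φ (θ i : L)‖ ^ (j : ℕ) :=
      sum_nonneg fun _ _ => sum_nonneg fun _ _ => sum_nonneg fun _ _ => by positivity
    linarith
  intro φ y B W m hB hy hm hW
  set A : ℝ := 1 + ∑ φ : L →+* ℂ, ∑ i, ∑ j : Fin 4, ‖φ (θ i : L)‖ ^ (j : ℕ) with hA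
  have hAi : ∀ i, ∑ j : Fin 4, ‖φ (θ i : L)‖ ^ (j : ℕ) ≤ A := by
    intro i
    have h1 : ∑ j : Fin 4, ‖φ (θ i : L)‖ ^ (j : ℕ) ≤ ∑ i, ∑ j : Fin 4, ‖φ (θ i : L)‖ ^ (j : ℕ) :=
      single_le_sum (f := fun i => ∑ j : Fin 4, ‖φ (θ i : L)‖ ^ (j : ℕ))
        (fun _ _ => sum_nonneg fun _ _ => by positivity) (mem_univ i)
    have h2 : ∑ i, ∑ j : Fin 4, ‖φ (θ i : L)‖ ^ (j : ℕ) ≤
        ∑ φ : L →+* ℂ, ∑ i, ∑ j : Fin 4, ‖φ (θ i : L)‖ ^ (j : ℕ) :=
      single_le_sum (f := fun φ : L →+* ℂ => ∑ i, ∑ j : Fin 4, ‖φ (θ i : L)‖ ^ (j : ℕ))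
        (fun _ _ => sum_nonneg fun _ _ => sum_nonneg fun _ _ => by positivity) (mem_univ φ)
    linarith
  have hA1 : 1 ≤ A := by
    have : 0 ≤ ∑ φ : L →+* ℂ, ∑ i, ∑ j : Fin 4, ‖φ (θ i : L)‖ ^ (j : ℕ) :=
      sum_nonneg fun _ _ => sum_nonneg fun _ _ => sum_nonneg fun _ _ => by positivity
    linarith
  have hup : ∀ i, ‖φ (K.ell (θ i) y : 𝓞 L)‖ ≤ A * B := by
    intro i
    have h1 := data_upper (φ.comp (algebraMap (𝓞 L) L)) (θ i) y B hy
    have h2 : B * ∑ j : Fin 4, ‖(φ.comp (algebraMap (𝓞 L) L)) (θ i)‖ ^ (j : ℕ) ≤ B * A :=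
      mul_le_mul_of_nonneg_left (hAi i) hB.le
    have h3 : ‖(φ.comp (algebraMap (𝓞 L) L)) (K.ell (θ i) y)‖ ≤ A * B := by
      rw [mul_comm A B]
      exact h1.trans h2
    exact h3
  intro i
  refine ⟨hup i, data_low (fun i => ‖φ (K.ell (θ i) y : 𝓞 L)‖) (A * B) W
    (fun i => norm_nonneg _) hup (by positivity) ?_ i⟩
  have h1 : ∏ i, ‖φ (K.ell (θ i) y : 𝓞 L)‖ = |(m : ℝ)| := by
    rw [← norm_prod]
    have h2 : ∏ i, φ ((K.ell (θ i) y : 𝓞 L) : L) =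
        (φ.comp (algebraMap (𝓞 L) L)) (∏ i, K.ell (θ i) y) := by
      rw [map_prod]
      rfl
    rw [h2, hm, map_intCast, Complex.norm_intCast]
  rw [h1]
  exact hW

/-- lower bounds for the conjugates. -/
theorem dat_lower {L : Type} [Field L] [NumberField L] (θ : Fin 4 → 𝓞 L) (C : ℕ) :
    ∃ K1 : ℝ, 0 < K1 ∧ ∀ (X T : ℝ) (N : ℤ) (p : ℕ) (c : ℤ) (y z : Fin 4 → ℤ), 1 ≤ T →
      Dat θ C X T N p c y z → ∀ (φ : L →+* ℂ) (i : Fin 4),
        K1 * T ≤ ‖φ (K.ell (θ i) y : 𝓞 L)‖ ∧ ‖φ (K.ell (θ i) y : 𝓞 L)‖ ≤ K1⁻¹ * T := by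
  obtain ⟨A, hA1, hA⟩ := data_sizes θ
  have hC0 : (0 : ℝ) ≤ C := Nat.cast_nonneg C
  have hU : 1 ≤ A * (C + 1) := by nlinarith
  refine ⟨((A * (C + 1)) ^ 3)⁻¹, by positivity, ?_⟩
  intro X T N p c y z hT hd φ i
  have hT0 : 0 < T := by linarith
  have hC1 : (1 : ℝ) ≤ C := by
    have h1 := Int.one_le_abs hd.c0
    have h2 := hd.cC
    have h3 : (1 : ℤ) ≤ C := by omega
    exact_mod_cast h3
  obtain ⟨c', hc'0, -, hc'⟩ := hd.nrm
  have hW : T ^ 4 ≤ |(((p : ℤ) * c' : ℤ) : ℝ)| := by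
    push_cast
    rw [abs_mul, abs_of_nonneg (show (0 : ℝ) ≤ (p : ℝ) by positivity)]
    have h1 : (1 : ℝ) ≤ |(c' : ℝ)| := by exact_mod_cast Int.one_le_abs hc'0
    have h2 := hd.lo
    have h3 : (0 : ℝ) ≤ p := by positivity
    nlinarith
  obtain ⟨h1, h2⟩ := hA φ y (C * T) (T ^ 4) _ (by positivity) hd.hy hc' hW i
  have hAC : 0 < A * (C * T) := by positivity
  constructor
  · refine le_trans ?_ h2
    rw [le_div_iff₀ (by positivity)]
    have h3 : (A * (C * T)) ^ 3 ≤ (A * (C + 1)) ^ 3 * T ^ 3 := by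
      rw [← mul_pow]
      apply pow_le_pow_left₀ hAC.le
      nlinarith [mul_pos (show 0 < A by linarith) hT0]
    calc ((A * (C + 1)) ^ 3)⁻¹ * T * (A * (C * T)) ^ 3
        ≤ ((A * (C + 1)) ^ 3)⁻¹ * T * ((A * (C + 1)) ^ 3 * T ^ 3) :=
          mul_le_mul_of_nonneg_left h3 (by positivity)
      _ = T ^ 4 := by field_simp
  · refine h1.trans ?_
    rw [inv_inv]
    have h3 : A * (C + 1) ≤ (A * (C + 1)) ^ 3 := le_self_pow₀ hU (by norm_num)
    have h4 : A * (C * T) ≤ A * (C + 1) * T := by nlinarith [mul_pos (show 0 < A by linarith only [hA1]) hT0]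
    exact h4.trans (mul_le_mul_of_nonneg_right h3 hT0.le)

/-- to bound the number of pairs it is enough to bound the number of `N = a0 n`. -/
theorem pairs_le (f : ℤ[X]) (hirr : Irreducible (f.map (Int.castRingHom ℚ)))
    (hd : f.natDegree = 4) (a0 : ℤ) (ha0 : a0 ≠ 0) : ∃ X1 : ℕ, ∀ X P : ℕ, X1 ≤ X → X ≤ P →
    (pairs f 2 X P).card ≤ 4 * ((pairs f 2 X P).image (fun w => a0 * (w.1 : ℤ))).card := by
  classical
  obtain ⟨X1, hX1⟩ := K.loc_mult_p f hirr (by omega) 2 (by norm_num)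
  refine ⟨X1, fun X P h1 h2 => ?_⟩
  refine card_le_mul_card_image _ 4 ?_
  intro b hb
  obtain ⟨w, hw, rfl⟩ := mem_image.1 hb
  refine le_trans (card_le_card ?_) ((hX1 X P h1 h2 w.1).trans hd.le)
  intro v hv
  rw [mem_filter] at hv ⊢
  refine ⟨hv.1, ?_⟩
  have := mul_left_cancel₀ ha0 hv.2
  exact_mod_cast this

/-! ### Interpolation -/

/-- the value of the derivative of the polynomial at the node. -/
def dval {R : Type*} [CommRing R] (θ : Fin 4 → R) (i : Fin 4) : R :=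
  ∏ j ∈ univ.erase i, (θ i - θ j)

/-- the interpolation polynomial. -/
noncomputable def ipol {R : Type*} [CommRing R] (θ : Fin 4 → R) (i : Fin 4) : R[X] :=
  C (∏ k ∈ univ.erase i, dval θ k) * ∏ j ∈ univ.erase i, (X - C (θ j))

theorem ipol_eval {R : Type*} [CommRing R] (θ : Fin 4 → R) (i l : Fin 4) :
    (ipol θ i).eval (θ l) = if l = i then ∏ k, dval θ k else 0 := by
  unfold ipol
  rw [eval_mul, eval_C, eval_prod]
  simp only [eval_sub, eval_X, eval_C]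
  split_ifs with h
  · subst h
    rw [← mul_prod_erase univ (fun k => dval θ k) (mem_univ l), mul_comm]
    rfl
  · have h1 : ∏ j ∈ univ.erase i, (θ l - θ j) = 0 :=
      prod_eq_zero (mem_erase.2 ⟨h, mem_univ l⟩) (sub_self _)
    rw [h1, mul_zero]

theorem ipol_degree {R : Type*} [CommRing R] [IsDomain R] (θ : Fin 4 → R) (i : Fin 4) :
    (ipol θ i).natDegree ≤ 3 := by
  unfold ipol
  refine natDegree_C_mul_le _ _ |>.trans ?_
  rw [natDegree_prod_of_monic _ _ fun j _ => monic_X_sub_C _]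
  simp [card_erase_of_mem]

/-- the interpolating polynomial of the values `γ`. -/
noncomputable def hpol {R : Type*} [CommRing R] (θ γ : Fin 4 → R) : R[X] :=
  ∑ i, C (γ i) * ipol θ i

theorem hpol_eval {R : Type*} [CommRing R] (θ γ : Fin 4 → R) (l : Fin 4) :
    (hpol θ γ).eval (θ l) = (∏ k, dval θ k) * γ l := by
  unfold hpol
  rw [eval_finsetSum, sum_eq_single l]
  · rw [eval_mul, eval_C, ipol_eval, if_pos rfl, mul_comm]
  · intro b _ hb
    rw [eval_mul, eval_C, ipol_eval, if_neg (Ne.symm hb), mul_zero]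
  · simp

theorem hpol_degree {R : Type*} [CommRing R] [IsDomain R] (θ γ : Fin 4 → R) :
    (hpol θ γ).natDegree ≤ 3 := by
  unfold hpol
  refine natDegree_sum_le_of_forall_le _ _ fun i _ => ?_
  exact (natDegree_C_mul_le _ _).trans (ipol_degree θ i)

/-- the product of the derivatives is an integer. -/
theorem dval_prod {R : Type*} [CommRing R] [IsDomain R] {G : ℤ[X]} (hGd : G.natDegree = 4)
    (θ : Fin 4 → R) (hθ : G.map (algebraMap ℤ R) = ∏ i, (X - C (θ i))) :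
    ∃ D : ℤ, (D : R) = ∏ k, dval θ k := by
  refine ⟨_, (K.sm_resultant hGd θ hθ (derivative G)).trans ?_⟩
  refine prod_congr rfl fun i _ => ?_
  rw [← derivative_map, hθ]
  have h := Lagrange.eval_nodal_derivative_eval_node_eq (s := (univ : Finset (Fin 4))) (v := θ)
    (mem_univ i)
  unfold Lagrange.nodal at h
  rw [h, eval_prod]
  simp [dval]

/-- a family of conjugates is given by a rational polynomial. -/
theorem data_conj {L : Type} [Field L] [NumberField L] {G : ℤ[X]} (hG : G.Monic)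
    (hGd : G.natDegree = 4) (hGi : Irreducible (G.map (Int.castRingHom ℚ)))
    (θ : Fin 4 → 𝓞 L) (hθ : G.map (algebraMap ℤ (𝓞 L)) = ∏ i, (X - C (θ i)))
    (y : Fin 4 → ℤ) (hy : y ≠ 0) (c N : ℤ) (γ : Fin 4 → 𝓞 L)
    (h : ∀ i, (c : 𝓞 L) ^ 2 * ((N : 𝓞 L) - θ i) = K.ell (θ i) y ^ 2 * γ i) :
    ∃ q : ℚ[X], q.natDegree ≤ 3 ∧ ∀ i, aeval (θ i : L) q = (γ i : L) := by
  have hinj : Function.Injective (Int.castRingHom ℚ) := Int.cast_injective
  have hGm : (G.map (Int.castRingHom ℚ)).Monic := hG.map _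
  have h2 : (G.map (Int.castRingHom ℚ)).natDegree = G.natDegree :=
    natDegree_map_eq_of_injective hinj G
  have h3 : ((K.smPoly y).map (Int.castRingHom ℚ)).natDegree = (K.smPoly y).natDegree :=
    natDegree_map_eq_of_injective hinj _
  have h0 : K.smPoly y ≠ 0 := K.sm_ne_zero hy
  have hcop : IsCoprime (G.map (Int.castRingHom ℚ)) ((K.smPoly y).map (Int.castRingHom ℚ)) := by
    rw [hGi.coprime_iff_not_dvd]
    intro hdvd
    have h4 : (K.smPoly y).map (Int.castRingHom ℚ) ≠ 0 := (Polynomial.map_ne_zero_iff hinj).2 h0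
    have h5 := Polynomial.natDegree_le_of_dvd hdvd h4
    rw [h2, h3, hGd] at h5
    have hh := K.sm_degree y
    rw [Polynomial.degree_eq_natDegree h0] at hh
    have h6 : (K.smPoly y).natDegree < 4 := by exact_mod_cast hh
    omega
  obtain ⟨v, u, huv⟩ := hcop
  have hroot : ∀ i, aeval (θ i : L) (G.map (Int.castRingHom ℚ)) = 0 := by
    intro i
    have e1 : (G.map (algebraMap ℤ (𝓞 L))).eval (θ i) = 0 := by
      rw [hθ, eval_prod]
      exact prod_eq_zero (mem_univ i) (by simp)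
    have e2 : aeval (θ i : L) (G.map (Int.castRingHom ℚ)) =
        algebraMap (𝓞 L) L ((G.map (algebraMap ℤ (𝓞 L))).eval (θ i)) := by
      rw [aeval_def, eval₂_map, eval_map, hom_eval₂]
      congr 1
      exact RingHom.ext_int _ _
    rw [e2, e1, map_zero]
  have hell : ∀ i, aeval (θ i : L) ((K.smPoly y).map (Int.castRingHom ℚ)) =
      ((K.ell (θ i) y : 𝓞 L) : L) := by
    intro i
    rw [← K.sm_eval y (θ i)]
    have e2 : aeval (θ i : L) ((K.smPoly y).map (Int.castRingHom ℚ)) =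
        algebraMap (𝓞 L) L (((K.smPoly y).map (algebraMap ℤ (𝓞 L))).eval (θ i)) := by
      rw [aeval_def, eval₂_map, eval_map, hom_eval₂]
      congr 1
      exact RingHom.ext_int _ _
    rw [e2]
  have hu : ∀ i, aeval (θ i : L) u * ((K.ell (θ i) y : 𝓞 L) : L) = 1 := by
    intro i
    have e1 := congrArg (aeval (θ i : L)) huv
    rw [map_add, map_mul, map_mul, hroot, mul_zero, zero_add, hell, map_one] at e1
    exact e1
  set q0 : ℚ[X] := C ((c : ℚ) ^ 2) * (C (N : ℚ) - X) * u ^ 2 with hq0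
  refine ⟨q0 %ₘ (G.map (Int.castRingHom ℚ)), ?_, ?_⟩
  · have hdeg := natDegree_modByMonic_lt q0 hGm (by
      intro h1
      have := congrArg natDegree h1
      rw [h2, hGd] at this
      simp at this)
    omega
  · intro i
    rw [aeval_modByMonic_eq_self_of_root (hroot i), hq0]
    simp only [map_mul, map_sub, map_pow, aeval_X, aeval_C]
    have e1 := congrArg (algebraMap (𝓞 L) L) (h i)
    simp only [map_mul, map_sub, map_pow, map_intCast] at e1 ⊢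
    have e2 := hu i
    calc (c : L) ^ 2 * ((N : L) - (θ i : L)) * (aeval (θ i : L) u) ^ 2
        = ((K.ell (θ i) y : 𝓞 L) : L) ^ 2 * (γ i : L) * (aeval (θ i : L) u) ^ 2 := by rw [e1]
      _ = (aeval (θ i : L) u * ((K.ell (θ i) y : 𝓞 L) : L)) ^ 2 * (γ i : L) := by ring
      _ = (γ i : L) := by rw [e2, one_pow, one_mul]

/-- the coordinates. -/
theorem data_coord {L : Type} [Field L] [NumberField L] (θ : Fin 4 → 𝓞 L)
    (hinj : Function.Injective θ) (D : ℤ)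
    (hD : (D : 𝓞 L) = ∏ k, dval θ k) (γ : Fin 4 → 𝓞 L) (q : ℚ[X]) (hq : q.natDegree ≤ 3)
    (hqγ : ∀ i, aeval (θ i : L) q = (γ i : L)) :
    ∃ z : Fin 4 → ℤ, (∀ j : Fin 4, (hpol θ γ).coeff j = ((z j : ℤ) : 𝓞 L)) ∧
      ∀ i, (D : 𝓞 L) * γ i = K.ell (θ i) z := by
  have hinjL : Function.Injective (algebraMap (𝓞 L) L) := RingOfIntegers.coe_injective
  have h1 : (hpol θ γ).map (algebraMap (𝓞 L) L) = (C (D : ℚ) * q).map (algebraMap ℚ L) := by
    apply Polynomial.eq_of_degrees_lt_of_eval_index_eq (v := fun i => (θ i : L)) (univ : Finset (Fin 4))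
    · intro i _ j _ hij
      exact hinj (hinjL hij)
    · rw [card_univ, Fintype.card_fin]
      refine lt_of_le_of_lt (degree_map_le.trans degree_le_natDegree) ?_
      have := hpol_degree θ γ
      exact_mod_cast (by omega : (hpol θ γ).natDegree < 4)
    · rw [card_univ, Fintype.card_fin]
      refine lt_of_le_of_lt (degree_map_le.trans degree_le_natDegree) ?_
      have := (natDegree_C_mul_le (D : ℚ) q).trans hq
      exact_mod_cast (by omega : (C (D : ℚ) * q).natDegree < 4)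
    · intro i _
      have e1 : eval (θ i : L) ((hpol θ γ).map (algebraMap (𝓞 L) L)) =
          algebraMap (𝓞 L) L ((hpol θ γ).eval (θ i)) := by
        rw [eval_map]
        exact eval₂_at_apply (algebraMap (𝓞 L) L) (θ i)
      have e2 : eval (θ i : L) ((C (D : ℚ) * q).map (algebraMap ℚ L)) = (D : L) * (γ i : L) := by
        rw [Polynomial.map_mul, eval_mul, map_C, eval_C, eval_map, ← aeval_def, hqγ, map_intCast]
      rw [e1, e2, hpol_eval, ← hD, map_mul, map_intCast]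
  have h2 : ∀ j : Fin 4, ∃ z : ℤ, (hpol θ γ).coeff j = ((z : ℤ) : 𝓞 L) := by
    intro j
    have e1 := congrArg (fun p => p.coeff (j : ℕ)) h1
    simp only [coeff_map, coeff_C_mul] at e1
    have e2 : IsIntegral ℤ (algebraMap ℚ L ((D : ℚ) * q.coeff j)) := by
      rw [← e1]
      exact ((hpol θ γ).coeff j).2
    have e3 : IsIntegral ℤ ((D : ℚ) * q.coeff j) :=
      (isIntegral_algebraMap_iff (algebraMap ℚ L).injective).1 e2
    obtain ⟨z, hz⟩ := IsIntegrallyClosed.isIntegral_iff.1 e3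
    refine ⟨z, hinjL ?_⟩
    rw [e1, ← hz, map_intCast]
    simp
  choose z hz using h2
  refine ⟨z, hz, fun i => ?_⟩
  rw [hD, ← hpol_eval, eval_eq_sum_range' (n := 4) (by have := hpol_degree θ γ; omega),
    Finset.sum_range]
  unfold K.ell
  exact sum_congr rfl fun j _ => by rw [hz]

/-- the data of all pairs `(n, p)` with `p² ∣ f(n)`, `p ~ P ≥ X`. -/
theorem exists_dat (f : ℤ[X]) (hirr : Irreducible (f.map (Int.castRingHom ℚ)))
    (hd : f.natDegree = 4) :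
    ∃ (L : Type) (_ : Field L) (_ : NumberField L) (θ : Fin 4 → 𝓞 L) (G : ℤ[X]) (a0 : ℤ) (C1 : ℕ),
      a0 ≠ 0 ∧ G.Monic ∧ G.natDegree = 4 ∧ Irreducible (G.map (Int.castRingHom ℚ)) ∧
      Function.Injective θ ∧ G.map (algebraMap ℤ (𝓞 L)) = ∏ i, (X - C (θ i)) ∧
      ∀ X P : ℕ, C1 ≤ X → X ≤ P → ∀ w ∈ pairs f 2 X P, ∃ (c : ℤ) (y z : Fin 4 → ℤ),
        Dat θ C1 X ((P : ℝ) ^ (1 / 4 : ℝ)) (a0 * w.1) w.2 c y z := by
  classical
  have h0 := K.exists_field f hirr (by omega)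
  rw [hd] at h0
  obtain ⟨L, _, _, θ, G, a0, ha0, hGm, hGd, hGi, hθi, hθ, hGe⟩ := h0
  obtain ⟨Cs, hCs1, hsmall⟩ := K.exists_small L (by norm_num) G hGm hGd hGi θ hθ 2 (by norm_num)
  obtain ⟨D, hD⟩ := dval_prod hGd θ hθ
  obtain ⟨A, hA1, hA⟩ := data_sizes θ
  obtain ⟨σ⟩ : Nonempty (L →+* ℂ) := inferInstance
  obtain ⟨ψ, hψ⟩ : ∃ ψ : 𝓞 L →+* ℂ, ∀ x : 𝓞 L, ψ x = σ x :=
    ⟨σ.comp (algebraMap (𝓞 L) L), fun _ => rfl⟩
  have hD0 : D ≠ 0 := by
    rintro rfl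
    have h1 : ∏ k, dval θ k ≠ 0 := by
      refine prod_ne_zero_iff.2 fun k _ => prod_ne_zero_iff.2 fun j hj => ?_
      rw [sub_ne_zero]
      exact fun h => (mem_erase.1 hj).1 (hθi h).symm
    exact h1 (by rw [← hD]; simp)
  -- the constants
  obtain ⟨E, hE⟩ : ∃ E : ℝ, E = ∑ i, ∑ j : Fin 4, ‖ψ ((ipol θ i).coeff j)‖ := ⟨_, rfl⟩
  obtain ⟨M, hM⟩ : ∃ M : ℝ, M = ∑ i, ‖ψ (θ i)‖ := ⟨_, rfl⟩
  have hE0 : 0 ≤ E := by
    rw [hE]
    exact sum_nonneg fun _ _ => sum_nonneg fun _ _ => norm_nonneg _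
  have hM0 : 0 ≤ M := by
    rw [hM]
    exact sum_nonneg fun _ _ => norm_nonneg _
  have hMi : ∀ i, ‖ψ (θ i)‖ ≤ M := by
    intro i
    rw [hM]
    exact single_le_sum (f := fun i => ‖ψ (θ i)‖) (fun _ _ => norm_nonneg _) (mem_univ i)
  obtain ⟨KZ, hKZ⟩ : ∃ KZ : ℝ, KZ = (Cs : ℝ) ^ 2 * (|(a0 : ℝ)| + M) * (A * 2) ^ 6 * E :=
    ⟨_, rfl⟩
  refine ⟨L, inferInstance, inferInstance, θ, G, a0,
    Cs ^ 2 * D.natAbs + Cs + 2 + a0.natAbs + ⌈KZ⌉₊, ha0, hGm, hGd, hGi, hθi, hθ, ?_⟩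
  intro X P hX hXP w hw
  rw [pairs, mem_filter, mem_product, mem_Icc, mem_Ioc] at hw
  obtain ⟨⟨⟨hw1, hw2⟩, hw3, hw4⟩, hwp, hwd⟩ := hw
  obtain ⟨T, hT⟩ : ∃ T : ℝ, T = (P : ℝ) ^ (1 / 4 : ℝ) := ⟨_, rfl⟩
  rw [← hT]
  have hX2 : 2 ≤ X := by omega
  have hP1 : (1 : ℝ) ≤ P := by exact_mod_cast (by omega : 1 ≤ P)
  have hT1 : 1 ≤ T := by
    rw [hT]
    exact Real.one_le_rpow hP1 (by norm_num)
  have hT4 : T ^ 4 = P := by
    rw [hT, ← Real.rpow_natCast, ← Real.rpow_mul (by linarith only [hP1])]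
    norm_num
  obtain ⟨y, c, γ, hy0, hyp, hc0, hcC, hprod, heq⟩ := hsmall w.2 (a0 * w.1) hwp (by omega) (by
    rw [hGe]
    exact hwd.mul_left _)
  obtain ⟨q, hq, hqγ⟩ := data_conj hGm hGd hGi θ hθ y hy0 c (a0 * w.1) γ heq
  obtain ⟨z, hz1, hz2⟩ := data_coord θ hθi D hD γ q hq hqγ
  have hXr : (1 : ℝ) ≤ X := by exact_mod_cast (by omega : 1 ≤ X)
  have hyT : ∀ j, |(y j : ℝ)| ≤ 2 * T := by
    intro j
    have h10 : |(y j : ℝ)| ^ 4 ≤ (2 * T) ^ 4 := by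
      have h11 : (|(y j : ℝ)|) ^ 4 ≤ (w.2 : ℝ) := by exact_mod_cast hyp j
      have h12 : (w.2 : ℝ) ≤ 2 * P := by exact_mod_cast hw4
      rw [mul_pow, hT4]
      linarith only [h12, h11, hP1]
    exact (pow_le_pow_iff_left₀ (abs_nonneg _) (by linarith only [hT1]) (by norm_num)).1 h10
  have hlo : T ^ 4 ≤ (w.2 : ℝ) := by
    rw [hT4]
    exact_mod_cast hw3.le
  have hW : T ^ 4 ≤ |(((w.2 : ℤ) * c : ℤ) : ℝ)| := by
    push_cast
    rw [abs_mul, abs_of_nonneg (show (0 : ℝ) ≤ (w.2 : ℝ) by (clear * -; positivity))]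
    have h1 : (1 : ℝ) ≤ |(c : ℝ)| := by exact_mod_cast Int.one_le_abs hc0
    have h3 : (0 : ℝ) ≤ w.2 := by (clear * -; positivity)
    linarith only [mul_nonneg (sub_nonneg.2 h1) (sub_nonneg.2 h3), hlo]
  have hsz : ∀ i, T ^ 4 / (A * (2 * T)) ^ 3 ≤ ‖ψ (K.ell (θ i) y)‖ := by
    intro i
    rw [hψ]
    exact (hA σ y (2 * T) (T ^ 4) _ (by (clear * - hT1; positivity)) hyT hprod hW i).2
  have hcr : |(c : ℝ)| ≤ Cs := by exact_mod_cast hcC
  have hNr : ‖ψ (((a0 * w.1 : ℤ) : 𝓞 L))‖ ≤ |(a0 : ℝ)| * X := by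
    rw [map_intCast, Complex.norm_intCast]
    push_cast
    rw [abs_mul, abs_of_nonneg (show (0 : ℝ) ≤ (w.1 : ℝ) by (clear * - hw1; positivity))]
    exact mul_le_mul_of_nonneg_left (by exact_mod_cast hw2) (abs_nonneg _)
  -- the size of `γ`
  have hγ : ∀ i, ‖ψ (γ i)‖ ≤ (Cs : ℝ) ^ 2 * (|(a0 : ℝ)| + M) * (A * 2) ^ 6 * (X / T ^ 2) := by
    intro i
    have e1 := congrArg (fun x => ‖ψ x‖) (heq i)
    simp only [map_mul, map_pow, map_sub, norm_mul, norm_pow] at e1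
    have e2 : ‖ψ ((a0 * w.1 : ℤ) : 𝓞 L) - ψ (θ i)‖ ≤ (|(a0 : ℝ)| + M) * X := by
      have e3 := hMi i
      refine (norm_sub_le _ _).trans ?_
      linarith only [mul_nonneg (sub_nonneg.2 hM0) (sub_nonneg.2 hXr), e3, hNr]
    have e4 : ‖ψ (c : 𝓞 L)‖ ≤ Cs := by
      rw [map_intCast, Complex.norm_intCast]
      exact hcr
    have e5 : T / (A * 2) ^ 3 ≤ ‖ψ (K.ell (θ i) y)‖ := by
      refine le_trans (le_of_eq ?_) (hsz i)
      have : T ≠ 0 := by linarith only [hT1]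
      have : A ≠ 0 := by linarith only [hA1]
      field_simp
      try ring
    have e6 : 0 < T / (A * 2) ^ 3 := by (clear * - hT1 hA1; positivity)
    have e7 : (T / (A * 2) ^ 3) ^ 2 * ‖ψ (γ i)‖ ≤ (Cs : ℝ) ^ 2 * ((|(a0 : ℝ)| + M) * X) := by
      calc (T / (A * 2) ^ 3) ^ 2 * ‖ψ (γ i)‖ ≤ ‖ψ (K.ell (θ i) y)‖ ^ 2 * ‖ψ (γ i)‖ :=
            mul_le_mul_of_nonneg_right (pow_le_pow_left₀ e6.le e5 2) (norm_nonneg _)
        _ = ‖ψ (c : 𝓞 L)‖ ^ 2 * ‖ψ ((a0 * w.1 : ℤ) : 𝓞 L) - ψ (θ i)‖ := e1.symm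
        _ ≤ _ := mul_le_mul (pow_le_pow_left₀ (norm_nonneg _) e4 2) e2 (norm_nonneg _)
            (by positivity)
    have e8 : ‖ψ (γ i)‖ = (T / (A * 2) ^ 3) ^ 2 * ‖ψ (γ i)‖ * ((A * 2) ^ 6 / T ^ 2) := by
      have : T ≠ 0 := by linarith only [hT1]
      have : A ≠ 0 := by linarith only [hA1]
      field_simp
      try ring
    rw [e8]
    calc (T / (A * 2) ^ 3) ^ 2 * ‖ψ (γ i)‖ * ((A * 2) ^ 6 / T ^ 2)
        ≤ (Cs : ℝ) ^ 2 * ((|(a0 : ℝ)| + M) * X) * ((A * 2) ^ 6 / T ^ 2) :=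
          mul_le_mul_of_nonneg_right e7 (by (clear * - hA1 hT1; positivity))
      _ = _ := by ring
  have hzT : ∀ j, |(z j : ℝ)| ≤ KZ * X / T ^ 2 := by
    intro j
    have e1 : |(z j : ℝ)| = ‖ψ ((hpol θ γ).coeff j)‖ := by
      rw [hz1 j, map_intCast, Complex.norm_intCast]
    rw [e1]
    unfold hpol
    rw [finsetSum_coeff, map_sum]
    refine (norm_sum_le _ _).trans ?_
    have e2 : ∀ i ∈ (univ : Finset (Fin 4)), ‖ψ ((C (γ i) * ipol θ i).coeff j)‖ ≤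
        (Cs : ℝ) ^ 2 * (|(a0 : ℝ)| + M) * (A * 2) ^ 6 * (X / T ^ 2) *
          ∑ j : Fin 4, ‖ψ ((ipol θ i).coeff j)‖ := by
      intro i _
      rw [coeff_C_mul, map_mul, norm_mul]
      exact mul_le_mul (hγ i) (single_le_sum (f := fun j : Fin 4 => ‖ψ ((ipol θ i).coeff j)‖)
        (fun _ _ => norm_nonneg _) (mem_univ j)) (norm_nonneg _) (by (clear * - hCs1 ha0 hM0 hA1 hX2 hT1; positivity))
    refine (sum_le_sum e2).trans ?_
    rw [← mul_sum, ← hE, hKZ]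
    apply le_of_eq
    ring
  refine ⟨c ^ 2 * D, y, z, ?_⟩
  have hKZc : KZ ≤ ((Cs ^ 2 * D.natAbs + Cs + 2 + a0.natAbs + ⌈KZ⌉₊ : ℕ) : ℝ) := by
    have e1 := Nat.le_ceil KZ
    have e2 : (⌈KZ⌉₊ : ℝ) ≤ ((Cs ^ 2 * D.natAbs + Cs + 2 + a0.natAbs + ⌈KZ⌉₊ : ℕ) : ℝ) := by
      exact_mod_cast Nat.le_add_left _ _
    linarith only [e2, e1]
  constructor
  · exact hwp
  · exact hlo
  · rw [hT4]
    exact_mod_cast hw4
  · exact mul_ne_zero (pow_ne_zero 2 hc0) hD0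
  · rw [abs_mul, abs_pow]
    have e1 : |c| ^ 2 ≤ (Cs : ℤ) ^ 2 := pow_le_pow_left₀ (abs_nonneg _) hcC 2
    push_cast
    have e3 : |c| ^ 2 * |D| ≤ (Cs : ℤ) ^ 2 * |D| := mul_le_mul_of_nonneg_right e1 (abs_nonneg _)
    have e4 : (0 : ℤ) ≤ ⌈KZ⌉₊ := Int.natCast_nonneg _
    have e5 := abs_nonneg a0
    linarith only [e5, e4, e3, hCs1]
  · refine ⟨c, hc0, ?_, hprod⟩
    refine hcC.trans ?_
    have : Cs ≤ Cs ^ 2 * D.natAbs + Cs + 2 + a0.natAbs + ⌈KZ⌉₊ := by omega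
    exact_mod_cast this
  · intro i
    have e1 := heq i
    have e2 := hz2 i
    rw [← e2]
    push_cast at e1 ⊢
    linear_combination (D : 𝓞 L) * e1
  · push_cast
    rw [abs_mul, abs_of_nonneg (show (0 : ℝ) ≤ (w.1 : ℝ) by positivity)]
    have e1 : |(a0 : ℝ)| = (a0.natAbs : ℝ) := by
      rw [Nat.cast_natAbs]
      push_cast
      rfl
    have e2 : (w.1 : ℝ) ≤ X := by exact_mod_cast hw2
    refine mul_le_mul ?_ e2 (by positivity) (by (clear * - hCs1 hD0 ha0; positivity))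
    rw [e1]
    have : a0.natAbs ≤ Cs ^ 2 * D.natAbs + Cs + 2 + a0.natAbs + ⌈KZ⌉₊ := by omega
    exact_mod_cast this
  · intro j
    refine (hyT j).trans (mul_le_mul_of_nonneg_right ?_ (by linarith only [hT1]))
    have : 2 ≤ Cs ^ 2 * D.natAbs + Cs + 2 + a0.natAbs + ⌈KZ⌉₊ := by omega
    exact_mod_cast this
  · intro j
    refine (hzT j).trans ?_
    rw [mul_div_assoc, mul_div_assoc]
    exact mul_le_mul_of_nonneg_right hKZc (by (clear * - hX2 hT1; positivity))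

end Vale.Agent.P018.Q
end
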