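import Mathlib
import Vale.Agent.P018.Bdl.B5
import Vale.Agent.P018.Bdl.B8
import Vale.Agent.P018.Bdl.B1
import Vale.Agent.P018.Bdl.B4
import Vale.Agent.P018.Bdl.B2
import Vale.Agent.P018.Bdl.B7

set_option linter.all false

section

/-! # P018, quartics: bounded number of points for a bounded number of prime numbers. -/

namespace Vale.Agent.P018.Q.GapBad

open Polynomial Finset

/-- uniqueness of Hensel lifts modulo `p ^ 2` -/
theorem hensel_uniq (G : ℤ[X]) {p N N' : ℤ} (hp : Prime p) (h : p ∣ N' - N)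
    (h1 : p ^ 2 ∣ G.eval N) (h2 : p ^ 2 ∣ G.eval N') (hd : ¬ p ∣ (derivative G).eval N) :
    p ^ 2 ∣ N' - N := by
  obtain ⟨k, hk⟩ := binomExpansion G N (N' - N)
  rw [add_sub_cancel] at hk
  have h3 : p ^ 2 ∣ (derivative G).eval N * (N' - N) := by
    have : (derivative G).eval N * (N' - N) = G.eval N' - G.eval N - k * (N' - N) ^ 2 := by
      linear_combination -hk
    rw [this]
    exact dvd_sub (dvd_sub h2 h1) (Dvd.dvd.mul_left (pow_dvd_pow_of_dvd h 2) _)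
  exact (IsCoprime.pow_left ((Prime.coprime_iff_not_dvd hp).2 hd)).dvd_of_dvd_mul_left h3

/-- a nonzero integer divisible by all common divisors of `G(N)` and `G'(N)` -/
theorem exists_disc (G : ℤ[X]) (hGi : Irreducible (G.map (Int.castRingHom ℚ))) :
    ∃ m : ℤ, m ≠ 0 ∧ ∀ p N : ℤ, p ∣ G.eval N → p ∣ (derivative G).eval N → p ∣ m := by
  have hinj : Function.Injective (Int.castRingHom ℚ) := Int.cast_injective
  have hcop : IsCoprime (G.map (Int.castRingHom ℚ)) ((derivative G).map (Int.castRingHom ℚ)) := by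
    have := hGi.separable
    rwa [Separable, derivative_map] at this
  have hres := resultant_ne_zero _ _ hcop
  have h0 : G.natDegree ≠ 0 := by
    rw [← natDegree_map_eq_of_injective hinj]
    exact hGi.natDegree_pos.ne'
  obtain ⟨P, Q, -, -, hPQ⟩ := exists_mul_add_mul_eq_C_resultant G (derivative G)
    (le_refl G.natDegree) (le_refl (derivative G).natDegree) (Or.inl h0)
  refine ⟨resultant G (derivative G), ?_, ?_⟩
  · intro h
    apply hres
    rw [natDegree_map_eq_of_injective hinj, natDegree_map_eq_of_injective hinj, resultant_map_map,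
      h, map_zero]
  · intro p N h1 h2
    have h3 := congrArg (eval N) hPQ
    rw [eval_add, eval_mul, eval_mul, eval_C] at h3
    rw [← h3]
    exact dvd_add (Dvd.dvd.mul_right h1 _) (Dvd.dvd.mul_right h2 _)

/-- two solutions congruent modulo a large prime number are equal -/
theorem uniq_N (G : ℤ[X]) (hGi : Irreducible (G.map (Int.castRingHom ℚ))) (C : ℕ) :
    ∃ K : ℝ, 0 < K ∧ ∀ (p : ℕ) (N N' : ℤ), p.Prime → K ≤ p → |(N : ℝ)| ≤ C * p →
      |(N' : ℝ)| ≤ C * p → (p : ℤ) ^ 2 ∣ G.eval N → (p : ℤ) ^ 2 ∣ G.eval N' →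
      (p : ℤ) ∣ N' - N → N = N' := by
  obtain ⟨m, hm0, hm⟩ := exists_disc G hGi
  refine ⟨|(m : ℝ)| + 2 * C + 1, by (clear * - hm0; positivity), ?_⟩
  intro p N N' hp hK hN hN' h1 h2 h
  have hpm : ¬ (p : ℤ) ∣ m := by
    intro h3
    have h4 := Int.le_of_dvd (abs_pos.2 hm0) ((dvd_abs _ _).2 h3)
    have h5 : (p : ℝ) ≤ |(m : ℝ)| := by exact_mod_cast h4
    have : (0 : ℝ) ≤ C := Nat.cast_nonneg _
    linarith only [this, h5, hK]
  have hpp : Prime (p : ℤ) := Nat.prime_iff_prime_int.1 hp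
  have hd : ¬ (p : ℤ) ∣ (derivative G).eval N := by
    intro h3
    exact hpm (hm _ N ((dvd_pow_self _ (by norm_num)).trans h1) h3)
  have h6 := hensel_uniq G hpp h h1 h2 hd
  by_contra hne
  have hne' : N' - N ≠ 0 := fun h => hne (by omega)
  have h7 := Int.le_of_dvd (abs_pos.2 hne') ((dvd_abs _ _).2 h6)
  have h8 : (p : ℝ) ^ 2 ≤ |(N' : ℝ) - N| := by exact_mod_cast h7
  have h9 : |(N' : ℝ) - N| ≤ |(N' : ℝ)| + |(N : ℝ)| := by
    have := abs_sub (N' : ℝ) (N : ℝ)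
    exact this
  have hp0 : (0 : ℝ) < p := by exact_mod_cast hp.pos
  have h10 : (0 : ℝ) ≤ |(m : ℝ)| := abs_nonneg _
  linarith only [mul_nonneg (sq_nonneg (↑p : ℝ)) (sub_nonneg.2 hK), mul_nonneg (sq_nonneg (↑p : ℝ)) (sub_nonneg.2 h10), mul_nonneg (sub_nonneg.2 hN) (le_of_lt (sub_pos.2 hp0)), mul_nonneg (sub_nonneg.2 hN') (le_of_lt (sub_pos.2 hp0)), mul_nonneg (sub_nonneg.2 h8) (le_of_lt (sub_pos.2 hp0)), mul_nonneg (sub_nonneg.2 h9) (le_of_lt (sub_pos.2 hp0)), mul_pos (sub_pos.2 hp0) (sub_pos.2 hp0)]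

/-- for a given large prime number there are few `N` -/
theorem few_N (G : ℤ[X]) (hG : G.Monic) (hGi : Irreducible (G.map (Int.castRingHom ℚ))) (C : ℕ) :
    ∃ K : ℝ, 0 < K ∧ ∀ (p : ℕ) (S : Finset ℤ), p.Prime → K ≤ p →
      (∀ N ∈ S, |(N : ℝ)| ≤ C * p ∧ (p : ℤ) ^ 2 ∣ G.eval N) → S.card ≤ G.natDegree := by
  obtain ⟨K, hK, hu⟩ := uniq_N G hGi C
  refine ⟨K, hK, ?_⟩
  intro p S hp hKp hS
  classical
  have := Fact.mk hp
  set g : (ZMod p)[X] := G.map (Int.castRingHom (ZMod p)) with hg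
  have hg0 : g ≠ 0 := (hG.map _).ne_zero
  have h1 : S.card ≤ g.roots.toFinset.card := by
    refine Finset.card_le_card_of_injOn (fun N : ℤ => (N : ZMod p)) ?_ ?_
    · intro N hN
      simp only [Finset.mem_coe, Multiset.mem_toFinset]
      rw [mem_roots hg0, IsRoot.def, hg, eval_intCast_map]
      rw [eq_intCast, ZMod.intCast_zmod_eq_zero_iff_dvd]
      exact (dvd_pow_self _ (by norm_num)).trans (hS N hN).2
    · intro N hN N' hN' h
      simp only at h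
      rw [ZMod.intCast_eq_intCast_iff_dvd_sub] at h
      exact hu p N N' hp hKp (hS N hN).1 (hS N' hN').1 (hS N hN).2 (hS N' hN').2 h
  calc S.card ≤ g.roots.toFinset.card := h1
    _ ≤ g.roots.card := Multiset.toFinset_card_le _
    _ ≤ g.natDegree := card_roots' _
    _ ≤ G.natDegree := natDegree_map_le

/-- the number of large primes dividing a bounded integer -/
theorem card_primes (H : ℕ) (hH : 2 ≤ H) (C' : ℕ) (E : ℤ) (hE : E ≠ 0) (hEH : |E| ≤ (H : ℤ) ^ C')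
    (Q : Finset ℕ) (hQ : ∀ p ∈ Q, p.Prime ∧ H ≤ p ∧ (p : ℤ) ∣ E) : Q.card ≤ C' := by
  have h1 : ∏ p ∈ Q, p ∣ E.natAbs := by
    refine Finset.prod_primes_dvd _ (fun p hp => ((hQ p hp).1).prime) fun p hp => ?_
    exact Int.natCast_dvd.1 (hQ p hp).2.2
  have h2 : ∏ p ∈ Q, p ≤ E.natAbs := Nat.le_of_dvd (Int.natAbs_pos.2 hE) h1
  have h3 : H ^ Q.card ≤ ∏ p ∈ Q, p := by
    rw [← Finset.prod_const]
    exact Finset.prod_le_prod' fun p hp => (hQ p hp).2.1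
  have h4 : E.natAbs ≤ H ^ C' := by
    have : (E.natAbs : ℤ) ≤ (H : ℤ) ^ C' := by rw [Int.natCast_natAbs]; exact hEH
    exact_mod_cast this
  exact (Nat.pow_le_pow_iff_right (by omega)).1 (h3.trans (h2.trans h4))

/-- trivial count of integers in an interval -/
theorem card_interval (S : Finset ℤ) (B : ℕ) (h : ∀ N ∈ S, |(N : ℝ)| ≤ B) :
    S.card ≤ 2 * B + 1 := by
  have h1 : S ⊆ Finset.Icc (-(B : ℤ)) B := by
    intro N hN
    have h2 := h N hN
    have h3 : |N| ≤ (B : ℤ) := by exact_mod_cast h2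
    rw [Finset.mem_Icc]
    exact abs_le.1 h3
  have h4 := Finset.card_le_card h1
  rw [Int.card_Icc] at h4
  omega

/-- the number of `N` whose prime number divides a bounded integer is bounded -/
theorem card_bad (G : ℤ[X]) (hG : G.Monic) (hGi : Irreducible (G.map (Int.castRingHom ℚ)))
    (C C' : ℕ) : ∃ K : ℕ, ∀ (H : ℕ) (P : ℝ) (E : ℤ) (S : Finset ℤ) (p : ℤ → ℕ), 2 ≤ H →
      (H : ℝ) ≤ P → E ≠ 0 → |E| ≤ (H : ℤ) ^ C' →
      (∀ N ∈ S, |(N : ℝ)| ≤ C * P ∧ (p N).Prime ∧ P ≤ p N ∧ (p N : ℤ) ^ 2 ∣ G.eval N ∧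
        (p N : ℤ) ∣ E) → S.card ≤ K := by
  classical
  obtain ⟨K, hK, hu⟩ := few_N G hG hGi C
  refine ⟨(2 * ⌈C * K⌉₊ + 1) + G.natDegree * C', ?_⟩
  intro H P E S p hH hHP hE hEH hS
  rcases lt_or_ge P K with hPK | hPK
  · have h1 : S.card ≤ 2 * ⌈C * K⌉₊ + 1 := by
      refine card_interval S _ fun N hN => ?_
      have h2 := (hS N hN).1
      have h3 : (C : ℝ) * P ≤ C * K := mul_le_mul_of_nonneg_left hPK.le (Nat.cast_nonneg _)
      exact h2.trans (h3.trans (Nat.le_ceil _))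
    omega
  · have h1 : (S.image p).card ≤ C' := by
      refine card_primes H hH C' E hE hEH _ fun q hq => ?_
      obtain ⟨N, hN, rfl⟩ := Finset.mem_image.1 hq
      obtain ⟨-, h2, h3, -, h4⟩ := hS N hN
      exact ⟨h2, by exact_mod_cast hHP.trans h3, h4⟩
    have h2 : S.card ≤ G.natDegree * (S.image p).card := by
      refine Finset.card_le_mul_card_image S _ fun q hq => ?_
      obtain ⟨N, hN, rfl⟩ := Finset.mem_image.1 hq
      obtain ⟨-, h2, h3, -, h4⟩ := hS N hN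
      refine hu (p N) _ h2 (hPK.trans h3) fun M hM => ?_
      rw [Finset.mem_filter] at hM
      obtain ⟨h5, -, h6, h7, -⟩ := hS M hM.1
      rw [hM.2] at h6 h7
      exact ⟨h5.trans (mul_le_mul_of_nonneg_left h6 (Nat.cast_nonneg _)), h7⟩
    have h3 : G.natDegree * (S.image p).card ≤ G.natDegree * C' := Nat.mul_le_mul_left _ h1
    omega

end Vale.Agent.P018.Q.GapBad
end

section

/-! # P018, quartics: assembly of the gap lemma for arbitrary parametrised curves. -/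

namespace Vale.Agent.P018.Q.GapP

open Polynomial Gap

/-- reduction to a coprime pair of exact degree. -/
theorem reduce {A B : ℤ[X]} {D : ℕ} (hA0 : A ≠ 0) (hA : A.natDegree ≤ D) (hB : B.natDegree ≤ D) :
    ∃ (D' : ℕ) (A' B' : ℤ[X]), D' ≤ D ∧ A' ∣ A ∧ B' ∣ B ∧ A' ≠ 0 ∧ (B = 0 → B' = 0) ∧
      A'.natDegree ≤ D' ∧ B'.natDegree ≤ D' ∧ (A'.natDegree = D' ∨ B'.natDegree = D') ∧
      IsCoprime (A'.map (Int.castRingHom ℚ)) (B'.map (Int.castRingHom ℚ)) ∧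
      ∀ s t N : ℤ, hom D A s t ≠ 0 → hom D A s t * N = hom D B s t →
        hom D' A' s t ≠ 0 ∧ hom D' A' s t * N = hom D' B' s t := by
  obtain ⟨h, A', B', hAA, hBB, hA'0, hh0, hcop⟩ := exists_red (B := B) hA0
  have hdA : A.natDegree = h.natDegree + A'.natDegree := by
    rw [hAA, natDegree_mul hh0 hA'0]
  have hkey : max A'.natDegree B'.natDegree + h.natDegree ≤ D := by
    rcases le_total B'.natDegree A'.natDegree with h1 | h1
    · rw [max_eq_left h1]; omega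
    · rw [max_eq_right h1]
      rcases eq_or_ne B' 0 with h2 | h2
      · rw [h2, natDegree_zero] at h1 ⊢; omega
      · have hdB : B.natDegree = h.natDegree + B'.natDegree := by
          rw [hBB, natDegree_mul hh0 h2]
        omega
  set D' := max A'.natDegree B'.natDegree with hD'
  have hA' : A'.natDegree ≤ D' := le_max_left _ _
  have hB' : B'.natDegree ≤ D' := le_max_right _ _
  refine ⟨D', A', B', by omega, ⟨h, by rw [hAA]; ring⟩, ?_, hA'0, ?_, hA', hB', ?_, hcop, ?_⟩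
  · exact ⟨h, by rw [hBB]; ring⟩
  · intro h0
    rw [h0] at hBB
    exact (mul_eq_zero.1 hBB.symm).resolve_left hh0
  · rcases max_choice A'.natDegree B'.natDegree with h1 | h1
    · left; rw [hD', h1]
    · right; rw [hD', h1]
  · intro s t N hne heq
    have e : D = (D - D') + D' := by omega
    have hhd : h.natDegree ≤ D - D' := by omega
    have e1 : hom D A s t = hom (D - D') h s t * hom D' A' s t := by
      rw [hAA]
      conv_lhs => rw [e]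
      exact hom_mul _ _ _ _ hhd hA' s t
    have e2 : hom D B s t = hom (D - D') h s t * hom D' B' s t := by
      rw [hBB]
      conv_lhs => rw [e]
      exact hom_mul _ _ _ _ hhd hB' s t
    rw [e1] at hne heq
    rw [e2, mul_assoc] at heq
    exact ⟨right_ne_zero_of_mul hne, mul_left_cancel₀ (left_ne_zero_of_mul hne) heq⟩

theorem hom_raise (D D' : ℕ) (A : ℤ[X]) (hA : A.natDegree ≤ D') (hD : D' ≤ D) (s t : ℤ) :
    hom D A s t = t ^ (D - D') * hom D' A s t := by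
  have e : D = (D - D') + D' := by omega
  have h1 := hom_mul (D - D') D' (1 : ℤ[X]) A (by rw [natDegree_one]; omega) hA s t
  rw [one_mul, ← e] at h1
  rw [h1]
  congr 1
  rw [← C_1, ← monomial_zero_left, hom_monomial _ 0 (Nat.zero_le _)]
  simp

theorem gap_param_of
    (hfh : ∀ D : ℕ, ∃ C : ℕ, ∀ (H : ℕ) (A h : ℤ[X]), 2 ≤ H → A ≠ 0 →
      A.natDegree ≤ D → (∀ i, |A.coeff i| ≤ H) → h ∣ A → ∀ i, |h.coeff i| ≤ (H : ℤ) ^ C)
    (hdr : ∀ D C : ℕ, ∃ C' : ℕ, ∀ (H : ℕ) (F Λ : ℤ[X]), 2 ≤ H → F.natDegree ≤ D →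
      Λ.natDegree ≤ D → Λ ≠ 0 → (∀ i, |F.coeff i| ≤ (H : ℤ) ^ C) →
      (∀ i, |Λ.coeff i| ≤ (H : ℤ) ^ C) →
      ∃ E : ℤ, E ≠ 0 ∧ |E| ≤ (H : ℤ) ^ C' ∧ ∀ (s t : ℤ) (p : ℕ), p.Prime → IsCoprime s t →
        ¬ (p : ℤ) ∣ E → (p : ℤ) ∣ hom Λ.natDegree Λ s t → ¬ (p : ℤ) ^ 2 ∣ hom Λ.natDegree Λ s t →
        (p : ℤ) ^ 2 ∣ hom D F s t → ¬ (p : ℤ) ∣ t ∧ (p : ℤ) ∣ hom (D - 1) (derivative F) s t)
    (G : ℤ[X]) (hG : G.Monic) (hGi : Irreducible (G.map (Int.castRingHom ℚ)))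
    (hGd : 2 ≤ G.natDegree) (D C : ℕ) (ε : ℝ) (hε : 0 < ε) :
    ∃ K : ℝ, 0 < K ∧ ∀ (H : ℕ) (X P : ℝ) (A B Λ : ℤ[X]) (S : Finset ℤ) (s t : ℤ → ℤ)
      (p : ℤ → ℕ), 2 ≤ H → 1 ≤ X → X ≤ P → (H : ℝ) ≤ P →
      A.natDegree ≤ D → B.natDegree ≤ D → Λ.natDegree ≤ D → Λ ≠ 0 →
      (∀ i, |A.coeff i| ≤ (H : ℤ) ^ C) → (∀ i, |B.coeff i| ≤ (H : ℤ) ^ C) →
      (∀ i, |Λ.coeff i| ≤ (H : ℤ) ^ C) →
      (∀ N ∈ S, |(N : ℝ)| ≤ C * X ∧ IsCoprime (s N) (t N) ∧ t N ≠ 0 ∧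
        |s N| ≤ (H : ℤ) ^ C ∧ |t N| ≤ (H : ℤ) ^ C ∧
        hom D A (s N) (t N) ≠ 0 ∧ hom D A (s N) (t N) * N = hom D B (s N) (t N) ∧
        (p N).Prime ∧ P ≤ p N ∧ (p N : ℤ) ^ 2 ∣ G.eval N ∧
        (p N : ℤ) ∣ hom Λ.natDegree Λ (s N) (t N) ∧
        ¬ (p N : ℤ) ^ 2 ∣ hom Λ.natDegree Λ (s N) (t N)) →
      (S.card : ℝ) ≤ K * (H : ℝ) ^ ε := by
  classical
  obtain ⟨C1, hC1⟩ := hfh D
  obtain ⟨C3, hC3⟩ : ∃ C3, C3 = C + (C + 1) * C1 := ⟨_, rfl⟩
  obtain ⟨C2, hC2⟩ := cmp_height G D C3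
  obtain ⟨C4, hC4⟩ := hdr (G.natDegree * D) (C2 + C)
  obtain ⟨C5, hC5⟩ := exists_res D C3
  obtain ⟨K1, hK1⟩ := GapBad.card_bad G hG hGi C C4
  obtain ⟨K2, hK2⟩ := GapBad.card_bad G hG hGi C C5
  obtain ⟨R0, hR0, hR0'⟩ := exists_disc G hGi
  obtain ⟨K3, hK3p, hK3⟩ := gap_lemma D C3 ε hε
  refine ⟨(2 * (C * |(R0 : ℝ)|) + 1) + 1 + (K1 + K2 + 2 * D + K3 * (C + 2)), by (clear * - hR0 hK3p; positivity), ?_⟩
  intro H X P A B Λ S s t p hH hX hXP hHP hA hB hΛ hΛ0 hAH hBH hΛH hS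
  have hH1 : (1 : ℤ) ≤ H := by exact_mod_cast (by omega : 1 ≤ H)
  have hHε : (1 : ℝ) ≤ (H : ℝ) ^ ε :=
    Real.one_le_rpow (by exact_mod_cast (by omega : 1 ≤ H)) hε.le
  have hP1 : 1 ≤ P := hX.trans hXP
  -- it suffices to bound by a sum of constants
  set c1 : ℝ := 2 * (C * |(R0 : ℝ)|) + 1 with hc1
  have hc1p : 0 ≤ c1 := by (clear * - hR0; positivity)
  set c2 : ℝ := K1 + K2 + 2 * D with hc2
  have hc2p : 0 ≤ c2 := by (clear * -; positivity)
  have hc3p : 0 ≤ K3 * (C + 2) := by (clear * - hK3p; positivity)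
  have fin1 : ∀ x : ℝ, x ≤ c1 + 1 → x ≤ (c1 + 1 + (c2 + K3 * (C + 2))) * (H : ℝ) ^ ε := by
    intro x hx
    have h1 : c1 + 1 + (c2 + K3 * (C + 2)) ≤ (c1 + 1 + (c2 + K3 * (C + 2))) * (H : ℝ) ^ ε :=
      le_mul_of_one_le_right (by (clear * - hR0 hK3p; positivity)) hHε
    linarith only [h1, hx, hc3p, hc2p]
  -- the empty case
  rcases S.eq_empty_or_nonempty with hSe | ⟨N0, hN0⟩
  · apply fin1
    rw [hSe]
    simp
    (clear * - hR0; positivity)
  have hA0 : A ≠ 0 := by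
    rintro rfl
    exact (hS N0 hN0).2.2.2.2.2.1 (hom_zero _ _ _)
  obtain ⟨D', A', B', hD'D, hAA, hBB, hA'0, hB0, hA', hB', hAB, hcop, hred⟩ :=
    reduce (B := B) hA0 hA hB
  -- heights
  have hHC : 2 ≤ H ^ (C + 1) := by
    calc 2 ≤ H := hH
      _ = H ^ 1 := (pow_one _).symm
      _ ≤ H ^ (C + 1) := Nat.pow_le_pow_right (by omega) (by omega)
  have hup : ∀ f g : ℤ[X], f ≠ 0 → f.natDegree ≤ D → (∀ i, |f.coeff i| ≤ (H : ℤ) ^ C) → g ∣ f →
      ∀ i, |g.coeff i| ≤ (H : ℤ) ^ C3 := by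
    intro f g hf0 hf hfH hgf i
    have h1 := hC1 (H ^ (C + 1)) f g hHC hf0 hf (fun i => (hfH i).trans (by
      push_cast
      exact pow_le_pow_right₀ hH1 (by omega))) hgf i
    refine h1.trans ?_
    push_cast
    rw [← pow_mul]
    exact pow_le_pow_right₀ hH1 (by omega)
  have hA'H : ∀ i, |A'.coeff i| ≤ (H : ℤ) ^ C3 := hup A A' hA0 hA hAH hAA
  have hB'H : ∀ i, |B'.coeff i| ≤ (H : ℤ) ^ C3 := by
    rcases eq_or_ne B 0 with h0 | h0
    · intro i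
      rw [hB0 h0, coeff_zero, abs_zero]
      positivity
    · exact hup B B' h0 hB hBH hBB
  have hred' : ∀ N ∈ S, hom D' A' (s N) (t N) ≠ 0 ∧
      hom D' A' (s N) (t N) * N = hom D' B' (s N) (t N) := fun N hN =>
    hred _ _ _ (hS N hN).2.2.2.2.2.1 (hS N hN).2.2.2.2.2.2.1
  -- constant curves
  rcases Nat.eq_zero_or_pos D' with hd0 | hd0
  · apply fin1
    have h1 : S.card ≤ 1 := by
      rw [Finset.card_le_one]
      have one : ∀ N ∈ S, A'.coeff 0 ≠ 0 ∧ A'.coeff 0 * N = B'.coeff 0 := by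
        intro N hN
        have h2 := hred' N hN
        rw [hd0] at h2
        simpa [hom] using h2
      intro N hN M hM
      exact mul_left_cancel₀ (one N hN).1 ((one N hN).2.trans (one M hM).2.symm)
    have h2 : (S.card : ℝ) ≤ 1 := by exact_mod_cast h1
    linarith only [h2, hc1p]
  obtain ⟨d, rfl⟩ : ∃ d, D' = d + 1 := ⟨D' - 1, by omega⟩
  -- small prime numbers
  rcases le_or_gt P |(R0 : ℝ)| with hPR | hPR
  · apply fin1
    have h1 := card_small S (C * |(R0 : ℝ)|) (by (clear * - hR0; positivity)) (fun N hN => (hS N hN).1.trans (by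
      have : X ≤ |(R0 : ℝ)| := hXP.trans hPR
      exact mul_le_mul_of_nonneg_left this (Nat.cast_nonneg _)))
    linarith only [h1]
  -- the exceptional divisors
  have hnD : D ≤ G.natDegree * D := Nat.le_mul_of_pos_left _ (by omega)
  have hA'D : A'.natDegree ≤ D := hA'.trans hD'D
  have hB'D : B'.natDegree ≤ D := hB'.trans hD'D
  obtain ⟨E, hE0, hEH, hE⟩ := hC4 H (cmp G A' B') Λ hH (natDegree_cmp G A' B' D hA'D hB'D)
    (hΛ.trans hnD) hΛ0
    (fun i => (hC2 H A' B' hH hA'D hB'D hA'H hB'H i).trans (pow_le_pow_right₀ hH1 (by omega)))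
    (fun i => (hΛH i).trans (pow_le_pow_right₀ hH1 (by omega)))
  obtain ⟨R, hRne, hRH, hR⟩ := hC5 H (d + 1) A' B' hH (by omega) hD'D hA' hB' hAB hcop hA'H hB'H
  set SE := S.filter fun N => (p N : ℤ) ∣ E with hSE
  set SR := S.filter fun N => (p N : ℤ) ∣ R with hSR
  set SW := S.filter fun N => hom (2 * d) (wr A' B') (s N) (t N) = 0 with hSW
  set SG := S.filter fun N => ¬ (p N : ℤ) ∣ E ∧ ¬ (p N : ℤ) ∣ R ∧
    hom (2 * d) (wr A' B') (s N) (t N) ≠ 0 with hSG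
  have hcover : S ⊆ ((SE ∪ SR) ∪ SW) ∪ SG := by
    intro N hN
    simp only [hSE, hSR, hSW, hSG, Finset.mem_union, Finset.mem_filter, hN, true_and]
    tauto
  have hcard : S.card ≤ SE.card + SR.card + SW.card + SG.card :=
    (Finset.card_le_card hcover).trans ((Finset.card_union_le _ _).trans (Nat.add_le_add_right
      ((Finset.card_union_le _ _).trans (Nat.add_le_add_right (Finset.card_union_le _ _) _)) _))
  have hNP : ∀ N ∈ S, |(N : ℝ)| ≤ C * P := fun N hN => (hS N hN).1.trans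
    (mul_le_mul_of_nonneg_left hXP (Nat.cast_nonneg _))
  have h1 : SE.card ≤ K1 := by
    refine hK1 H P E SE p hH hHP hE0 hEH fun N hN => ?_
    obtain ⟨hNS, hNE⟩ := Finset.mem_filter.1 hN
    obtain ⟨-, -, -, -, -, -, -, a8, a9, a10, -⟩ := hS N hNS
    exact ⟨hNP N hNS, a8, a9, a10, hNE⟩
  have h2 : SR.card ≤ K2 := by
    refine hK2 H P R SR p hH hHP hRne hRH fun N hN => ?_
    obtain ⟨hNS, hNE⟩ := Finset.mem_filter.1 hN
    obtain ⟨-, -, -, -, -, -, -, a8, a9, a10, -⟩ := hS N hNS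
    exact ⟨hNP N hNS, a8, a9, a10, hNE⟩
  have h3 : SW.card ≤ 2 * D := by
    refine (card_wr d A' B' hA' hB' (wr_ne_zero hcop (by omega)) SW s t fun N hN => ?_).trans
      (by omega)
    obtain ⟨hNS, hNE⟩ := Finset.mem_filter.1 hN
    exact ⟨(hS N hNS).2.2.1, (hred' N hNS).1, (hred' N hNS).2, hNE⟩
  have h4 : (SG.card : ℝ) ≤ K3 * (H : ℝ) ^ ε * (1 + (C * X + 1) / P) := by
    refine hK3 H (C * X + 1) P (d + 1) A' B' SG s t p hH ?_ hP1 (by omega) hD'D hA' hB' hAB hcop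
      hA'H hB'H fun N hN => ?_
    · have : (0 : ℝ) ≤ C * X := by (clear * - hX; positivity)
      linarith only [this]
    obtain ⟨hNS, hNE, hNR, hNW⟩ := Finset.mem_filter.1 hN
    obtain ⟨a1, a2, a3, a4, a5, -, -, a8, a9, a10, a11, a12⟩ := hS N hNS
    obtain ⟨b1, b2⟩ := hred' N hNS
    have hCC : (H : ℤ) ^ C ≤ (H : ℤ) ^ C3 := pow_le_pow_right₀ hH1 (by omega)
    have hnR : ¬ (p N : ℤ) ∣ hom (d + 1) A' (s N) (t N) := fun h5 =>
      hNR (h5.trans (hR _ _ a2 ⟨N, b2.symm⟩))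
    have hb3 : hom D A' (s N) (t N) * N = hom D B' (s N) (t N) := by
      rw [hom_raise D _ A' hA' hD'D, hom_raise D _ B' hB' hD'D, mul_assoc, b2]
    have hF2 : (p N : ℤ) ^ 2 ∣ hom (G.natDegree * D) (cmp G A' B') (s N) (t N) := by
      rw [hom_cmp G A' B' D hA'D hB'D _ _ N hb3]
      exact Dvd.dvd.mul_left a10 _
    obtain ⟨hpt, hpF⟩ := hE _ _ _ a8 a2 hNE a11 a12 hF2
    have hpG : (p N : ℤ) ∣ G.eval N := (dvd_pow_self _ two_ne_zero).trans a10
    have hpG' : ¬ (p N : ℤ) ∣ (derivative G).eval N := by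
      intro h5
      have h6 := Int.le_of_dvd (abs_pos.2 hR0) ((dvd_abs _ _).2 (hR0' N _ hpG h5))
      have h7 : ((p N : ℕ) : ℝ) ≤ |(R0 : ℝ)| := by exact_mod_cast h6
      linarith only [h7, a9, hPR]
    refine ⟨a1.trans (by linarith only []), a2, a4.trans hCC, a5.trans hCC, b2, b1, a8, a9, hnR, ?_, ?_⟩
    · rw [show 2 * (d + 1) - 2 = 2 * d by omega]
      exact good_wr G (by omega) d D A' B' hA' hB' hD'D (p N) a8 _ _ N hpt hnR b2 hpG hpG' hpF
    · rw [show 2 * (d + 1) - 2 = 2 * d by omega]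
      exact hNW
  have h5 : (1 + (C * X + 1) / P) ≤ (C : ℝ) + 2 := by
    have h6 : (C * X + 1) / P ≤ C + 1 := by
      rw [div_le_iff₀ (by linarith only [hP1])]
      have : (C : ℝ) * X ≤ C * P := mul_le_mul_of_nonneg_left hXP (Nat.cast_nonneg _)
      linarith only [this, hP1]
    linarith only [h6]
  have h6 : (SG.card : ℝ) ≤ K3 * (C + 2) * (H : ℝ) ^ ε := by
    refine h4.trans ?_
    calc K3 * (H : ℝ) ^ ε * (1 + (C * X + 1) / P) ≤ K3 * (H : ℝ) ^ ε * (C + 2) :=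
          mul_le_mul_of_nonneg_left h5 (by (clear * - hK3p hH; positivity))
      _ = _ := by ring
  have h7 : (S.card : ℝ) ≤ SE.card + SR.card + SW.card + SG.card := by exact_mod_cast hcard
  have h8 : (SE.card : ℝ) ≤ K1 := by exact_mod_cast h1
  have h9 : (SR.card : ℝ) ≤ K2 := by exact_mod_cast h2
  have h10 : (SW.card : ℝ) ≤ 2 * D := by exact_mod_cast h3
  have h11 : (S.card : ℝ) ≤ c2 + K3 * (C + 2) * (H : ℝ) ^ ε := by
    rw [hc2]; linarith only [h10, h9, h8, h7, h6]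
  have h12 : c2 ≤ c2 * (H : ℝ) ^ ε := le_mul_of_one_le_right hc2p hHε
  have h13 : 0 ≤ (c1 + 1) * (H : ℝ) ^ ε := by (clear * - hR0 hH; positivity)
  calc (S.card : ℝ) ≤ c2 * (H : ℝ) ^ ε + K3 * (C + 2) * (H : ℝ) ^ ε := by linarith only [h12, h11]
    _ ≤ (c1 + 1 + (c2 + K3 * (C + 2))) * (H : ℝ) ^ ε := by linarith only [h13]

end Vale.Agent.P018.Q.GapP
end

section

/-! # P018, quartics: `double_root`, from the two height lemmas. -/

namespace Vale.Agent.P018.Q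

open Polynomial

/-- relatively prime integer polynomials are coprime over `ℚ`. -/
theorem isCoprime_map_of_isRelPrime {A B : ℤ[X]} (h : IsRelPrime A B) (hA : A ≠ 0) :
    IsCoprime (A.map (Int.castRingHom ℚ)) (B.map (Int.castRingHom ℚ)) := by
  apply IsRelPrime.isCoprime
  intro d hdA hdB
  have hd0 : d ≠ 0 := by
    rintro rfl
    rw [zero_dvd_iff] at hdA
    exact hA ((Polynomial.map_eq_zero_iff Int.cast_injective).1 hdA)
  apply isUnit_or_eq_zero_of_isUnit_integerNormalization_primPart (R := ℤ) hd0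
  set q := (IsLocalization.integerNormalization (nonZeroDivisors ℤ) d).primPart with hq
  have hqp : q.IsPrimitive := isPrimitive_primPart _
  have hqd : q.map (Int.castRingHom ℚ) ∣ d := by
    obtain ⟨b, hb, hbd⟩ := IsLocalization.integerNormalization_spec (nonZeroDivisors ℤ) d
    have h1 : q.map (Int.castRingHom ℚ) ∣
        (IsLocalization.integerNormalization (nonZeroDivisors ℤ) d).map (algebraMap ℤ ℚ) :=
      Polynomial.map_dvd (Int.castRingHom ℚ) (primPart_dvd _)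
    rw [hbd] at h1
    have hb0 : (b : ℚ) ≠ 0 := by
      exact_mod_cast nonZeroDivisors.ne_zero hb
    have h2 : b • d = C (b : ℚ) * d := by
      rw [← smul_eq_C_mul, Int.cast_smul_eq_zsmul]
    rw [h2] at h1
    exact (IsUnit.dvd_mul_left (isUnit_C.2 (isUnit_iff_ne_zero.2 hb0))).1 h1
  exact h ((IsPrimitive.Int.dvd_iff_map_cast_dvd_map_cast q A hqp).2 (hqd.trans hdA))
    ((IsPrimitive.Int.dvd_iff_map_cast_dvd_map_cast q B hqp).2 (hqd.trans hdB))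

/-- `double_root` from `factor_height1` and `res_hom`. -/
theorem double_root_of
    (hfh : ∀ D : ℕ, ∃ C : ℕ, ∀ (H : ℕ) (A h : ℤ[X]), 2 ≤ H → A ≠ 0 →
      A.natDegree ≤ D → (∀ i, |A.coeff i| ≤ H) → h ∣ A → ∀ i, |h.coeff i| ≤ (H : ℤ) ^ C)
    (hres : ∀ D C : ℕ, ∃ C' : ℕ, ∀ (H : ℕ) (A B : ℤ[X]) (D1 D2 : ℕ), 2 ≤ H → A ≠ 0 → B ≠ 0 →
      D1 ≤ D → D2 ≤ D → A.natDegree ≤ D1 → B.natDegree ≤ D2 → (A.natDegree = D1 ∨ B.natDegree = D2) →
      IsCoprime (A.map (Int.castRingHom ℚ)) (B.map (Int.castRingHom ℚ)) →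
      (∀ i, |A.coeff i| ≤ (H : ℤ) ^ C) → (∀ i, |B.coeff i| ≤ (H : ℤ) ^ C) →
      ∃ R : ℤ, R ≠ 0 ∧ |R| ≤ (H : ℤ) ^ C' ∧ ∀ s t d : ℤ, IsCoprime s t →
        d ∣ hom D1 A s t → d ∣ hom D2 B s t → d ∣ R)
    (D C : ℕ) : ∃ C' : ℕ, ∀ (H : ℕ) (F Λ : ℤ[X]), 2 ≤ H → F.natDegree ≤ D →
    Λ.natDegree ≤ D → Λ ≠ 0 → (∀ i, |F.coeff i| ≤ (H : ℤ) ^ C) → (∀ i, |Λ.coeff i| ≤ (H : ℤ) ^ C) →
    ∃ E : ℤ, E ≠ 0 ∧ |E| ≤ (H : ℤ) ^ C' ∧ ∀ (s t : ℤ) (p : ℕ), p.Prime → IsCoprime s t →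
      ¬ (p : ℤ) ∣ E → (p : ℤ) ∣ hom Λ.natDegree Λ s t → ¬ (p : ℤ) ^ 2 ∣ hom Λ.natDegree Λ s t →
      (p : ℤ) ^ 2 ∣ hom D F s t → ¬ (p : ℤ) ∣ t ∧ (p : ℤ) ∣ hom (D - 1) (derivative F) s t := by
  obtain ⟨C1, hC1⟩ := hfh D
  obtain ⟨C2, hC2⟩ := hres D ((C + 1) * C1)
  refine ⟨C + C2, fun H F Λ hH hFD hΛD hΛ0 hF hΛ => ?_⟩
  have hH1 : (1 : ℤ) ≤ H := by exact_mod_cast (by omega : 1 ≤ H)
  have hH2 : (2 : ℤ) ≤ H := by exact_mod_cast hH
  have hHC : 2 ≤ H ^ (C + 1) := by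
    calc 2 ≤ H := hH
      _ = H ^ 1 := (pow_one H).symm
      _ ≤ H ^ (C + 1) := Nat.pow_le_pow_right (by omega) (by omega)
  have hle : (H : ℤ) ^ C ≤ ((H ^ (C + 1) : ℕ) : ℤ) := by
    push_cast
    exact pow_le_pow_right₀ hH1 (by omega)
  have hcoe : (((H ^ (C + 1) : ℕ) : ℤ)) ^ C1 = (H : ℤ) ^ ((C + 1) * C1) := by
    push_cast
    rw [← pow_mul]
  -- the reduced factors
  obtain ⟨Λ2, F2, g, hrel, hgΛ, hgF⟩ :=
    UniqueFactorizationMonoid.exists_reduced_factors Λ hΛ0 F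
  have hg0 : g ≠ 0 := by rintro rfl; exact hΛ0 (by rw [← hgΛ, zero_mul])
  have hΛ20 : Λ2 ≠ 0 := by rintro rfl; exact hΛ0 (by rw [← hgΛ, mul_zero])
  have hdΛ : Λ.natDegree = g.natDegree + Λ2.natDegree := by
    rw [← hgΛ, natDegree_mul hg0 hΛ20]
  have hgD : g.natDegree ≤ D := by omega
  have hF2D : F2.natDegree ≤ D - g.natDegree := by
    by_cases hF20 : F2 = 0
    · rw [hF20]; simp
    · have h1 : F.natDegree = g.natDegree + F2.natDegree := by
        rw [← hgF, natDegree_mul hg0 hF20]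
      omega
  have hF2c : ∀ i, |F2.coeff i| ≤ (H : ℤ) ^ ((C + 1) * C1) := by
    by_cases hF20 : F2 = 0
    · intro i; rw [hF20]; simp only [coeff_zero, abs_zero]; positivity
    · have hF0 : F ≠ 0 := by rw [← hgF]; exact mul_ne_zero hg0 hF20
      intro i
      rw [← hcoe]
      exact hC1 _ F F2 hHC hF0 hFD (fun j => (hF j).trans hle) ⟨g, by rw [← hgF, mul_comm]⟩ i
  have hΛ2c : ∀ i, |Λ2.coeff i| ≤ (H : ℤ) ^ ((C + 1) * C1) := by
    intro i
    rw [← hcoe]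
    exact hC1 _ Λ Λ2 hHC hΛ0 hΛD (fun j => (hΛ j).trans hle) ⟨g, by rw [← hgΛ, mul_comm]⟩ i
  obtain ⟨R, hR0, hRle, hR⟩ : ∃ R : ℤ, R ≠ 0 ∧ |R| ≤ (H : ℤ) ^ C2 ∧ (F2 ≠ 0 → ∀ s t d : ℤ,
      IsCoprime s t → d ∣ hom Λ2.natDegree Λ2 s t → d ∣ hom (D - g.natDegree) F2 s t → d ∣ R) := by
    by_cases hF20 : F2 = 0
    · exact ⟨1, one_ne_zero, by simpa using one_le_pow₀ hH1, fun h => absurd hF20 h⟩
    · obtain ⟨R, h1, h2, h3⟩ := hC2 H Λ2 F2 Λ2.natDegree (D - g.natDegree) hH hΛ20 hF20 (by omega)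
        (by omega) le_rfl hF2D (Or.inl rfl) (isCoprime_map_of_isRelPrime hrel hΛ20) hΛ2c hF2c
      exact ⟨R, h1, h2, fun _ => h3⟩
  refine ⟨Λ.leadingCoeff * R, mul_ne_zero (leadingCoeff_ne_zero.2 hΛ0) hR0, ?_, ?_⟩
  · rw [abs_mul, pow_add]
    exact mul_le_mul (hΛ _) hRle (abs_nonneg _) (by positivity)
  intro s t p hp hst hpE hpΛ hpΛ2 hpF
  have hpp : Prime (p : ℤ) := Nat.prime_iff_prime_int.1 hp
  have hpR : ¬ (p : ℤ) ∣ R := fun h => hpE (h.mul_left _)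
  have hpl : ¬ (p : ℤ) ∣ Λ.leadingCoeff := fun h => hpE (h.mul_right _)
  have hpt : ¬ (p : ℤ) ∣ t := by
    intro ht
    obtain ⟨w, hw⟩ := Gap.hom_top Λ.natDegree Λ s t
    rw [hw] at hpΛ
    have h1 : (p : ℤ) ∣ Λ.coeff Λ.natDegree * s ^ Λ.natDegree :=
      (dvd_add_left (ht.mul_right w)).1 hpΛ
    rcases hpp.dvd_or_dvd h1 with h | h
    · exact hpl h
    · exact hpp.not_isUnit (hst.isUnit_of_dvd' (hpp.dvd_of_dvd_pow h) ht)
  refine ⟨hpt, ?_⟩
  by_cases hF20 : F2 = 0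
  · rw [← hgF, hF20, mul_zero, derivative_zero, Gap.hom_zero]
    exact dvd_zero _
  have eΛ : hom Λ.natDegree Λ s t = hom g.natDegree g s t * hom Λ2.natDegree Λ2 s t := by
    rw [hdΛ, ← Gap.hom_mul _ _ _ _ le_rfl le_rfl, hgΛ]
  have eF : hom D F s t = hom g.natDegree g s t * hom (D - g.natDegree) F2 s t := by
    rw [← Gap.hom_mul _ _ _ _ le_rfl hF2D, hgF, Nat.add_sub_cancel' hgD]
  rw [eΛ] at hpΛ hpΛ2
  rw [eF] at hpF
  -- p divides the common part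
  have hpg : (p : ℤ) ∣ hom g.natDegree g s t := by
    by_contra h
    have h1 : (p : ℤ) ∣ hom Λ2.natDegree Λ2 s t := (hpp.dvd_or_dvd hpΛ).resolve_left h
    have h2 : (p : ℤ) ∣ hom (D - g.natDegree) F2 s t :=
      (hpp.dvd_or_dvd ((dvd_pow_self _ two_ne_zero).trans hpF)).resolve_left h
    exact hpR (hR hF20 s t p hst h1 h2)
  have hpF2 : (p : ℤ) ∣ hom (D - g.natDegree) F2 s t := by
    by_contra h
    have h1 : (p : ℤ) ^ 2 ∣ hom g.natDegree g s t := by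
      have h2 : IsCoprime ((p : ℤ) ^ 2) (hom (D - g.natDegree) F2 s t) :=
        ((Prime.coprime_iff_not_dvd hpp).2 h).pow_left
      exact h2.dvd_of_dvd_mul_right hpF
    exact hpΛ2 (h1.mul_right _)
  -- the derivative
  have e : derivative F = derivative g * F2 + g * derivative F2 := by
    rw [← hgF, derivative_mul]
  rw [e, Gap.hom_add]
  refine dvd_add ?_ ?_
  · by_cases hg1 : g.natDegree = 0
    · rw [natDegree_eq_zero] at hg1
      obtain ⟨c, rfl⟩ := hg1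
      simp [Gap.hom_zero]
    · have h1 : D - 1 = (g.natDegree - 1) + (D - g.natDegree) := by omega
      rw [h1, Gap.hom_mul _ _ _ _ (natDegree_derivative_le g) hF2D]
      exact hpF2.mul_left _
  · by_cases hD1 : D - g.natDegree = 0
    · have h2 : F2.natDegree = 0 := by omega
      rw [natDegree_eq_zero] at h2
      obtain ⟨c, rfl⟩ := h2
      simp [Gap.hom_zero]
    · have h1 : D - 1 = g.natDegree + (D - g.natDegree - 1) := by omega
      rw [h1, Gap.hom_mul _ _ _ _ le_rfl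
        ((natDegree_derivative_le F2).trans (Nat.sub_le_sub_right hF2D 1))]
      exact hpg.mul_right _

end Vale.Agent.P018.Q
end

section

/-! # P018, quartics, gap lemma: heights of factors and the homogeneous resultant. -/

namespace Vale.Agent.P018.Q.GapRes

open Polynomial Gap

/-- heights of factors of integer polynomials in one variable. -/
theorem factor_height1' (D : ℕ) : ∃ C : ℕ, ∀ (H : ℕ) (A h : ℤ[X]), 2 ≤ H → A ≠ 0 →
    A.natDegree ≤ D → (∀ i, |A.coeff i| ≤ H) → h ∣ A → ∀ i, |h.coeff i| ≤ (H : ℤ) ^ C := by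
  refine ⟨2 * D + 1 + 1, ?_⟩
  intro H A h hH hA hD hAH hh i
  have h1 := ht_mignotte hA hh hD hAH i
  have hH2 : (2 : ℤ) ≤ H := by exact_mod_cast hH
  have h2 : (2 : ℤ) ^ D ≤ (H : ℤ) ^ D := pow_le_pow_left₀ (by norm_num) hH2 D
  have h3 : ((D : ℤ) + 1) ≤ (H : ℤ) ^ (D + 1) := by
    have h4 : D + 1 ≤ 2 ^ (D + 1) := Nat.lt_two_pow_self.le
    have h5 : 2 ^ (D + 1) ≤ H ^ (D + 1) := Nat.pow_le_pow_left hH _
    exact_mod_cast h4.trans h5
  calc |h.coeff i| ≤ (2 : ℤ) ^ D * (D + 1) * H := h1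
    _ ≤ (H : ℤ) ^ D * (H : ℤ) ^ (D + 1) * H := by
        have h0 : (0 : ℤ) ≤ (D : ℤ) + 1 := by positivity
        have := mul_le_mul h2 h3 h0 (by positivity)
        exact mul_le_mul_of_nonneg_right this (by positivity)
    _ = (H : ℤ) ^ (2 * D + 1 + 1) := by ring

theorem resultant_ne_zero2 {D1 D2 : ℕ} {A B : ℤ[X]} (hA0 : A ≠ 0) (hB0 : B ≠ 0)
    (hA : A.natDegree ≤ D1)
    (hB : B.natDegree ≤ D2) (hAB : A.natDegree = D1 ∨ B.natDegree = D2)
    (hcop : IsCoprime (A.map (Int.castRingHom ℚ)) (B.map (Int.castRingHom ℚ))) :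
    resultant A B D1 D2 ≠ 0 := by
  have hinj : Function.Injective (Int.castRingHom ℚ) := Int.cast_injective
  set f := A.map (Int.castRingHom ℚ) with hf
  set g := B.map (Int.castRingHom ℚ) with hg
  have hfd : f.natDegree = A.natDegree := natDegree_map_eq_of_injective hinj _
  have hgd : g.natDegree = B.natDegree := natDegree_map_eq_of_injective hinj _
  have hf0 : f ≠ 0 := (Polynomial.map_ne_zero_iff hinj).2 hA0
  have hg0 : g ≠ 0 := (Polynomial.map_ne_zero_iff hinj).2 hB0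
  have h1 : resultant f g D1 D2 ≠ 0 := by
    have h2 := resultant_ne_zero f g hcop
    rcases hAB with h | h
    · have h3 := resultant_add_right_deg f g D1 g.natDegree (D2 - g.natDegree) le_rfl
      rw [Nat.add_sub_cancel' (hgd.trans_le hB)] at h3
      rw [h3]
      refine mul_ne_zero (pow_ne_zero _ ?_) ?_
      · rw [← h, ← hfd, coeff_natDegree, leadingCoeff_ne_zero]
        exact hf0
      · rw [← h, ← hfd]; exact h2
    · have h3 := resultant_add_left_deg f g f.natDegree D2 (D1 - f.natDegree) le_rfl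
      rw [Nat.add_sub_cancel' (hfd.trans_le hA)] at h3
      rw [h3]
      refine mul_ne_zero (mul_ne_zero (pow_ne_zero _ (by norm_num)) (pow_ne_zero _ ?_)) ?_
      · rw [← h, ← hgd, coeff_natDegree, leadingCoeff_ne_zero]
        exact hg0
      · rw [← h, ← hgd]; exact h2
  intro h0
  apply h1
  rw [hf, hg, resultant_map_map, h0, map_zero]

/-- the homogeneous resultant. -/
theorem res_hom' (D C : ℕ) : ∃ C' : ℕ, ∀ (H : ℕ) (A B : ℤ[X]) (D1 D2 : ℕ), 2 ≤ H → A ≠ 0 → B ≠ 0 →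
    D1 ≤ D → D2 ≤ D → A.natDegree ≤ D1 → B.natDegree ≤ D2 → (A.natDegree = D1 ∨ B.natDegree = D2) →
    IsCoprime (A.map (Int.castRingHom ℚ)) (B.map (Int.castRingHom ℚ)) →
    (∀ i, |A.coeff i| ≤ (H : ℤ) ^ C) → (∀ i, |B.coeff i| ≤ (H : ℤ) ^ C) →
    ∃ R : ℤ, R ≠ 0 ∧ |R| ≤ (H : ℤ) ^ C' ∧ ∀ s t d : ℤ, IsCoprime s t →
      d ∣ hom D1 A s t → d ∣ hom D2 B s t → d ∣ R := by
  refine ⟨(2 * D).factorial + C * (2 * D) + C * (2 * D) + C, ?_⟩
  intro H A B D1 D2 hH hA0 hB0 hD1D hD2D hA hB hAB hcop hAc hBc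
  have hH1 : (1 : ℤ) ≤ H := by exact_mod_cast (by omega : 1 ≤ H)
  have hpowC : (H : ℤ) ^ C ≤ (H : ℤ) ^ ((2 * D).factorial + C * (2 * D) + C * (2 * D) + C) :=
    pow_le_pow_right₀ hH1 (by omega)
  rcases Nat.eq_zero_or_pos D1 with h10 | hD1
  · subst h10
    have hA' : A = Polynomial.C (A.coeff 0) := eq_C_of_natDegree_le_zero hA
    refine ⟨A.coeff 0, ?_, (hAc 0).trans hpowC, ?_⟩
    · intro h0
      rw [h0, map_zero] at hA'
      exact hA0 hA'
    · intro s t d _ h1 _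
      simpa [hom] using h1
  rcases Nat.eq_zero_or_pos D2 with h20 | hD2
  · subst h20
    have hB' : B = Polynomial.C (B.coeff 0) := eq_C_of_natDegree_le_zero hB
    refine ⟨B.coeff 0, ?_, (hBc 0).trans hpowC, ?_⟩
    · intro h0
      rw [h0, map_zero] at hB'
      exact hB0 hB'
    · intro s t d _ _ h1
      simpa [hom] using h1
  obtain ⟨P, Q, hP, hQ, hPQ⟩ := exists_mul_add_mul_eq_C_resultant A B hA hB
    (Or.inl (by omega : D1 ≠ 0))
  have hR0 := resultant_ne_zero2 hA0 hB0 hA hB hAB hcop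
  set R0 : ℤ := resultant A B D1 D2 with hR0def
  have hnd : ∀ (P : ℤ[X]) (E : ℕ), 0 < E → P.degree < (E : WithBot ℕ) → P.natDegree ≤ E - 1 := by
    intro P E hE hP
    rcases eq_or_ne P 0 with rfl | h0
    · simp
    · rw [← natDegree_lt_iff_degree_lt h0] at hP
      omega
  -- the coefficient of the top degree
  obtain ⟨a, E, ha0, haC, ha⟩ : ∃ (a : ℤ) (E : ℕ), a ≠ 0 ∧ |a| ≤ (H : ℤ) ^ C ∧
      ∀ s t d : ℤ, d ∣ hom D1 A s t → d ∣ hom D2 B s t → ∃ x w : ℤ, x = a * s ^ E + t * w ∧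
        d ∣ x := by
    rcases hAB with h | h
    · refine ⟨A.coeff D1, D1, ?_, hAc _, ?_⟩
      · rw [← h, coeff_natDegree, leadingCoeff_ne_zero]
        exact hA0
      · intro s t d h1 _
        obtain ⟨w, hw⟩ := hom_top D1 A s t
        exact ⟨_, w, hw, h1⟩
    · refine ⟨B.coeff D2, D2, ?_, hBc _, ?_⟩
      · rw [← h, coeff_natDegree, leadingCoeff_ne_zero]
        exact hB0
      · intro s t d _ hst
        obtain ⟨w, hw⟩ := hom_top D2 B s t
        exact ⟨_, w, hw, hst⟩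
  refine ⟨R0 * a ^ (D1 + (D2 - 1)), mul_ne_zero hR0 (pow_ne_zero _ ha0), ?_, ?_⟩
  · rw [abs_mul, abs_pow]
    have h1 : |R0| ≤ (((D1 + D2).factorial : ℕ) : ℤ) * ((H : ℤ) ^ C) ^ (D1 + D2) :=
      resultant_abs_le A B _ (by positivity) hAc hBc D1 D2
    have h2 : (((D1 + D2).factorial : ℕ) : ℤ) ≤ (H : ℤ) ^ (2 * D).factorial := by
      have h3 : (D1 + D2).factorial ≤ (2 * D).factorial := Nat.factorial_le (by omega)
      have h4 : (2 * D).factorial ≤ 2 ^ (2 * D).factorial := Nat.lt_two_pow_self.le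
      have h5 : 2 ^ (2 * D).factorial ≤ H ^ (2 * D).factorial := Nat.pow_le_pow_left hH _
      exact_mod_cast h3.trans (h4.trans h5)
    have h6 : ((H : ℤ) ^ C) ^ (D1 + D2) ≤ (H : ℤ) ^ (C * (2 * D)) := by
      rw [← pow_mul]
      exact pow_le_pow_right₀ hH1 (Nat.mul_le_mul_left _ (by omega))
    have h7 : |a| ^ (D1 + (D2 - 1)) ≤ (H : ℤ) ^ (C * (2 * D)) := by
      calc |a| ^ (D1 + (D2 - 1)) ≤ ((H : ℤ) ^ C) ^ (D1 + (D2 - 1)) :=
            pow_le_pow_left₀ (abs_nonneg _) haC _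
        _ = (H : ℤ) ^ (C * (D1 + (D2 - 1))) := (pow_mul _ _ _).symm
        _ ≤ _ := pow_le_pow_right₀ hH1 (Nat.mul_le_mul_left _ (by omega))
    have h8 : (H : ℤ) ^ ((2 * D).factorial + C * (2 * D) + C * (2 * D)) ≤
        (H : ℤ) ^ ((2 * D).factorial + C * (2 * D) + C * (2 * D) + C) :=
      pow_le_pow_right₀ hH1 (by omega)
    refine le_trans ?_ h8
    rw [pow_add (H : ℤ) ((2 * D).factorial + C * (2 * D)), pow_add (H : ℤ) (2 * D).factorial]
    refine mul_le_mul (h1.trans ?_) h7 (by positivity) (by positivity)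
    exact mul_le_mul h2 h6 (by positivity) (by positivity)
  · intro s t d hst hdA hdB
    obtain ⟨x, w, hx, hcx⟩ := ha s t d hdA hdB
    refine dvd_of_form hx hcx ?_ hst
    have h1 : hom (D1 + (D2 - 1)) (A * P + B * Q) s t =
        hom D1 A s t * hom (D2 - 1) P s t + hom D2 B s t * hom (D1 - 1) Q s t := by
      rw [hom_add, hom_mul _ _ _ _ hA (hnd P D2 hD2 hP)]
      have hh : D1 + (D2 - 1) = D2 + (D1 - 1) := by omega
      conv_lhs => rw [hh]
      rw [hom_mul _ _ _ _ hB (hnd Q D1 hD1 hQ)]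
    have h2 : hom (D1 + (D2 - 1)) (A * P + B * Q) s t = R0 * t ^ (D1 + (D2 - 1)) := by
      rw [hPQ, ← monomial_zero_left, hom_monomial _ 0 (Nat.zero_le _)]
      simp
    rw [← h2, h1]
    exact dvd_add (Dvd.dvd.mul_right hdA _) (Dvd.dvd.mul_right hdB _)

end Vale.Agent.P018.Q.GapRes
end

section

/-! # P018, quartics: the gap lemma for arbitrary parametrised curves. -/

namespace Vale.Agent.P018.Q

open Polynomial Finset

/-- heights of factors of integer polynomials in one variable. -/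
theorem factor_height1 (D : ℕ) : ∃ C : ℕ, ∀ (H : ℕ) (A h : ℤ[X]), 2 ≤ H → A ≠ 0 →
    A.natDegree ≤ D → (∀ i, |A.coeff i| ≤ H) → h ∣ A → ∀ i, |h.coeff i| ≤ (H : ℤ) ^ C :=
  GapRes.factor_height1' D

/-- the homogeneous resultant. -/
theorem res_hom (D C : ℕ) : ∃ C' : ℕ, ∀ (H : ℕ) (A B : ℤ[X]) (D1 D2 : ℕ), 2 ≤ H → A ≠ 0 → B ≠ 0 →
    D1 ≤ D → D2 ≤ D → A.natDegree ≤ D1 → B.natDegree ≤ D2 → (A.natDegree = D1 ∨ B.natDegree = D2) →
    IsCoprime (A.map (Int.castRingHom ℚ)) (B.map (Int.castRingHom ℚ)) →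
    (∀ i, |A.coeff i| ≤ (H : ℤ) ^ C) → (∀ i, |B.coeff i| ≤ (H : ℤ) ^ C) →
    ∃ R : ℤ, R ≠ 0 ∧ |R| ≤ (H : ℤ) ^ C' ∧ ∀ s t d : ℤ, IsCoprime s t →
      d ∣ hom D1 A s t → d ∣ hom D2 B s t → d ∣ R :=
  GapRes.res_hom' D C

/-- a prime number which divides `Λ(s, t)` exactly once and `F(s, t)` at least twice divides the
derivative of `F`, apart from the divisors of a bounded number `E`. -/
theorem double_root (D C : ℕ) : ∃ C' : ℕ, ∀ (H : ℕ) (F Λ : ℤ[X]), 2 ≤ H → F.natDegree ≤ D →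
    Λ.natDegree ≤ D → Λ ≠ 0 → (∀ i, |F.coeff i| ≤ (H : ℤ) ^ C) → (∀ i, |Λ.coeff i| ≤ (H : ℤ) ^ C) →
    ∃ E : ℤ, E ≠ 0 ∧ |E| ≤ (H : ℤ) ^ C' ∧ ∀ (s t : ℤ) (p : ℕ), p.Prime → IsCoprime s t →
      ¬ (p : ℤ) ∣ E → (p : ℤ) ∣ hom Λ.natDegree Λ s t → ¬ (p : ℤ) ^ 2 ∣ hom Λ.natDegree Λ s t →
      (p : ℤ) ^ 2 ∣ hom D F s t → ¬ (p : ℤ) ∣ t ∧ (p : ℤ) ∣ hom (D - 1) (derivative F) s t :=
  double_root_of factor_height1 res_hom D C

/-- the number of solutions on a parametrised curve `A(s, t) N = B(s, t)`. -/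
theorem gap_param (G : ℤ[X]) (hG : G.Monic) (hGi : Irreducible (G.map (Int.castRingHom ℚ)))
    (hGd : 2 ≤ G.natDegree) (D C : ℕ) (ε : ℝ) (hε : 0 < ε) :
    ∃ K : ℝ, 0 < K ∧ ∀ (H : ℕ) (X P : ℝ) (A B Λ : ℤ[X]) (S : Finset ℤ) (s t : ℤ → ℤ)
      (p : ℤ → ℕ), 2 ≤ H → 1 ≤ X → X ≤ P → (H : ℝ) ≤ P →
      A.natDegree ≤ D → B.natDegree ≤ D → Λ.natDegree ≤ D → Λ ≠ 0 →
      (∀ i, |A.coeff i| ≤ (H : ℤ) ^ C) → (∀ i, |B.coeff i| ≤ (H : ℤ) ^ C) →
      (∀ i, |Λ.coeff i| ≤ (H : ℤ) ^ C) →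
      (∀ N ∈ S, |(N : ℝ)| ≤ C * X ∧ IsCoprime (s N) (t N) ∧ t N ≠ 0 ∧
        |s N| ≤ (H : ℤ) ^ C ∧ |t N| ≤ (H : ℤ) ^ C ∧
        hom D A (s N) (t N) ≠ 0 ∧ hom D A (s N) (t N) * N = hom D B (s N) (t N) ∧
        (p N).Prime ∧ P ≤ p N ∧ (p N : ℤ) ^ 2 ∣ G.eval N ∧
        (p N : ℤ) ∣ hom Λ.natDegree Λ (s N) (t N) ∧
        ¬ (p N : ℤ) ^ 2 ∣ hom Λ.natDegree Λ (s N) (t N)) →
      (S.card : ℝ) ≤ K * (H : ℝ) ^ ε :=
  GapP.gap_param_of factor_height1 double_root G hG hGi hGd D C ε hε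

end Vale.Agent.P018.Q
end

section

/-! # P018, quartics: arithmetic of a single point; two points with the same `σ`. -/

namespace Vale.Agent.P018.Q

open Polynomial NumberField Finset

variable {L : Type} [Field L] [NumberField L]

theorem Dat.C_pos {θ : Fin 4 → 𝓞 L} {C : ℕ} {X T : ℝ} {N : ℤ} {p : ℕ} {c : ℤ}
    {y z : Fin 4 → ℤ} (hd : Dat θ C X T N p c y z) : 1 ≤ C := by
  have h1 := Int.one_le_abs hd.c0
  have h2 := hd.cC
  omega

theorem Dat.T_nonneg {θ : Fin 4 → 𝓞 L} {C : ℕ} {X T : ℝ} {N : ℤ} {p : ℕ} {c : ℤ}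
    {y z : Fin 4 → ℤ} (hd : Dat θ C X T N p c y z) : 0 ≤ T := by
  have h1 : (0 : ℝ) ≤ C * T := (abs_nonneg _).trans (hd.hy 0)
  have h2 : (1 : ℝ) ≤ C := by exact_mod_cast hd.C_pos
  by_contra h
  push Not at h
  linarith only [mul_nonneg (sub_nonneg.2 h2) (le_of_lt (sub_pos.2 h)), h, h1]

theorem Dat.C_lt {θ : Fin 4 → 𝓞 L} {C : ℕ} {X T : ℝ} {N : ℤ} {p : ℕ} {c : ℤ}
    {y z : Fin 4 → ℤ} (hd : Dat θ C X T N p c y z) (h : (C : ℝ) < T ^ 4) : C < p := by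
  have h1 := hd.lo
  exact_mod_cast h.trans_le h1

theorem not_dvd_small {p : ℕ} {C : ℕ} (hCp : C < p) {a : ℤ} (ha : a ≠ 0) (haC : |a| ≤ C) :
    ¬ (p : ℤ) ∣ a := by
  intro h
  have h1 := Int.le_of_dvd (abs_pos.2 ha) ((dvd_abs _ _).2 h)
  omega

/-- `p² ∣ G(N)`. -/
theorem Dat.sq_dvd {G : ℤ[X]} {θ : Fin 4 → 𝓞 L} (hF : Fld G θ) {C : ℕ} {X T : ℝ} {N : ℤ} {p : ℕ}
    {c : ℤ} {y z : Fin 4 → ℤ} (hd : Dat θ C X T N p c y z) (hCp : C < p) :
    (p : ℤ) ^ 2 ∣ G.eval N := by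
  obtain ⟨c', hc'0, hc'C, hc'⟩ := hd.nrm
  have h1 : ∏ i, ((N : 𝓞 L) - θ i) = ((G.eval N : ℤ) : 𝓞 L) := by
    have h2 : (G.map (algebraMap ℤ (𝓞 L))).eval (N : 𝓞 L) = ∏ i, ((N : 𝓞 L) - θ i) := by
      rw [hF.split, eval_prod]
      simp
    rw [← h2]
    simp
  have h3 : (c : 𝓞 L) ^ 4 * ((G.eval N : ℤ) : 𝓞 L) =
      (((p : ℤ) * c' : ℤ) : 𝓞 L) ^ 2 * ∏ i, K.ell (θ i) z := by
    rw [← h1, ← hc']
    have h4 : ∏ i : Fin 4, ((c : 𝓞 L) * ((N : 𝓞 L) - θ i)) =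
        ∏ i, (K.ell (θ i) y ^ 2 * K.ell (θ i) z) := Finset.prod_congr rfl fun i _ => hd.eqn i
    rw [Finset.prod_mul_distrib, Finset.prod_mul_distrib, Finset.prod_const, Finset.card_univ,
      Fintype.card_fin, Finset.prod_pow] at h4
    exact h4
  have h5 : (((p : ℤ) ^ 2 : ℤ) : 𝓞 L) ∣ ((c ^ 4 * G.eval N : ℤ) : 𝓞 L) := by
    refine ⟨(c' : 𝓞 L) ^ 2 * ∏ i, K.ell (θ i) z, ?_⟩
    push_cast at h3 ⊢
    rw [h3]
    ring
  have h6 := rd_int L h5
  have h7 : IsCoprime ((p : ℤ) ^ 2) (c ^ 4) := by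
    refine IsCoprime.pow (rd_cop hd.prime hd.c0 ?_)
    have := hd.cC
    omega
  exact h7.dvd_of_dvd_mul_left h6

/-- `p` does not divide the content of `y`. -/
theorem Dat.not_dvd {θ : Fin 4 → 𝓞 L} {C : ℕ} {X T : ℝ} {N : ℤ} {p : ℕ}
    {c : ℤ} {y z : Fin 4 → ℤ} (hd : Dat θ C X T N p c y z) (hCp : C < p) {g : ℤ}
    {y0 : Fin 4 → ℤ} (hg : y = g • y0) : ¬ (p : ℤ) ∣ g := by
  intro hpg
  obtain ⟨c', hc'0, hc'C, hc'⟩ := hd.nrm
  have h1 : ∀ i, K.ell (θ i) y = (g : 𝓞 L) * K.ell (θ i) y0 := by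
    intro i
    rw [hg]
    have := ell_lin (θ i) g 0 y0 0
    rw [zero_smul, add_zero, Int.cast_zero, zero_mul, add_zero] at this
    exact this
  have h2 : ((g ^ 4 : ℤ) : 𝓞 L) ∣ (((p : ℤ) * c' : ℤ) : 𝓞 L) := by
    refine ⟨∏ i, K.ell (θ i) y0, ?_⟩
    rw [← hc', Finset.prod_congr rfl fun i _ => h1 i, Finset.prod_mul_distrib, Finset.prod_const,
      Finset.card_univ, Fintype.card_fin]
    push_cast
    ring
  have h3 := rd_int L h2
  have h4 : (p : ℤ) ^ 4 ∣ (p : ℤ) * c' := (pow_dvd_pow_of_dvd hpg 4).trans h3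
  have hp0 : (p : ℤ) ≠ 0 := by exact_mod_cast hd.prime.ne_zero
  have h5 : (p : ℤ) ^ 3 ∣ c' := by
    rw [pow_succ' (p : ℤ) 3] at h4
    exact (mul_dvd_mul_iff_left hp0).1 h4
  exact not_dvd_small hCp hc'0 hc'C ((dvd_pow_self (p : ℤ) (by norm_num)).trans h5)

theorem exists_prime_above {p : ℕ} (hp : p.Prime) : ∃ P : Ideal (𝓞 L), P.IsPrime ∧
    ((p : ℤ) : 𝓞 L) ∈ P ∧ ∀ n : ℤ, (n : 𝓞 L) ∈ P → (p : ℤ) ∣ n := by
  have h1 : Ideal.span {((p : ℤ) : 𝓞 L)} ≠ ⊤ := by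
    intro h
    rw [Ideal.span_singleton_eq_top] at h
    have h2 : ((p : ℤ) : 𝓞 L) ∣ ((1 : ℤ) : 𝓞 L) := by
      rw [Int.cast_one]
      exact h.dvd
    have h3 := rd_int L h2
    have h4 := Int.le_of_dvd one_pos h3
    have h5 := hp.two_le
    omega
  obtain ⟨P, hP, hle⟩ := Ideal.exists_le_maximal _ h1
  have hpP : ((p : ℤ) : 𝓞 L) ∈ P := hle (Ideal.mem_span_singleton_self _)
  refine ⟨P, hP.isPrime, hpP, fun n hn => ?_⟩
  by_contra hpn
  have h2 : IsCoprime (p : ℤ) n :=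
    (Nat.prime_iff_prime_int.1 hp).irreducible.coprime_iff_not_dvd.2 hpn
  obtain ⟨a, b, hab⟩ := h2
  refine hP.ne_top ((Ideal.eq_top_iff_one P).2 ?_)
  have h3 : ((a * p + b * n : ℤ) : 𝓞 L) = 1 := by rw [hab, Int.cast_one]
  rw [← h3]
  push_cast
  push_cast at hpP
  exact P.add_mem (P.mul_mem_left _ hpP) (P.mul_mem_left _ hn)

/-- two points with the same `σ = s / t` are equal. -/
theorem pt_unique' {G : ℤ[X]} {θ : Fin 4 → 𝓞 L} (hF : Fld G θ) (C : ℕ) :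
    ∃ K : ℝ, ∀ (X T : ℝ) (l1 l2 : Fin 4 → ℤ) (N N' : ℤ) (p p' : ℕ) (c c' : ℤ) (z z' : Fin 4 → ℤ)
      (s t s' t' : ℤ), K ≤ X → X ≤ T ^ 4 → Pt θ C X T l1 l2 N p c z s t →
      Pt θ C X T l1 l2 N' p' c' z' s' t' → s * t' = s' * t → N = N' := by
  obtain ⟨u, v, R, hR0, hR⟩ := sv_bezout G hF.irr
  refine ⟨2 * C + 1 + |(R : ℝ)|, ?_⟩
  intro X T l1 l2 N N' p p' c c' z z' s t s' t' hK hXT hP hP' hst
  have hRn : (0 : ℝ) ≤ |(R : ℝ)| := abs_nonneg _
  have hC0 : (0 : ℝ) ≤ C := Nat.cast_nonneg C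
  have hCp : C < p := hP.dat.C_lt (by linarith)
  have hCp' : C < p' := hP'.dat.C_lt (by linarith only [hC0, hRn, hXT, hK])
  have hpP := hP.dat.prime
  have hpP' := hP'.dat.prime
  have hpp := Nat.prime_iff_prime_int.1 hpP
  obtain ⟨c1, hc10, hc1C, hc1⟩ := hP.dat.nrm
  obtain ⟨c1', hc10', hc1C', hc1'⟩ := hP'.dat.nrm
  -- proportionality
  set g : ℤ := (Int.gcd s t : ℤ) with hg
  obtain ⟨s0, hs0⟩ : g ∣ s := Int.gcd_dvd_left s t
  obtain ⟨t0, ht0⟩ : g ∣ t := Int.gcd_dvd_right s t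
  have hpg : ¬ (p : ℤ) ∣ g := by
    refine hP.dat.not_dvd hCp (y0 := s0 • l1 + t0 • l2) ?_
    rw [smul_add, smul_smul, smul_smul, ← hs0, ← ht0]
  obtain ⟨m, hm1, hm2⟩ : ∃ m : ℤ, g * s' = m * s ∧ g * t' = m * t := by
    have hb : g = s * Int.gcdA s t + t * Int.gcdB s t := Int.gcd_eq_gcd_ab s t
    refine ⟨s' * Int.gcdA s t + t' * Int.gcdB s t, ?_, ?_⟩
    · rw [hb]
      linear_combination (-Int.gcdB s t) * hst
    · rw [hb]
      linear_combination (Int.gcdA s t) * hst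
  have hell : ∀ i, (g : 𝓞 L) * K.ell (θ i) (s' • l1 + t' • l2) =
      (m : 𝓞 L) * K.ell (θ i) (s • l1 + t • l2) := by
    intro i
    rw [ell_lin, ell_lin]
    have e1 : (g : 𝓞 L) * s' = m * s := by exact_mod_cast congrArg (Int.cast : ℤ → 𝓞 L) hm1
    have e2 : (g : 𝓞 L) * t' = m * t := by exact_mod_cast congrArg (Int.cast : ℤ → 𝓞 L) hm2
    linear_combination K.ell (θ i) l1 * e1 + K.ell (θ i) l2 * e2
  -- the primes are equal
  have hpeq : p = p' := by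
    have h1 : (g : 𝓞 L) ^ 4 * (((p' : ℤ) * c1' : ℤ) : 𝓞 L) =
        (m : 𝓞 L) ^ 4 * (((p : ℤ) * c1 : ℤ) : 𝓞 L) := by
      rw [← hc1, ← hc1']
      have h4 : ∏ i : Fin 4, ((g : 𝓞 L) * K.ell (θ i) (s' • l1 + t' • l2)) =
          ∏ i : Fin 4, ((m : 𝓞 L) * K.ell (θ i) (s • l1 + t • l2)) :=
        Finset.prod_congr rfl fun i _ => hell i
      rw [Finset.prod_mul_distrib, Finset.prod_mul_distrib, Finset.prod_const, Finset.prod_const,
        Finset.card_univ, Fintype.card_fin] at h4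
      exact h4
    have h2 : g ^ 4 * (p' * c1') = m ^ 4 * (p * c1) := by exact_mod_cast h1
    have h3 : (p : ℤ) ∣ g ^ 4 * (p' * c1') := by
      rw [h2]
      exact ⟨m ^ 4 * c1, by ring⟩
    rcases hpp.dvd_or_dvd h3 with h | h
    · exact absurd (hpp.dvd_of_dvd_pow h) hpg
    · rcases hpp.dvd_or_dvd h with h | h
      · have h5 : p ∣ p' := by exact_mod_cast h
        exact (Nat.prime_dvd_prime_iff_eq hpP hpP').1 h5
      · exact absurd h (not_dvd_small hCp hc10' hc1C')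
  subst hpeq
  -- a prime ideal
  obtain ⟨P, hPp, hpmem, hPint⟩ := exists_prime_above (L := L) hpP
  obtain ⟨j, hj⟩ : ∃ j, K.ell (θ j) (s • l1 + t • l2) ∈ P := by
    have h1 : ∏ i, K.ell (θ i) (s • l1 + t • l2) ∈ P := by
      rw [hc1, Int.cast_mul]
      exact P.mul_mem_right _ hpmem
    obtain ⟨j, -, hj⟩ := (Ideal.IsPrime.prod_mem_iff (hp := hPp)).1 h1
    exact ⟨j, hj⟩
  have hj' : K.ell (θ j) (s' • l1 + t' • l2) ∈ P := by
    have h1 : (g : 𝓞 L) * K.ell (θ j) (s' • l1 + t' • l2) ∈ P := by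
      rw [hell]
      exact P.mul_mem_left _ hj
    rcases hPp.mem_or_mem h1 with h | h
    · exact absurd (hPint g h) hpg
    · exact h
  have hNj : (N : 𝓞 L) - θ j ∈ P := by
    have h1 : (c : 𝓞 L) * ((N : 𝓞 L) - θ j) ∈ P := by
      rw [hP.dat.eqn j, sq, mul_assoc]
      exact P.mul_mem_right _ hj
    rcases hPp.mem_or_mem h1 with h | h
    · exact absurd (hPint c h) (not_dvd_small hCp hP.dat.c0 hP.dat.cC)
    · exact h
  have hNj' : (N' : 𝓞 L) - θ j ∈ P := by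
    have h1 : (c' : 𝓞 L) * ((N' : 𝓞 L) - θ j) ∈ P := by
      rw [hP'.dat.eqn j, sq, mul_assoc]
      exact P.mul_mem_right _ hj'
    rcases hPp.mem_or_mem h1 with h | h
    · exact absurd (hPint c' h) (not_dvd_small hCp hP'.dat.c0 hP'.dat.cC)
    · exact h
  have hpN : (p : ℤ) ∣ N' - N := by
    refine hPint _ ?_
    have h1 := P.sub_mem hNj' hNj
    have h2 : ((N' - N : ℤ) : 𝓞 L) = (N' : 𝓞 L) - θ j - ((N : 𝓞 L) - θ j) := by
      push_cast
      ring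
    rw [h2]
    exact h1
  -- Hensel
  have hsq := hP.dat.sq_dvd hF hCp
  have hsq' := hP'.dat.sq_dvd hF hCp
  have hder : ¬ (p : ℤ) ∣ (derivative G).eval N := by
    intro h
    have h1 := congrArg (Polynomial.eval N) hR
    rw [eval_add, eval_mul, eval_mul, eval_C] at h1
    have h2 : (p : ℤ) ∣ G.eval N := (dvd_pow_self (p : ℤ) (by norm_num : 2 ≠ 0)).trans hsq
    have h3 : (p : ℤ) ∣ R := by
      rw [← h1]
      exact dvd_add (Dvd.dvd.mul_left h2 _) (Dvd.dvd.mul_left h _)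
    have h4 := Int.le_of_dvd (abs_pos.2 hR0) ((dvd_abs _ _).2 h3)
    have h5 : (p : ℝ) ≤ |(R : ℝ)| := by exact_mod_cast h4
    have h6 := hP.dat.lo
    linarith only [hK, hXT, h5, h6]
  have hp2 : (p : ℤ) ^ 2 ∣ N' - N := by
    obtain ⟨q, hq⟩ := Polynomial.binomExpansion G N (N' - N)
    rw [add_sub_cancel] at hq
    obtain ⟨w, hw⟩ := hpN
    have h1 : (p : ℤ) ^ 2 ∣ (derivative G).eval N * (N' - N) := by
      have h2 : (derivative G).eval N * (N' - N) = G.eval N' - G.eval N - q * (N' - N) ^ 2 := by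
        rw [hq]; ring
      rw [h2]
      refine dvd_sub (dvd_sub hsq' hsq) ?_
      rw [hw]
      exact ⟨q * w ^ 2, by ring⟩
    refine IsCoprime.dvd_of_dvd_mul_left ?_ h1
    exact (hpp.irreducible.coprime_iff_not_dvd.2 hder).pow_left
  -- size
  by_contra hne
  have h1 : N' - N ≠ 0 := fun h => hne (by omega)
  have h2 := Int.le_of_dvd (abs_pos.2 h1) ((dvd_abs _ _).2 hp2)
  have h3 : (p : ℝ) ^ 2 ≤ |(N' : ℝ) - N| := by exact_mod_cast h2
  have h4 : |(N' : ℝ) - N| ≤ 2 * (C * X) := by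
    refine (abs_sub _ _).trans ?_
    have := hP.dat.hN
    have := hP'.dat.hN
    linarith
  have h5 := hP.dat.lo
  have h6 : X ≤ p := hXT.trans h5
  have hX0 : 0 < X := by linarith only [h4, hRn, hK]
  linarith only [mul_nonneg (sub_nonneg.2 h6) (le_of_lt (sub_pos.2 hX0)), mul_nonneg (sub_nonneg.2 h6) (sub_nonneg.2 h6), mul_nonneg (sub_nonneg.2 hRn) (le_of_lt (sub_pos.2 hX0)), mul_nonneg (sub_nonneg.2 hK) (le_of_lt (sub_pos.2 hX0)), hX0, h4, h3]

end Vale.Agent.P018.Q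
end

section

/-! # P018, quartics: points with `A(σ) N = B(σ)`. -/

namespace Vale.Agent.P018.Q

open Polynomial NumberField Finset

variable {L : Type} [Field L] [NumberField L]

theorem Fld.ell_ne {G : ℤ[X]} {θ : Fin 4 → 𝓞 L} (hF : Fld G θ) {l : Fin 4 → ℤ} (hl : l ≠ 0)
    (j : Fin 4) : K.ell (θ j) l ≠ 0 := by
  obtain ⟨F, _, _, α, σ, hQ⟩ := exists_quartic hF.monic hF.deg hF.irr hF.split
  intro h
  have h1 := hQ.map_ell j l
  rw [h] at h1
  have h2 : σ j (K.ell α l) = 0 := by rw [h1]; exact map_zero _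
  exact hQ.ell_ne_zero hl ((map_eq_zero (σ j)).1 h2)

theorem Fld.natDegree_Lam {G : ℤ[X]} {θ : Fin 4 → 𝓞 L} (hF : Fld G θ) {l1 l2 : Fin 4 → ℤ}
    (hl : l1 ≠ 0) {Λ : ℤ[X]} (hΛ : Λ.map (algebraMap ℤ (𝓞 L)) = ∏ j, piPoly θ l1 l2 j) :
    Λ.natDegree = 4 := by
  have hinj : Function.Injective (algebraMap ℤ (𝓞 L)) := RingHom.injective_int _
  rw [← natDegree_map_eq_of_injective hinj Λ, hΛ]
  have h1 : ∀ j, (piPoly θ l1 l2 j).natDegree = 1 := fun j =>
    natDegree_linear (hF.ell_ne hl j)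
  rw [natDegree_prod _ _ fun j _ h0 => by
    have := h1 j
    rw [h0, natDegree_zero] at this
    omega]
  simp [h1]

theorem hom_Lam {θ : Fin 4 → 𝓞 L} {l1 l2 : Fin 4 → ℤ} {Λ : ℤ[X]}
    (hΛ : Λ.map (algebraMap ℤ (𝓞 L)) = ∏ j, piPoly θ l1 l2 j) (h4 : Λ.natDegree ≤ 4)
    {s t : ℤ} (ht : t ≠ 0) :
    ((hom 4 Λ s t : ℤ) : 𝓞 L) = ∏ j, K.ell (θ j) (s • l1 + t • l2) := by
  apply RingOfIntegers.coe_injective
  have htL : (t : L) ≠ 0 := by exact_mod_cast ht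
  have h1 : (algebraMap (𝓞 L) L) ((hom 4 Λ s t : ℤ) : 𝓞 L) = hom 4 Λ (s : L) (t : L) := by
    rw [map_intCast]
    exact cehom_map (Int.castRingHom L) 4 Λ s t
  have h2 : hom 4 Λ (s : L) (t : L) = (t : L) ^ 4 * aeval ((s : L) / t) Λ := by
    have := cehom_mul (R := L) 4 h4 ((s : L) / t) t
    rwa [div_mul_cancel₀ _ htL] at this
  have h3 : aeval ((s : L) / t) Λ =
      ∏ j, ((algebraMap (𝓞 L) L (K.ell (θ j) l1)) * ((s : L) / t) +
        algebraMap (𝓞 L) L (K.ell (θ j) l2)) := by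
    have h5 : aeval ((s : L) / t) Λ =
        ((Λ.map (algebraMap ℤ (𝓞 L))).map (algebraMap (𝓞 L) L)).eval ((s : L) / t) := by
      rw [Polynomial.map_map, eval_map, aeval_def]
      congr 1
    rw [h5, hΛ, Polynomial.map_prod, eval_prod]
    refine Finset.prod_congr rfl fun j _ => ?_
    simp [piPoly]
  show (algebraMap (𝓞 L) L) _ = (algebraMap (𝓞 L) L) _
  rw [h1, h2, h3, map_prod]
  have h6 : (t : L) ^ 4 = ∏ _j : Fin 4, (t : L) := by simp
  rw [h6, ← Finset.prod_mul_distrib]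
  refine Finset.prod_congr rfl fun j _ => ?_
  rw [ell_lin, map_add, map_mul, map_mul, map_intCast, map_intCast]
  field_simp

/-- the arithmetic of a point, for `gap_param`. -/
theorem pt_prim {G : ℤ[X]} {θ : Fin 4 → 𝓞 L} (hF : Fld G θ) {C : ℕ} {X T : ℝ}
    {l1 l2 : Fin 4 → ℤ} (hl : l1 ≠ 0) {Λ : ℤ[X]}
    (hΛ : Λ.map (algebraMap ℤ (𝓞 L)) = ∏ j, piPoly θ l1 l2 j) {N : ℤ} {p : ℕ} {c : ℤ}
    {z : Fin 4 → ℤ} {s t : ℤ} (hP : Pt θ C X T l1 l2 N p c z s t) (hCp : C < p) (ht : t ≠ 0) :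
    ∃ s0 t0 : ℤ, IsCoprime s0 t0 ∧ t0 ≠ 0 ∧ |s0| ≤ |s| ∧ |t0| ≤ |t| ∧
      ((s0 : ℚ) / t0 = (s : ℚ) / t) ∧ (p : ℤ) ∣ hom Λ.natDegree Λ s0 t0 ∧
      ¬ (p : ℤ) ^ 2 ∣ hom Λ.natDegree Λ s0 t0 := by
  obtain ⟨c1, hc10, hc1C, hc1⟩ := hP.dat.nrm
  have hpp := Nat.prime_iff_prime_int.1 hP.dat.prime
  set g : ℤ := (Int.gcd s t : ℤ) with hg
  obtain ⟨s0, hs0⟩ : g ∣ s := Int.gcd_dvd_left s t
  obtain ⟨t0, ht0⟩ : g ∣ t := Int.gcd_dvd_right s t
  have hpg : ¬ (p : ℤ) ∣ g := by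
    refine hP.dat.not_dvd hCp (y0 := s0 • l1 + t0 • l2) ?_
    rw [smul_add, smul_smul, smul_smul, ← hs0, ← ht0]
  have hg0 : g ≠ 0 := by
    intro h
    rw [h, zero_mul] at ht0
    exact ht ht0
  have ht00 : t0 ≠ 0 := by
    intro h
    rw [h, mul_zero] at ht0
    exact ht ht0
  have hgpos : 1 ≤ |g| := Int.one_le_abs hg0
  have h4 := hF.natDegree_Lam hl hΛ
  rw [h4]
  have hhom : g ^ 4 * hom 4 Λ s0 t0 = p * c1 := by
    have h1 : hom 4 Λ s t = g ^ 4 * hom 4 Λ s0 t0 := by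
      rw [← Gap.hom_smul, ← hs0, ← ht0]
    have h2 := hom_Lam (L := L) hΛ h4.le (s := s) ht
    rw [hc1] at h2
    have h3 : hom 4 Λ s t = p * c1 := by exact_mod_cast h2
    rw [← h1, h3]
  refine ⟨s0, t0, ?_, ht00, ?_, ?_, ?_, ?_, ?_⟩
  · have hb : g = s * Int.gcdA s t + t * Int.gcdB s t := Int.gcd_eq_gcd_ab s t
    refine ⟨Int.gcdA s t, Int.gcdB s t, mul_left_cancel₀ hg0 ?_⟩
    calc g * (Int.gcdA s t * s0 + Int.gcdB s t * t0) =
        (g * s0) * Int.gcdA s t + (g * t0) * Int.gcdB s t := by ring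
      _ = g * 1 := by rw [← hs0, ← ht0, ← hb, mul_one]
  · rw [hs0, abs_mul]
    nlinarith [abs_nonneg s0]
  · rw [ht0, abs_mul]
    nlinarith [abs_nonneg t0]
  · have e1 : (s : ℚ) = g * s0 := by exact_mod_cast hs0
    have e2 : (t : ℚ) = g * t0 := by exact_mod_cast ht0
    have e3 : (g : ℚ) ≠ 0 := by exact_mod_cast hg0
    rw [e1, e2, mul_div_mul_left _ _ e3]
  · have h1 : (p : ℤ) ∣ g ^ 4 * hom 4 Λ s0 t0 := by rw [hhom]; exact dvd_mul_right _ _
    rcases hpp.dvd_or_dvd h1 with h | h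
    · exact absurd (hpp.dvd_of_dvd_pow h) hpg
    · exact h
  · intro h
    have h1 : (p : ℤ) ^ 2 ∣ p * c1 := by
      rw [← hhom]
      exact Dvd.dvd.mul_left h _
    have hp0 : (p : ℤ) ≠ 0 := hpp.ne_zero
    rw [sq] at h1
    exact not_dvd_small hCp hc10 hc1C ((mul_dvd_mul_iff_left hp0).1 h1)

theorem hom_of_aeval {D : ℕ} {A : ℤ[X]} (hA : A.natDegree ≤ D) {s t : ℤ} (ht : t ≠ 0) :
    ((hom D A s t : ℤ) : ℚ) = (t : ℚ) ^ D * aeval ((s : ℚ) / t) A := by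
  have htQ : (t : ℚ) ≠ 0 := by exact_mod_cast ht
  have := cehom_mul (R := ℚ) D hA ((s : ℚ) / t) t
  rw [div_mul_cancel₀ _ htQ] at this
  rw [← this]
  exact cehom_map (Int.castRingHom ℚ) D A s t

theorem abs_le_pow {H C : ℕ} (hH : 2 ≤ H) {T : ℝ} (hT0 : 0 ≤ T) (hT : T ≤ H) {s : ℤ} {m : ℤ}
    (hm : 1 ≤ m) (h : (s : ℝ) ^ 2 * m ≤ C * T ^ 2) : |s| ≤ (H : ℤ) ^ (C + 1) := by
  have h1 : (s : ℝ) ^ 2 ≤ C * T ^ 2 := by
    have h2 : (1 : ℝ) ≤ m := by exact_mod_cast hm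
    linarith only [h, mul_nonneg (sub_nonneg.2 h2) (sq_nonneg (s : ℝ))]
  have hCH : (C : ℝ) ≤ (H : ℝ) ^ C := by
    have : C ≤ H ^ C := (Nat.lt_pow_self (by omega)).le
    exact_mod_cast this
  have hH1 : (1 : ℝ) ≤ H := by exact_mod_cast (by omega : 1 ≤ H)
  have h3 : (s : ℝ) ^ 2 ≤ ((H : ℝ) ^ (C + 1)) ^ 2 := by
    have h4 : T ^ 2 ≤ (H : ℝ) ^ 2 := pow_le_pow_left₀ hT0 hT 2
    have h5 : (C : ℝ) * T ^ 2 ≤ (H : ℝ) ^ C * (H : ℝ) ^ 2 :=
      mul_le_mul hCH h4 (by positivity) (by positivity)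
    refine h1.trans (h5.trans ?_)
    rw [← pow_add, ← pow_mul]
    exact pow_le_pow_right₀ hH1 (by omega)
  have h6 : |(s : ℝ)| ≤ (H : ℝ) ^ (C + 1) := abs_le_of_sq_le_sq h3 (by positivity)
  exact_mod_cast h6

theorem dot_self_pos {l : Fin 4 → ℤ} (hl : l ≠ 0) : 1 ≤ dot l l := by
  obtain ⟨i, hi⟩ := Function.ne_iff.1 hl
  have h1 : l i * l i ≤ dot l l :=
    Finset.single_le_sum (f := fun i => l i * l i) (fun j _ => mul_self_nonneg _) (mem_univ i)
  have h2 : 0 < l i * l i := mul_self_pos.2 hi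
  omega

theorem card_small {C : ℕ} {X : ℝ} {S : Finset ℤ} {M : ℕ} (h : ∀ N ∈ S, |(N : ℝ)| ≤ C * X)
    (hM : C * X ≤ M) : (S.card : ℝ) ≤ 2 * M + 1 := by
  have h1 : S ⊆ Finset.Icc (-(M : ℤ)) M := by
    intro N hN
    have h2 := (h N hN).trans hM
    have h3 : |N| ≤ (M : ℤ) := by exact_mod_cast h2
    rw [Finset.mem_Icc]
    exact abs_le.1 h3
  have h2 := Finset.card_le_card h1
  rw [Int.card_Icc] at h2
  have h3 : ((M : ℤ) + 1 - -(M : ℤ)).toNat = 2 * M + 1 := by omega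
  rw [h3] at h2
  exact_mod_cast h2

/-- points with `A(σ) N = B(σ)`. -/
theorem gap_sigma' {G : ℤ[X]} {θ : Fin 4 → 𝓞 L} (hF : Fld G θ) (D C : ℕ) (ε : ℝ) (hε : 0 < ε) :
    ∃ K : ℝ, 0 < K ∧ ∀ (H : ℕ) (X T : ℝ) (l1 l2 : Fin 4 → ℤ) (A B Λ : ℤ[X]) (S : Finset ℤ),
      2 ≤ H → 1 ≤ X → X ≤ T ^ 4 → (H : ℝ) ≤ T ^ 4 → T ≤ H → X ≤ H →
      (∀ a b : ℤ, a • l1 + b • l2 = 0 → a = 0 ∧ b = 0) →
      Λ.map (algebraMap ℤ (𝓞 L)) = ∏ j, piPoly θ l1 l2 j →
      A.natDegree ≤ D → B.natDegree ≤ D →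
      (∀ i, |A.coeff i| ≤ (H : ℤ) ^ C) → (∀ i, |B.coeff i| ≤ (H : ℤ) ^ C) →
      (∀ i, |Λ.coeff i| ≤ (H : ℤ) ^ C) →
      (∀ N ∈ S, ∃ (p : ℕ) (c : ℤ) (z : Fin 4 → ℤ) (s t : ℤ), Pt θ C X T l1 l2 N p c z s t ∧
        t ≠ 0 ∧ aeval ((s : ℚ) / t) A ≠ 0 ∧
        aeval ((s : ℚ) / t) A * (N : ℚ) = aeval ((s : ℚ) / t) B) →
      (S.card : ℝ) ≤ K * (H : ℝ) ^ ε := by
  obtain ⟨K1, hK1, hgap⟩ := gap_param G hF.monic hF.irr (by rw [hF.deg]; norm_num) (max D 4) (C + 1)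
    ε hε
  refine ⟨K1 + (2 * (C * C : ℕ) + 1), by (clear * - hK1; positivity), ?_⟩
  intro H X T l1 l2 A B Λ S hH hX hXT hHT hTH hXH hl hΛ hA hB hAC hBC hΛC hS
  have hHR : (1 : ℝ) ≤ H := by exact_mod_cast (by omega : 1 ≤ H)
  have hHε : (1 : ℝ) ≤ (H : ℝ) ^ ε := Real.one_le_rpow hHR hε.le
  have hH0 : (0 : ℝ) ≤ (H : ℝ) ^ ε := by positivity
  rcases le_or_gt H C with hHC | hHC
  · -- small `H`
    have h1 : (S.card : ℝ) ≤ 2 * (C * C : ℕ) + 1 := by
      refine card_small (C := C) (X := X) (fun N hN => ?_) ?_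
      · obtain ⟨p, c, z, s, t, hP, -⟩ := hS N hN
        exact hP.dat.hN
      · have h2 : (H : ℝ) ≤ C := by exact_mod_cast hHC
        push_cast
        exact mul_le_mul_of_nonneg_left (hXH.trans h2) (Nat.cast_nonneg _)
    refine h1.trans ?_
    have h3 : (0 : ℝ) ≤ 2 * (C * C : ℕ) + 1 := by (clear * -; positivity)
    linarith only [mul_nonneg (sub_nonneg.2 hHε) (sub_nonneg.2 h3), mul_nonneg (le_of_lt (sub_pos.2 hK1)) (sub_nonneg.2 hHε), hK1]
  have hl1 : l1 ≠ 0 := by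
    rintro rfl
    have := (hl 1 0 (by simp)).1
    omega
  have hl2 : l2 ≠ 0 := by
    rintro rfl
    have := (hl 0 1 (by simp)).2
    omega
  have hCT : (C : ℝ) < T ^ 4 := lt_of_lt_of_le (by exact_mod_cast hHC) hHT
  have hpow : (H : ℤ) ^ C ≤ (H : ℤ) ^ (C + 1) := pow_le_pow_right₀ (by exact_mod_cast (by omega : 1 ≤ H))
    (by omega)
  have key : ∀ N : ℤ, ∃ (s t : ℤ) (p : ℕ), N ∈ S → |(N : ℝ)| ≤ ((C + 1 : ℕ) : ℝ) * X ∧
      IsCoprime s t ∧ t ≠ 0 ∧ |s| ≤ (H : ℤ) ^ (C + 1) ∧ |t| ≤ (H : ℤ) ^ (C + 1) ∧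
      hom (max D 4) A s t ≠ 0 ∧ hom (max D 4) A s t * N = hom (max D 4) B s t ∧
      p.Prime ∧ T ^ 4 ≤ p ∧ (p : ℤ) ^ 2 ∣ G.eval N ∧ (p : ℤ) ∣ hom Λ.natDegree Λ s t ∧
      ¬ (p : ℤ) ^ 2 ∣ hom Λ.natDegree Λ s t := by
    intro N
    by_cases hN : N ∈ S
    swap
    · exact ⟨0, 0, 0, fun h => absurd h hN⟩
    obtain ⟨p, c, z, s, t, hP, ht, hA0, hE⟩ := hS N hN
    have hCp : C < p := hP.dat.C_lt hCT
    obtain ⟨s0, t0, h1, h2, h3, h4, h5, h6, h7⟩ := pt_prim hF hl1 hΛ hP hCp ht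
    have hT0 := hP.dat.T_nonneg
    refine ⟨s0, t0, p, fun _ => ⟨?_, h1, h2, ?_, ?_, ?_, ?_, hP.dat.prime, hP.dat.lo,
      hP.dat.sq_dvd hF hCp, h6, h7⟩⟩
    · refine hP.dat.hN.trans ?_
      push_cast
      linarith only [hX]
    · exact h3.trans (abs_le_pow hH hT0 hTH (dot_self_pos hl1) (by exact_mod_cast hP.hs))
    · exact h4.trans (abs_le_pow hH hT0 hTH (dot_self_pos hl2) (by exact_mod_cast hP.ht))
    · intro h
      have h8 := hom_of_aeval (hA.trans (le_max_left D 4)) (s := s0) h2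
      rw [h, h5, Int.cast_zero] at h8
      have h9 : (t0 : ℚ) ≠ 0 := by exact_mod_cast h2
      rcases mul_eq_zero.1 h8.symm with h10 | h10
      · exact h9 (pow_eq_zero_iff (by (clear * -; positivity)) |>.1 h10)
      · exact hA0 h10
    · have h8 := hom_of_aeval (hA.trans (le_max_left D 4)) (s := s0) h2
      have h9 := hom_of_aeval (hB.trans (le_max_left D 4)) (s := s0) h2
      rw [h5] at h8 h9
      have h10 : ((hom (max D 4) A s0 t0 * N : ℤ) : ℚ) = ((hom (max D 4) B s0 t0 : ℤ) : ℚ) := by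
        push_cast
        rw [h8, h9, mul_assoc, hE]
      exact_mod_cast h10
  choose fs ft fp hfs using key
  have hΛ4 := hF.natDegree_Lam hl1 hΛ
  have h1 := hgap H X (T ^ 4) A B Λ S fs ft fp hH hX hXT hHT (hA.trans (le_max_left _ _))
    (hB.trans (le_max_left _ _)) (by rw [hΛ4]; exact le_max_right _ _)
    (fun h => by rw [h, natDegree_zero] at hΛ4; omega)
    (fun i => (hAC i).trans hpow) (fun i => (hBC i).trans hpow) (fun i => (hΛC i).trans hpow)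
    (fun N hN => hfs N hN)
  refine h1.trans ?_
  refine mul_le_mul_of_nonneg_right ?_ hH0
  have : (0 : ℝ) ≤ 2 * (C * C : ℕ) + 1 := by (clear * -; positivity)
  linarith only [this]

end Vale.Agent.P018.Q
end

section

/-! # P018, quartics: the point of the kappa model attached to a solution, with bounded height. -/

namespace Vale.Agent.P018.Q.PairKp

open Polynomial NumberField Finset

variable {L : Type} [Field L] [NumberField L]

theorem hom_bound {H C0 E : ℕ} (hH : 2 ≤ H) {A : ℤ[X]} (hA : ∀ k, |A.coeff k| ≤ (H : ℤ) ^ C0)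
    {s t : ℤ} (hs : |s| ≤ (H : ℤ) ^ E) (ht : |t| ≤ (H : ℤ) ^ E) :
    |hom 5 A s t| ≤ (H : ℤ) ^ (3 + C0 + 5 * E) := by
  have hH2 : (2 : ℤ) ≤ H := by exact_mod_cast hH
  have h8 : (6 : ℤ) ≤ (H : ℤ) ^ 3 := by
    have : (2 : ℤ) ^ 3 ≤ (H : ℤ) ^ 3 := pow_le_pow_left₀ (by norm_num) hH2 3
    linarith only [this]
  unfold hom
  refine (Finset.abs_sum_le_sum_abs _ _).trans ?_
  have h1 : ∀ i ∈ range (5 + 1), |(A.coeff i : ℤ) * s ^ i * t ^ (5 - i)| ≤
      (H : ℤ) ^ C0 * (H : ℤ) ^ (5 * E) := by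
    intro i hi
    rw [Finset.mem_range] at hi
    have e1 : |s| ^ i ≤ ((H : ℤ) ^ E) ^ i := pow_le_pow_left₀ (abs_nonneg _) hs i
    have e2 : |t| ^ (5 - i) ≤ ((H : ℤ) ^ E) ^ (5 - i) := pow_le_pow_left₀ (abs_nonneg _) ht _
    have e3 : ((H : ℤ) ^ E) ^ i * ((H : ℤ) ^ E) ^ (5 - i) = (H : ℤ) ^ (5 * E) := by
      rw [← pow_add, show i + (5 - i) = 5 by omega, ← pow_mul, mul_comm]
    rw [abs_mul, abs_mul, abs_pow, abs_pow, mul_assoc, ← e3]
    refine mul_le_mul (hA i) (mul_le_mul e1 e2 (by (clear * -; positivity)) (by positivity)) (by (clear * -; positivity))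
      (by positivity)
  refine (Finset.sum_le_card_nsmul _ _ _ h1).trans ?_
  rw [Finset.card_range, nsmul_eq_mul, pow_add, pow_add, mul_assoc]
  refine mul_le_mul_of_nonneg_right ?_ (by positivity)
  push_cast
  linarith only [h8]

theorem num_den_le {κ : ℚ} {U V : ℤ} (hV : V ≠ 0) (h : κ * V = U) {M : ℤ} (hU : |U| ≤ M)
    (hVM : |V| ≤ M) : |κ.num| ≤ M ∧ |(κ.den : ℤ)| ≤ M := by
  have hd : (κ.den : ℚ) ≠ 0 := by exact_mod_cast κ.den_nz
  have h1 : κ.num * V = U * κ.den := by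
    have h2 : (κ.num : ℚ) * V = U * κ.den := by
      rw [← h]
      nth_rewrite 2 [← Rat.num_div_den κ]
      field_simp
    exact_mod_cast h2
  have hcop : IsCoprime κ.num (κ.den : ℤ) := Rat.isCoprime_num_den κ
  have hdV : (κ.den : ℤ) ∣ V := by
    have : (κ.den : ℤ) ∣ κ.num * V := by rw [h1]; exact dvd_mul_left _ _
    exact hcop.symm.dvd_of_dvd_mul_left this
  have hden : |(κ.den : ℤ)| ≤ |V| :=
    Int.le_of_dvd (abs_pos.2 hV) ((abs_dvd_abs _ _).2 hdV)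
  refine ⟨?_, hden.trans hVM⟩
  rcases eq_or_ne U 0 with h0 | h0
  · rw [h0, zero_mul] at h1
    rcases mul_eq_zero.1 h1 with h2 | h2
    · rw [h2, abs_zero]
      exact (abs_nonneg _).trans hVM
    · exact absurd h2 hV
  · have hnU : κ.num ∣ U := by
      have : κ.num ∣ U * (κ.den : ℤ) := by rw [← h1]; exact dvd_mul_right _ _
      exact hcop.dvd_of_dvd_mul_right this
    exact (Int.le_of_dvd (abs_pos.2 h0) ((abs_dvd_abs _ _).2 hnU)).trans hU

/-- the point of the kappa model attached to a solution, with coordinates of bounded height;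
in the remaining case `N` is on the rational curve `A 1 (σ) N = B 1 (σ)`. -/
theorem exists_kp {G : ℤ[X]} {θ : Fin 4 → 𝓞 L} (hF : Fld G θ) (C C0 : ℕ) : ∃ C1 : ℕ,
    ∀ (H : ℕ) (X T : ℝ) (l1 l2 : Fin 4 → ℤ) (d : Fin 2 → ℕ)
      (A B : Fin 2 → ℤ[X]) (Z : Fin 2 → Fin 4 → ℤ[X]) (Λ : ℤ[X]) (e : ℤ)
      (N : ℤ) (p : ℕ) (c : ℤ) (z : Fin 4 → ℤ) (s t : ℤ),
      2 ≤ H → X ≤ H → T ≤ H → t ≠ 0 → l1 ≠ 0 → l2 ≠ 0 → KData θ l1 l2 d A B Z Λ e →
      (∀ i k, |(A i).coeff k| ≤ (H : ℤ) ^ C0) → (∀ i k, |(B i).coeff k| ≤ (H : ℤ) ^ C0) →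
      Pt θ C X T l1 l2 N p c z s t →
      (aeval ((s : ℚ) / t) (A 1) ≠ 0 ∧
        aeval ((s : ℚ) / t) (A 1) * (N : ℚ) = aeval ((s : ℚ) / t) (B 1)) ∨
      ∃ kn kd : ℤ, KP A B Z N c s t kn kd z ∧ |kn| ≤ (H : ℤ) ^ C1 ∧ |kd| ≤ (H : ℤ) ^ C1 := by
  refine ⟨1 + (3 + C0 + 5 * (C + 1)) + (C + 1), ?_⟩
  intro H X T l1 l2 d A B Z Λ e N p c z s t hH hXH hTH ht hl1 hl2 hK hAC hBC hP
  obtain ⟨c1, hc10, hc1C, hc1⟩ := hP.dat.nrm
  have hp0 : (p : ℤ) ≠ 0 := by exact_mod_cast hP.dat.prime.ne_zero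
  have hpc : (p : ℤ) * c1 ≠ 0 := mul_ne_zero hp0 hc10
  have hpcL : (((p : ℤ) * c1 : ℤ) : 𝓞 L) ≠ 0 := by exact_mod_cast hpc
  have hy : ∀ j, K.ell (θ j) (s • l1 + t • l2) ≠ 0 := by
    intro j hj
    apply hpcL
    rw [← hc1]
    exact Finset.prod_eq_zero (Finset.mem_univ j) hj
  rcases kappa_point G hF.monic hF.deg hF.irr θ hF.inj hF.split hK hP.dat.c0 ht hy hP.dat.eqn with
    h | ⟨κ, h1, h2, h3⟩
  · exact Or.inl h
  right
  have hT0 := hP.dat.T_nonneg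
  have hHR : (1 : ℝ) ≤ H := by exact_mod_cast (by omega : 1 ≤ H)
  have hH2 : (2 : ℤ) ≤ H := by exact_mod_cast hH
  have hsE := abs_le_pow hH hT0 hTH (dot_self_pos hl1) (by exact_mod_cast hP.hs)
  have htE := abs_le_pow hH hT0 hTH (dot_self_pos hl2) (by exact_mod_cast hP.ht)
  have hN : |N| ≤ (H : ℤ) ^ (C + 1) := by
    have e1 : |(N : ℝ)| ≤ (H : ℝ) ^ (C + 1) := by
      have hCH : (C : ℝ) ≤ (H : ℝ) ^ C := by
        have : C ≤ H ^ C := (Nat.lt_pow_self (by omega)).le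
        exact_mod_cast this
      refine hP.dat.hN.trans ?_
      calc (C : ℝ) * X ≤ C * H := mul_le_mul_of_nonneg_left hXH (Nat.cast_nonneg _)
        _ ≤ (H : ℝ) ^ C * H := mul_le_mul_of_nonneg_right hCH (by positivity)
        _ = (H : ℝ) ^ (C + 1) := by rw [pow_succ]
    exact_mod_cast e1
  set σ : ℚ := (s : ℚ) / t with hσ
  have hd5 : ∀ i, d i ≤ 5 := by
    intro i
    rcases hK.dd with h | h
    · fin_cases i
      · exact h.1.le.trans (by norm_num)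
      · exact h.2.le.trans (by norm_num)
    · fin_cases i
      · exact h.1.le.trans (by norm_num)
      · exact h.2.le
  have hA5 : ∀ i, (A i).natDegree ≤ 5 := fun i => (hK.dA i).trans (hd5 i)
  have hB5 : ∀ i, (B i).natDegree ≤ 5 := fun i => (hK.dB i).trans (hd5 i)
  -- the determinant does not vanish
  have hΛ0 : aeval σ Λ ≠ 0 := by
    intro h0
    have h4 := hF.natDegree_Lam hl1 hK.hΛ
    have e1 := hom_Lam (L := L) hK.hΛ h4.le (s := s) ht
    rw [hc1] at e1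
    have e2 : hom 4 Λ s t = p * c1 := by exact_mod_cast e1
    have e3 := hom_of_aeval h4.le (s := s) ht
    rw [← hσ, h0, mul_zero, e2] at e3
    exact hpc (by exact_mod_cast e3)
  have hdet : aeval σ (A 0) * aeval σ (B 1) - aeval σ (A 1) * aeval σ (B 0) ≠ 0 := by
    have e1 := congrArg (aeval σ) hK.det
    simp only [map_sub, map_mul, map_pow] at e1
    rw [e1]
    refine mul_ne_zero ?_ (pow_ne_zero _ hΛ0)
    simpa using hK.c0
  have hne : aeval σ (A 1) * (N : ℚ) - aeval σ (B 1) ≠ 0 := by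
    intro h0
    have e1 : aeval σ (B 1) = aeval σ (A 1) * N := by linarith
    rw [e1] at h2
    have e2 : aeval σ (B 0) = aeval σ (A 0) * N := by linarith
    apply hdet
    rw [e1, e2]
    ring
  set U : ℤ := hom 5 (B 0) s t - hom 5 (A 0) s t * N with hU
  set V : ℤ := hom 5 (A 1) s t * N - hom 5 (B 1) s t with hV
  have htQ : (t : ℚ) ≠ 0 := by exact_mod_cast ht
  have hUq : (U : ℚ) = (t : ℚ) ^ 5 * (aeval σ (B 0) - aeval σ (A 0) * N) := by
    rw [hU]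
    push_cast
    rw [hom_of_aeval (hB5 0) ht, hom_of_aeval (hA5 0) ht]
    ring
  have hVq : (V : ℚ) = (t : ℚ) ^ 5 * (aeval σ (A 1) * N - aeval σ (B 1)) := by
    rw [hV]
    push_cast
    rw [hom_of_aeval (hB5 1) ht, hom_of_aeval (hA5 1) ht]
    ring
  have hV0 : V ≠ 0 := by
    intro h0
    rw [h0, Int.cast_zero] at hVq
    rcases mul_eq_zero.1 hVq.symm with h4 | h4
    · exact htQ (pow_eq_zero_iff (by norm_num) |>.1 h4)
    · exact hne h4
  have hκ : κ * V = U := by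
    rw [hUq, hVq]
    linear_combination (t : ℚ) ^ 5 * h2
  have hbd : ∀ (P Q : ℤ[X]), (∀ k, |P.coeff k| ≤ (H : ℤ) ^ C0) →
      (∀ k, |Q.coeff k| ≤ (H : ℤ) ^ C0) →
      |hom 5 P s t * N - hom 5 Q s t| ≤ (H : ℤ) ^ (1 + (3 + C0 + 5 * (C + 1)) + (C + 1)) := by
    intro P Q hP' hQ'
    have e1 := hom_bound hH hP' hsE htE
    have e2 := hom_bound hH hQ' hsE htE
    have e3 : (1 : ℤ) ≤ (H : ℤ) ^ (C + 1) := one_le_pow₀ (by linarith only [hH2])
    have e4 : |hom 5 P s t * N| ≤ (H : ℤ) ^ (3 + C0 + 5 * (C + 1)) * (H : ℤ) ^ (C + 1) := by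
      rw [abs_mul]
      exact mul_le_mul e1 hN (abs_nonneg _) (by positivity)
    have e5 : |hom 5 Q s t| ≤ (H : ℤ) ^ (3 + C0 + 5 * (C + 1)) * (H : ℤ) ^ (C + 1) :=
      e2.trans (le_mul_of_one_le_right (by positivity) e3)
    refine (abs_sub _ _).trans ?_
    rw [pow_add (H : ℤ) (1 + _), pow_add (H : ℤ) 1, pow_one, mul_assoc]
    have e6 : (0 : ℤ) ≤ (H : ℤ) ^ (3 + C0 + 5 * (C + 1)) * (H : ℤ) ^ (C + 1) := by positivity
    linarith only [e4, e5, mul_nonneg (sub_nonneg.2 hH2) (sub_nonneg.2 e6)]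
  have hUb : |U| ≤ (H : ℤ) ^ (1 + (3 + C0 + 5 * (C + 1)) + (C + 1)) := by
    rw [hU, abs_sub_comm]
    exact hbd _ _ (hAC 0) (hBC 0)
  have hVb : |V| ≤ (H : ℤ) ^ (1 + (3 + C0 + 5 * (C + 1)) + (C + 1)) := hbd _ _ (hAC 1) (hBC 1)
  obtain ⟨hnum, hden⟩ := num_den_le hV0 hκ hUb hVb
  have hd0 : (κ.den : ℚ) ≠ 0 := by exact_mod_cast κ.den_nz
  have hkn : ((κ.num : ℤ) : ℚ) = κ * κ.den := (Rat.mul_den_eq_num κ).symm
  refine ⟨κ.num, κ.den, ⟨ht, by exact_mod_cast κ.den_nz, Rat.isCoprime_num_den κ, ?_, ?_, ?_⟩,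
    hnum, hden⟩
  · rw [hkn, Int.cast_natCast]
    have : (κ.den : ℚ) * aeval σ (A 0) + κ * κ.den * aeval σ (A 1) =
        κ.den * (aeval σ (A 0) + κ * aeval σ (A 1)) := by ring
    rw [this]
    exact mul_ne_zero hd0 h1
  · rw [hkn, Int.cast_natCast]
    linear_combination (κ.den : ℚ) * h2
  · intro m
    rw [hkn, Int.cast_natCast]
    linear_combination (κ.den : ℚ) * h3 m

end Vale.Agent.P018.Q.PairKp
end

section

/-! # P018, quartics: points on a curve of degree at most one in `κ`. -/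

namespace Vale.Agent.P018.Q

open Polynomial NumberField Finset

variable {L : Type} [Field L] [NumberField L]

theorem Dat.mono {θ : Fin 4 → 𝓞 L} {C C' : ℕ} (hC : C ≤ C') {X T : ℝ} (hX : 0 ≤ X) {N : ℤ}
    {p : ℕ} {c : ℤ} {y z : Fin 4 → ℤ} (hd : Dat θ C X T N p c y z) :
    Dat θ C' X T N p c y z := by
  have hT := hd.T_nonneg
  have hCR : (C : ℝ) ≤ C' := by exact_mod_cast hC
  have hCZ : (C : ℤ) ≤ C' := by exact_mod_cast hC
  obtain ⟨c', h1, h2, h3⟩ := hd.nrm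
  refine ⟨hd.prime, hd.lo, hd.hi, hd.c0, hd.cC.trans hCZ, ⟨c', h1, h2.trans hCZ, h3⟩, hd.eqn,
    ?_, ?_, ?_⟩
  · exact hd.hN.trans (by gcongr)
  · exact fun j => (hd.hy j).trans (by gcongr)
  · exact fun j => (hd.hz j).trans (by gcongr)

theorem Pt.mono {θ : Fin 4 → 𝓞 L} {C C' : ℕ} (hC : C ≤ C') {X T : ℝ} (hX : 0 ≤ X)
    {l1 l2 : Fin 4 → ℤ} {N : ℤ} {p : ℕ} {c : ℤ} {z : Fin 4 → ℤ} {s t : ℤ}
    (hP : Pt θ C X T l1 l2 N p c z s t) : Pt θ C' X T l1 l2 N p c z s t := by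
  have hCR : (C : ℝ) ≤ C' := by exact_mod_cast hC
  exact ⟨hP.dat.mono hC hX, hP.hs.trans (by gcongr), hP.ht.trans (by gcongr)⟩

theorem ev_deg_one {g : ℤ[X][X]} (hg : g.natDegree ≤ 1) (κ σ : ℚ) :
    ev (g.map (mapRingHom (Int.castRingHom ℚ))) κ σ =
      aeval σ (g.coeff 0) + aeval σ (g.coeff 1) * κ := by
  rw [← evr_rat, evr, eval₂_eq_sum_range' _ (by omega : g.natDegree < 2)]
  simp [Finset.sum_range_succ]

theorem abs_coeff_mul_le1 {p q : ℤ[X]} {D : ℕ} {a b : ℤ} (hp : p.natDegree ≤ D)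
    (hpa : ∀ i, |p.coeff i| ≤ a) (hqb : ∀ i, |q.coeff i| ≤ b) (k : ℕ) :
    |(p * q).coeff k| ≤ (D + 1) * (a * b) := by
  have ha : 0 ≤ a := (abs_nonneg _).trans (hpa 0)
  have hb : 0 ≤ b := (abs_nonneg _).trans (hqb 0)
  have h1 : (p * q).coeff k =
      ∑ i ∈ Finset.range (D + 1), (monomial i (p.coeff i) * q).coeff k := by
    conv_lhs => rw [p.as_sum_range' (D + 1) (by omega), Finset.sum_mul, finsetSum_coeff]
  rw [h1]
  refine (Finset.abs_sum_le_sum_abs _ _).trans ?_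
  have h2 : ∀ i ∈ Finset.range (D + 1), |(monomial i (p.coeff i) * q).coeff k| ≤ a * b := by
    intro i _
    by_cases h : i ≤ k
    · obtain ⟨j, rfl⟩ := Nat.exists_eq_add_of_le h
      rw [add_comm i j, coeff_monomial_mul, abs_mul]
      exact mul_le_mul (hpa i) (hqb j) (abs_nonneg _) ha
    · rw [← C_mul_X_pow_eq_monomial, mul_assoc, coeff_C_mul, coeff_X_pow_mul', if_neg h,
        mul_zero, abs_zero]
      exact mul_nonneg ha hb
  refine (Finset.sum_le_sum h2).trans ?_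
  simp

theorem coeff_bound_one {H C D : ℕ} (hH : 2 ≤ H) {g0 g1 A0 A1 : ℤ[X]} (h0 : g0.natDegree ≤ D)
    (h1 : g1.natDegree ≤ D) (hg0 : ∀ i, |g0.coeff i| ≤ (H : ℤ) ^ C)
    (hg1 : ∀ i, |g1.coeff i| ≤ (H : ℤ) ^ C) (hA0 : ∀ i, |A0.coeff i| ≤ (H : ℤ) ^ C)
    (hA1 : ∀ i, |A1.coeff i| ≤ (H : ℤ) ^ C) (k : ℕ) :
    |(g1 * A0 - g0 * A1).coeff k| ≤ (H : ℤ) ^ (2 * C + (D + 1)) := by
  have e1 := abs_coeff_mul_le1 h1 hg1 hA0 k
  have e2 := abs_coeff_mul_le1 h0 hg0 hA1 k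
  have e3 : (H : ℤ) ^ C * (H : ℤ) ^ C = (H : ℤ) ^ (2 * C) := by rw [← pow_add]; ring_nf
  rw [e3] at e1 e2
  rw [coeff_sub]
  have e4 := abs_sub ((g1 * A0).coeff k) ((g0 * A1).coeff k)
  have e5 : (2 * (D + 1) : ℤ) ≤ (H : ℤ) ^ (D + 1) := by
    have h2 : 2 * (D + 1) ≤ 2 ^ (D + 1) := by
      have := Nat.lt_two_pow_self (n := D)
      rw [pow_succ]
      omega
    have h3 : 2 ^ (D + 1) ≤ H ^ (D + 1) := Nat.pow_le_pow_left hH _
    exact_mod_cast h2.trans h3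
  have e6 : (0 : ℤ) ≤ (H : ℤ) ^ (2 * C) := by positivity
  calc |(g1 * A0).coeff k - (g0 * A1).coeff k|
      ≤ |(g1 * A0).coeff k| + |(g0 * A1).coeff k| := e4
    _ ≤ (D + 1) * (H : ℤ) ^ (2 * C) + (D + 1) * (H : ℤ) ^ (2 * C) := add_le_add e1 e2
    _ = (2 * (D + 1)) * (H : ℤ) ^ (2 * C) := by ring
    _ ≤ (H : ℤ) ^ (D + 1) * (H : ℤ) ^ (2 * C) := mul_le_mul_of_nonneg_right e5 e6
    _ = (H : ℤ) ^ (2 * C + (D + 1)) := by rw [← pow_add]; ring_nf

/-- points on a curve of degree `≤ 1` in `κ`. -/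
theorem gap_one' {G : ℤ[X]} {θ : Fin 4 → 𝓞 L} (hF : Fld G θ) (D C : ℕ) (ε : ℝ) (hε : 0 < ε) :
    ∃ K : ℝ, 0 < K ∧ ∀ (H : ℕ) (X T : ℝ) (l1 l2 : Fin 4 → ℤ) (d : Fin 2 → ℕ)
      (A B : Fin 2 → ℤ[X]) (Z : Fin 2 → Fin 4 → ℤ[X]) (Λ : ℤ[X]) (e : ℤ) (g : ℤ[X][X])
      (S : Finset ℤ),
      2 ≤ H → 1 ≤ X → X ≤ T ^ 4 → (H : ℝ) ≤ T ^ 4 → T ≤ H → X ≤ H →
      (∀ a b : ℤ, a • l1 + b • l2 = 0 → a = 0 ∧ b = 0) → KData θ l1 l2 d A B Z Λ e →
      (∀ i k, |(A i).coeff k| ≤ (H : ℤ) ^ C) → (∀ i k, |(B i).coeff k| ≤ (H : ℤ) ^ C) →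
      (∀ k, |Λ.coeff k| ≤ (H : ℤ) ^ C) →
      Irreducible (g.map (mapRingHom (Int.castRingHom ℚ))) → BiDeg D D g → g.natDegree ≤ 1 →
      (∀ i j, |(g.coeff i).coeff j| ≤ (H : ℤ) ^ C) →
      (∀ N ∈ S, ∃ (p : ℕ) (c : ℤ) (z : Fin 4 → ℤ) (s t kn kd : ℤ),
        Pt θ C X T l1 l2 N p c z s t ∧ KP A B Z N c s t kn kd z ∧
        ev (g.map (mapRingHom (Int.castRingHom ℚ))) ((kn : ℚ) / kd) ((s : ℚ) / t) = 0) →
      (S.card : ℝ) ≤ K * (H : ℝ) ^ ε := by
  obtain ⟨K1, hu⟩ := pt_unique' hF C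
  obtain ⟨K2, hK2, hsig⟩ := gap_sigma' hF (D + 5) (2 * C + (D + 1)) ε hε
  set M : ℕ := ⌈(C : ℝ) * |K1|⌉₊ with hM
  refine ⟨K2 + D + (2 * M + 1), by positivity, ?_⟩
  intro H X T l1 l2 d A B Z Λ e g S hH hX hXT hHT hTH hXH hl hK hA hB hΛ hirr hBi hg1 hgC hS
  have hHN : 1 ≤ H := by omega
  have hHR : (1 : ℝ) ≤ H := by exact_mod_cast hHN
  have hHε : (1 : ℝ) ≤ (H : ℝ) ^ ε := Real.one_le_rpow hHR hε.le
  have hX0 : 0 ≤ X := by linarith only [hX]
  choose! fp fc fz fs ft fn fd hf using hS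
  have hinj : Function.Injective (Int.castRingHom ℚ) := RingHom.injective_int _
  rcases Nat.eq_zero_or_pos g.natDegree with h0 | h0
  · -- degree zero in `κ`
    rcases lt_or_ge X K1 with hXK | hXK
    · have h1 : (S.card : ℝ) ≤ 2 * M + 1 := by
        refine card_small (C := C) (X := X) (fun N hN => (hf N hN).1.dat.hN) ?_
        refine le_trans ?_ (Nat.le_ceil _)
        have h2 : X ≤ |K1| := hXK.le.trans (le_abs_self _)
        gcongr
      refine h1.trans ?_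
      have h3 : (0 : ℝ) ≤ 2 * M + 1 := by (clear * -; positivity)
      have h4 : (0 : ℝ) ≤ K2 + D := by (clear * - hK2; positivity)
      linarith only [mul_nonneg h4 (zero_le_one.trans hHε), mul_le_mul_of_nonneg_left hHε h3]
    · have hg0 : g = Polynomial.C (g.coeff 0) := eq_C_of_natDegree_eq_zero h0
      have hr0 : (g.coeff 0).map (Int.castRingHom ℚ) ≠ 0 := by
        intro h
        apply hirr.ne_zero
        rw [hg0, map_C, coe_mapRingHom, h, C_0]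
      have h1 : S.card ≤ ((g.coeff 0).map (Int.castRingHom ℚ)).roots.toFinset.card := by
        refine Finset.card_le_card_of_injOn (fun N => (fs N : ℚ) / ft N) ?_ ?_
        · intro N hN
          have hN' : N ∈ S := hN
          have h2 := (hf N hN').2.2
          rw [ev_deg_one hg1, coeff_eq_zero_of_natDegree_lt (by omega : g.natDegree < 1),
            map_zero, zero_mul, add_zero] at h2
          have h3 : (fs N : ℚ) / ft N ∈ ((g.coeff 0).map (Int.castRingHom ℚ)).roots.toFinset := by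
            rw [Multiset.mem_toFinset, mem_roots hr0, IsRoot.def, eval_map]
            exact h2
          exact h3
        · intro N hN N' hN' hNN
          have hN1 : N ∈ S := hN
          have hN2 : N' ∈ S := hN'
          have h2 : (fs N : ℚ) / ft N = (fs N' : ℚ) / ft N' := hNN
          have ht : (ft N : ℚ) ≠ 0 := by exact_mod_cast (hf N hN1).2.1.t0
          have ht' : (ft N' : ℚ) ≠ 0 := by exact_mod_cast (hf N' hN2).2.1.t0
          rw [div_eq_div_iff ht ht'] at h2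
          exact hu X T l1 l2 N N' _ _ _ _ _ _ _ _ _ _ hXK hXT (hf N hN1).1 (hf N' hN2).1
            (by exact_mod_cast h2)
      have h2 : S.card ≤ D :=
        h1.trans ((Multiset.toFinset_card_le _).trans ((card_roots' _).trans
          ((natDegree_map_le).trans (hBi.2 0))))
      have h3 : (S.card : ℝ) ≤ D := by exact_mod_cast h2
      refine h3.trans ?_
      have h4 : (0 : ℝ) ≤ 2 * M + 1 := by (clear * -; positivity)
      have h5 : (0 : ℝ) ≤ D := by (clear * -; positivity)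
      linarith only [mul_nonneg h4 (zero_le_one.trans hHε), mul_le_mul_of_nonneg_left hHε h5, mul_nonneg hK2.le (zero_le_one.trans hHε)]
  · -- degree one in `κ`
    have hd : ∀ i, d i ≤ 5 := by
      intro i
      fin_cases i
      · rcases hK.dd with h | h
        · simp [h.1]
        · simp [h.1]
      · rcases hK.dd with h | h
        · simp [h.2]
        · simp [h.2]
    have hdeg : ∀ (A : Fin 2 → ℤ[X]), (∀ i, (A i).natDegree ≤ d i) →
        (g.coeff 1 * A 0 - g.coeff 0 * A 1).natDegree ≤ D + 5 := by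
      intro A hA
      refine (natDegree_sub_le _ _).trans (max_le ?_ ?_)
      · exact natDegree_mul_le.trans (add_le_add (hBi.2 1) ((hA 0).trans (hd 0)))
      · exact natDegree_mul_le.trans (add_le_add (hBi.2 0) ((hA 1).trans (hd 1)))
    have hpow : (H : ℤ) ^ C ≤ (H : ℤ) ^ (2 * C + (D + 1)) :=
      pow_le_pow_right₀ (by exact_mod_cast hHN) (by omega)
    have h1 := hsig H X T l1 l2 (g.coeff 1 * A 0 - g.coeff 0 * A 1)
      (g.coeff 1 * B 0 - g.coeff 0 * B 1) Λ S hH hX hXT hHT hTH hXH hl hK.hΛ (hdeg A hK.dA)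
      (hdeg B hK.dB)
      (coeff_bound_one hH (hBi.2 0) (hBi.2 1) (hgC 0) (hgC 1) (hA 0) (hA 1))
      (coeff_bound_one hH (hBi.2 0) (hBi.2 1) (hgC 0) (hgC 1) (hB 0) (hB 1))
      (fun i => (hΛ i).trans hpow) ?_
    · refine h1.trans ?_
      have h4 : (0 : ℝ) ≤ D + (2 * M + 1) := by (clear * -; positivity)
      linarith only [mul_nonneg h4 (zero_le_one.trans hHε)]
    · intro N hN
      obtain ⟨hP, hKP, hev⟩ := hf N hN
      refine ⟨fp N, fc N, fz N, fs N, ft N, hP.mono (by omega) hX0, hKP.t0, ?_⟩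
      rw [ev_deg_one hg1] at hev
      have hkd : (fd N : ℚ) ≠ 0 := by exact_mod_cast hKP.k0
      have hg10 : aeval ((fs N : ℚ) / ft N) (g.coeff 1) ≠ 0 := by
        intro h
        rw [h, zero_mul, add_zero] at hev
        have hz : (g.map (mapRingHom (Int.castRingHom ℚ))).map
            (evalRingHom ((fs N : ℚ) / ft N)) = 0 := by
          ext i
          rw [coeff_map, coeff_map, coe_evalRingHom, coe_mapRingHom, eval_map, coeff_zero]
          rcases lt_or_ge 1 i with hi | hi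
          · rw [coeff_eq_zero_of_natDegree_lt (by omega : g.natDegree < i), eval₂_zero]
          · interval_cases i
            · exact hev
            · exact h
        have hgd : (g.map (mapRingHom (Int.castRingHom ℚ))).natDegree = g.natDegree :=
          natDegree_map_eq_of_injective (map_injective _ hinj) g
        have hp := hirr.isPrimitive (by rw [hgd]; omega)
        exact not_isUnit_X_sub_C _ (isPrimitive_iff_isUnit_of_C_dvd.1 hp _
          (C_dvd_of_map_eq_zero hz))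
      have hkn : (fn N : ℚ) * aeval ((fs N : ℚ) / ft N) (g.coeff 1) =
          - (fd N : ℚ) * aeval ((fs N : ℚ) / ft N) (g.coeff 0) := by
        field_simp at hev
        linear_combination hev
      have key : ∀ a0 a1 : ℚ, aeval ((fs N : ℚ) / ft N) (g.coeff 1) *
          (fd N * a0 + fn N * a1) = fd N * (aeval ((fs N : ℚ) / ft N) (g.coeff 1) * a0 -
            aeval ((fs N : ℚ) / ft N) (g.coeff 0) * a1) := by
        intro a0 a1
        linear_combination a1 * hkn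
      have hden := hKP.den
      have heq := hKP.eqN
      rw [map_sub, map_mul, map_mul, map_sub, map_mul, map_mul]
      constructor
      · intro h
        have h2 := key (aeval ((fs N : ℚ) / ft N) (A 0)) (aeval ((fs N : ℚ) / ft N) (A 1))
        rw [h, mul_zero] at h2
        rcases mul_eq_zero.1 h2 with h3 | h3
        · exact hg10 h3
        · exact hden h3
      · have h2 := key (aeval ((fs N : ℚ) / ft N) (A 0)) (aeval ((fs N : ℚ) / ft N) (A 1))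
        have h3 := key (aeval ((fs N : ℚ) / ft N) (B 0)) (aeval ((fs N : ℚ) / ft N) (B 1))
        refine mul_left_cancel₀ hkd ?_
        rw [← mul_assoc, ← h2, ← h3, mul_assoc, heq]

end Vale.Agent.P018.Q
end

section

/-! # P018, quartics: arithmetic of the points over a reduced pair. -/

namespace Vale.Agent.P018.Q.GapPt

open Polynomial NumberField Finset

variable {L : Type} [Field L] [NumberField L]

/-- `ell (θ j) l ≠ 0` for `l ≠ 0` -/
theorem ell_ne {G : ℤ[X]} {θ : Fin 4 → 𝓞 L} (hF : Fld G θ) {l : Fin 4 → ℤ} (hl : l ≠ 0)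
    (j : Fin 4) : K.ell (θ j) l ≠ 0 := by
  obtain ⟨F, _, _, α, σ, hQ⟩ := exists_quartic hF.monic hF.deg hF.irr hF.split
  have h1 := hQ.ell_ne_zero hl
  intro h
  apply h1
  apply (σ j).injective
  rw [hQ.map_ell, h, map_zero]
  rfl

/-- the values of the form `Λ` -/
theorem hom_lam {θ : Fin 4 → 𝓞 L} {l1 l2 : Fin 4 → ℤ} {Λ : ℤ[X]}
    (hΛ : Λ.map (algebraMap ℤ (𝓞 L)) = ∏ j, piPoly θ l1 l2 j) (s t : ℤ) :
    ((hom 4 Λ s t : ℤ) : 𝓞 L) = ∏ j, K.ell (θ j) (s • l1 + t • l2) := by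
  have hc : ∀ i, ((Λ.coeff i : ℤ) : 𝓞 L) = (∏ j, piPoly θ l1 l2 j).coeff i := fun i => by
    rw [← hΛ, coeff_map]; rfl
  set a : Fin 4 → 𝓞 L := fun j => K.ell (θ j) l1 with ha
  set b : Fin 4 → 𝓞 L := fun j => K.ell (θ j) l2 with hb
  have hP : ∏ j, piPoly θ l1 l2 j = C (b 0 * b 1 * b 2 * b 3) +
      C (a 0 * b 1 * b 2 * b 3 + b 0 * a 1 * b 2 * b 3 + b 0 * b 1 * a 2 * b 3 +
        b 0 * b 1 * b 2 * a 3) * X +
      C (a 0 * a 1 * b 2 * b 3 + a 0 * b 1 * a 2 * b 3 + a 0 * b 1 * b 2 * a 3 +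
        b 0 * a 1 * a 2 * b 3 + b 0 * a 1 * b 2 * a 3 + b 0 * b 1 * a 2 * a 3) * X ^ 2 +
      C (b 0 * a 1 * a 2 * a 3 + a 0 * b 1 * a 2 * a 3 + a 0 * a 1 * b 2 * a 3 +
        a 0 * a 1 * a 2 * b 3) * X ^ 3 +
      C (a 0 * a 1 * a 2 * a 3) * X ^ 4 := by
    rw [Fin.prod_univ_four]
    simp only [piPoly, map_add, map_mul, ha, hb]
    ring
  rw [hP] at hc
  have e0 := hc 0
  have e1 := hc 1
  have e2 := hc 2
  have e3 := hc 3
  have e4 := hc 4
  simp only [coeff_add, coeff_C_mul, coeff_X_pow, coeff_C, coeff_X] at e0 e1 e2 e3 e4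
  norm_num at e0 e1 e2 e3 e4
  rw [Fin.prod_univ_four]
  simp only [ell_lin]
  simp only [hom, Finset.sum_range_succ, Finset.sum_range_zero]
  push_cast
  simp only [e0, e1, e2, e3, e4, ha, hb]
  ring

/-- `Λ` has no rational zeros -/
theorem hom_lam_ne {G : ℤ[X]} {θ : Fin 4 → 𝓞 L} (hF : Fld G θ) {l1 l2 : Fin 4 → ℤ} {Λ : ℤ[X]}
    (hl : ∀ a b : ℤ, a • l1 + b • l2 = 0 → a = 0 ∧ b = 0)
    (hΛ : Λ.map (algebraMap ℤ (𝓞 L)) = ∏ j, piPoly θ l1 l2 j) (s t : ℤ) (hst : s ≠ 0 ∨ t ≠ 0) :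
    hom 4 Λ s t ≠ 0 := by
  intro h0
  have h1 := hom_lam hΛ s t
  rw [h0, Int.cast_zero] at h1
  obtain ⟨j, -, hj⟩ := Finset.prod_eq_zero_iff.1 h1.symm
  refine ell_ne hF ?_ j hj
  intro h2
  obtain ⟨h3, h4⟩ := hl s t h2
  rcases hst with h | h
  · exact h h3
  · exact h h4

end Vale.Agent.P018.Q.GapPt
end

section

/-! # P018, quartics: points on rational curves parametrised by `κ`. -/

namespace Vale.Agent.P018.Q.GapKappa

open Polynomial Finset Gap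

/-! ### Composition of forms -/

theorem hom_pow (m k : ℕ) (A : ℤ[X]) (hA : A.natDegree ≤ m) (s t : ℤ) :
    (A ^ k).natDegree ≤ k * m ∧ hom (k * m) (A ^ k) s t = hom m A s t ^ k := by
  refine ⟨natDegree_pow_le_of_le k hA, ?_⟩
  induction k with
  | zero =>
    have h := hom_monomial 0 0 le_rfl (1 : ℤ) s t
    simpa using h
  | succ k ih =>
    rw [pow_succ, Nat.succ_mul, Gap.hom_mul _ _ _ _ (natDegree_pow_le_of_le k hA) hA, ih, pow_succ]

theorem hom_comp (D e : ℕ) (Q u v : ℤ[X]) (hu : u.natDegree ≤ e) (hv : v.natDegree ≤ e) (s t : ℤ) :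
    hom (D * e) (hom D Q u v) s t = hom D Q (hom e u s t) (hom e v s t) := by
  have h0 : hom D Q u v = ∑ i ∈ range (D + 1), (C (Q.coeff i)) * (u ^ i * v ^ (D - i)) := by
    unfold hom
    refine Finset.sum_congr rfl fun i _ => ?_
    rw [mul_assoc]
    rfl
  rw [h0, hom_sum, hom]
  refine Finset.sum_congr rfl fun i hi => ?_
  have hi' : i ≤ D := by have := Finset.mem_range.1 hi; omega
  have h1 : D * e = 0 + (i * e + (D - i) * e) := by
    rw [← Nat.add_mul, zero_add, Nat.add_sub_cancel' hi']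
  have h2 := hom_monomial 0 0 le_rfl (Q.coeff i) s t
  rw [h1, Gap.hom_mul 0 _ _ _ (by simp) (natDegree_mul_le_of_le (hom_pow e i u hu s t).1
    (hom_pow e (D - i) v hv s t).1), Gap.hom_mul _ _ _ _ (hom_pow e i u hu s t).1
    (hom_pow e (D - i) v hv s t).1, (hom_pow e i u hu s t).2, (hom_pow e (D - i) v hv s t).2,
    ← monomial_zero_left, h2]
  simp only [pow_zero, mul_one, Nat.sub_self, Int.cast_id]
  ring

theorem natDegree_comp (D e : ℕ) (Q u v : ℤ[X]) (hu : u.natDegree ≤ e) (hv : v.natDegree ≤ e) :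
    (hom D Q u v).natDegree ≤ D * e := by
  unfold hom
  refine natDegree_sum_le_of_forall_le _ _ fun i hi => ?_
  have hi' : i ≤ D := by have := Finset.mem_range.1 hi; omega
  have h1 : D * e = 0 + i * e + (D - i) * e := by
    rw [zero_add, ← Nat.add_mul, Nat.add_sub_cancel' hi']
  rw [h1]
  exact natDegree_mul_le_of_le (natDegree_mul_le_of_le (by simp)
    (natDegree_pow_le_of_le i hu)) (natDegree_pow_le_of_le _ hv)

theorem hom_of_le {m n : ℕ} (A : ℤ[X]) (hA : A.natDegree ≤ m) (h : m ≤ n) (s t : ℤ) :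
    hom n A s t = t ^ (n - m) * hom m A s t := by
  induction n, h using Nat.le_induction with
  | base => simp
  | succ n hmn ih =>
    rw [hom_succ n A (hA.trans hmn), ih, Nat.succ_sub hmn, pow_succ]
    ring

theorem hom_rat (D : ℕ) (A : ℤ[X]) (hA : A.natDegree ≤ D) (s t : ℤ) (ht : t ≠ 0) :
    ((hom D A s t : ℤ) : ℚ) = (t : ℚ) ^ D * aeval ((s : ℚ) / (t : ℚ)) A := by
  have ht' : (t : ℚ) ≠ 0 := by exact_mod_cast ht
  rw [aeval_eq_sum_range' (n := D + 1) (by omega), hom, Finset.mul_sum]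
  push_cast
  refine Finset.sum_congr rfl fun i hi => ?_
  have : i ≤ D := by have := Finset.mem_range.1 hi; omega
  rw [div_pow, show (t : ℚ) ^ D = (t : ℚ) ^ (D - i) * (t : ℚ) ^ i by
    rw [← pow_add]; congr 1; omega, zsmul_eq_mul]
  field_simp

/-! ### Heights -/

theorem ht_mul {H D c1 c2 : ℕ} (hH : 2 ≤ H) {P Q : ℤ[X]} (hP : P.natDegree ≤ D)
    (h1 : ∀ i, |P.coeff i| ≤ (H : ℤ) ^ c1) (h2 : ∀ i, |Q.coeff i| ≤ (H : ℤ) ^ c2) (i : ℕ) :
    |(P * Q).coeff i| ≤ (H : ℤ) ^ (D + 1 + c1 + c2) := by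
  have hH1 : (0 : ℤ) ≤ H := by positivity
  rw [coeff_mul, Finset.Nat.sum_antidiagonal_eq_sum_range_succ
    (fun x y => P.coeff x * Q.coeff y) i]
  have h3 : ∀ k ∈ range (i + 1), |P.coeff k * Q.coeff (i - k)| ≤
      if k ∈ range (D + 1) then (H : ℤ) ^ c1 * (H : ℤ) ^ c2 else 0 := by
    intro k _
    split_ifs with hk
    · rw [abs_mul]
      exact mul_le_mul (h1 _) (h2 _) (abs_nonneg _) (by positivity)
    · rw [coeff_eq_zero_of_natDegree_lt (by rw [Finset.mem_range] at hk; omega)]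
      simp
  refine (Finset.abs_sum_le_sum_abs _ _).trans ((Finset.sum_le_sum h3).trans ?_)
  rw [← Finset.sum_filter]
  rw [Finset.sum_const, nsmul_eq_mul]
  have h4 : ((range (i + 1)).filter fun k => k ∈ range (D + 1)).card ≤ D + 1 := by
    refine (Finset.card_le_card (fun k hk => (Finset.mem_filter.1 hk).2)).trans ?_
    rw [Finset.card_range]
  have h5 : ((((range (i + 1)).filter fun k => k ∈ range (D + 1)).card : ℕ) : ℤ) ≤
      (H : ℤ) ^ (D + 1) := by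
    have h6 : D + 1 ≤ H ^ (D + 1) :=
      (Nat.lt_two_pow_self (n := D + 1)).le.trans (Nat.pow_le_pow_left hH _)
    exact_mod_cast h4.trans h6
  calc _ ≤ (H : ℤ) ^ (D + 1) * ((H : ℤ) ^ c1 * (H : ℤ) ^ c2) :=
        mul_le_mul_of_nonneg_right h5 (by positivity)
    _ = _ := by rw [pow_add _ (D + 1 + c1), pow_add _ (D + 1) c1]; ring

theorem ht_pow_mul {H D c1 c2 : ℕ} (hH : 2 ≤ H) {P Q : ℤ[X]} (hP : P.natDegree ≤ D)
    (h1 : ∀ i, |P.coeff i| ≤ (H : ℤ) ^ c1) (h2 : ∀ i, |Q.coeff i| ≤ (H : ℤ) ^ c2) (k : ℕ) :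
    ∀ i, |(P ^ k * Q).coeff i| ≤ (H : ℤ) ^ (k * (D + 1 + c1) + c2) := by
  induction k with
  | zero => simpa using h2
  | succ k ih =>
    intro i
    rw [pow_succ, mul_comm (P ^ k), mul_assoc]
    have := ht_mul hH hP h1 ih i
    rwa [show (k + 1) * (D + 1 + c1) + c2 = D + 1 + c1 + (k * (D + 1 + c1) + c2) by ring]

theorem ht_comp {H D c : ℕ} (hH : 2 ≤ H) {Q u v : ℤ[X]} (hu : u.natDegree ≤ D)
    (hv : v.natDegree ≤ D) (h1 : ∀ i, |u.coeff i| ≤ (H : ℤ) ^ c)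
    (h2 : ∀ i, |v.coeff i| ≤ (H : ℤ) ^ c) (hQ : ∀ i, |Q.coeff i| ≤ (H : ℤ) ^ c) (i : ℕ) :
    |(hom 4 Q u v).coeff i| ≤ (H : ℤ) ^ (3 + c + 4 * (D + 1 + c)) := by
  have hH1 : (1 : ℤ) ≤ H := by exact_mod_cast (by omega : 1 ≤ H)
  have hH2 : (2 : ℤ) ≤ H := by exact_mod_cast hH
  have h0 : hom 4 Q u v = ∑ i ∈ range (4 + 1), (C (Q.coeff i)) * (u ^ i * v ^ (4 - i)) := by
    unfold hom
    refine Finset.sum_congr rfl fun i _ => ?_
    rw [mul_assoc]
    rfl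
  rw [h0, finsetSum_coeff]
  refine (Finset.abs_sum_le_sum_abs _ _).trans ?_
  have h3 : ∀ k ∈ range (4 + 1), |(C (Q.coeff k) * (u ^ k * v ^ (4 - k))).coeff i| ≤
      (H : ℤ) ^ (c + 4 * (D + 1 + c)) := by
    intro k hk
    have hk' : k ≤ 4 := by have := Finset.mem_range.1 hk; omega
    rw [coeff_C_mul, abs_mul, pow_add]
    refine mul_le_mul (hQ _) ?_ (abs_nonneg _) (by positivity)
    have h4 : ∀ i, |(v ^ (4 - k) * 1).coeff i| ≤ (H : ℤ) ^ ((4 - k) * (D + 1 + c) + 0) := by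
      refine ht_pow_mul hH hv h2 ?_ _
      intro i
      rw [coeff_one]
      split_ifs <;> simp
    rw [mul_one, add_zero] at h4
    have h5 := ht_pow_mul hH hu h1 h4 k i
    have h6 : k * (D + 1 + c) + (4 - k) * (D + 1 + c) = 4 * (D + 1 + c) := by
      rw [← Nat.add_mul, Nat.add_sub_cancel' hk']
    rwa [h6] at h5
  refine (Finset.sum_le_sum h3).trans ?_
  rw [Finset.sum_const, Finset.card_range, nsmul_eq_mul, add_assoc 3, pow_add (H : ℤ) 3]
  refine mul_le_mul_of_nonneg_right ?_ (by positivity)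
  have : (2 : ℤ) ^ 3 ≤ (H : ℤ) ^ 3 := pow_le_pow_left₀ (by norm_num) hH2 3
  push_cast
  linarith only [this]

/-! ### The curve `a(κ) σ + b(κ) = 0` -/

section curve

variable {g : ℤ[X][X]} {a b : ℤ[X]}

theorem gQ_eq (hg : ∀ i, g.coeff i = C (a.coeff i) * X + C (b.coeff i)) :
    g.map (mapRingHom (Int.castRingHom ℚ)) =
      (a.map (Int.castRingHom ℚ)).map C * C X + (b.map (Int.castRingHom ℚ)).map C := by
  refine Polynomial.ext fun i => ?_
  rw [coeff_map, hg, coeff_add, coeff_mul_C, coeff_map, coeff_map, coeff_map, coeff_map]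
  simp

theorem ev_eq (hg : ∀ i, g.coeff i = C (a.coeff i) * X + C (b.coeff i)) (κ σ : ℚ) :
    ev (g.map (mapRingHom (Int.castRingHom ℚ))) κ σ = aeval κ a * σ + aeval κ b := by
  have h1 : ∀ c : ℚ[X], (c.map (C : ℚ →+* ℚ[X])).map (evalRingHom σ) = c := by
    intro c
    rw [Polynomial.map_map]
    have : (evalRingHom σ).comp (C : ℚ →+* ℚ[X]) = RingHom.id ℚ := by ext; simp
    rw [this, Polynomial.map_id]
  have h2 : ∀ c : ℤ[X], (c.map (Int.castRingHom ℚ)).eval κ = aeval κ c := by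
    intro c
    rw [eval_map, aeval_def]
    congr 1
  rw [ev, gQ_eq hg, Polynomial.map_add, Polynomial.map_mul, h1, h1, eval_add, eval_mul, h2, h2]
  simp

theorem unit_of_map {c : ℚ[X]} (h : IsUnit (c.map (C : ℚ →+* ℚ[X]))) : IsUnit c := by
  have h1 := h.map (mapRingHom (evalRingHom (0 : ℚ)))
  rw [coe_mapRingHom, Polynomial.map_map] at h1
  have : (evalRingHom (0 : ℚ)).comp (C : ℚ →+* ℚ[X]) = RingHom.id ℚ := by ext; simp
  rwa [this, Polynomial.map_id] at h1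

theorem coprime_ab (hi : Irreducible (g.map (mapRingHom (Int.castRingHom ℚ))))
    (hg : ∀ i, g.coeff i = C (a.coeff i) * X + C (b.coeff i)) (ha : a ≠ 0) :
    IsCoprime (a.map (Int.castRingHom ℚ)) (b.map (Int.castRingHom ℚ)) := by
  refine IsRelPrime.isCoprime fun d hda hdb => ?_
  obtain ⟨a', ha'⟩ := hda
  obtain ⟨b', hb'⟩ := hdb
  have h : g.map (mapRingHom (Int.castRingHom ℚ)) =
      d.map C * (a'.map C * C X + b'.map C) := by
    rw [gQ_eq hg, ha', hb', Polynomial.map_mul, Polynomial.map_mul]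
    ring
  rcases hi.isUnit_or_isUnit h with h1 | h1
  · exact unit_of_map h1
  · exfalso
    have h2 : a' = 0 := by
      refine Polynomial.ext fun i => ?_
      have h3 : (a'.map C * C X + b'.map C : ℚ[X][X]).coeff i = C (a'.coeff i) * X +
          C (b'.coeff i) := by
        rw [coeff_add, coeff_mul_C, coeff_map, coeff_map]
      have h4 : ((a'.map C * C X + b'.map C : ℚ[X][X]).coeff i).coeff 1 = 0 := by
        rcases Nat.eq_zero_or_pos i with rfl | hi0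
        · have h5 : IsUnit ((a'.map C * C X + b'.map C : ℚ[X][X]).coeff 0) :=
            (isUnit_iff_coeff_isUnit_isNilpotent.1 h1).1
          exact coeff_eq_zero_of_natDegree_lt (by rw [natDegree_eq_zero_of_isUnit h5]; norm_num)
        · have h5 := natDegree_eq_zero_of_isUnit h1
          have h6 : (a'.map C * C X + b'.map C : ℚ[X][X]).coeff i = 0 :=
            coeff_eq_zero_of_natDegree_lt (by rw [h5]; exact hi0)
          rw [h6, coeff_zero]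
      rw [h3] at h4
      simpa using h4
    rw [h2, mul_zero, Polynomial.map_eq_zero_iff Int.cast_injective] at ha'
    exact ha ha'

theorem no_root (hi : Irreducible (g.map (mapRingHom (Int.castRingHom ℚ))))
    (hg : ∀ i, g.coeff i = C (a.coeff i) * X + C (b.coeff i)) (ha : a = 0)
    (hb : 2 ≤ b.natDegree) (κ σ : ℚ) : ev (g.map (mapRingHom (Int.castRingHom ℚ))) κ σ ≠ 0 := by
  intro h0
  rw [ev_eq hg, ha, map_zero, zero_mul, zero_add] at h0
  have h1 : (b.map (Int.castRingHom ℚ)).IsRoot κ := by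
    rw [IsRoot.def, eval_map]
    rw [aeval_def] at h0
    exact h0
  obtain ⟨q, hq⟩ := dvd_iff_isRoot.2 h1
  have h : g.map (mapRingHom (Int.castRingHom ℚ)) = (X - C κ).map C * q.map C := by
    rw [gQ_eq hg, ha, hq, Polynomial.map_zero, Polynomial.map_zero, zero_mul, zero_add,
      Polynomial.map_mul]
  rcases hi.isUnit_or_isUnit h with h2 | h2
  · exact not_isUnit_X_sub_C κ (unit_of_map h2)
  · have h3 := natDegree_eq_zero_of_isUnit (unit_of_map h2)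
    have h4 : (b.map (Int.castRingHom ℚ)).natDegree ≤ 1 + 0 := by
      rw [hq]
      exact natDegree_mul_le_of_le (natDegree_X_sub_C κ).le h3.le
    rw [natDegree_map_eq_of_injective Int.cast_injective] at h4
    omega

end curve

/-! ### The values at a point -/

theorem exists_u {R0 ah bh s0 t0 : ℤ} (hst : IsCoprime s0 t0) (ht : t0 ≠ 0)
    (h : ah * s0 + bh * t0 = 0) (hR : ∀ d, d ∣ ah → d ∣ bh → d ∣ R0) (hR0 : R0 ≠ 0) :
    ∃ u, u ≠ 0 ∧ u ∣ R0 ∧ ah = u * t0 ∧ -bh = u * s0 := by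
  have h1 : t0 ∣ ah * s0 := ⟨-bh, by linear_combination h⟩
  obtain ⟨u, hu⟩ := hst.symm.dvd_of_dvd_mul_right h1
  have h2 : -bh = u * s0 := by
    apply mul_left_cancel₀ ht
    rw [hu] at h
    linear_combination -h
  have h3 : u ∣ R0 := by
    refine hR u ⟨t0, by rw [hu]; ring⟩ ?_
    exact ⟨-s0, by linear_combination -h2⟩
  refine ⟨u, ?_, h3, by rw [hu]; ring, h2⟩
  rintro rfl
  exact hR0 (zero_dvd_iff.1 h3)

theorem hom_neg' (D : ℕ) (A : ℤ[X]) (s t : ℤ) : hom D (-A) s t = -hom D A s t := by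
  rw [← zero_sub, hom_sub, hom_zero, zero_sub]

theorem hom_X_mul (m : ℕ) (A : ℤ[X]) (hA : A.natDegree ≤ m) (s t : ℤ) :
    hom (m + 1) (X * A) s t = s * hom m A s t := by
  rw [add_comm m 1, Gap.hom_mul 1 m X A natDegree_X_le hA]
  congr 1
  have h := hom_monomial 1 1 le_rfl (1 : ℤ) s t
  simpa [monomial_one_one_eq_X] using h

/-- the polynomial `A 0 ~ + X A 1 ~` -/
noncomputable def tw (a b : ℤ[X]) (A : Fin 2 → ℤ[X]) : ℤ[X] :=
  hom 4 (A 0) (-b) a + X * hom 4 (A 1) (-b) a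

theorem natDegree_tw {e : ℕ} {a b : ℤ[X]} (ha : a.natDegree ≤ e) (hb : b.natDegree ≤ e)
    (A : Fin 2 → ℤ[X]) : (tw a b A).natDegree ≤ 4 * e + 1 := by
  have hb' : (-b).natDegree ≤ e := by rwa [natDegree_neg]
  refine natDegree_add_le_of_degree_le ?_ ?_
  · exact (natDegree_comp 4 e _ _ _ hb' ha).trans (Nat.le_succ _)
  · rw [add_comm (4 * e)]
    exact natDegree_mul_le_of_le natDegree_X_le (natDegree_comp 4 e _ _ _ hb' ha)

theorem hom_tw {e : ℕ} {a b : ℤ[X]} (ha : a.natDegree ≤ e) (hb : b.natDegree ≤ e)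
    (A : Fin 2 → ℤ[X]) {k l u s0 t0 : ℤ} (h1 : hom e a k l = u * t0)
    (h2 : -hom e b k l = u * s0) :
    hom (4 * e + 1) (tw a b A) k l = u ^ 4 * (l * hom 4 (A 0) s0 t0 + k * hom 4 (A 1) s0 t0) := by
  have hb' : (-b).natDegree ≤ e := by rwa [natDegree_neg]
  rw [tw, hom_add, hom_succ _ _ (natDegree_comp 4 e _ _ _ hb' ha),
    hom_X_mul _ _ (natDegree_comp 4 e _ _ _ hb' ha), hom_comp 4 e _ _ _ hb' ha,
    hom_comp 4 e _ _ _ hb' ha, hom_neg', h1, h2, hom_smul, hom_smul]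
  ring

theorem ht_tw {H D c : ℕ} (hH : 2 ≤ H) {a b : ℤ[X]} (ha : a.natDegree ≤ D)
    (hb : b.natDegree ≤ D) (h1 : ∀ i, |a.coeff i| ≤ (H : ℤ) ^ c)
    (h2 : ∀ i, |b.coeff i| ≤ (H : ℤ) ^ c) {A : Fin 2 → ℤ[X]}
    (hA : ∀ i k, |(A i).coeff k| ≤ (H : ℤ) ^ c) (i : ℕ) :
    |(tw a b A).coeff i| ≤ (H : ℤ) ^ (4 + c + 4 * (D + 1 + c)) := by
  have hH2 : (2 : ℤ) ≤ H := by exact_mod_cast hH
  have hb' : (-b).natDegree ≤ D := by rwa [natDegree_neg]
  have h2' : ∀ i, |(-b).coeff i| ≤ (H : ℤ) ^ c := fun i => by rw [coeff_neg, abs_neg]; exact h2 i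
  have h3 := fun j i => ht_comp hH hb' ha h2' h1 (hA j) i
  have h4 : |(X * hom 4 (A 1) (-b) a).coeff i| ≤ (H : ℤ) ^ (3 + c + 4 * (D + 1 + c)) := by
    rcases i with - | i
    · rw [coeff_zero_eq_eval_zero, eval_mul, eval_X, zero_mul, abs_zero]
      positivity
    · rw [coeff_X_mul]
      exact h3 1 i
  rw [tw, coeff_add]
  refine (abs_add_le _ _).trans ((add_le_add (h3 0 i) h4).trans ?_)
  rw [show 4 + c + 4 * (D + 1 + c) = 1 + (3 + c + 4 * (D + 1 + c)) by ring, pow_add (H : ℤ) 1,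
    pow_one, ← two_mul]
  exact mul_le_mul_of_nonneg_right hH2 (by positivity)

theorem natDegree_sub_lam {e : ℕ} {a b Λ : ℤ[X]} (ha : a.natDegree ≤ e) (hb : b.natDegree ≤ e)
    (hab : a.coeff e ≠ 0 ∨ b.coeff e ≠ 0) (hΛ : ∀ s t : ℤ, s ≠ 0 ∨ t ≠ 0 → hom 4 Λ s t ≠ 0) :
    (hom 4 Λ (-b) a).natDegree = 4 * e := by
  have hb' : (-b).natDegree ≤ e := by rwa [natDegree_neg]
  refine natDegree_eq_of_le_of_coeff_ne_zero (natDegree_comp 4 e _ _ _ hb' ha) ?_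
  have h1 := hom_comp 4 e Λ (-b) a hb' ha 1 0
  rw [hom_zero_right, hom_zero_right, hom_zero_right, one_pow, mul_one, one_pow, mul_one,
    mul_one, coeff_neg] at h1
  rw [h1]
  refine hΛ _ _ ?_
  rcases hab with h | h
  · exact Or.inr h
  · exact Or.inl (neg_ne_zero.2 h)

/-! ### The theorem -/

variable {L : Type} [Field L] [NumberField L]

open NumberField

/-- the data of a point for `gap_param`. -/
theorem point {G : ℤ[X]} {θ : Fin 4 → 𝓞 L} (hF : Fld G θ) {D C : ℕ} {X' T : ℝ}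
    {l1 l2 : Fin 4 → ℤ} {A B : Fin 2 → ℤ[X]} {Z : Fin 2 → Fin 4 → ℤ[X]} {Λ : ℤ[X]} {a b : ℤ[X]}
    {e : ℕ} {R0 : ℤ}
    (hl : ∀ a b : ℤ, a • l1 + b • l2 = 0 → a = 0 ∧ b = 0) (hl1 : l1 ≠ 0)
    (hΛ : Λ.map (algebraMap ℤ (𝓞 L)) = ∏ j, piPoly θ l1 l2 j)
    (hA : ∀ i, (A i).natDegree ≤ 4) (hB : ∀ i, (B i).natDegree ≤ 4)
    (ha : a.natDegree ≤ e) (hb : b.natDegree ≤ e) (he : e ≤ D)
    (hab : a.coeff e ≠ 0 ∨ b.coeff e ≠ 0) (hR0 : R0 ≠ 0)
    (hR : ∀ s t d : ℤ, IsCoprime s t → d ∣ hom e a s t → d ∣ hom e b s t → d ∣ R0)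
    {N : ℤ} {p : ℕ} {c : ℤ} {z : Fin 4 → ℤ} {s t kn kd : ℤ}
    (hP : Pt θ C X' T l1 l2 N p c z s t) (hK : KP A B Z N c s t kn kd z)
    (hev : aeval ((kn : ℚ) / kd) a * ((s : ℚ) / t) + aeval ((kn : ℚ) / kd) b = 0)
    (hCp : C < p) (hpR : ¬ (p : ℤ) ∣ R0) :
    hom (4 * D + 1) (tw a b A) kn kd ≠ 0 ∧
      hom (4 * D + 1) (tw a b A) kn kd * N = hom (4 * D + 1) (tw a b B) kn kd ∧
      (p : ℤ) ∣ hom (hom 4 Λ (-b) a).natDegree (hom 4 Λ (-b) a) kn kd ∧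
      ¬ (p : ℤ) ^ 2 ∣ hom (hom 4 Λ (-b) a).natDegree (hom 4 Λ (-b) a) kn kd := by
  have hpp := Nat.prime_iff_prime_int.1 hP.dat.prime
  have hb' : (-b).natDegree ≤ e := by rwa [natDegree_neg]
  obtain ⟨s0, t0, h1, h2, h3, h4, h5, h6, h7⟩ := pt_prim hF hl1 hΛ hP hCp hK.t0
  rw [hF.natDegree_Lam hl1 hΛ] at h6 h7
  have hk0 : (kd : ℚ) ≠ 0 := by exact_mod_cast hK.k0
  have ht0 : (t0 : ℚ) ≠ 0 := by exact_mod_cast h2
  -- the relation between the two parameters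
  have hrel : hom e a kn kd * s0 + hom e b kn kd * t0 = 0 := by
    have e1 := hom_rat e a ha kn kd hK.k0
    have e2 := hom_rat e b hb kn kd hK.k0
    have e3 : ((hom e a kn kd * s0 + hom e b kn kd * t0 : ℤ) : ℚ) = 0 := by
      push_cast
      rw [e1, e2]
      rw [← h5] at hev
      have e4 : (kd : ℚ) ^ e * t0 * (aeval ((kn : ℚ) / kd) a * ((s0 : ℚ) / t0) +
          aeval ((kn : ℚ) / kd) b) = 0 := by rw [hev, mul_zero]
      rw [← e4]
      field_simp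
    exact_mod_cast e3
  obtain ⟨u, hu0, huR, hu1, hu2⟩ := exists_u h1 h2 hrel (fun d => hR kn kd d hK.cop) hR0
  have hpu : ¬ (p : ℤ) ∣ u := fun h => hpR (h.trans huR)
  -- the values
  have hval : ∀ A : Fin 2 → ℤ[X], (∀ i, (A i).natDegree ≤ 4) →
      ((hom (4 * D + 1) (tw a b A) kn kd : ℤ) : ℚ) =
        ((kd : ℚ) ^ (4 * D + 1 - (4 * e + 1)) * (u : ℚ) ^ 4 * (t0 : ℚ) ^ 4) *
          (kd * aeval ((s : ℚ) / t) (A 0) + kn * aeval ((s : ℚ) / t) (A 1)) := by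
    intro A hA
    rw [hom_of_le _ (natDegree_tw ha hb A) (by omega : 4 * e + 1 ≤ 4 * D + 1),
      hom_tw ha hb A hu1 hu2]
    have e1 := hom_rat 4 (A 0) (hA 0) s0 t0 h2
    have e2 := hom_rat 4 (A 1) (hA 1) s0 t0 h2
    push_cast
    rw [e1, e2, h5]
    ring
  have hfac : ((kd : ℚ) ^ (4 * D + 1 - (4 * e + 1)) * (u : ℚ) ^ 4 * (t0 : ℚ) ^ 4) ≠ 0 := by
    have : (u : ℚ) ≠ 0 := by exact_mod_cast hu0
    (clear * - hk0 hu0 h2; positivity)
  have hdeg : (hom 4 Λ (-b) a).natDegree = 4 * e :=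
    natDegree_sub_lam ha hb hab (fun s t hst => GapPt.hom_lam_ne hF hl hΛ s t hst)
  have hlam : hom (4 * e) (hom 4 Λ (-b) a) kn kd = u ^ 4 * hom 4 Λ s0 t0 := by
    rw [hom_comp 4 e _ _ _ hb' ha, hom_neg', hu1, hu2, hom_smul]
  rw [hdeg, hlam]
  refine ⟨?_, ?_, Dvd.dvd.mul_left h6 _, ?_⟩
  · intro h
    have e1 := hval A hA
    rw [h, Int.cast_zero] at e1
    rcases mul_eq_zero.1 e1.symm with e2 | e2
    · exact hfac e2
    · exact hK.den e2
  · have e1 := hval A hA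
    have e2 := hval B hB
    have e3 : ((hom (4 * D + 1) (tw a b A) kn kd * N : ℤ) : ℚ) =
        ((hom (4 * D + 1) (tw a b B) kn kd : ℤ) : ℚ) := by
      push_cast
      rw [e1, e2, mul_assoc, hK.eqN]
    exact_mod_cast e3
  · intro h
    have e1 : IsCoprime ((p : ℤ) ^ 2) (u ^ 4) :=
      IsCoprime.pow ((Prime.coprime_iff_not_dvd hpp).2 hpu)
    exact h7 (e1.dvd_of_dvd_mul_left h)

theorem gap_kappa' {G : ℤ[X]} {θ : Fin 4 → 𝓞 L} (hF : Fld G θ) (D C : ℕ) (ε : ℝ) (hε : 0 < ε) :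
    ∃ K : ℝ, 0 < K ∧ ∀ (H : ℕ) (X T : ℝ) (l1 l2 : Fin 4 → ℤ) (d : Fin 2 → ℕ)
      (A B : Fin 2 → ℤ[X]) (Z : Fin 2 → Fin 4 → ℤ[X]) (Λ : ℤ[X]) (e : ℤ) (g : ℤ[X][X])
      (S : Finset ℤ),
      2 ≤ H → 1 ≤ X → X ≤ T ^ 4 → (H : ℝ) ≤ T ^ 4 → T ≤ H → X ≤ H →
      (∀ a b : ℤ, a • l1 + b • l2 = 0 → a = 0 ∧ b = 0) → KData θ l1 l2 d A B Z Λ e → d 0 = 4 →
      (∀ i k, |(A i).coeff k| ≤ (H : ℤ) ^ C) → (∀ i k, |(B i).coeff k| ≤ (H : ℤ) ^ C) →
      (∀ k, |Λ.coeff k| ≤ (H : ℤ) ^ C) →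
      Irreducible (g.map (mapRingHom (Int.castRingHom ℚ))) → BiDeg D 1 g → 2 ≤ g.natDegree →
      (∀ i j, |(g.coeff i).coeff j| ≤ (H : ℤ) ^ C) →
      (∀ N ∈ S, ∃ (p : ℕ) (c : ℤ) (z : Fin 4 → ℤ) (s t kn kd : ℤ),
        Pt θ C X T l1 l2 N p c z s t ∧ KP A B Z N c s t kn kd z ∧
        |kn| ≤ (H : ℤ) ^ C ∧ |kd| ≤ (H : ℤ) ^ C ∧
        ev (g.map (mapRingHom (Int.castRingHom ℚ))) ((kn : ℚ) / kd) ((s : ℚ) / t) = 0) →
      (S.card : ℝ) ≤ K * (H : ℝ) ^ ε := by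
  classical
  set C2 : ℕ := 4 + C + 4 * (D + 1 + C) with hC2
  obtain ⟨K1, hK1, hgap⟩ := gap_param G hF.monic hF.irr (by rw [hF.deg]; norm_num) (4 * D + 1) C2
    ε hε
  obtain ⟨C3, hres⟩ := res_hom D C
  obtain ⟨K2, hbad⟩ := GapBad.card_bad G hF.monic hF.irr C C3
  refine ⟨K1 + K2 + (2 * (C * C : ℕ) + 1), by positivity, ?_⟩
  intro H X T l1 l2 d A B Z Λ e g S hH hX hXT hHT hTH hXH hl hKD hd0 hAC hBC hΛC hgi hbd hg2 hgC hS
  have hHR : (1 : ℝ) ≤ H := by exact_mod_cast (by omega : 1 ≤ H)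
  have hHε : (1 : ℝ) ≤ (H : ℝ) ^ ε := Real.one_le_rpow hHR hε.le
  have hH0 : (0 : ℝ) ≤ (H : ℝ) ^ ε := by positivity
  have hK2 : (0 : ℝ) ≤ K2 := Nat.cast_nonneg _
  rcases le_or_gt H C with hHC | hHC
  · -- small `H`
    have h1 : (S.card : ℝ) ≤ 2 * (C * C : ℕ) + 1 := by
      refine card_small (C := C) (X := X) (fun N hN => ?_) ?_
      · obtain ⟨p, c, z, s, t, kn, kd, hP, -⟩ := hS N hN
        exact hP.dat.hN
      · have h2 : (H : ℝ) ≤ C := by exact_mod_cast hHC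
        push_cast
        exact mul_le_mul_of_nonneg_left (hXH.trans h2) (Nat.cast_nonneg _)
    refine h1.trans ?_
    have h3 : (0 : ℝ) ≤ 2 * (C * C : ℕ) + 1 := by (clear * -; positivity)
    nlinarith [mul_nonneg hK1.le hH0, mul_nonneg hK2 hH0]
  have hl1 : l1 ≠ 0 := by
    rintro rfl
    have := (hl 1 0 (by simp)).1
    omega
  have hCT : (C : ℝ) < T ^ 4 := lt_of_lt_of_le (by exact_mod_cast hHC) hHT
  have hpow : (H : ℤ) ^ C ≤ (H : ℤ) ^ C2 := pow_le_pow_right₀ (by exact_mod_cast (by omega : 1 ≤ H))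
    (by omega)
  have hd : ∀ i, d i = 4 := by
    rcases hKD.dd with h | h
    · intro i; fin_cases i
      · exact h.1
      · exact h.2
    · omega
  have hA4 : ∀ i, (A i).natDegree ≤ 4 := fun i => (hKD.dA i).trans (hd i).le
  have hB4 : ∀ i, (B i).natDegree ≤ 4 := fun i => (hKD.dB i).trans (hd i).le
  -- the two polynomials
  set a : ℤ[X] := ∑ i ∈ range (D + 1), monomial i ((g.coeff i).coeff 1) with ha
  set b : ℤ[X] := ∑ i ∈ range (D + 1), monomial i ((g.coeff i).coeff 0) with hb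
  have hcoef : ∀ (m i : ℕ), (∑ k ∈ range (D + 1), monomial k ((g.coeff k).coeff m) : ℤ[X]).coeff i =
      (g.coeff i).coeff m := by
    intro m i
    rw [finsetSum_coeff]
    simp only [coeff_monomial]
    rw [Finset.sum_ite_eq']
    split_ifs with h
    · rfl
    · have h1 : g.coeff i = 0 := by
        refine coeff_eq_zero_of_natDegree_lt ?_
        rw [Finset.mem_range] at h
        have := hbd.1
        omega
      rw [h1, coeff_zero]
  have hac : ∀ i, a.coeff i = (g.coeff i).coeff 1 := hcoef 1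
  have hbc : ∀ i, b.coeff i = (g.coeff i).coeff 0 := hcoef 0
  have hg : ∀ i, g.coeff i = Polynomial.C (a.coeff i) * Polynomial.X +
      Polynomial.C (b.coeff i) := by
    intro i
    rw [hac, hbc]
    exact eq_X_add_C_of_natDegree_le_one (hbd.2 i)
  clear_value a b
  have haC : ∀ i, |a.coeff i| ≤ (H : ℤ) ^ C := fun i => by rw [hac]; exact hgC _ _
  have hbC : ∀ i, |b.coeff i| ≤ (H : ℤ) ^ C := fun i => by rw [hbc]; exact hgC _ _
  have hgz : ∀ i, D < i → g.coeff i = 0 := fun i hi =>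
    coeff_eq_zero_of_natDegree_lt (lt_of_le_of_lt hbd.1 hi)
  have haD : a.natDegree ≤ D := by
    rw [natDegree_le_iff_coeff_eq_zero]
    intro i hi
    rw [hac, hgz i hi, coeff_zero]
  have hbD : b.natDegree ≤ D := by
    rw [natDegree_le_iff_coeff_eq_zero]
    intro i hi
    rw [hbc, hgz i hi, coeff_zero]
  set e' : ℕ := max a.natDegree b.natDegree with he'
  have hae : a.natDegree ≤ e' := le_max_left _ _
  have hbe : b.natDegree ≤ e' := le_max_right _ _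
  have heD : e' ≤ D := max_le haD hbD
  have he2 : 2 ≤ e' := by
    refine hg2.trans ?_
    rw [natDegree_le_iff_coeff_eq_zero]
    intro i hi
    rw [hg, coeff_eq_zero_of_natDegree_lt (lt_of_le_of_lt hae hi),
      coeff_eq_zero_of_natDegree_lt (lt_of_le_of_lt hbe hi)]
    simp
  have hS0 : a = 0 → S = ∅ := by
    intro ha0
    rw [Finset.eq_empty_iff_forall_notMem]
    intro N hN
    obtain ⟨p, c, z, s, t, kn, kd, -, -, -, -, hev⟩ := hS N hN
    refine no_root hgi hg ha0 ?_ _ _ hev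
    rw [he', ha0, natDegree_zero, Nat.zero_max] at he2
    exact he2
  rcases eq_or_ne a 0 with ha0 | ha0
  · rw [hS0 ha0, Finset.card_empty]
    push_cast
    (clear * - hK1 hH; positivity)
  have hcop := coprime_ab hgi hg ha0
  have hb0 : b ≠ 0 := by
    intro hb0
    rw [hb0, Polynomial.map_zero, isCoprime_zero_right] at hcop
    have h1 := natDegree_eq_zero_of_isUnit hcop
    rw [natDegree_map_eq_of_injective Int.cast_injective] at h1
    rw [he', h1, hb0, natDegree_zero] at he2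
    simp at he2
  have hee : a.natDegree = e' ∨ b.natDegree = e' := by
    rcases max_choice a.natDegree b.natDegree with h | h
    · exact Or.inl h.symm
    · exact Or.inr h.symm
  have hab : a.coeff e' ≠ 0 ∨ b.coeff e' ≠ 0 := by
    rcases hee with h | h
    · left; rw [← h, coeff_natDegree, leadingCoeff_ne_zero]; exact ha0
    · right; rw [← h, coeff_natDegree, leadingCoeff_ne_zero]; exact hb0
  obtain ⟨R0, hR0, hR0C, hR⟩ := hres H a b e' e' hH ha0 hb0 heD heD hae hbe hee hcop haC hbC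
  have key : ∀ N : ℤ, ∃ (kn kd : ℤ) (p : ℕ), N ∈ S → (|(N : ℝ)| ≤ C * X ∧
      IsCoprime kn kd ∧ kd ≠ 0 ∧ |kn| ≤ (H : ℤ) ^ C2 ∧ |kd| ≤ (H : ℤ) ^ C2 ∧
      p.Prime ∧ T ^ 4 ≤ p ∧ (p : ℤ) ^ 2 ∣ G.eval N) ∧ (¬ (p : ℤ) ∣ R0 →
      hom (4 * D + 1) (tw a b A) kn kd ≠ 0 ∧
      hom (4 * D + 1) (tw a b A) kn kd * N = hom (4 * D + 1) (tw a b B) kn kd ∧
      (p : ℤ) ∣ hom (hom 4 Λ (-b) a).natDegree (hom 4 Λ (-b) a) kn kd ∧
      ¬ (p : ℤ) ^ 2 ∣ hom (hom 4 Λ (-b) a).natDegree (hom 4 Λ (-b) a) kn kd) := by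
    intro N
    by_cases hN : N ∈ S
    swap
    · exact ⟨0, 0, 0, fun h => absurd h hN⟩
    obtain ⟨p, c, z, s, t, kn, kd, hP, hK, hkn, hkd, hev⟩ := hS N hN
    have hCp : C < p := hP.dat.C_lt hCT
    rw [ev_eq hg] at hev
    refine ⟨kn, kd, p, fun _ => ⟨⟨hP.dat.hN, hK.cop, hK.k0, hkn.trans hpow, hkd.trans hpow,
      hP.dat.prime, hP.dat.lo, hP.dat.sq_dvd hF hCp⟩, fun hpR => ?_⟩⟩
    exact point hF hl hl1 hKD.hΛ hA4 hB4 hae hbe heD hab hR0 hR hP hK hev hCp hpR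
  choose fk fl fp hfs using key
  have hΛd : (hom 4 Λ (-b) a).natDegree = 4 * e' :=
    natDegree_sub_lam hae hbe hab (fun s t hst => GapPt.hom_lam_ne hF hl hKD.hΛ s t hst)
  have hb'D : (-b).natDegree ≤ D := by rwa [natDegree_neg]
  have hb'C : ∀ i, |(-b).coeff i| ≤ (H : ℤ) ^ C := fun i => by rw [coeff_neg, abs_neg]; exact hbC i
  have hH1 : (1 : ℤ) ≤ H := by exact_mod_cast (by omega : 1 ≤ H)
  have h1 := hgap H X (T ^ 4) (tw a b A) (tw a b B) (hom 4 Λ (-b) a)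
    (S.filter fun N => ¬ (fp N : ℤ) ∣ R0) fk fl fp hH hX hXT hHT
    ((natDegree_tw hae hbe A).trans (by omega)) ((natDegree_tw hae hbe B).trans (by omega))
    (by rw [hΛd]; omega) (fun h => by rw [h, natDegree_zero] at hΛd; omega)
    (ht_tw hH haD hbD haC hbC hAC) (ht_tw hH haD hbD haC hbC hBC)
    (fun i => (ht_comp hH hb'D haD hb'C haC hΛC i).trans
      (pow_le_pow_right₀ hH1 (by omega)))
    (fun N hN => by
      obtain ⟨hNS, hpR⟩ := Finset.mem_filter.1 hN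
      obtain ⟨⟨e1, e2, e3, e4, e5, e6, e7, e8⟩, e9⟩ := hfs N hNS
      obtain ⟨e10, e11, e12, e13⟩ := e9 hpR
      refine ⟨e1.trans ?_, e2, e3, e4, e5, e10, e11, e6, e7, e8, e12, e13⟩
      refine mul_le_mul_of_nonneg_right ?_ (by linarith only [hX])
      exact_mod_cast (by omega : C ≤ C2))
  have h2 := hbad H (T ^ 4) R0 (S.filter fun N => (fp N : ℤ) ∣ R0) fp hH hHT hR0 hR0C
    (fun N hN => by
      obtain ⟨hNS, hpR⟩ := Finset.mem_filter.1 hN
      obtain ⟨⟨e1, e2, e3, e4, e5, e6, e7, e8⟩, -⟩ := hfs N hNS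
      exact ⟨e1.trans (mul_le_mul_of_nonneg_left hXT (Nat.cast_nonneg _)), e6, e7, e8, hpR⟩)
  have h3 : (S.card : ℝ) = ((S.filter fun N => (fp N : ℤ) ∣ R0).card : ℝ) +
      ((S.filter fun N => ¬ (fp N : ℤ) ∣ R0).card : ℝ) := by
    exact_mod_cast (Finset.card_filter_add_card_filter_not _).symm
  have h4 : ((S.filter fun N => (fp N : ℤ) ∣ R0).card : ℝ) ≤ K2 := by exact_mod_cast h2
  have h5 : (0 : ℝ) ≤ 2 * (C * C : ℕ) + 1 := by (clear * -; positivity)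
  rw [h3]
  linarith only [h1, h4, mul_nonneg h5 hH0, mul_le_mul_of_nonneg_left hHε hK2]

end Vale.Agent.P018.Q.GapKappa
end

section

/-! # P018, (B): number of independent functions on the surface, with the square roots. -/

namespace Vale.Agent.P018.QB.Surf

open Polynomial Module

/-- the values at `(n, w)`. -/
noncomputable def phi {Ω : Type*} [Field Ω] [Algebra ℂ Ω] (n w : Ω) : ℂ[X][X] →ₐ[ℂ] Ω :=
  { eval₂RingHom (aeval w : ℂ[X] →ₐ[ℂ] Ω).toRingHom n with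
    commutes' := fun r => by
      change eval₂ _ _ (algebraMap ℂ ℂ[X][X] r) = _
      rw [show algebraMap ℂ ℂ[X][X] r = C (C r) from rfl, eval₂_C]
      simp }

theorem phi_apply {Ω : Type*} [Field Ω] [Algebra ℂ Ω] (n w : Ω) (F : ℂ[X][X]) :
    phi n w F = F.eval₂ (aeval w : ℂ[X] →ₐ[ℂ] Ω).toRingHom n := rfl

section

variable {Ω : Type*} [Field Ω] [Algebra ℂ Ω] (n w : Ω)

theorem phi_X : phi n w X = n := by simp [phi_apply]

theorem phi_C (F : ℂ[X]) : phi n w (C F) = aeval w F := by simp [phi_apply]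

end

theorem rootMultiplicity_prod' {R ι : Type*} [CommRing R] [IsDomain R] (a : R) (s : Finset ι)
    (f : ι → R[X]) (h : ∀ i ∈ s, f i ≠ 0) :
    rootMultiplicity a (∏ i ∈ s, f i) = ∑ i ∈ s, rootMultiplicity a (f i) := by
  classical
  induction s using Finset.induction_on with
  | empty => simp
  | insert j s hj ih =>
    rw [Finset.prod_insert hj, Finset.sum_insert hj, rootMultiplicity_mul, ih]
    · exact fun i hi => h i (Finset.mem_insert_of_mem hi)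
    · exact mul_ne_zero (h j (Finset.mem_insert_self _ _))
        (Finset.prod_ne_zero_iff.mpr fun i hi => h i (Finset.mem_insert_of_mem hi))

theorem rootMultiplicity_pow' {R : Type*} [CommRing R] [IsDomain R] (a : R) (f : R[X])
    (h : f ≠ 0) (k : ℕ) : rootMultiplicity a (f ^ k) = k * rootMultiplicity a f := by
  have := rootMultiplicity_prod' a (Finset.range k) (fun _ => f) (fun _ _ => h)
  simpa using this

theorem odd_ne {Ω : Type*} [Field Ω] [Algebra ℂ Ω] {n w : Ω} (hφ : Function.Injective (phi n w))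
    {α g1 g2 : Fin 4 → ℂ} {c : ℂ} (hα : Function.Injective α) (hc : c ≠ 0)
    (hg : ∀ j, gam g1 g2 j ≠ 0) {pi : Fin 4 → Ω}
    (hpi : ∀ j, pi j ^ 2 * aeval w (gam g1 g2 j) = algebraMap ℂ Ω c * (n - algebraMap ℂ Ω (α j)))
    (E : Fin 4 → ℕ) (j0 : Fin 4) (hE : Odd (E j0)) (P Q : ℂ[X][X]) (hQ : Q ≠ 0) :
    (∏ j, pi j ^ E j) * phi n w Q ≠ phi n w P := by
  intro h
  have h1 : (∏ j, (C (C c) * (X - C (C (α j))) : ℂ[X][X]) ^ E j) * Q ^ 2 =
      P ^ 2 * ∏ j, (C (gam g1 g2 j)) ^ E j := by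
    apply hφ
    simp only [map_mul, map_prod, map_pow, map_sub, phi_X, phi_C, aeval_C]
    rw [← h, mul_pow, mul_right_comm, ← Finset.prod_pow, ← Finset.prod_mul_distrib]
    congr 1
    refine Finset.prod_congr rfl fun j _ => ?_
    rw [← hpi, mul_pow, ← pow_mul, ← pow_mul, mul_comm 2]
  have hl : ∀ j, (C (C c) * (X - C (C (α j))) : ℂ[X][X]) ≠ 0 := fun j =>
    mul_ne_zero (C_ne_zero.mpr (C_ne_zero.mpr hc)) (X_sub_C_ne_zero _)
  have hP : P ≠ 0 := by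
    rintro rfl
    rw [zero_pow two_ne_zero, zero_mul] at h1
    rcases mul_eq_zero.mp h1 with h2 | h2
    · obtain ⟨j, _, hj⟩ := Finset.prod_eq_zero_iff.mp h2
      exact pow_ne_zero _ (hl j) hj
    · exact pow_ne_zero _ hQ h2
  have hm := congrArg (rootMultiplicity (C (α j0))) h1
  have hp1 : (∏ j, (C (C c) * (X - C (C (α j))) : ℂ[X][X]) ^ E j) ≠ 0 :=
    Finset.prod_ne_zero_iff.mpr fun j _ => pow_ne_zero _ (hl j)
  have hp2 : (∏ j, (C (gam g1 g2 j) : ℂ[X][X]) ^ E j) ≠ 0 :=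
    Finset.prod_ne_zero_iff.mpr fun j _ => pow_ne_zero _ (C_ne_zero.mpr (hg j))
  rw [rootMultiplicity_mul (mul_ne_zero hp1 (pow_ne_zero _ hQ)),
    rootMultiplicity_mul (mul_ne_zero (pow_ne_zero _ hP) hp2), sq, sq,
    rootMultiplicity_mul (mul_ne_zero hQ hQ), rootMultiplicity_mul (mul_ne_zero hP hP),
    rootMultiplicity_prod' _ _ _ (fun j _ => pow_ne_zero _ (hl j)),
    rootMultiplicity_prod' _ _ _ (fun j _ => pow_ne_zero _ (C_ne_zero.mpr (hg j)))] at hm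
  have hz : ∀ j, rootMultiplicity (C (α j0)) ((C (gam g1 g2 j) : ℂ[X][X]) ^ E j) = 0 := by
    intro j
    rw [← C_pow, rootMultiplicity_C]
  have hs : ∀ j, rootMultiplicity (C (α j0)) ((C (C c) * (X - C (C (α j))) : ℂ[X][X]) ^ E j) =
      if j = j0 then E j0 else 0 := by
    intro j
    have hb : rootMultiplicity (C (α j0)) (C (C c) * (X - C (C (α j))) : ℂ[X][X]) =
        if j = j0 then 1 else 0 := by
      rw [rootMultiplicity_mul (hl j), rootMultiplicity_C, zero_add]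
      split_ifs with hj
      · subst hj
        exact rootMultiplicity_X_sub_C_self
      · refine rootMultiplicity_eq_zero ?_
        rw [root_X_sub_C]
        exact fun h => hj (hα (C_injective h))
    rw [rootMultiplicity_pow' _ _ (hl j), hb]
    split_ifs with hj
    · subst hj; simp
    · simp
  simp only [hz, hs, Finset.sum_ite_eq', Finset.mem_univ, if_true, Finset.sum_const_zero] at hm
  obtain ⟨r, hr⟩ := hE
  omega

/-- exponents of total degree `4` representing the `8` even classes. -/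
def eT (T : Finset (Fin 3)) : Fin 4 → ℕ := Fin.cons (4 - T.card) fun j => if j ∈ T then 1 else 0

theorem eT_sum (T : Finset (Fin 3)) : ∑ j, eT T j = 4 := by
  rw [Fin.sum_univ_succ]
  simp only [eT, Fin.cons_zero, Fin.cons_succ]
  rw [Finset.sum_ite_mem, Finset.univ_inter, Finset.sum_const, smul_eq_mul, mul_one]
  have : T.card ≤ 3 := by
    have := Finset.card_le_univ T
    simpa using this
  omega

theorem indep {Ω : Type*} [Field Ω] [Algebra ℂ Ω] {n w : Ω} (hφ : Function.Injective (phi n w))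
    {α g1 g2 : Fin 4 → ℂ} {c : ℂ} (hα : Function.Injective α) (hc : c ≠ 0)
    (hg : ∀ j, gam g1 g2 j ≠ 0) {pi : Fin 4 → Ω}
    (hpi : ∀ j, pi j ^ 2 * aeval w (gam g1 g2 j) = algebraMap ℂ Ω c * (n - algebraMap ℂ Ω (α j)))
    {D : ℕ} (b : Fin D → ℂ[X][X]) (hb : LinearIndependent ℂ b) :
    LinearIndependent ℂ fun x : Finset (Fin 3) × Fin D =>
      (∏ j, pi j ^ eT x.1 j) * phi n w (b x.2) := by
  classical
  have hφ' : Function.Injective (phi n w : ℂ[X][X] →+* Ω) := hφ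
  let F := FractionRing ℂ[X][X]
  let ι : F →+* Ω := IsFractionRing.lift hφ'
  have hι : ∀ P : ℂ[X][X], ι (algebraMap ℂ[X][X] F P) = phi n w P := fun P =>
    IsFractionRing.lift_algebraMap hφ' P
  let _ : Algebra F Ω := ι.toAlgebra
  have : CharZero ℂ[X][X] := inferInstance
  have : CharZero F := charZero_of_injective_algebraMap (IsFractionRing.injective ℂ[X][X] F)
  have hmap : ∀ x : F, algebraMap F Ω x = ι x := fun _ => rfl
  have hpi0 : ∀ j, pi j ≠ 0 := by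
    intro j h
    have h1 := hpi j
    rw [h, zero_pow two_ne_zero, zero_mul] at h1
    have h2 : phi n w (C (C c) * (X - C (C (α j)))) = 0 := by
      simp only [map_mul, map_sub, phi_X, phi_C, aeval_C]
      exact h1.symm
    have h3 := hφ (h2.trans (map_zero _).symm)
    exact mul_ne_zero (C_ne_zero.mpr (C_ne_zero.mpr hc)) (X_sub_C_ne_zero _) h3
  have hgw : ∀ j, (aeval w (gam g1 g2 j) : Ω) ≠ 0 := by
    intro j h
    rw [← phi_C n w] at h
    exact C_ne_zero.mpr (hg j) (hφ (h.trans (map_zero _).symm))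
  have hsq : ∀ j, pi j ^ 2 ∈ (algebraMap F Ω).range := by
    intro j
    refine ⟨algebraMap _ F (C (C c) * (X - C (C (α j)))) / algebraMap _ F (C (gam g1 g2 j)), ?_⟩
    rw [hmap, map_div₀, hι, hι, phi_C, div_eq_iff (hgw j), hpi]
    simp only [map_mul, map_sub, phi_X, phi_C, aeval_C]
  have hk : LinearIndependent F fun T : Finset (Fin 3) => ∏ j, pi j ^ eT T j := by
    refine kummer_indep _ (fun T => Finset.prod_ne_zero_iff.mpr fun j _ => pow_ne_zero _ (hpi0 j))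
      (fun T => ?_) (fun T T' hT => ?_)
    · rw [← Finset.prod_pow]
      refine Subring.prod_mem _ fun j _ => ?_
      rw [← pow_mul, mul_comm, pow_mul]
      exact Subring.pow_mem _ (hsq j) _
    · rintro ⟨x, hx⟩
      obtain ⟨P, Q, hQ, rfl⟩ := IsFractionRing.div_surjective (A := ℂ[X][X]) x
      have hQ0 : Q ≠ 0 := nonZeroDivisors.ne_zero hQ
      have hφQ : phi n w Q ≠ 0 := fun h => hQ0 (hφ (h.trans (map_zero _).symm))
      obtain ⟨j, hj⟩ : ∃ j : Fin 3, Odd (eT T j.succ + eT T' j.succ) := by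
        by_contra hno
        push Not at hno
        refine hT (Finset.ext fun j => ?_)
        have h1 := hno j
        simp only [eT, Fin.cons_succ] at h1
        by_cases h2 : j ∈ T <;> by_cases h3 : j ∈ T' <;> simp [h2, h3] at h1 ⊢
      refine odd_ne hφ hα hc hg hpi (fun j => eT T j + eT T' j) j.succ hj P Q hQ0 ?_
      rw [hmap, map_div₀, hι, hι, div_eq_iff hφQ] at hx
      rw [hx, ← Finset.prod_mul_distrib]
      simp only [pow_add]
  rw [Fintype.linearIndependent_iff] at hk hb ⊢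
  intro a ha x
  have h1 : ∀ T, ∑ k, a (T, k) • b k = 0 := by
    intro T
    have h2 := hk (fun T => algebraMap ℂ[X][X] F (∑ k, a (T, k) • b k)) ?_ T
    · exact (IsFractionRing.injective ℂ[X][X] F) (h2.trans (map_zero _).symm)
    · rw [← ha, Fintype.sum_prod_type]
      refine Finset.sum_congr rfl fun T _ => ?_
      rw [Algebra.smul_def, hmap, hι, map_sum, Finset.sum_mul]
      refine Finset.sum_congr rfl fun k _ => ?_
      rw [map_smul]
      simp only [smul_mul_assoc]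
      rw [mul_comm]
  exact hb (fun k => a (x.1, k)) (h1 x.1) x.2

theorem mem_aux {Ω : Type*} [Field Ω] [Algebra ℂ Ω] {n w : Ω}
    {α g1 g2 : Fin 4 → ℂ} {c : ℂ} {pi : Fin 4 → Ω}
    (hne : ∀ j, (aeval w (gam g1 g2 j) : Ω) ≠ 0)
    (hpi : ∀ j, pi j ^ 2 * aeval w (gam g1 g2 j) = algebraMap ℂ Ω c * (n - algebraMap ℂ Ω (α j)))
    (M i : ℕ) (S : Submodule ℂ Ω) (z : Ω)
    (hS : ∀ (a : ℕ) (f : Fin 4 → ℕ), a ≤ i → ∑ j, f j = M →
      w ^ a * (z * ∏ j, pi j ^ (2 * f j)) ∈ S) (F : ℂ[X][X]) (hF : F ∈ W α g1 g2 M i) :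
    (algebraMap ℂ Ω c / ∏ j, aeval w (gam g1 g2 j)) ^ M * (z * phi n w F) ∈ S := by
  classical
  set κ : Ω := algebraMap ℂ Ω c / ∏ j, aeval w (gam g1 g2 j) with hκ
  have hprod : (∏ j, aeval w (gam g1 g2 j) : Ω) ≠ 0 := Finset.prod_ne_zero_iff.mpr fun j _ => hne j
  have hpp : ∀ j, κ * phi n w (pp α g1 g2 j) = pi j ^ 2 := by
    intro j
    have h1 : (∏ j, aeval w (gam g1 g2 j) : Ω) = aeval w (gam g1 g2 j) *
        aeval w (gam' g1 g2 j) := by
      rw [gam', map_prod]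
      exact (Finset.mul_prod_erase Finset.univ (fun k => (aeval w (gam g1 g2 k) : Ω))
        (Finset.mem_univ j)).symm
    have h2 : (aeval w (gam' g1 g2 j) : Ω) ≠ 0 := fun h0 => hprod (by rw [h1, h0, mul_zero])
    rw [hκ, h1, pp, map_mul, phi_C, map_sub, phi_X, phi_C, aeval_C, div_mul_eq_mul_div,
      div_eq_iff (mul_ne_zero (hne j) h2), ← mul_assoc (pi j ^ 2), hpi]
    ring
  induction hF using Submodule.span_induction with
  | mem F hF =>
    obtain ⟨a, f, ha, hf, rfl⟩ := hF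
    have h3 : κ ^ M * (z * phi n w (C (X ^ a) * ∏ j, pp α g1 g2 j ^ f j)) =
        w ^ a * (z * ∏ j, pi j ^ (2 * f j)) := by
      rw [map_mul, phi_C, map_pow, aeval_X, map_prod, ← hf, ← Finset.prod_pow_eq_pow_sum]
      simp only [pow_mul, map_pow, ← hpp, mul_pow, Finset.prod_mul_distrib]
      ring
    rw [h3]
    exact hS a f ha hf
  | zero => simp
  | add F G _ _ h1 h2 => rw [map_add, mul_add, mul_add]; exact add_mem h1 h2
  | smul r F _ h1 =>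
    rw [map_smul, mul_smul_comm, mul_smul_comm]
    exact Submodule.smul_mem _ _ h1

end Vale.Agent.P018.QB.Surf
end

section

/-! # P018, (B): gap curves, the divisibility `p ∣ W`. -/

namespace Vale.Agent.P018.QB.GapC

open Polynomial NumberField Vale.Agent.P018.Q

section aux

variable {L : Type} [Field L] [NumberField L]

theorem w_fld {θ : Fin 4 → 𝓞 L} {G : ℤ[X]} (hG : Root4 θ G) : Fld G θ :=
  ⟨hG.monic, hG.deg, hG.irr, hG.inj, hG.roots⟩

/-- `b - a θ ≠ 0` -/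
theorem w_lin_ne {θ : Fin 4 → 𝓞 L} {G : ℤ[X]} (hG : Root4 θ G) {a b : ℤ}
    (h : a ≠ 0 ∨ b ≠ 0) (j : Fin 4) : (b : 𝓞 L) - (a : 𝓞 L) * θ j ≠ 0 := by
  have h1 := GapPt.ell_ne (w_fld hG) (l := ![b, -a, 0, 0]) (by
    intro h0
    have e0 := congrFun h0 0
    have e1 := congrFun h0 1
    simp at e0 e1
    rcases h with h | h
    · exact h e1
    · exact h e0) j
  rw [ell_four] at h1
  intro h2
  apply h1
  simp
  linear_combination h2

/-- the values of the form of `G`. -/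
theorem w_hom_G {θ : Fin 4 → 𝓞 L} {G : ℤ[X]} (hG : Root4 θ G) (b a : ℤ) :
    ((hom 4 G b a : ℤ) : 𝓞 L) = ∏ j, ((b : 𝓞 L) - (a : 𝓞 L) * θ j) := by
  have h1 : G.map (algebraMap ℤ (𝓞 L)) =
      ∏ j, piPoly θ ![1, 0, 0, 0] ![0, -1, 0, 0] j := by
    rw [hG.roots]
    refine Finset.prod_congr rfl fun j _ => ?_
    unfold piPoly
    rw [ell_four, ell_four]
    simp
    ring
  rw [GapPt.hom_lam h1]
  refine Finset.prod_congr rfl fun j _ => ?_
  rw [ell_lin, ell_four, ell_four]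
  simp
  ring

theorem w_hom_bound (G : ℤ[X]) {H E : ℕ} (hH : 2 ≤ H) {a b : ℤ} (ha : |a| ≤ (H : ℤ) ^ E)
    (hb : |b| ≤ (H : ℤ) ^ E) :
    |hom 4 G b a| ≤ (H : ℤ) ^ ((∑ i ∈ Finset.range 5, (G.coeff i).natAbs) + 4 * E) := by
  set S : ℕ := ∑ i ∈ Finset.range 5, (G.coeff i).natAbs with hS
  have h1 : |hom 4 G b a| ≤ (S : ℤ) * (H : ℤ) ^ (4 * E) := by
    unfold hom
    refine (Finset.abs_sum_le_sum_abs _ _).trans ?_
    rw [hS]
    push_cast
    rw [Finset.sum_mul]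
    refine Finset.sum_le_sum fun i hi => ?_
    have hi' : i ≤ 4 := by have := Finset.mem_range.1 hi; omega
    rw [abs_mul, abs_mul, abs_pow, abs_pow, mul_assoc]
    have h2 : |b| ^ i * |a| ^ (4 - i) ≤ (H : ℤ) ^ (4 * E) := by
      have e : (H : ℤ) ^ (4 * E) = ((H : ℤ) ^ E) ^ i * ((H : ℤ) ^ E) ^ (4 - i) := by
        rw [← pow_add, ← pow_mul]; congr 1
        rw [show i + (4 - i) = 4 by omega]; ring
      rw [e]
      exact mul_le_mul (pow_le_pow_left₀ (abs_nonneg _) hb _)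
        (pow_le_pow_left₀ (abs_nonneg _) ha _) (by positivity) (by positivity)
    exact mul_le_mul_of_nonneg_left h2 (abs_nonneg _)
  have h3 : (S : ℤ) ≤ (H : ℤ) ^ S := by
    have : S ≤ H ^ S := (Nat.lt_pow_self (by omega)).le
    exact_mod_cast this
  refine h1.trans ?_
  rw [pow_add]
  exact mul_le_mul_of_nonneg_right h3 (by positivity)

/-- the Wronskian does not vanish. -/
theorem w_wr_ne {d : ℕ} {A B : ℤ[X]} (hAB : A.natDegree = d + 1 ∨ B.natDegree = d + 1)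
    (hcop : IsCoprime (A.map (Int.castRingHom ℚ)) (B.map (Int.castRingHom ℚ))) :
    wr A B ≠ 0 := by
  intro h0
  have h1 : wronskian (A.map (Int.castRingHom ℚ)) (B.map (Int.castRingHom ℚ)) = 0 := by
    have := congrArg (Polynomial.map (Int.castRingHom ℚ)) h0
    simpa [wr, wronskian, Polynomial.derivative_map] using this
  rw [hcop.wronskian_eq_zero_iff] at h1
  have hdegA : (A.map (Int.castRingHom ℚ)).natDegree = A.natDegree :=
    natDegree_map_eq_of_injective (RingHom.injective_int _) _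
  have hdegB : (B.map (Int.castRingHom ℚ)).natDegree = B.natDegree :=
    natDegree_map_eq_of_injective (RingHom.injective_int _) _
  have h2 := derivative_eq_zero.1 h1.1
  have h3 := derivative_eq_zero.1 h1.2
  omega

/-- the identity over `ℂ`. -/
theorem w_id {d : ℕ} {A B : ℤ[X]} {α γ1 γ2 : Fin 4 → ℂ} (hα : Function.Injective α)
    (hA : A.natDegree ≤ d + 1) (hB : B.natDegree ≤ d + 1) (hwr : wr A B ≠ 0)
    (hlead : ∀ j, (B.coeff (d + 1) : ℂ) - α j * (A.coeff (d + 1) : ℂ) ≠ 0)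
    (hγ : ∀ j, γ2 j ≠ 0)
    (hcop : IsCoprime (A.map (Int.castRingHom ℚ)) (B.map (Int.castRingHom ℚ)))
    (hP : ∀ j, ∃ h : ℂ[X], B.map (Int.castRingHom ℂ) - C (α j) * A.map (Int.castRingHom ℂ) =
      (C (γ1 j) + C (γ2 j) * X) * h ^ 2) :
    C (∏ j, ((B.coeff (d + 1) : ℂ) - α j * (A.coeff (d + 1) : ℂ))) *
        (wr A B).map (Int.castRingHom ℂ) ^ 2 * ∏ j, (C (γ1 j) + C (γ2 j) * X) =
      C (((wr A B).coeff (2 * d) : ℂ) ^ 2 * ∏ j, γ2 j) *
        ∏ j, (B.map (Int.castRingHom ℂ) - C (α j) * A.map (Int.castRingHom ℂ)) := by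
  choose h hh using hP
  set f := Int.castRingHom ℂ with hf
  set a := A.map f with ha
  set b := B.map f with hb
  set w := (wr A B).map f with hw
  have hwab : w = a * derivative b - derivative a * b := by
    rw [hw, ha, hb, wr]
    simp [Polynomial.derivative_map]
  have hw0 : w ≠ 0 := by
    rw [hw, Ne, Polynomial.map_eq_zero_iff (RingHom.injective_int f)]
    exact hwr
  have hwdeg : w.natDegree ≤ 2 * d := natDegree_map_le.trans (Gap.natDegree_wr d A B hA hB)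
  have hcop2 : IsCoprime a b := by
    have h1 := hcop.map (mapRingHom (algebraMap ℚ ℂ))
    simp only [coe_mapRingHom, Polynomial.map_map] at h1
    have h2 : (algebraMap ℚ ℂ).comp (Int.castRingHom ℚ) = f := RingHom.ext_int _ _
    rw [h2] at h1
    exact h1
  have hcoeff : ∀ j, (b - C (α j) * a).coeff (d + 1) =
      (B.coeff (d + 1) : ℂ) - α j * (A.coeff (d + 1) : ℂ) := by
    intro j
    simp [ha, hb, hf]
  have hdegP : ∀ j, (b - C (α j) * a).natDegree = d + 1 := by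
    intro j
    refine natDegree_eq_of_le_of_coeff_ne_zero ?_ ?_
    · refine (natDegree_sub_le _ _).trans (max_le (natDegree_map_le.trans hB) ?_)
      exact (natDegree_C_mul_le _ _).trans (natDegree_map_le.trans hA)
    · rw [hcoeff]; exact hlead j
  have hP0 : ∀ j, b - C (α j) * a ≠ 0 := by
    intro j h0
    have := hdegP j
    rw [h0] at this
    simp at this
  have hlin : ∀ j, (C (γ1 j) + C (γ2 j) * X : ℂ[X]).natDegree = 1 := by
    intro j
    rw [add_comm]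
    exact natDegree_linear (hγ j)
  have hlin0 : ∀ j, (C (γ1 j) + C (γ2 j) * X : ℂ[X]) ≠ 0 := by
    intro j h0
    have := hlin j
    rw [h0] at this
    simp at this
  have hh0 : ∀ j, h j ≠ 0 := by
    intro j h0
    apply hP0 j
    rw [hh j, h0]
    ring
  have hdegh : ∀ j, 2 * (h j).natDegree = d := by
    intro j
    have h1 := hdegP j
    rw [hh j, natDegree_mul (hlin0 j) (pow_ne_zero _ (hh0 j)), hlin, natDegree_pow] at h1
    omega
  have hlc : ∀ j, (B.coeff (d + 1) : ℂ) - α j * (A.coeff (d + 1) : ℂ) =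
      γ2 j * (h j).leadingCoeff ^ 2 := by
    intro j
    rw [← hcoeff j, ← hdegP j]
    change (b - C (α j) * a).leadingCoeff = _
    rw [hh j, leadingCoeff_mul, leadingCoeff_pow]
    congr 1
    rw [add_comm]
    exact leadingCoeff_linear (hγ j)
  -- pairwise coprime
  have hPcop : ∀ i j, i ≠ j → IsCoprime (b - C (α i) * a) (b - C (α j) * a) := by
    intro i j hij
    obtain ⟨u, v, huv⟩ := hcop2
    have hne : α j - α i ≠ 0 := sub_ne_zero.2 fun h => hij (hα h.symm)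
    have hC : C ((α j - α i)⁻¹) * (C (α j) - C (α i)) = (1 : ℂ[X]) := by
      rw [← C_sub, ← C_mul, inv_mul_cancel₀ hne, C_1]
    refine ⟨C ((α j - α i)⁻¹) * (u + v * C (α j)), -(C ((α j - α i)⁻¹) * (u + v * C (α i))), ?_⟩
    linear_combination (C ((α j - α i)⁻¹) * (C (α j) - C (α i))) * huv + hC
  have hhcop : ∀ i j, i ≠ j → IsCoprime (h i) (h j) := by
    intro i j hij
    refine ((hPcop i j hij).of_isCoprime_of_dvd_left ?_).of_isCoprime_of_dvd_right ?_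
    · rw [hh i]; exact Dvd.dvd.mul_left (dvd_pow_self _ (by norm_num)) _
    · rw [hh j]; exact Dvd.dvd.mul_left (dvd_pow_self _ (by norm_num)) _
  have hdvd : ∀ j, h j ∣ w := by
    intro j
    have h1 : w = a * derivative (b - C (α j) * a) - derivative a * (b - C (α j) * a) := by
      rw [hwab]
      simp only [derivative_sub, derivative_mul, derivative_C]
      ring
    rw [h1, hh j, derivative_mul, derivative_pow]
    refine dvd_sub (Dvd.dvd.mul_left (dvd_add ?_ ?_) _) ?_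
    · exact Dvd.dvd.mul_left (dvd_pow_self _ (by norm_num)) _
    · refine Dvd.dvd.mul_left ?_ _
      exact ⟨C ((2 : ℕ) : ℂ) * derivative (h j), by
        rw [show (2 - 1 : ℕ) = 1 from rfl]; ring⟩
    · exact Dvd.dvd.mul_left (Dvd.dvd.mul_left (dvd_pow_self _ (by norm_num)) _) _
  obtain ⟨r, hr⟩ : (∏ j, h j) ∣ w :=
    Finset.prod_dvd_of_coprime (fun i _ j _ hij => hhcop i j hij) fun j _ => hdvd j
  have hprod0 : (∏ j, h j) ≠ 0 := Finset.prod_ne_zero_iff.2 fun j _ => hh0 j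
  have hr0 : r ≠ 0 := by
    rintro rfl
    rw [mul_zero] at hr
    exact hw0 hr
  have hproddeg : (∏ j, h j).natDegree = 2 * d := by
    rw [natDegree_prod _ _ fun j _ => hh0 j, Fin.sum_univ_four]
    have h0 := hdegh 0
    have h1 := hdegh 1
    have h2 := hdegh 2
    have h3 := hdegh 3
    omega
  have hrdeg : r.natDegree = 0 := by
    have h1 := hwdeg
    rw [hr, natDegree_mul hprod0 hr0, hproddeg] at h1
    omega
  obtain ⟨q, rfl⟩ : ∃ q, r = C q := ⟨r.coeff 0, eq_C_of_natDegree_eq_zero hrdeg⟩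
  have hwlc : ((wr A B).coeff (2 * d) : ℂ) = (∏ j, (h j).leadingCoeff) * q := by
    have h1 : ((wr A B).coeff (2 * d) : ℂ) = w.coeff (2 * d) := by
      rw [hw, coeff_map]; rfl
    rw [h1, hr, coeff_mul_C, ← hproddeg]
    congr 1
    change (∏ j, h j).leadingCoeff = _
    rw [leadingCoeff_prod]
  rw [hwlc]
  simp only [hlc, hh, hr]
  simp only [Fin.prod_univ_four, C_mul, C_pow]
  ring

end aux

theorem dvd_wr {L : Type} [Field L] [NumberField L] (θ : Fin 4 → 𝓞 L) (G : ℤ[X])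
    (hG : Root4 θ G) (C E D : ℕ) : ∃ C2 : ℕ, ∀ (H d : ℕ) (φ : L →+* ℂ) (g1 g2 : Fin 4 → ℤ)
      (A B : ℤ[X]), 2 ≤ H → d + 1 ≤ D → NonSpec θ g1 g2 →
      A.natDegree ≤ d + 1 → B.natDegree ≤ d + 1 → (A.natDegree = d + 1 ∨ B.natDegree = d + 1) →
      IsCoprime (A.map (Int.castRingHom ℚ)) (B.map (Int.castRingHom ℚ)) →
      (∀ i, |A.coeff i| ≤ (H : ℤ) ^ E) → (∀ i, |B.coeff i| ≤ (H : ℤ) ^ E) →
      (∀ j, ∃ h : ℂ[X], B.map (Int.castRingHom ℂ) - Polynomial.C (φ (θ j)) *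
          A.map (Int.castRingHom ℂ) = (Polynomial.C (cf θ φ g1 j) +
            Polynomial.C (cf θ φ g2 j) * Polynomial.X) * h ^ 2) →
      wr A B ≠ 0 ∧ ∃ m : ℤ, m ≠ 0 ∧ |m| ≤ (H : ℤ) ^ C2 ∧
        ∀ (X T : ℝ) (c N : ℤ) (p : ℕ) (y : Fin 4 → ℤ) (u1 u2 g s t : ℤ),
          Dat θ C X T N p c y (fun j => u1 * g1 j + u2 * g2 j) → u1 = g * t → u2 = g * s →
          IsCoprime s t → t ≠ 0 → hom (d + 1) A s t * N = hom (d + 1) B s t → C < p →
          (p : ℤ) ∣ m * hom (2 * d) (wr A B) s t := by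
  refine ⟨(∑ i ∈ Finset.range 5, (G.coeff i).natAbs) + 4 * E, ?_⟩
  intro H d φ g1 g2 A B hH hdD hns hA hB hAB hcop hAE hBE hP
  have hwr := w_wr_ne hAB hcop
  -- the leading coefficients
  have hab : A.coeff (d + 1) ≠ 0 ∨ B.coeff (d + 1) ≠ 0 := by
    rcases hAB with h | h
    · left
      rw [← h]
      intro h0
      have : A = 0 := leadingCoeff_eq_zero.1 h0
      rw [this] at h; simp at h
    · right
      rw [← h]
      intro h0
      have : B = 0 := leadingCoeff_eq_zero.1 h0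
      rw [this] at h; simp at h
  set ψ : 𝓞 L →+* ℂ := φ.comp (algebraMap (𝓞 L) L) with hψ
  have hψi : Function.Injective ψ := φ.injective.comp RingOfIntegers.coe_injective
  have hg2 : g2 ≠ 0 := by
    rintro rfl
    have h0 : ∀ j, el (θ j) (0 : Fin 4 → ℤ) = 0 := by
      intro j; unfold el; rw [ell_four]; simp
    exact hns 0 1 (by decide) (by rw [h0, h0]; ring)
  have hγ : ∀ j, cf θ φ g2 j ≠ 0 := by
    intro j h0
    have h1 : ψ (el (θ j) g2) = ψ 0 := by rw [map_zero]; exact h0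
    exact GapPt.ell_ne (w_fld hG) hg2 j (hψi h1)
  have hlead : ∀ j, (B.coeff (d + 1) : ℂ) - φ (θ j) * (A.coeff (d + 1) : ℂ) ≠ 0 := by
    intro j h0
    refine w_lin_ne hG hab j (hψi ?_)
    rw [map_zero, map_sub, map_mul, map_intCast, map_intCast]
    have h1 : ψ (θ j) = φ (θ j) := rfl
    rw [h1]
    linear_combination h0
  have hα : Function.Injective fun j => φ ((θ j : 𝓞 L) : L) := fun i j h =>
    hG.inj (hψi h)
  have hid := w_id (d := d) hα hA hB hwr hlead hγ hcop hP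
  refine ⟨hwr, hom 4 G (B.coeff (d + 1)) (A.coeff (d + 1)), ?_, ?_, ?_⟩
  · intro h0
    have h1 := w_hom_G hG (B.coeff (d + 1)) (A.coeff (d + 1))
    rw [h0, Int.cast_zero] at h1
    obtain ⟨j, -, hj⟩ := Finset.prod_eq_zero_iff.1 h1.symm
    exact w_lin_ne hG hab j hj
  · exact w_hom_bound G hH (hAE _) (hBE _)
  intro X T c N p y u1 u2 g s t hdat hu1 hu2 hst ht hN hCp
  set m : ℤ := hom 4 G (B.coeff (d + 1)) (A.coeff (d + 1)) with hm
  set W : ℤ := hom (2 * d) (wr A B) s t with hW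
  set HA : ℤ := hom (d + 1) A s t with hHA
  set HB : ℤ := hom (d + 1) B s t with hHB
  -- the identity in `𝓞 L`
  have hmψ : (m : ℂ) = ∏ j, ((B.coeff (d + 1) : ℂ) - φ (θ j) * (A.coeff (d + 1) : ℂ)) := by
    have h1 := congrArg ψ (w_hom_G hG (B.coeff (d + 1)) (A.coeff (d + 1)))
    rw [map_intCast, map_prod] at h1
    rw [hm, h1]
    refine Finset.prod_congr rfl fun j _ => ?_
    rw [map_sub, map_mul, map_intCast, map_intCast, mul_comm]
    rfl
  have htC : (t : ℂ) ≠ 0 := by exact_mod_cast ht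
  set x : ℂ := (s : ℂ) / t with hx
  have hxt : x * t = s := div_mul_cancel₀ _ htC
  have hhom : ∀ (D' : ℕ) (P : ℤ[X]), P.natDegree ≤ D' →
      ((hom D' P s t : ℤ) : ℂ) = (t : ℂ) ^ D' * (P.map (Int.castRingHom ℂ)).eval x := by
    intro D' P hP
    have h1 := Q.cehom_mul (R := ℂ) D' hP x t
    rw [hxt] at h1
    have h2 : ((hom D' P s t : ℤ) : ℂ) = hom D' P (s : ℂ) (t : ℂ) :=
      Q.cehom_map (Int.castRingHom ℂ) D' P s t
    rw [h2, h1, aeval_def, eval_map]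
    congr 1
  have hidx := congrArg (Polynomial.eval x) hid
  simp only [eval_mul, eval_C, eval_pow, eval_prod, eval_add, eval_X, eval_sub] at hidx
  rw [← hmψ] at hidx
  have hWx := hhom (2 * d) (wr A B) (Gap.natDegree_wr d A B hA hB)
  have hAx := hhom (d + 1) A hA
  have hBx := hhom (d + 1) B hB
  have key : (m : 𝓞 L) * (W : 𝓞 L) ^ 2 *
      ∏ j, ((t : 𝓞 L) * el (θ j) g1 + (s : 𝓞 L) * el (θ j) g2) =
      ((wr A B).coeff (2 * d) : 𝓞 L) ^ 2 * (∏ j, el (θ j) g2) * (HA : 𝓞 L) ^ 4 *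
        ∏ j, ((N : 𝓞 L) - θ j) := by
    apply hψi
    simp only [map_mul, map_pow, map_prod, map_intCast, map_add, map_sub]
    have e1 : ∀ j, ψ (el (θ j) g1) = cf θ φ g1 j := fun j => rfl
    have e2 : ∀ j, ψ (el (θ j) g2) = cf θ φ g2 j := fun j => rfl
    have e3 : ∀ j, ψ (θ j) = φ (θ j) := fun j => rfl
    simp only [e1, e2, e3]
    have hNC : ((HA : ℤ) : ℂ) * N = ((HB : ℤ) : ℂ) := by exact_mod_cast hN
    have l1 : ∏ j, ((t : ℂ) * cf θ φ g1 j + (s : ℂ) * cf θ φ g2 j) =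
        (t : ℂ) ^ 4 * ∏ j, (cf θ φ g1 j + cf θ φ g2 j * x) := by
      simp only [Fin.prod_univ_four, ← hxt]
      ring
    have l2 : ((HA : ℤ) : ℂ) ^ 4 * ∏ j, ((N : ℂ) - φ (θ j)) = ((t : ℂ) ^ (d + 1)) ^ 4 *
        ∏ j, ((B.map (Int.castRingHom ℂ)).eval x -
          φ (θ j) * (A.map (Int.castRingHom ℂ)).eval x) := by
      have l3 : ∀ j, ((HA : ℤ) : ℂ) * ((N : ℂ) - φ (θ j)) = (t : ℂ) ^ (d + 1) *
          ((B.map (Int.castRingHom ℂ)).eval x -
            φ (θ j) * (A.map (Int.castRingHom ℂ)).eval x) := by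
        intro j
        rw [mul_sub, hNC, hBx, hAx]
        ring
      have l4 : ∏ j, (((HA : ℤ) : ℂ) * ((N : ℂ) - φ (θ j))) = ∏ j, ((t : ℂ) ^ (d + 1) *
          ((B.map (Int.castRingHom ℂ)).eval x -
            φ (θ j) * (A.map (Int.castRingHom ℂ)).eval x)) := Finset.prod_congr rfl fun j _ => l3 j
      simpa only [Finset.prod_mul_distrib, Finset.prod_const, Finset.card_univ,
        Fintype.card_fin] using l4
    rw [l1, mul_assoc _ (((HA : ℤ) : ℂ) ^ 4), l2, hWx]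
    have l5 : ((t : ℂ) ^ (d + 1)) ^ 4 = ((t : ℂ) ^ (2 * d)) ^ 2 * (t : ℂ) ^ 4 := by
      rw [← pow_mul, ← pow_mul, ← pow_add]; congr 1; ring
    rw [l5]
    linear_combination ((t : ℂ) ^ (2 * d)) ^ 2 * (t : ℂ) ^ 4 * hidx
  -- the divisibility
  obtain ⟨c', hc'0, hc'C, hnrm⟩ := hdat.nrm
  have hell : ∀ j, el (θ j) (fun i => u1 * g1 i + u2 * g2 i) =
      (g : 𝓞 L) * ((t : 𝓞 L) * el (θ j) g1 + (s : 𝓞 L) * el (θ j) g2) := by
    intro j
    have h1 : (fun i => u1 * g1 i + u2 * g2 i) = u1 • g1 + u2 • g2 := rfl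
    rw [h1]
    unfold el
    rw [ell_lin, hu1, hu2]
    push_cast
    ring
  have hfac : ∀ j, (t : 𝓞 L) * el (θ j) g1 + (s : 𝓞 L) * el (θ j) g2 ≠ 0 := by
    intro j h0
    have h1 := hdat.eqn j
    have h2 := hell j
    unfold el at h0 h2
    rw [h2, h0, mul_zero, mul_zero] at h1
    rcases mul_eq_zero.1 h1 with h3 | h3
    · exact hdat.c0 (by exact_mod_cast h3)
    · have h4 := w_lin_ne hG (a := 1) (b := N) (Or.inl one_ne_zero) j
      apply h4
      rw [Int.cast_one, one_mul]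
      exact h3
  set Z : 𝓞 L := ∏ j, ((t : 𝓞 L) * el (θ j) g1 + (s : 𝓞 L) * el (θ j) g2) with hZ
  have hZ0 : Z ≠ 0 := Finset.prod_ne_zero_iff.2 fun j _ => hfac j
  have hprodN : (c : 𝓞 L) ^ 4 * ∏ j, ((N : 𝓞 L) - θ j) =
      (((p : ℤ) * c' : ℤ) : 𝓞 L) ^ 2 * ((g : 𝓞 L) ^ 4 * Z) := by
    have h1 : ∏ j, ((c : 𝓞 L) * ((N : 𝓞 L) - θ j)) = ∏ j, (K.ell (θ j) y ^ 2 *
        ((g : 𝓞 L) * ((t : 𝓞 L) * el (θ j) g1 + (s : 𝓞 L) * el (θ j) g2))) := by
      refine Finset.prod_congr rfl fun j _ => ?_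
      rw [hdat.eqn j]
      exact congrArg _ (hell j)
    rw [Finset.prod_mul_distrib, Finset.prod_mul_distrib, Finset.prod_mul_distrib,
      Finset.prod_const, Finset.prod_const, Finset.card_univ, Fintype.card_fin,
      Finset.prod_pow, hnrm] at h1
    exact h1
  have hfin : ((c ^ 4 * (m * W ^ 2) : ℤ) : 𝓞 L) = (((p : ℤ) ^ 2 : ℤ) : 𝓞 L) *
      ((((wr A B).coeff (2 * d) : 𝓞 L) ^ 2 * (∏ j, el (θ j) g2) * (HA : 𝓞 L) ^ 4) *
        ((c' : 𝓞 L) ^ 2 * (g : 𝓞 L) ^ 4)) := by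
    apply mul_right_cancel₀ hZ0
    push_cast at hprodN ⊢
    linear_combination (c : 𝓞 L) ^ 4 * key + (((wr A B).coeff (2 * d) : 𝓞 L) ^ 2 *
      (∏ j, el (θ j) g2) * (HA : 𝓞 L) ^ 4) * hprodN
  have hdvd : (p : ℤ) ^ 2 ∣ c ^ 4 * (m * W ^ 2) := by
    refine rd_int L ?_
    rw [hfin]
    exact dvd_mul_right _ _
  have hpp : Prime (p : ℤ) := Nat.prime_iff_prime_int.1 hdat.prime
  have h1 : (p : ℤ) ∣ c ^ 4 * (m * W ^ 2) := (dvd_pow_self _ (by norm_num)).trans hdvd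
  rcases hpp.dvd_or_dvd h1 with h2 | h2
  · exfalso
    have h3 := hpp.dvd_of_dvd_pow h2
    have h4 := Int.le_of_dvd (abs_pos.2 hdat.c0) ((dvd_abs _ _).2 h3)
    have h5 := hdat.cC
    omega
  · rcases hpp.dvd_or_dvd h2 with h3 | h3
    · exact Dvd.dvd.mul_right h3 _
    · exact Dvd.dvd.mul_left (hpp.dvd_of_dvd_pow h3) _

end Vale.Agent.P018.QB.GapC
end
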