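import Mathlib
import Vale.Agent.P018.Bdl.B6
import Vale.Agent.P018.Bdl.B8
import Vale.Agent.P018.Bdl.B1
import Vale.Agent.P018.Bdl.B7
import Vale.Agent.P018.Bdl.B4

set_option linter.all false

section

/-! # P018, K2 (staircase), module D: the relations in one cube.

This is exactly the first part of the proof of `loc_class` in `Vale.Agent.P018.K.Local` (everything
except the use of `count_points`). -/

namespace Vale.Agent.P018.K2

open Polynomial NumberField Vale.Agent.P018.K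

theorem loc_rel (L : Type) [Field L] [NumberField L] {d : ℕ} (hd : 1 ≤ d) (θ : Fin d → 𝓞 L)
    (k : ℕ) (hk : 1 ≤ k) (r : ℕ) (B : Finset (ℕ × (Fin r → ℤ)))
    (hB : ∀ p ∈ B, needs k p.2 ≤ p.1) (A0 : ℝ) (hA0 : 1 ≤ A0) (Cs : ℕ) :
    ∃ (K : ℝ) (D : ℕ), 0 < K ∧ ∀ (X R ρ V : ℝ) (H : ℕ), 1 ≤ X → 1 ≤ R → 0 < ρ → ρ ≤ R →
      0 ≤ V → 1 ≤ H → (H : ℝ) ≤ ρ → K * V < 1 →
      (∀ m : B → ℕ × (Fin r → ℕ), Function.Injective m → (∀ f, (m f).1 ≤ f.1.1) →
        ∏ f, (R ^ (∑ i, f.1.2 i : ℤ) * X ^ (m f).1 * (ρ / R) ^ (∑ i, (m f).2 i)) ≤ V) →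
      ∀ (c : ℤ) (y0 : Fin d → ℤ) (Q : Finset (ℤ × (Fin d → ℤ))), c ≠ 0 → |c| ≤ Cs →
      (∀ q ∈ Q, ∀ j, y0 j ≤ q.2 j ∧ q.2 j < y0 j + H) →
      (∀ q ∈ Q, |(q.1 : ℝ)| ≤ A0 * X) →
      (∀ q ∈ Q, ∀ j, |(q.2 j : ℝ)| ≤ 2 * R) →
      (∀ q ∈ Q, ∃ N : ℤ, ∏ i, ell (θ i) q.2 = (N : 𝓞 L) ∧ R ^ d ≤ |(N : ℝ)|) →
      (∀ q ∈ Q, ∃ γ : Fin d → 𝓞 L, ∀ i,
        (c : 𝓞 L) ^ k * ((q.1 : 𝓞 L) - θ i) = ell (θ i) q.2 ^ k * γ i) →
      ∀ I : Fin r → Fin d, Function.Injective I → ∃ F : MvPolynomial (Fin r) L[X], F ≠ 0 ∧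
        (∀ a ∈ F.support, a.degree ≤ D ∧ (F.coeff a).natDegree ≤ D) ∧
        ∀ q ∈ Q, MvPolynomial.eval₂ (Polynomial.evalRingHom (q.1 : L))
          (fun i => ell ((θ (I i) : 𝓞 L) : L) q.2) F = 0 := by
  classical
  obtain ⟨A, hA1, hAθ, hAd, hAs⟩ := exists_size L hd θ
  obtain ⟨D, hD⟩ := K.exists_relation k hk B hB
  set A' : ℝ := 3 * A + (Cs : ℝ) ^ k + A0 with hA'
  have hCs0 : (0 : ℝ) ≤ (Cs : ℝ) ^ k := by positivity
  have hA'1 : 1 ≤ A' := by linarith only [hCs0, hA1, hA0]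
  obtain ⟨K, hK, hdet⟩ := det_small k hk (ι := B) (fun f => f.1.1) (fun f => f.1.2)
    (fun f => hB f.1 f.2) A' hA'1
  refine ⟨K, D, hK, ?_⟩
  intro X R ρ V H hX hR hρ hρR hV hH hHρ hKV hm c y0 Q hc hcs hcube hn hy hN hγ
  rcases Q.eq_empty_or_nonempty with hQ | ⟨q0, hq0⟩
  · intro I hI
    refine ⟨1, one_ne_zero, ?_, ?_⟩
    · intro a ha
      have h1 : a = 0 := by
        by_contra hne
        rw [MvPolynomial.mem_support_iff, MvPolynomial.coeff_one, if_neg (Ne.symm hne)] at ha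
        exact ha rfl
      rw [h1]
      simp
    · intro q hq
      rw [hQ] at hq
      simp at hq
  choose! Γ hΓ using hγ
  have hz0 : ∀ (σ : L →+* ℂ) (i : Fin d), ‖σ (ell (θ i : L) y0)‖ ≤ A' * R := by
    intro σ i
    have h1 := hAd σ i y0 0 (3 * R) (by
      intro j
      have h2 := hcube q0 hq0 j
      have h3 := hy q0 hq0 j
      have h4 : (y0 j : ℝ) ≤ q0.2 j := by exact_mod_cast h2.1
      have h5 : (q0.2 j : ℝ) < y0 j + H := by exact_mod_cast h2.2
      rw [abs_le] at h3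
      simp only [Pi.zero_apply, Int.cast_zero, sub_zero]
      rw [abs_le]
      constructor <;> linarith)
    have h6 : σ (ell (θ i : L) (0 : Fin d → ℤ)) = 0 := by
      simp [ell]
    rw [h6, sub_zero] at h1
    refine h1.trans ?_
    nlinarith
  intro I hI
  have hne : ∀ q ∈ Q, ∀ i, ell (θ i : L) q.2 ≠ 0 := by
    intro q hq i h0
    obtain ⟨N, hN1, hN2⟩ := hN q hq
    have h1 : (ell (θ i) q.2 : 𝓞 L) = 0 := by
      apply RingOfIntegers.ext
      exact (loc_map_ell (algebraMap (𝓞 L) L) (θ i) q.2).trans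
        (h0.trans (map_zero (algebraMap (𝓞 L) L)).symm)
    have h2 : ((N : ℤ) : 𝓞 L) = 0 := by
      rw [← hN1]
      exact Finset.prod_eq_zero (Finset.mem_univ i) h1
    have h3 : N = 0 := by exact_mod_cast h2
    rw [h3] at hN2
    simp only [Int.cast_zero, abs_zero] at hN2
    have : 0 < R ^ d := by positivity
    linarith only [this, hN2]
  obtain ⟨F, hF0, hFd, hF⟩ := hD L (fun i => (θ (I i) : L)) ((c : L) ^ k)
    (pow_ne_zero _ (by exact_mod_cast hc)) Q (fun q => q.1.1)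
    (fun q i => ell (θ (I i) : L) q.1.2) (fun q i => (Γ q.1 (I i) : L))
    (fun q i => hne q.1 q.2 (I i)) (by
      intro q i
      have h1 := congrArg (algebraMap (𝓞 L) L) (hΓ q.1 q.2 (I i))
      simp only [map_mul, map_pow, map_sub, map_intCast, loc_map_ell] at h1
      exact h1.symm) (by
      intro φ
      set Mo : Matrix B B (𝓞 L) := Matrix.of fun q f =>
        fn k ((φ q).1.1 : 𝓞 L) (fun i => ell (θ (I i)) (φ q).1.2) (fun i => Γ (φ q).1 (I i))
          f.1.1 f.1.2 with hMo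
      have hmap : ∀ {S : Type} [CommRing S] (σ : 𝓞 L →+* S), σ Mo.det =
          (Matrix.of fun (q : B) (f : B) => fn k (((φ q).1.1 : ℤ) : S)
            (fun i => ell (σ (θ (I i))) (φ q).1.2) (fun i => σ (Γ (φ q).1 (I i)))
            f.1.1 f.1.2).det := by
        intro S _ σ
        rw [RingHom.map_det]
        congr 1
        ext q f
        simp only [hMo, RingHom.mapMatrix_apply, Matrix.map_apply, Matrix.of_apply, loc_map_fn,
          loc_map_ell, map_intCast]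
      have hzero : Mo.det = 0 := by
        apply eq_zero_of_conj_lt_one L
        intro σ
        have h1 := hmap (σ.comp (algebraMap (𝓞 L) L))
        have h2 : σ ((Mo.det : 𝓞 L) : L) = (σ.comp (algebraMap (𝓞 L) L)) Mo.det := rfl
        rw [h2, h1]
        refine lt_of_le_of_lt ?_ hKV
        refine hdet X R ρ V hX hR hρ hρR hV (fun i => σ (θ (I i) : L)) (((c : ℂ)) ^ k)
          (fun q => (((φ q).1.1 : ℤ) : ℂ)) _ _ (fun i => σ (ell (θ (I i) : L) y0)) ?_ ?_ ?_ ?_ ?_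
          ?_ ?_ ?_ hm
        · intro i
          refine (hAθ σ (I i)).trans ?_
          linarith only [hCs0, hA1, hA0]
        · rw [norm_pow]
          have h3 : ‖(c : ℂ)‖ ≤ Cs := by
            rw [Complex.norm_intCast]
            exact_mod_cast hcs
          calc ‖(c : ℂ)‖ ^ k ≤ (Cs : ℝ) ^ k := pow_le_pow_left₀ (norm_nonneg _) h3 k
            _ ≤ A' := by linarith only [hA1, hA0]
        · intro q
          rw [Complex.norm_intCast]
          refine (hn _ (φ q).2).trans ?_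
          have : A0 ≤ A' := by linarith only [hCs0, hA1]
          exact mul_le_mul_of_nonneg_right this (by linarith only [hX])
        · intro q i
          have h3 := hAd σ (I i) (φ q).1.2 y0 H (by
            intro j
            have h2 := hcube _ (φ q).2 j
            have h4 : (y0 j : ℝ) ≤ (φ q).1.2 j := by exact_mod_cast h2.1
            have h5 : ((φ q).1.2 j : ℝ) < y0 j + H := by exact_mod_cast h2.2
            rw [abs_le]
            constructor <;> linarith)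
          rw [loc_map_ell] at h3
          refine h3.trans ?_
          have h4 : A ≤ A' := by linarith only [hCs0, hA1, hA0]
          exact mul_le_mul h4 hHρ (by positivity) (by linarith only [hCs0, hA1, hA0])
        · intro q i
          obtain ⟨N, hN1, hN2⟩ := hN _ (φ q).2
          have h3 := (hAs σ (I i) (φ q).1.2 R N hR (hy _ (φ q).2) hN1 hN2).2
          rw [loc_map_ell] at h3
          refine le_trans ?_ h3
          exact div_le_div_of_nonneg_left (by linarith only [hρR, hρ]) (by linarith only [hA1]) (by linarith only [hCs0, hA1, hA0])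
        · intro q i
          obtain ⟨N, hN1, hN2⟩ := hN _ (φ q).2
          have h3 := (hAs σ (I i) (φ q).1.2 R N hR (hy _ (φ q).2) hN1 hN2).1
          rw [loc_map_ell] at h3
          refine le_trans h3 ?_
          exact mul_le_mul_of_nonneg_right (by linarith only [hCs0, hA1, hA0]) (by linarith)
        · intro i
          exact hz0 σ (I i)
        · intro q i
          have h3 := congrArg (σ.comp (algebraMap (𝓞 L) L)) (hΓ _ (φ q).2 (I i))
          simp only [map_mul, map_pow, map_sub, map_intCast, loc_map_ell] at h3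
          exact h3.symm
      have h1 := hmap (algebraMap (𝓞 L) L)
      rw [hzero, map_zero] at h1
      exact h1.symm)
  exact ⟨F, hF0, hFd, fun q hq => hF ⟨q, hq⟩⟩

end Vale.Agent.P018.K2
end

section

/-! # P018, K2 (staircase), module C: number of sub-cells of side `h` of a cube of side `h N`
which contain points, when every `r`-tuple of conjugates satisfies a relation.

`cnt_main'` : same proof as `cnt_main` in `Vale.Agent.P018.K.Count`, with `d * (H-1)` replaced by `A`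
and the use of `cnt_P_top` replaced by the hypothesis `htop`.
`count_cells` : same as `count_points` in that file. For every nonempty cell choose one point; split
the cells in the `2^d` parity classes of the index `u = (q.2 - y0)/h`; apply `cnt_main'` and
`cells_top` to the good points of one class; the bad points (`G(n) = 0`) are at most
`C1 * (d^r * D)`. -/

namespace Vale.Agent.P018.K2

open Polynomial Vale.Agent.P018.K

theorem cnt_main' {d : ℕ} {L : Type} [Field L] {ι : Type} [Fintype ι] [CharZero L] {r D : ℕ}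
    (hr : 1 ≤ r) {J : Type} [Fintype J] [DecidableEq J] (I : J → Fin r → Fin d)
    (hIs : ∀ K : Fin r → Fin d, Function.Injective K → ∃ j, I j = K)
    (F : J → MvPolynomial (Fin r) L[X])
    (hD : ∀ j, ∀ a ∈ (F j).support, a.degree ≤ D ∧ ((F j).coeff a).natDegree ≤ D)
    (c : J → Fin r →₀ ℕ) (hc : ∀ j, c j ∈ (F j).support)
    (hlt : ∀ j, ∀ a ∈ (F j).support.erase (c j),
      cnt_om (D + 1) (cnt_ext (I j) a) < cnt_om (D + 1) (cnt_ext (I j) (c j)))
    (n : ι → L) (y : ι → Fin d → ℤ) (θ : Fin d → L) (A : ℕ)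
    (htop : cnt_P (fun i q => ell (θ i) (y q)) A = ⊤)
    (hrel : ∀ j q, MvPolynomial.eval₂ (Polynomial.evalRingHom (n q))
      (fun i => ell (θ (I j i)) (y q)) (F j) = 0)
    (hG : ∀ q, (∏ j, (F j).coeff (c j)).eval (n q) ≠ 0) :
    Fintype.card ι ≤ ((Fintype.card J * D + D) * ((D + 1) ^ d * A + 1) + 1) *
      (2 ^ d * (D + 1) ^ d * ((D + 1) ^ d * A + 1) ^ (r - 1)) := by
  classical
  set x : Fin d → ι → L := fun i q => ell (θ i) (y q) with hx
  set Om : ℕ := (D + 1) ^ d * A with hOm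
  set M : Set (Fin d → ℕ) := {m | ∀ j, ¬ cnt_ext (I j) (c j) ≤ m} with hM
  -- the relation
  have hrel2 : ∀ j q, ((F j).coeff (c j)).eval (n q) * cnt_mon x (cnt_ext (I j) (c j)) q =
      ∑ a ∈ (F j).support.erase (c j), (-(F j).coeff a).eval (n q) *
        cnt_mon x (cnt_ext (I j) a) q := by
    intro j q
    have h1 := hrel j q
    rw [MvPolynomial.eval₂_eq'] at h1
    have h2 : ∀ a : Fin r →₀ ℕ, (Polynomial.evalRingHom (n q)) ((F j).coeff a) *
        ∏ i, ell (θ (I j i)) (y q) ^ a i =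
        ((F j).coeff a).eval (n q) * cnt_mon x (cnt_ext (I j) a) q := by
      intro a
      rw [cnt_ext_mon, Polynomial.coe_evalRingHom]
    rw [Finset.sum_congr rfl fun a _ => h2 a, ← Finset.add_sum_erase _ _ (hc j)] at h1
    rw [eq_neg_of_add_eq_zero_left h1, ← Finset.sum_neg_distrib]
    refine Finset.sum_congr rfl fun a _ => ?_
    rw [eval_neg, neg_mul]
  have hclaim := cnt_claim n x (D + 1) D (fun j => cnt_ext (I j) (c j))
    (fun j => (F j).coeff (c j)) (fun j => (F j).support.erase (c j))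
    (fun j a => cnt_ext (I j) a) (fun j a => -(F j).coeff a) (fun j => (hD j _ (hc j)).2)
    (fun j a ha => by
      rw [natDegree_neg]
      exact (hD j a (Finset.mem_of_mem_erase ha)).2) hlt hrel2
  -- everything is in `W`
  have hsub : (∏ j, (F j).coeff (c j)).natDegree ≤ Fintype.card J * D := by
    refine (natDegree_prod_le _ _).trans ((Finset.sum_le_card_nsmul _ _ D
      fun j _ => (hD j _ (hc j)).2).trans ?_)
    rw [smul_eq_mul, Finset.card_univ]
  have hW : ∀ u ∈ cnt_P x A,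
      (fun q => (∏ j, (F j).coeff (c j)).eval (n q) ^ (Om + 1) * u q) ∈
        cnt_W n x M (D + 1) ((Fintype.card J * D + D) * (Om + 1)) Om := by
    intro u hu
    refine Submodule.span_induction
      (p := fun u _ => (fun q => (∏ j, (F j).coeff (c j)).eval (n q) ^ (Om + 1) * u q) ∈
        cnt_W n x M (D + 1) ((Fintype.card J * D + D) * (Om + 1)) Om) ?_ ?_ ?_ ?_ hu
    · rintro _ ⟨a, ha, rfl⟩
      have hwa : cnt_om (D + 1) a ≤ Om :=
        (cnt_om_le (Nat.le_add_left 1 D) a).trans (Nat.mul_le_mul_left _ ha)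
      have h1 := hclaim _ a rfl
      have h2 := cnt_W_mul (f := (∏ j, (F j).coeff (c j)) ^ (Om - cnt_om (D + 1) a))
        (k := (Om - cnt_om (D + 1) a) * (Fintype.card J * D))
        (natDegree_pow_le.trans (Nat.mul_le_mul_left _ hsub)) h1
      have e : (fun q => (∏ j, (F j).coeff (c j)).eval (n q) ^ (Om + 1) * cnt_mon x a q) =
          fun q => ((∏ j, (F j).coeff (c j)) ^ (Om - cnt_om (D + 1) a)).eval (n q) *
            ((∏ j, (F j).coeff (c j)).eval (n q) ^ (cnt_om (D + 1) a + 1) *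
              cnt_mon x a q) := by
        funext q
        rw [eval_pow, ← mul_assoc, ← pow_add]
        congr 2
        omega
      rw [e]
      refine cnt_W_mono n x M (D + 1) ?_ hwa h2
      obtain ⟨t, ht⟩ : ∃ t, Om = cnt_om (D + 1) a + t := ⟨Om - cnt_om (D + 1) a, by omega⟩
      have e4 : Om - cnt_om (D + 1) a = t := by omega
      rw [e4, ht]
      nlinarith [Nat.zero_le (D * t)]
    · have e : (fun q : ι => (∏ j, (F j).coeff (c j)).eval (n q) ^ (Om + 1) *
          (0 : ι → L) q) = 0 := by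
        funext q
        simp
      rw [e]
      exact Submodule.zero_mem _
    · intro u v _ _ hu hv
      have e : (fun q : ι => (∏ j, (F j).coeff (c j)).eval (n q) ^ (Om + 1) * (u + v) q) =
          (fun q => (∏ j, (F j).coeff (c j)).eval (n q) ^ (Om + 1) * u q) +
            fun q => (∏ j, (F j).coeff (c j)).eval (n q) ^ (Om + 1) * v q := by
        funext q
        simp only [Pi.add_apply, mul_add]
      rw [e]
      exact Submodule.add_mem _ hu hv
    · intro b u _ hu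
      have e : (fun q : ι => (∏ j, (F j).coeff (c j)).eval (n q) ^ (Om + 1) * (b • u) q) =
          b • fun q => (∏ j, (F j).coeff (c j)).eval (n q) ^ (Om + 1) * u q := by
        funext q
        simp only [Pi.smul_apply, smul_eq_mul]
        ring
      rw [e]
      exact Submodule.smul_mem _ _ hu
  have htop2 : cnt_W n x M (D + 1) ((Fintype.card J * D + D) * (Om + 1)) Om = ⊤ := by
    rw [eq_top_iff]
    intro v _
    have h1 : (fun q => v q / (∏ j, (F j).coeff (c j)).eval (n q) ^ (Om + 1)) ∈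
        cnt_P x A := by
      rw [htop]
      exact Submodule.mem_top
    have h2 := hW _ h1
    have e : (fun q => (∏ j, (F j).coeff (c j)).eval (n q) ^ (Om + 1) *
        (v q / (∏ j, (F j).coeff (c j)).eval (n q) ^ (Om + 1))) = v := by
      funext q
      rw [mul_div_cancel₀]
      exact pow_ne_zero _ (hG q)
    rw [e] at h2
    exact h2
  have hfin := cnt_W_finrank n x M (B := D + 1) (b := (Fintype.card J * D + D) * (Om + 1))
    (o := Om) (K := 2 ^ d * (D + 1) ^ d * (Om + 1) ^ (r - 1)) (Nat.le_add_left 1 D) (by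
      intro T hT
      refine cnt_M_card hr T fun m hm => ⟨?_, fun i =>
        (cnt_le_om (Nat.le_add_left 1 D) m i).trans (hT m hm).2⟩
      by_contra hcon
      push Not at hcon
      obtain ⟨U, hU1, hU2⟩ := Finset.exists_subset_card_eq hcon
      obtain ⟨j, hj⟩ := hIs (U.orderEmbOfFin hU2) (U.orderEmbOfFin hU2).injective
      apply (hT m hm).1 j
      intro i
      by_cases hi : ∃ l, I j l = i
      · obtain ⟨l, rfl⟩ := hi
        have h1 : D ≤ m (I j l) := by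
          have h2 := hU1 (Finset.orderEmbOfFin_mem U hU2 l)
          rw [hj]
          exact (Finset.mem_filter.1 h2).2
        exact ((cnt_ext_le _ _ _).trans (hD j _ (hc j)).1).trans h1
      · have h1 : cnt_ext (I j) (c j) i = 0 := by
          unfold cnt_ext
          refine Finset.sum_eq_zero fun l _ => if_neg fun h => hi ⟨l, h⟩
        rw [h1]
        exact Nat.zero_le _)
  rw [htop2, finrank_top, Module.finrank_fintype_fun_eq_card] at hfin
  exact hfin

theorem count_cells (d r D C1 : ℕ) (hr : 1 ≤ r) (hrd : r ≤ d) :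
    ∃ C : ℕ, ∀ (L : Type) [Field L] [CharZero L] (θ : Fin d → L), Function.Injective θ →
      ∀ (h N : ℕ), 1 ≤ h → 1 ≤ N → ∀ (y0 : Fin d → ℤ) (S : Finset (ℤ × (Fin d → ℤ))),
      (∀ q ∈ S, ∀ j, y0 j ≤ q.2 j ∧ q.2 j < y0 j + h * N) →
      (∀ n : ℤ, (S.filter (fun q => q.1 = n)).card ≤ C1) →
      (∀ I : Fin r → Fin d, Function.Injective I → ∃ F : MvPolynomial (Fin r) L[X], F ≠ 0 ∧
        (∀ a ∈ F.support, a.degree ≤ D ∧ (F.coeff a).natDegree ≤ D) ∧
        ∀ q ∈ S, MvPolynomial.eval₂ (Polynomial.evalRingHom (q.1 : L))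
          (fun i => ell (θ (I i)) q.2) F = 0) →
      (S.image (fun q => fun j => (q.2 j - y0 j) / (h : ℤ))).card ≤ C * N ^ r := by
  classical
  obtain ⟨A0, hA0⟩ := cells_top d
  refine ⟨2 ^ d * (((d ^ r * D + D) * ((D + 1) ^ d * A0 + 1) + 1) *
    (2 ^ d * (D + 1) ^ d * ((D + 1) ^ d * A0 + 1) ^ (r - 1))) + C1 * (d ^ r * D), ?_⟩
  intro L _ _ θ hθ h N hh hN y0 S hS hSC hrel
  have hFex : ∀ j : {I : Fin r → Fin d // Function.Injective I},
      ∃ F : MvPolynomial (Fin r) L[X], F ≠ 0 ∧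
        (∀ a ∈ F.support, a.degree ≤ D ∧ (F.coeff a).natDegree ≤ D) ∧
        ∀ q ∈ S, MvPolynomial.eval₂ (Polynomial.evalRingHom (q.1 : L))
          (fun i => ell (θ (j.1 i)) q.2) F = 0 := fun j => hrel j.1 j.2
  choose F hF0 hFD hFq using hFex
  have hcex : ∀ j, ∃ c ∈ (F j).support, ∀ a ∈ (F j).support.erase c,
      cnt_om (D + 1) (cnt_ext j.1 a) < cnt_om (D + 1) (cnt_ext j.1 c) := fun j =>
    cnt_leading j.2 (hF0 j) fun a ha => (hFD j a ha).1
  choose c hc hlt using hcex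
  have hJ : Fintype.card {I : Fin r → Fin d // Function.Injective I} ≤ d ^ r := by
    refine (Fintype.card_subtype_le _).trans ?_
    rw [Fintype.card_fun, Fintype.card_fin, Fintype.card_fin]
  set G : L[X] := ∏ j, (F j).coeff (c j) with hGdef
  have hG0 : G ≠ 0 := Finset.prod_ne_zero_iff.2 fun j _ => MvPolynomial.mem_support_iff.1 (hc j)
  have hGd : G.natDegree ≤ d ^ r * D := by
    refine (natDegree_prod_le _ _).trans ((Finset.sum_le_card_nsmul _ _ D
      fun j _ => (hFD j _ (hc j)).2).trans ?_)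
    rw [smul_eq_mul, Finset.card_univ]
    exact Nat.mul_le_mul_right _ hJ
  -- the bad points
  have hbad : (S.filter fun q => G.eval (q.1 : L) = 0).card ≤ C1 * (d ^ r * D) := by
    have h1 : ((S.filter fun q => G.eval (q.1 : L) = 0).image Prod.fst).card ≤ d ^ r * D := by
      refine le_trans ?_ hGd
      refine le_trans ?_ (card_roots' G)
      refine le_trans ?_ (Multiset.toFinset_card_le _)
      refine Finset.card_le_card_of_injOn (fun z : ℤ => (z : L)) ?_ ?_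
      · intro z hz
        rw [Finset.mem_coe, Finset.mem_image] at hz
        obtain ⟨q, hq, rfl⟩ := hz
        rw [Finset.mem_coe, Multiset.mem_toFinset, mem_roots hG0]
        exact (Finset.mem_filter.1 hq).2
      · intro z _ z' _ h
        exact Int.cast_injective h
    refine (Finset.card_le_mul_card_image (f := Prod.fst) _ C1 ?_).trans
      (Nat.mul_le_mul_left _ h1)
    intro z _
    refine (Finset.card_le_card ?_).trans (hSC z)
    intro q hq
    rw [Finset.mem_filter] at hq ⊢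
    exact ⟨(Finset.mem_filter.1 hq.1).1, hq.2⟩
  -- the cells and their representatives
  obtain ⟨φ, hφ⟩ : ∃ φ : ℤ × (Fin d → ℤ) → Fin d → ℤ,
      φ = fun q => fun j => (q.2 j - y0 j) / (h : ℤ) := ⟨_, rfl⟩
  have hh0 : (0 : ℤ) < h := by exact_mod_cast hh
  have hφ1 : ∀ q ∈ S, ∀ j, 0 ≤ φ q j ∧ φ q j < N := by
    intro q hq j
    obtain ⟨h1, h2⟩ := hS q hq j
    rw [hφ]
    refine ⟨Int.ediv_nonneg (by linarith only [h1]) hh0.le, ?_⟩
    apply Int.ediv_lt_of_lt_mul hh0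
    linarith only [h2]
  have hφ2 : ∀ q ∈ S, ∀ j, y0 j + h * φ q j ≤ q.2 j ∧ q.2 j < y0 j + h * (φ q j + 1) := by
    intro q _ j
    have h1 := Int.mul_ediv_self_le (x := q.2 j - y0 j) (k := (h : ℤ)) hh0.ne'
    have h2 := Int.lt_mul_ediv_self_add (x := q.2 j - y0 j) (k := (h : ℤ)) hh0
    rw [hφ]
    constructor
    · show y0 j + h * ((q.2 j - y0 j) / (h : ℤ)) ≤ q.2 j
      linarith only [h1]
    · show q.2 j < y0 j + h * ((q.2 j - y0 j) / (h : ℤ) + 1)
      linarith only [h2]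
  obtain ⟨T, hT⟩ : ∃ T, T = S.image φ := ⟨_, rfl⟩
  have hgoal : (S.image (fun q => fun j => (q.2 j - y0 j) / (h : ℤ))).card = T.card := by
    rw [hT, hφ]
  rw [hgoal]
  have hex : ∀ u : Fin d → ℤ, ∃ q : ℤ × (Fin d → ℤ), u ∈ T → q ∈ S ∧ φ q = u := by
    intro u
    by_cases hu : u ∈ T
    · rw [hT, Finset.mem_image] at hu
      obtain ⟨q, hq, rfl⟩ := hu
      exact ⟨q, fun _ => ⟨hq, rfl⟩⟩
    · exact ⟨(0, 0), fun h => absurd h hu⟩
  choose p hp using hex
  -- bad cells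
  have hbadT : (T.filter fun u => G.eval ((p u).1 : L) = 0).card ≤ C1 * (d ^ r * D) := by
    refine le_trans (Finset.card_le_card_of_injOn p ?_ ?_) hbad
    · intro u hu
      rw [Finset.mem_coe, Finset.mem_filter] at hu
      rw [Finset.mem_coe, Finset.mem_filter]
      exact ⟨(hp u hu.1).1, hu.2⟩
    · intro u hu v hv huv
      rw [Finset.mem_coe, Finset.mem_filter] at hu hv
      rw [← (hp u hu.1).2, ← (hp v hv.1).2, huv]
  -- good cells
  obtain ⟨T', hT'⟩ : ∃ T', T' = T.filter fun u => ¬ G.eval ((p u).1 : L) = 0 := ⟨_, rfl⟩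
  have hmemT : ∀ u ∈ T', u ∈ T ∧ G.eval ((p u).1 : L) ≠ 0 := by
    intro u hu
    rw [hT', Finset.mem_filter] at hu
    exact hu
  set K : ℕ := (D + 1) ^ d * A0 + 1 with hK
  have hO : (D + 1) ^ d * (A0 * N) + 1 ≤ K * N := by
    calc (D + 1) ^ d * (A0 * N) + 1 ≤ (D + 1) ^ d * (A0 * N) + N := by omega
      _ = K * N := by rw [hK]; ring
  have hclass : ∀ b ∈ T'.image (fun u : Fin d → ℤ => fun j => u j % 2),
      (T'.filter fun u => (fun j => u j % 2) = b).card ≤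
      ((d ^ r * D + D) * K + 1) * (2 ^ d * (D + 1) ^ d * K ^ (r - 1)) * N ^ r := by
    intro b _
    obtain ⟨U, hU⟩ : ∃ U, U = T'.filter fun u => (fun j => u j % 2) = b := ⟨_, rfl⟩
    rw [← hU]
    have hmemU0 : ∀ u ∈ U, (u ∈ T ∧ G.eval ((p u).1 : L) ≠ 0) ∧ (fun j => u j % 2) = b := by
      intro u h1
      rw [hU, Finset.mem_filter] at h1
      exact ⟨hmemT _ h1.1, h1.2⟩
    have hmemU : ∀ u : {u // u ∈ U}, (u.1 ∈ T ∧ G.eval ((p u.1).1 : L) ≠ 0) ∧
        (fun j => u.1 j % 2) = b := fun u => hmemU0 u.1 u.2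
    have hpS : ∀ u : {u // u ∈ U}, p u.1 ∈ S ∧ φ (p u.1) = u.1 := fun u => hp u.1 (hmemU u).1.1
    have htop := hA0 L θ hθ {u // u ∈ U} (fun u => (p u.1).2) (fun u => u.1) y0 h N hh hN
      Subtype.val_injective
      (fun u j => by
        have h1 := hφ1 _ (hpS u).1 j
        rw [(hpS u).2] at h1
        exact h1)
      (fun u v j => by
        have h1 : u.1 j % 2 = b j := congrFun (hmemU u).2 j
        have h2 : v.1 j % 2 = b j := congrFun (hmemU v).2 j
        show (2 : ℤ) ∣ u.1 j - v.1 j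
        omega)
      (fun u j => by
        have h1 := hφ2 _ (hpS u).1 j
        rw [(hpS u).2] at h1
        exact h1)
    have hgood := cnt_main' (ι := {u // u ∈ U}) hr
      (fun j : {I : Fin r → Fin d // Function.Injective I} => j.1)
      (fun K hK => ⟨⟨K, hK⟩, rfl⟩) F hFD c hc hlt (fun u => ((p u.1).1 : L))
      (fun u => (p u.1).2) θ (A0 * N) htop
      (fun j u => hFq j _ (hpS u).1) (fun u => (hmemU u).1.2)
    rw [Fintype.card_coe] at hgood
    refine hgood.trans ?_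
    have e1 : (Fintype.card {I : Fin r → Fin d // Function.Injective I} * D + D) *
        ((D + 1) ^ d * (A0 * N) + 1) + 1 ≤ ((d ^ r * D + D) * K + 1) * N := by
      have h2 : (Fintype.card {I : Fin r → Fin d // Function.Injective I} * D + D) *
          ((D + 1) ^ d * (A0 * N) + 1) ≤ (d ^ r * D + D) * (K * N) :=
        Nat.mul_le_mul (Nat.add_le_add_right (Nat.mul_le_mul_right _ hJ) _) hO
      calc _ ≤ (d ^ r * D + D) * (K * N) + N := Nat.add_le_add h2 hN
        _ = _ := by ring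
    have e2 : 2 ^ d * (D + 1) ^ d * ((D + 1) ^ d * (A0 * N) + 1) ^ (r - 1) ≤
        2 ^ d * (D + 1) ^ d * (K * N) ^ (r - 1) :=
      Nat.mul_le_mul_left _ (Nat.pow_le_pow_left hO _)
    refine (Nat.mul_le_mul e1 e2).trans (le_of_eq ?_)
    obtain ⟨s, rfl⟩ : ∃ s, r = s + 1 := ⟨r - 1, by omega⟩
    rw [Nat.add_sub_cancel, mul_pow, pow_succ N]
    ring
  have himage : (T'.image (fun u : Fin d → ℤ => fun j => u j % 2)).card ≤ 2 ^ d := by
    have h1 : T'.image (fun u : Fin d → ℤ => fun j => u j % 2) ⊆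
        Fintype.piFinset fun _ : Fin d => ({0, 1} : Finset ℤ) := by
      intro b hb
      rw [Finset.mem_image] at hb
      obtain ⟨u, _, rfl⟩ := hb
      rw [Fintype.mem_piFinset]
      intro j
      rw [Finset.mem_insert, Finset.mem_singleton]
      show u j % 2 = 0 ∨ u j % 2 = 1
      omega
    refine (Finset.card_le_card h1).trans ?_
    rw [Fintype.card_piFinset, Finset.prod_const, Finset.card_univ, Fintype.card_fin]
    exact Nat.pow_le_pow_left Finset.card_le_two _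
  have hgoodT := (Finset.card_le_mul_card_image (f := fun u : Fin d → ℤ => fun j => u j % 2) T'
    _ hclass).trans (Nat.mul_le_mul_left _ himage)
  have hsplit : T.card = (T.filter fun u => G.eval ((p u).1 : L) = 0).card + T'.card := by
    rw [hT']
    exact (Finset.card_filter_add_card_filter_not (s := T)
      (fun u => G.eval ((p u).1 : L) = 0)).symm
  have hN1 : 1 ≤ N ^ r := Nat.one_le_pow _ _ hN
  have h3 : C1 * (d ^ r * D) ≤ C1 * (d ^ r * D) * N ^ r := Nat.le_mul_of_pos_right _ hN1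
  rw [hsplit, add_mul]
  calc (T.filter fun u => G.eval ((p u).1 : L) = 0).card + T'.card
      ≤ C1 * (d ^ r * D) * N ^ r +
        ((d ^ r * D + D) * K + 1) * (2 ^ d * (D + 1) ^ d * K ^ (r - 1)) * N ^ r * 2 ^ d :=
        Nat.add_le_add (hbadT.trans h3) hgoodT
    _ = _ := by ring

end Vale.Agent.P018.K2
end

section

/-! # P018, K2 (staircase), module E: recursion over the scales.

Scales: `H_m = ∏_{i ≤ m} N i`, `H_0 = 1`.  If in every cube of side `H_r` all `r`-tuples satisfy a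
relation (for every `1 ≤ r ≤ d-1` with `N r ≠ 1`), then a cube of side `H_{d-1}` contains at most
`C ∏ (N r)^r` points.  Induction on `m ≤ d-1`: a cube of side `H_m` contains at most
`C_m ∏_{r ≤ m} (N r)^r` points: the number of sub-cells of side `h = H_{m-1}` is `≤ C (N m)^m` by
`count_cells` (trivial if `N m = 1`), each of them contains at most
`C_{m-1} ∏_{r ≤ m-1} (N r)^r` points; a cube of side `1` contains at most one point. -/

namespace Vale.Agent.P018.K2

open Polynomial Vale.Agent.P018.K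

theorem multi_count (d D C1 : ℕ) : ∃ C : ℕ, ∀ (L : Type) [Field L] [CharZero L]
    (θ : Fin d → L), Function.Injective θ → ∀ (N : ℕ → ℕ), (∀ r, 1 ≤ N r) →
    ∀ (Q : Finset (ℤ × (Fin d → ℤ))),
    (∀ q ∈ Q, ∀ q' ∈ Q, q.2 = q'.2 → q = q') →
    (∀ n : ℤ, (Q.filter (fun q => q.1 = n)).card ≤ C1) →
    (∀ r, 1 ≤ r → r + 1 ≤ d → N r ≠ 1 → ∀ (y1 : Fin d → ℤ),
      ∀ I : Fin r → Fin d, Function.Injective I → ∃ F : MvPolynomial (Fin r) L[X], F ≠ 0 ∧
        (∀ a ∈ F.support, a.degree ≤ D ∧ (F.coeff a).natDegree ≤ D) ∧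
        ∀ q ∈ Q, (∀ j, y1 j ≤ q.2 j ∧ q.2 j < y1 j + ((∏ i ∈ Finset.Icc 1 r, N i : ℕ) : ℤ)) →
          MvPolynomial.eval₂ (Polynomial.evalRingHom (q.1 : L))
            (fun i => ell (θ (I i)) q.2) F = 0) →
    ∀ y0 : Fin d → ℤ, (Q.filter (fun q => ∀ j, y0 j ≤ q.2 j ∧
      q.2 j < y0 j + ((∏ i ∈ Finset.Icc 1 (d - 1), N i : ℕ) : ℤ))).card ≤
        C * ∏ r ∈ Finset.Icc 1 (d - 1), N r ^ r := by
  classical
  have key : ∀ r : ℕ, ∃ c : ℕ, 1 ≤ c ∧ (1 ≤ r → r ≤ d → ∀ (L : Type) [Field L] [CharZero L]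
      (θ : Fin d → L), Function.Injective θ →
      ∀ (h N : ℕ), 1 ≤ h → 1 ≤ N → ∀ (y0 : Fin d → ℤ) (S : Finset (ℤ × (Fin d → ℤ))),
      (∀ q ∈ S, ∀ j, y0 j ≤ q.2 j ∧ q.2 j < y0 j + h * N) →
      (∀ n : ℤ, (S.filter (fun q => q.1 = n)).card ≤ C1) →
      (∀ I : Fin r → Fin d, Function.Injective I → ∃ F : MvPolynomial (Fin r) L[X], F ≠ 0 ∧
        (∀ a ∈ F.support, a.degree ≤ D ∧ (F.coeff a).natDegree ≤ D) ∧
        ∀ q ∈ S, MvPolynomial.eval₂ (Polynomial.evalRingHom (q.1 : L))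
          (fun i => ell (θ (I i)) q.2) F = 0) →
      (S.image (fun q => fun j => (q.2 j - y0 j) / (h : ℤ))).card ≤ c * N ^ r) := by
    intro r
    by_cases hr : 1 ≤ r ∧ r ≤ d
    · obtain ⟨C, hC⟩ := count_cells d r D C1 hr.1 hr.2
      refine ⟨max 1 C, le_max_left _ _, fun _ _ L _ _ θ hθ h N hh hN y0 S h1 h2 h3 => ?_⟩
      exact (hC L θ hθ h N hh hN y0 S h1 h2 h3).trans (Nat.mul_le_mul_right _ (le_max_right _ _))
    · exact ⟨1, le_rfl, fun h1 h2 => absurd ⟨h1, h2⟩ hr⟩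
  choose Cf hCf1 hCf using key
  refine ⟨∏ r ∈ Finset.Icc 1 (d - 1), Cf r, ?_⟩
  intro L _ _ θ hθ N hN Q hinj hn hrel
  have hHpos : ∀ m, 1 ≤ ∏ i ∈ Finset.Icc 1 m, N i := fun m =>
    Nat.succ_le_of_lt (Finset.prod_pos fun i _ => hN i)
  have main : ∀ m, m ≤ d - 1 → ∀ y0 : Fin d → ℤ, (Q.filter (fun q => ∀ j, y0 j ≤ q.2 j ∧
      q.2 j < y0 j + ((∏ i ∈ Finset.Icc 1 m, N i : ℕ) : ℤ))).card ≤
        (∏ r ∈ Finset.Icc 1 m, Cf r) * ∏ r ∈ Finset.Icc 1 m, N r ^ r := by
    intro m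
    induction m with
    | zero =>
      intro _ y0
      have e : Finset.Icc 1 0 = (∅ : Finset ℕ) := rfl
      rw [e, Finset.prod_empty, Finset.prod_empty, Finset.prod_empty, mul_one,
        Finset.card_le_one]
      intro q hq q' hq'
      rw [Finset.mem_filter] at hq hq'
      refine hinj q hq.1 q' hq'.1 (funext fun j => ?_)
      have h1 := hq.2 j
      have h2 := hq'.2 j
      push_cast at h1 h2
      omega
    | succ m ih =>
      intro hm y0
      have hih := ih (by omega)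
      set h : ℕ := ∏ i ∈ Finset.Icc 1 m, N i with hh
      have hh1 : 1 ≤ h := hHpos m
      have e1 : ∏ i ∈ Finset.Icc 1 (m + 1), N i = h * N (m + 1) := by
        rw [Finset.prod_Icc_succ_top (by omega)]
      rw [Finset.prod_Icc_succ_top (by omega : 1 ≤ m + 1) (fun r => N r ^ r),
        Finset.prod_Icc_succ_top (by omega : 1 ≤ m + 1) Cf]
      set S := Q.filter (fun q => ∀ j, y0 j ≤ q.2 j ∧
        q.2 j < y0 j + ((∏ i ∈ Finset.Icc 1 (m + 1), N i : ℕ) : ℤ)) with hS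
      have hSmem : ∀ q ∈ S, q ∈ Q ∧ ∀ j, y0 j ≤ q.2 j ∧
          q.2 j < y0 j + (h : ℤ) * (N (m + 1) : ℤ) := by
        intro q hq
        rw [hS, Finset.mem_filter] at hq
        refine ⟨hq.1, fun j => ?_⟩
        have h2 := hq.2 j
        rw [e1, Nat.cast_mul] at h2
        exact h2
      have hhz : (0 : ℤ) < (h : ℤ) := by exact_mod_cast hh1
      -- the fibers
      have hfib : ∀ u ∈ S.image (fun q => fun j => (q.2 j - y0 j) / (h : ℤ)),
          (S.filter fun q => (fun j => (q.2 j - y0 j) / (h : ℤ)) = u).card ≤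
            (∏ r ∈ Finset.Icc 1 m, Cf r) * ∏ r ∈ Finset.Icc 1 m, N r ^ r := by
        intro u _
        refine le_trans (Finset.card_le_card ?_) (hih fun j => y0 j + h * u j)
        intro q hq
        rw [Finset.mem_filter] at hq
        refine Finset.mem_filter.2 ⟨(hSmem q hq.1).1, fun j => ?_⟩
        have h3 : (q.2 j - y0 j) / (h : ℤ) = u j := congrFun hq.2 j
        have h4 := Int.mul_ediv_add_emod (q.2 j - y0 j) h
        have h5 := Int.emod_nonneg (q.2 j - y0 j) hhz.ne'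
        have h6 := Int.emod_lt_of_pos (q.2 j - y0 j) hhz
        rw [h3] at h4
        constructor <;> linarith
      have hcard := Finset.card_le_mul_card_image S _ hfib
      -- the number of cells
      have himg : (S.image (fun q => fun j => (q.2 j - y0 j) / (h : ℤ))).card ≤
          Cf (m + 1) * N (m + 1) ^ (m + 1) := by
        by_cases hN1 : N (m + 1) = 1
        · have hsub : S.image (fun q => fun j => (q.2 j - y0 j) / (h : ℤ)) ⊆ {0} := by
            intro u hu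
            obtain ⟨q, hq, rfl⟩ := Finset.mem_image.1 hu
            rw [Finset.mem_singleton]
            funext j
            have h2 := (hSmem q hq).2 j
            rw [hN1, Nat.cast_one, mul_one] at h2
            exact Int.ediv_eq_zero_of_lt (by linarith) (by linarith)
          have h7 := Finset.card_le_card hsub
          rw [Finset.card_singleton] at h7
          rw [hN1, one_pow, mul_one]
          exact h7.trans (hCf1 _)
        · refine hCf (m + 1) (by omega) (by omega) L θ hθ h (N (m + 1)) hh1 (hN _) y0 S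
            (fun q hq => (hSmem q hq).2) (fun n => ?_) fun I hI => ?_
          · refine le_trans (Finset.card_le_card ?_) (hn n)
            intro q hq
            rw [Finset.mem_filter] at hq ⊢
            exact ⟨(hSmem q hq.1).1, hq.2⟩
          · obtain ⟨F, hF0, hFD, hF⟩ := hrel (m + 1) (by omega) (by omega) hN1 y0 I hI
            refine ⟨F, hF0, hFD, fun q hq => hF q (hSmem q hq).1 ?_⟩
            rw [hS, Finset.mem_filter] at hq
            exact hq.2
      refine hcard.trans ?_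
      calc (∏ r ∈ Finset.Icc 1 m, Cf r) * (∏ r ∈ Finset.Icc 1 m, N r ^ r) *
            (S.image (fun q => fun j => (q.2 j - y0 j) / (h : ℤ))).card ≤
          (∏ r ∈ Finset.Icc 1 m, Cf r) * (∏ r ∈ Finset.Icc 1 m, N r ^ r) *
            (Cf (m + 1) * N (m + 1) ^ (m + 1)) := Nat.mul_le_mul_left _ himg
        _ = _ := by ring
  exact main (d - 1) le_rfl

end Vale.Agent.P018.K2
end

section

/-! # P018, K2 (staircase), modules F, G: the bound near one exponent from the staircase.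

`b 0 = w = a/d ≥ b 1 ≥ ... ≥ b (d-1) > 0`; for every `r` with `b r < b (r-1)` the criterion `Crit`
holds at `b r`; `∑_{r<d} b r < 1`. -/

namespace Vale.Agent.P018.K2

open Polynomial NumberField Vale.Agent.P018.K Finset

/-- the criterion for `r`-tuples at the aperture exponent `b` (cubes of side `P^(1/d) X^(-b)`). -/
def Crit (d k r : ℕ) (a b : ℝ) : Prop :=
  ∃ (T : ℕ) (lam : ℕ → ℝ) (B : Finset (ℕ × (Fin r → ℤ))) (V : ℝ), Antitone lam ∧
    (∀ p ∈ B, p.1 ≤ T ∧ needs k p.2 ≤ p.1) ∧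
    (∀ T' : Finset (ℕ × (Fin r → ℕ)), (∀ τ ∈ T', τ.1 ≤ T) →
      ∑ τ ∈ T', (lam τ.1 + τ.1 - b * ∑ i, (τ.2 i : ℝ)) ≤ V) ∧
    V < ∑ p ∈ B, (lam p.1 - a / d * ∑ i, (p.2 i : ℝ))

/-- admissibility of `a` for the staircase. -/
def Adm2 (d k : ℕ) (a : ℝ) : Prop :=
  ∃ b : ℕ → ℝ, b 0 = a / d ∧ (∀ r, b (r + 1) ≤ b r) ∧ 0 < b (d - 1) ∧
    (∀ r, 1 ≤ r → r + 1 ≤ d → b r < b (r - 1) → Crit d k r a (b r)) ∧
    ∑ r ∈ range d, b r < 1

/-- the criterion from the integral (`exists_family`). -/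
theorem crit_of_Jint (d k r : ℕ) (hd : 1 ≤ d) (hk : 1 ≤ k) (hr : 1 ≤ r) (a b m : ℝ) (ha : 0 < a)
    (hb : 0 < b) (hm0 : 0 ≤ m) (hm1 : m < 1)
    (hJ : (1 - m) ^ (r + 1) / ((r + 1).factorial * b ^ r) < Jint r m (a / d) k) :
    Crit d k r a b := by
  obtain ⟨T, B, V, hB, hV, hcrit⟩ := exists_family k r hk hr (a / d) b m
    (by positivity) hb hm0 hm1 hJ
  refine ⟨T, fun t => -(m * (t : ℝ)), B, V, ?_, hB, hV, hcrit⟩
  intro s t hst
  have h1 : (s : ℝ) ≤ t := by exact_mod_cast hst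
  simp only [neg_le_neg_iff]
  exact mul_le_mul_of_nonneg_left h1 hm0

theorem lb2_min (n : ℕ) (e : ℕ → ℝ) (h : ∀ r, 0 < e r) :
    ∃ ε : ℝ, 0 < ε ∧ ∀ r, r < n → ε ≤ e r := by
  induction n with
  | zero => exact ⟨1, one_pos, fun r hr => absurd hr (Nat.not_lt_zero r)⟩
  | succ n ih =>
    obtain ⟨ε, hε, h1⟩ := ih
    refine ⟨min ε (e n), lt_min hε (h n), fun r hr => ?_⟩
    rcases Nat.lt_succ_iff_lt_or_eq.1 hr with h2 | h2
    · exact (min_le_left _ _).trans (h1 r h2)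
    · rw [h2]
      exact min_le_right _ _

theorem lb2_max (n : ℕ) (e : ℕ → ℕ) : ∃ M : ℕ, ∀ r, r < n → e r ≤ M := by
  induction n with
  | zero => exact ⟨0, fun r hr => absurd hr (Nat.not_lt_zero r)⟩
  | succ n ih =>
    obtain ⟨M, h1⟩ := ih
    refine ⟨max M (e n), fun r hr => ?_⟩
    rcases Nat.lt_succ_iff_lt_or_eq.1 hr with h2 | h2
    · exact (h1 r h2).trans (le_max_left _ _)
    · rw [h2]
      exact le_max_right _ _

/-- the conditions on the points -/
def Pts (L : Type) [Field L] [NumberField L] {d : ℕ} (θ : Fin d → 𝓞 L) (k : ℕ) (A0 X R : ℝ)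
    (c : ℤ) (Q : Finset (ℤ × (Fin d → ℤ))) : Prop :=
  (∀ q ∈ Q, |(q.1 : ℝ)| ≤ A0 * X) ∧ (∀ q ∈ Q, ∀ j, |(q.2 j : ℝ)| ≤ 2 * R) ∧
    (∀ q ∈ Q, ∃ N : ℤ, ∏ i, ell (θ i) q.2 = (N : 𝓞 L) ∧ R ^ d ≤ |(N : ℝ)|) ∧
    (∀ q ∈ Q, ∃ γ : Fin d → 𝓞 L, ∀ i,
      (c : 𝓞 L) ^ k * ((q.1 : 𝓞 L) - θ i) = ell (θ i) q.2 ^ k * γ i)

/-- all `r`-tuples satisfy a relation of degree at most `D` on `Q` -/
def RelAll (L : Type) [Field L] [NumberField L] {d : ℕ} (θ : Fin d → 𝓞 L) (r D : ℕ)
    (Q : Finset (ℤ × (Fin d → ℤ))) : Prop :=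
  ∀ I : Fin r → Fin d, Function.Injective I → ∃ F : MvPolynomial (Fin r) L[X], F ≠ 0 ∧
    (∀ a ∈ F.support, a.degree ≤ D ∧ (F.coeff a).natDegree ≤ D) ∧
    ∀ q ∈ Q, MvPolynomial.eval₂ (Polynomial.evalRingHom (q.1 : L))
      (fun i => ell ((θ (I i) : 𝓞 L) : L) q.2) F = 0

/-- the relations at one scale -/
theorem lb2_scale (L : Type) [Field L] [NumberField L] {d : ℕ} (hd : 1 ≤ d) (θ : Fin d → 𝓞 L)
    (k : ℕ) (hk : 1 ≤ k) (r : ℕ) (a b : ℝ) (hb : 0 < b) (hcrit : Crit d k r a b) (A0 : ℝ)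
    (hA0 : 1 ≤ A0) (Cs : ℕ) :
    ∃ (D : ℕ) (ε1 : ℝ) (X1 : ℕ), 0 < ε1 ∧ ∀ (X P R : ℝ) (H : ℕ), (X1 : ℝ) ≤ X → 1 ≤ X → X ≤ P →
      X ^ (a - ε1) ≤ P → P ≤ X ^ (a + ε1) → R = P ^ (1 / d : ℝ) → 1 ≤ R → 1 ≤ H →
      (H : ℝ) ≤ R * X ^ (-b) → ∀ (c : ℤ) (y0 : Fin d → ℤ) (Q : Finset (ℤ × (Fin d → ℤ))),
      c ≠ 0 → |c| ≤ Cs → (∀ q ∈ Q, ∀ j, y0 j ≤ q.2 j ∧ q.2 j < y0 j + H) →
      Pts L θ k A0 X R c Q → RelAll L θ r D Q := by
  obtain ⟨T, lam, B, V, hlam, hB, hV, hc⟩ := hcrit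
  obtain ⟨ε1, hε1, δ, hδ, hprod⟩ := loc_prod_le d hd a b T lam hlam B
    (fun p hp => (hB p hp).1) V hV hc
  obtain ⟨K, D, hK, hrel⟩ := loc_rel L hd θ k hk r B (fun p hp => (hB p hp).2) A0 hA0 Cs
  refine ⟨D, ε1, ⌈K ^ (1 / δ)⌉₊ + 1, hε1, ?_⟩
  intro X P R H hX1 hX hXP hP1 hP2 hR hR1 hH hHρ c y0 Q hc0 hcs hcube hpts I hI
  have hX0 : 0 < X := by linarith only [hX]
  have hKV : K * X ^ (-δ) < 1 := by
    rw [Real.rpow_neg hX0.le, mul_inv_lt_iff₀ (by positivity), one_mul]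
    have h1 : K ^ (1 / δ) < X := by
      have h2 := Nat.le_ceil (K ^ (1 / δ))
      push_cast at hX1
      linarith only [hX1, h2]
    calc K = (K ^ (1 / δ)) ^ δ := by
          rw [← Real.rpow_mul hK.le, one_div, inv_mul_cancel₀ hδ.ne', Real.rpow_one]
      _ < X ^ δ := Real.rpow_lt_rpow (by positivity) h1 hδ
  have hb1 : X ^ (-b) ≤ 1 := Real.rpow_le_one_of_one_le_of_nonpos hX (by linarith only [hb])
  have hρ0 : 0 < R * X ^ (-b) := by positivity
  have hρR : R * X ^ (-b) ≤ R := by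
    calc R * X ^ (-b) ≤ R * 1 := mul_le_mul_of_nonneg_left hb1 (by linarith only [hR1])
      _ = R := mul_one _
  have hρdiv : R * X ^ (-b) / R = X ^ (-b) := by
    rw [mul_comm, mul_div_assoc, div_self (by linarith only [hρR, hρ0]), mul_one]
  refine hrel X R (R * X ^ (-b)) (X ^ (-δ)) H hX hR1 hρ0 hρR (by positivity) hH hHρ hKV ?_ c y0 Q
    hc0 hcs hcube hpts.1 hpts.2.1 hpts.2.2.1 hpts.2.2.2 I hI
  intro m hm1 hm2
  rw [hρdiv, hR]
  exact hprod X P hX (by linarith only [hX0, hXP]) hP1 hP2 m hm1 hm2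

/-- MODULE G. assembly: same structure as `local_bound` in `Vale.Agent.P018.K.Local`; `loc_cls` is
used with `r := 0` and `Cc := C * ∏ r, N r ^ r`; for every `r` with `N r ≠ 1` use `loc_rel` (with
`ρ = R * X ^ (-(b r))`) and `loc_prod_le`, to get the hypothesis of `multi_count`; take the maximum
of the finitely many constants `D`. -/
theorem local_bound2 (f : ℤ[X]) (hirr : Irreducible (f.map (Int.castRingHom ℚ))) (k : ℕ)
    (hk : 2 ≤ k) (hkd : k < f.natDegree) (a : ℝ) (ha : 1 ≤ a) (hadm : Adm2 f.natDegree k a) :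
    ∃ ε η K : ℝ, 0 < ε ∧ 0 < η ∧ 0 < K ∧ ∃ X0 : ℕ, ∀ X P : ℕ, X0 ≤ X → X ≤ P →
      (X : ℝ) ^ (a - ε) ≤ P → (P : ℝ) ≤ (X : ℝ) ^ (a + ε) →
      ((pairs f k X P).card : ℝ) ≤ K * (X : ℝ) ^ (1 - η) := by
  classical
  obtain ⟨b, hb0, hanti, hpos, hcrit, hfin⟩ := hadm
  obtain ⟨L, _, _, θ, G, a0, ha0, hGm, hGd, hGi, hθ, hGθ, hGe⟩ := exists_field f hirr (by omega)
  have hdr : (3 : ℝ) ≤ f.natDegree := by exact_mod_cast (show 3 ≤ f.natDegree by omega)
  obtain ⟨Cs, hCs1, hsmall⟩ := exists_small L (by omega) G hGm hGd hGi θ hGθ k (by omega)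
  obtain ⟨D1, hD1⟩ := loc_mult_n f hirr k (by omega)
  obtain ⟨X1, hX1⟩ := loc_mult_p f hirr (by omega) k (by omega)
  have hA0 : (1 : ℝ) ≤ |(a0 : ℝ)| + 1 := by linarith only [abs_nonneg (a0 : ℝ)]
  have hanti' : Antitone b := antitone_nat_of_succ_le hanti
  -- the scales
  have hscale : ∀ r : ℕ, ∃ (D : ℕ) (ε1 : ℝ) (X1 : ℕ), 0 < ε1 ∧ (1 ≤ r → r + 1 ≤ f.natDegree →
      b r < b (r - 1) → ∀ (X P R : ℝ) (H : ℕ), (X1 : ℝ) ≤ X → 1 ≤ X → X ≤ P →
      X ^ (a - ε1) ≤ P → P ≤ X ^ (a + ε1) → R = P ^ (1 / f.natDegree : ℝ) → 1 ≤ R → 1 ≤ H →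
      (H : ℝ) ≤ R * X ^ (-(b r)) → ∀ (c : ℤ) (y0 : Fin f.natDegree → ℤ)
      (Q : Finset (ℤ × (Fin f.natDegree → ℤ))),
      c ≠ 0 → |c| ≤ Cs → (∀ q ∈ Q, ∀ j, y0 j ≤ q.2 j ∧ q.2 j < y0 j + H) →
      Pts L θ k (|(a0 : ℝ)| + 1) X R c Q → RelAll L θ r D Q) := by
    intro r
    by_cases hr : 1 ≤ r ∧ r + 1 ≤ f.natDegree ∧ b r < b (r - 1)
    · have hbr : 0 < b r := lt_of_lt_of_le hpos (hanti' (by omega))
      obtain ⟨D, ε1, X1, hε1, h⟩ := lb2_scale L (by omega) θ k (by omega) r a (b r) hbr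
        (hcrit r hr.1 hr.2.1 hr.2.2) (|(a0 : ℝ)| + 1) hA0 Cs
      exact ⟨D, ε1, X1, hε1, fun _ _ _ => h⟩
    · exact ⟨0, 1, 0, one_pos, fun h1 h2 h3 => absurd ⟨h1, h2, h3⟩ hr⟩
  choose Dr εr Xr hεr hrel using hscale
  obtain ⟨D, hD⟩ := lb2_max f.natDegree Dr
  obtain ⟨X2, hX2⟩ := lb2_max f.natDegree Xr
  obtain ⟨ε2, hε2, hεmin⟩ := lb2_min f.natDegree εr hεr
  obtain ⟨ε0, η, hε0, hη0, hparams⟩ := loc_params2 f.natDegree (by omega) a ha b hb0 hanti hpos hfin
  obtain ⟨Cm, hmulti⟩ := multi_count f.natDegree D f.natDegree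
  refine ⟨min ε0 ε2, η,
    (D1 : ℝ) * Cm * (2 * Cs + 1) * 9 ^ f.natDegree * 2 ^ (f.natDegree * f.natDegree) + 1,
    lt_min hε0 hε2, hη0, by (clear * - hCs1; positivity), max (max X1 (Cs + 2)) X2, ?_⟩
  intro X P hX hXP hP1 hP2
  have hXX1 : X1 ≤ X := le_trans (le_trans (le_max_left _ _) (le_max_left _ _)) hX
  have hXCs : Cs + 2 ≤ X := le_trans (le_trans (le_max_right _ _) (le_max_left _ _)) hX
  have hXX2 : X2 ≤ X := le_trans (le_max_right _ _) hX
  have hXr2 : (2 : ℝ) ≤ X := by exact_mod_cast (show 2 ≤ X by omega)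
  have hXr1 : (1 : ℝ) ≤ X := by linarith only [hXr2]
  have hXr0 : (0 : ℝ) < X := by linarith only [hXr2]
  have hXPr : (X : ℝ) ≤ P := by exact_mod_cast hXP
  obtain ⟨R, N, hR, hR1, hRd, hN1, hNr, hHR, hfinal⟩ := hparams (min ε0 ε2) (lt_min hε0 hε2)
    (min_le_left _ _) X P hXr1 hXPr hP1 hP2
  obtain ⟨H, hH⟩ : ∃ H : ℕ, H = ∏ i ∈ Icc 1 (f.natDegree - 1), N i := ⟨_, rfl⟩
  have hH1 : 1 ≤ H := by
    rw [hH]
    exact Nat.one_le_iff_ne_zero.2 (Finset.prod_ne_zero_iff.2 fun i _ =>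
      Nat.one_le_iff_ne_zero.1 (hN1 i))
  -- data attached to a pair
  have hdata : ∀ z ∈ pairs f k X P, ∃ (y : Fin f.natDegree → ℤ) (c : ℤ)
      (γ : Fin f.natDegree → 𝓞 L),
      (∀ j, |(y j : ℝ)| ≤ 2 * R) ∧ c ≠ 0 ∧ |c| ≤ Cs ∧
        (∏ i, ell (θ i) y = (((z.2 : ℤ) * c : ℤ) : 𝓞 L)) ∧
        ∀ i, (c : 𝓞 L) ^ k * (((a0 * z.1 : ℤ) : 𝓞 L) - θ i) = ell (θ i) y ^ k * γ i := by
    intro z hz
    rw [pairs, Finset.mem_filter, Finset.mem_product, Finset.mem_Icc, Finset.mem_Ioc] at hz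
    obtain ⟨⟨h1, h2⟩, h3, h4⟩ := hz
    obtain ⟨y, c, γ, -, h5, h6, h7, h8, h9⟩ := hsmall z.2 (a0 * z.1) h3 (by omega) (by
      rw [hGe]
      exact h4.mul_left _)
    refine ⟨y, c, γ, fun j => ?_, h6, h7, h8, h9⟩
    have h10 : |(y j : ℝ)| ^ f.natDegree ≤ (2 * R) ^ f.natDegree := by
      have h11 : (|(y j : ℝ)|) ^ f.natDegree ≤ (z.2 : ℝ) := by exact_mod_cast h5 j
      have h12 : (z.2 : ℝ) ≤ 2 * P := by exact_mod_cast h2.2
      rw [mul_pow, hRd]
      have h13 : (2 : ℝ) ≤ 2 ^ f.natDegree := by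
        calc (2 : ℝ) = 2 ^ 1 := by norm_num
          _ ≤ 2 ^ f.natDegree := pow_le_pow_right₀ (by norm_num) (by omega)
      nlinarith
    exact (pow_le_pow_iff_left₀ (abs_nonneg _) (by linarith only [hR1]) (by omega)).1 h10
  choose! Y cc Γ hY hcc0 hccs hN hΓ using hdata
  -- the class bound
  have hclass : ∀ (c : ℤ) (y0 : Fin f.natDegree → ℤ) (Q : Finset (ℤ × (Fin f.natDegree → ℤ))),
      c ≠ 0 → |c| ≤ Cs →
      (∀ q ∈ Q, ∀ j, y0 j ≤ q.2 j ∧ q.2 j < y0 j + H) →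
      (∀ q ∈ Q, ∀ q' ∈ Q, q.2 = q'.2 → q = q') →
      (∀ n : ℤ, (Q.filter (fun q => q.1 = n)).card ≤ f.natDegree) →
      (∀ q ∈ Q, |(q.1 : ℝ)| ≤ (|(a0 : ℝ)| + 1) * X) →
      (∀ q ∈ Q, ∀ j, |(q.2 j : ℝ)| ≤ 2 * R) →
      (∀ q ∈ Q, ∃ N : ℤ, ∏ i, ell (θ i) q.2 = (N : 𝓞 L) ∧ R ^ f.natDegree ≤ |(N : ℝ)|) →
      (∀ q ∈ Q, ∃ γ : Fin f.natDegree → 𝓞 L, ∀ i,
        (c : 𝓞 L) ^ k * ((q.1 : 𝓞 L) - θ i) = ell (θ i) q.2 ^ k * γ i) →
      Q.card ≤ (Cm * ∏ r ∈ Icc 1 (f.natDegree - 1), N r ^ r) * H ^ 0 := by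
    intro c y0 Q h1 h2 h3 h4 h5 h6 h7 h8 h9
    rw [pow_zero, mul_one]
    have h10 := hmulti L (fun i => ((θ i : 𝓞 L) : L))
      (fun i j h => hθ (RingOfIntegers.ext h)) N hN1 Q h4 h5 (by
        intro r hr hrd hNr1 y1 I hI
        obtain ⟨hbr, hHr⟩ := hNr r hr hrd hNr1
        set Q1 := Q.filter (fun q => ∀ j, y1 j ≤ q.2 j ∧
          q.2 j < y1 j + ((∏ i ∈ Icc 1 r, N i : ℕ) : ℤ)) with hQ1
        have hsub : ∀ q ∈ Q1, q ∈ Q := fun q hq => (Finset.mem_filter.1 hq).1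
        have hHr1 : 1 ≤ ∏ i ∈ Icc 1 r, N i := Nat.one_le_iff_ne_zero.2
          (Finset.prod_ne_zero_iff.2 fun i _ => Nat.one_le_iff_ne_zero.1 (hN1 i))
        have hεr' : min ε0 ε2 ≤ εr r := (min_le_right _ _).trans (hεmin r (by omega))
        have h11 := hrel r hr hrd hbr X P R (∏ i ∈ Icc 1 r, N i)
          (by exact_mod_cast (hX2 r (by omega)).trans hXX2) hXr1 hXPr
          ((Real.rpow_le_rpow_of_exponent_le hXr1 (by linarith only [hεr'])).trans hP1)
          (hP2.trans (Real.rpow_le_rpow_of_exponent_le hXr1 (by linarith only [hεr']))) hR hR1 hHr1 hHr c y1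
          Q1 h1 h2 (fun q hq => (Finset.mem_filter.1 hq).2)
          ⟨fun q hq => h6 q (hsub q hq), fun q hq => h7 q (hsub q hq),
            fun q hq => h8 q (hsub q hq), fun q hq => h9 q (hsub q hq)⟩ I hI
        obtain ⟨F, hF0, hFd, hF⟩ := h11
        refine ⟨F, hF0, fun a ha => ⟨(hFd a ha).1.trans (hD r (by omega)),
          (hFd a ha).2.trans (hD r (by omega))⟩, fun q hq hq2 => ?_⟩
        exact hF q (Finset.mem_filter.2 ⟨hq, hq2⟩)) y0
    rw [← hH] at h10
    rw [Finset.filter_true_of_mem h3] at h10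
    exact h10
  have hcount := loc_count_classes (pairs f k X P) Y cc Cs
    (D1 * ((Cm * ∏ r ∈ Icc 1 (f.natDegree - 1), N r ^ r) * H ^ 0)) H R hH1
    (by rw [hH]; exact hHR) hccs hY (fun κ => loc_cls f k X P D1
      (Cm * ∏ r ∈ Icc 1 (f.natDegree - 1), N r ^ r) H 0 a0 ha0 L θ hXP hD1
      (hX1 X P hXX1 hXP) (|(a0 : ℝ)| + 1) R (by linarith only [hR1]) hRd (by linarith only []) Y cc Γ Cs hcc0 hccs
      hY hN hΓ hclass hH1 κ)
  refine hcount.trans ?_
  rw [← hH] at hfinal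
  have h20 : ((D1 * ((Cm * ∏ r ∈ Icc 1 (f.natDegree - 1), N r ^ r) * H ^ 0) : ℕ) : ℝ) *
      ((2 * Cs + 1) * (9 * (R / H)) ^ f.natDegree) =
      (D1 : ℝ) * Cm * (2 * Cs + 1) * 9 ^ f.natDegree *
        (((∏ r ∈ Icc 1 (f.natDegree - 1), N r ^ r : ℕ) : ℝ) * (R / H) ^ f.natDegree) := by
    rw [mul_pow]
    push_cast
    ring
  rw [h20]
  have h21 : (D1 : ℝ) * Cm * (2 * Cs + 1) * 9 ^ f.natDegree *
        (((∏ r ∈ Icc 1 (f.natDegree - 1), N r ^ r : ℕ) : ℝ) * (R / H) ^ f.natDegree) ≤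
      (D1 : ℝ) * Cm * (2 * Cs + 1) * 9 ^ f.natDegree *
        (2 ^ (f.natDegree * f.natDegree) * (X : ℝ) ^ (1 - η)) :=
    mul_le_mul_of_nonneg_left hfinal (by (clear * - hCs1; positivity))
  refine h21.trans ?_
  have h22 : 0 ≤ (X : ℝ) ^ (1 - η) := by (clear * - hXr2; positivity)
  linarith only [h22]

end Vale.Agent.P018.K2
end

section

/-! # P018, K2 (staircase), module H1: the rational lower bound of the integral. -/

namespace Vale.Agent.P018.K2

open Polynomial Vale.Agent.P018.K Finset MeasureTheory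

/-- `∫_m^κ u^(j-1) (u-m)^q du`, as a rational number (`q = r-j+1`). -/
def Iq (j q : ℕ) (m κ : ℚ) : ℚ :=
  ((List.range j).map fun i =>
    ((j - 1).choose i : ℚ) * m ^ (j - 1 - i) * (κ - m) ^ (q + 1 + i) / (q + 1 + i : ℕ)).sum

/-- the scaled integral `w^r * Jint r m w k`, `κ = w k`. -/
def Gq (r : ℕ) (m κ : ℚ) : ℚ :=
  ((List.range r).map fun j =>
    (r.choose (j + 1) : ℚ) / (j.factorial * (r - j).factorial : ℕ) * Iq (j + 1) (r - j) m κ).sum

/-- a list sum over `List.range` is a finset sum -/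
theorem jg_sum (n : ℕ) (f : ℕ → ℚ) : ((List.range n).map f).sum = ∑ i ∈ Finset.range n, f i := rfl

/-- one term of the integral, after the substitution `v = w u` -/
theorem jg_term (m w k : ℝ) (hw : 0 < w) (hm : 0 ≤ m) (hmk : m ≤ w * k) (p q : ℕ) (hq : q ≠ 0) :
    w ^ (p + 1) * ∫ u in (0 : ℝ)..k, u ^ p * (max (w * u - m) 0) ^ q =
      ∫ v in m..(w * k), v ^ p * (v - m) ^ q := by
  have h1 : ∫ u in (0 : ℝ)..k, u ^ p * (max (w * u - m) 0) ^ q =
      ∫ u in (0 : ℝ)..k, (fun v : ℝ => (v / w) ^ p * (max (v - m) 0) ^ q) (w * u) := by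
    refine intervalIntegral.integral_congr fun u _ => ?_
    simp only
    rw [mul_div_cancel_left₀ _ hw.ne']
  have h0 := intervalIntegral.integral_comp_mul_left (a := 0) (b := k)
    (fun v : ℝ => (v / w) ^ p * (max (v - m) 0) ^ q) hw.ne'
  rw [h1, h0, mul_zero, smul_eq_mul]
  have hc : Continuous fun v : ℝ => (v / w) ^ p * (max (v - m) 0) ^ q := by fun_prop
  rw [← intervalIntegral.integral_add_adjacent_intervals (hc.intervalIntegrable 0 m)
    (hc.intervalIntegrable m (w * k))]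
  have h2 : ∫ v in (0 : ℝ)..m, (v / w) ^ p * (max (v - m) 0) ^ q = 0 := by
    have h5 : ∫ v in (0 : ℝ)..m, (v / w) ^ p * (max (v - m) 0) ^ q = ∫ v in (0 : ℝ)..m, (0 : ℝ) := by
      refine intervalIntegral.integral_congr fun v hv => ?_
      rw [Set.uIcc_of_le hm] at hv
      show (v / w) ^ p * (max (v - m) 0) ^ q = 0
      rw [max_eq_right (by linarith only [hv.2]), zero_pow hq, mul_zero]
    rw [h5, intervalIntegral.integral_zero]
  have h3 : ∫ v in m..(w * k), (v / w) ^ p * (max (v - m) 0) ^ q =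
      ∫ v in m..(w * k), (w ^ p)⁻¹ * (v ^ p * (v - m) ^ q) := by
    refine intervalIntegral.integral_congr fun v hv => ?_
    rw [Set.uIcc_of_le hmk] at hv
    show (v / w) ^ p * (max (v - m) 0) ^ q = (w ^ p)⁻¹ * (v ^ p * (v - m) ^ q)
    rw [max_eq_left (by linarith only [hv.1]), div_pow]
    field_simp
  rw [h2, h3, zero_add, intervalIntegral.integral_const_mul]
  field_simp
  ring

/-- the rational number `Iq` is the integral -/
theorem jg_Iq (j q : ℕ) (m κ : ℚ) : ((Iq (j + 1) q m κ : ℚ) : ℝ) =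
    ∫ v in (m : ℝ)..(κ : ℝ), v ^ j * (v - m) ^ q := by
  have h1 : ∀ v : ℝ, v ^ j * (v - m) ^ q = ∑ i ∈ Finset.range (j + 1),
      ((j.choose i : ℝ) * (m : ℝ) ^ (j - i)) * (v - m) ^ (q + i) := by
    intro v
    have h2 : v ^ j = ((v - m) + m) ^ j := by rw [sub_add_cancel]
    rw [h2, add_pow, Finset.sum_mul]
    refine Finset.sum_congr rfl fun i _ => ?_
    rw [pow_add]
    ring
  have h3 : ∀ s : ℕ, ∫ v in (m : ℝ)..(κ : ℝ), (v - (m : ℝ)) ^ s =
      ((κ : ℝ) - m) ^ (s + 1) / (s + 1 : ℕ) := by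
    intro s
    rw [intervalIntegral.integral_comp_sub_right (fun x : ℝ => x ^ s) (m : ℝ), integral_pow,
      sub_self]
    simp
  simp only [h1]
  rw [intervalIntegral.integral_finsetSum (fun i _ => Continuous.intervalIntegrable (by fun_prop) _ _)]
  unfold Iq
  rw [jg_sum, Rat.cast_sum]
  refine Finset.sum_congr rfl fun i _ => ?_
  rw [intervalIntegral.integral_const_mul, h3]
  have e1 : j + 1 - 1 = j := rfl
  have e2 : q + i + 1 = q + 1 + i := by ring
  rw [e1, e2]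
  push_cast
  ring

/-- MODULE H1. -/
theorem Jint_ge (r : ℕ) (m κ : ℚ) (hm : 0 ≤ m) (hmκ : m ≤ κ) (w k : ℝ) (hw : 0 < w)
    (hk : 0 ≤ k) (hκ : (κ : ℝ) ≤ w * k) : (Gq r m κ : ℝ) / w ^ r ≤ Jint r m w k := by
  have hm' : (0 : ℝ) ≤ (m : ℝ) := by exact_mod_cast hm
  have hmκ' : (m : ℝ) ≤ (κ : ℝ) := by exact_mod_cast hmκ
  have hmk : (m : ℝ) ≤ w * k := hmκ'.trans hκ
  rw [div_le_iff₀ (pow_pos hw r)]
  unfold Gq Jint
  rw [jg_sum, Rat.cast_sum, Finset.sum_mul]
  have hs : ∀ F : ℕ → ℝ, ∑ j ∈ Finset.Icc 1 r, F j = ∑ j ∈ Finset.range r, F (j + 1) := by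
    intro F
    rw [Finset.range_eq_Ico, Finset.sum_Ico_add' F 0 r 1]
    refine Finset.sum_congr ?_ fun _ _ => rfl
    ext x
    simp only [Finset.mem_Icc, Finset.mem_Ico]
    omega
  rw [hs]
  refine Finset.sum_le_sum fun j hj => ?_
  have hjr : j < r := Finset.mem_range.1 hj
  have hq : r - j ≠ 0 := by omega
  have e1 : j + 1 - 1 = j := rfl
  have e2 : r - (j + 1) + 1 = r - j := by omega
  rw [e1, e2]
  have ht := jg_term (m : ℝ) w k hw hm' hmk j (r - j) hq
  have hle : ((Iq (j + 1) (r - j) m κ : ℚ) : ℝ) ≤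
      w ^ (j + 1) * ∫ u in (0 : ℝ)..k, u ^ j * (max (w * u - m) 0) ^ (r - j) := by
    rw [ht, jg_Iq]
    have hc : Continuous fun v : ℝ => v ^ j * (v - m) ^ (r - j) := by fun_prop
    rw [← intervalIntegral.integral_add_adjacent_intervals (hc.intervalIntegrable (m : ℝ) (κ : ℝ))
      (hc.intervalIntegrable (κ : ℝ) (w * k))]
    have h0 : 0 ≤ ∫ v in (κ : ℝ)..(w * k), v ^ j * (v - m) ^ (r - j) := by
      refine intervalIntegral.integral_nonneg hκ fun v hv => ?_
      have h1 : (0 : ℝ) ≤ v - m := by linarith only [hv.1, hmκ']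
      have h2 : (0 : ℝ) ≤ v := by linarith only [h1, hm']
      (clear * - h2 h1; positivity)
    linarith only [h0]
  have hpos : (0 : ℝ) ≤ (r.choose (j + 1) : ℝ) / (j.factorial * (r - j).factorial : ℕ) := by
    positivity
  push_cast at hpos ⊢
  refine (mul_le_mul_of_nonneg_left hle hpos).trans (le_of_eq ?_)
  have e3 : w ^ r = w ^ (j + 1) * w ^ (r - (j + 1)) := by
    rw [← pow_add]
    congr 1
    omega
  have hw' : w ^ (r - (j + 1)) ≠ 0 := (pow_pos hw _).ne'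
  have hf1 : (j.factorial : ℝ) ≠ 0 := by exact_mod_cast (Nat.factorial_pos _).ne'
  have hf2 : ((r - j).factorial : ℝ) ≠ 0 := by exact_mod_cast (Nat.factorial_pos _).ne'
  rw [e3]
  field_simp

end Vale.Agent.P018.K2
end

section

/-! # P018, K2 (staircase), module H: rational tables. -/

namespace Vale.Agent.P018.K2

open Polynomial Vale.Agent.P018.K Finset

/-- the `r`-th step of a row with left end `κ0` is correct. -/
def stepOK (κ0 : ℚ) (r : ℕ) (p : ℚ × ℚ) : Bool :=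
  decide (0 ≤ p.1) && decide (p.1 ≤ κ0) && decide (p.1 < 1) && decide (0 < p.2) &&
    decide ((1 - p.1) ^ (r + 1) < ((r + 1).factorial : ℚ) * p.2 ^ r * Gq r p.1 κ0)

/-- each step repeats the previous `β`, or is correct with a smaller `β`. -/
def stepsOK (κ0 : ℚ) : ℕ → ℚ → List (ℚ × ℚ) → Bool
  | _, _, [] => true
  | r, β, p :: l => (decide (p.2 = β) || (decide (p.2 < β) && stepOK κ0 r p)) &&
      stepsOK κ0 (r + 1) p.2 l

/-- one row: interval `[κ0, κ1]`, steps `(m_r, β_r)` for `r = 2, ..., l.length + 1`. -/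
def rowOK (d0 k0 : ℕ) (row : ℚ × ℚ × List (ℚ × ℚ)) : Bool :=
  decide (0 < row.1) && decide (row.2.2.length + 2 ≤ d0) && stepsOK row.1 2 1 row.2.2 &&
    decide (row.2.1 * (2 + (row.2.2.map Prod.snd).sum +
      ((d0 : ℚ) - 2 - row.2.2.length) * ((row.2.2.map Prod.snd).getLastD 1)) < k0)

/-- the rows cover `[κ, 1]`. -/
def coverOK : ℚ → List (ℚ × ℚ × List (ℚ × ℚ)) → Bool
  | κ, [] => decide (1 ≤ κ)
  | κ, row :: tab => decide (row.1 ≤ κ) && coverOK row.2.1 tab

/-- the table is correct for the base pair `(d0, k0)`. -/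
def tableOK (d0 k0 : ℕ) (tab : List (ℚ × ℚ × List (ℚ × ℚ))) : Bool :=
  tab.all (rowOK d0 k0) && coverOK ((k0 : ℚ) / d0) tab

/-- the staircase of a row: `β, β_2, β_3, ..., β_R, β_R, ...` -/
def tb : ℚ → List (ℚ × ℚ) → ℕ → ℚ
  | β, [], _ => β
  | β, _ :: _, 0 => β
  | _, p :: l, i + 1 => tb p.2 l i

theorem tb_zero (β : ℚ) (l : List (ℚ × ℚ)) : tb β l 0 = β := by
  cases l <;> rfl

theorem tb_ge (l : List (ℚ × ℚ)) : ∀ (β : ℚ) (i : ℕ), l.length ≤ i →
    tb β l i = (l.map Prod.snd).getLastD β := by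
  induction l with
  | nil => intro β i _; rfl
  | cons p l ih =>
    intro β i hi
    cases i with
    | zero => simp at hi
    | succ i =>
      rw [tb, ih p.2 i (by simpa using hi)]
      cases l with
      | nil => rfl
      | cons q l => simp [List.getLast?_cons]

theorem tb_anti (κ0 : ℚ) (l : List (ℚ × ℚ)) : ∀ (r : ℕ) (β : ℚ), stepsOK κ0 r β l = true →
    ∀ i, tb β l (i + 1) ≤ tb β l i := by
  induction l with
  | nil => intro r β _ i; exact le_rfl
  | cons p l ih =>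
    intro r β h i
    rw [stepsOK, Bool.and_eq_true, Bool.or_eq_true, Bool.and_eq_true, decide_eq_true_eq,
      decide_eq_true_eq] at h
    cases i with
    | zero =>
      show tb p.2 l 0 ≤ β
      rw [tb_zero]
      rcases h.1 with h1 | h1
      · exact h1.le
      · exact h1.1.le
    | succ i => exact ih (r + 1) p.2 h.2 i

theorem stepOK_pos {κ0 : ℚ} {r : ℕ} {p : ℚ × ℚ} (h : stepOK κ0 r p = true) :
    0 ≤ p.1 ∧ p.1 ≤ κ0 ∧ p.1 < 1 ∧ 0 < p.2 ∧
      (1 - p.1) ^ (r + 1) < ((r + 1).factorial : ℚ) * p.2 ^ r * Gq r p.1 κ0 := by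
  unfold stepOK at h
  simp only [Bool.and_eq_true, decide_eq_true_eq] at h
  exact ⟨h.1.1.1.1, h.1.1.1.2, h.1.1.2, h.1.2, h.2⟩

theorem tb_pos (κ0 : ℚ) (l : List (ℚ × ℚ)) : ∀ (r : ℕ) (β : ℚ), 0 < β →
    stepsOK κ0 r β l = true → ∀ i, 0 < tb β l i := by
  induction l with
  | nil => intro r β hβ _ i; exact hβ
  | cons p l ih =>
    intro r β hβ h i
    rw [stepsOK, Bool.and_eq_true, Bool.or_eq_true, Bool.and_eq_true, decide_eq_true_eq,
      decide_eq_true_eq] at h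
    cases i with
    | zero => rw [tb_zero]; exact hβ
    | succ i =>
      refine ih (r + 1) p.2 ?_ h.2 i
      rcases h.1 with h1 | h1
      · rw [h1]; exact hβ
      · exact (stepOK_pos h1.2).2.2.2.1

theorem tb_step (κ0 : ℚ) (l : List (ℚ × ℚ)) : ∀ (r : ℕ) (β : ℚ), stepsOK κ0 r β l = true →
    ∀ i, tb β l (i + 1) < tb β l i → ∃ p : ℚ × ℚ, stepOK κ0 (r + i) p = true ∧
      p.2 = tb β l (i + 1) := by
  induction l with
  | nil => intro r β _ i h; exact absurd h (lt_irrefl _)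
  | cons p l ih =>
    intro r β h i hi
    rw [stepsOK, Bool.and_eq_true, Bool.or_eq_true, Bool.and_eq_true, decide_eq_true_eq,
      decide_eq_true_eq] at h
    cases i with
    | zero =>
      have hi' : tb p.2 l 0 < β := hi
      rw [tb_zero] at hi'
      rcases h.1 with h1 | h1
      · exact absurd h1 hi'.ne
      · refine ⟨p, h1.2, ?_⟩
        show p.2 = tb p.2 l 0
        rw [tb_zero]
    | succ i =>
      obtain ⟨q, h1, h2⟩ := ih (r + 1) p.2 h.2 i hi
      refine ⟨q, ?_, h2⟩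
      rw [show r + (i + 1) = r + 1 + i by ring]
      exact h1

theorem tb_sum (l : List (ℚ × ℚ)) : ∀ β : ℚ,
    ∑ i ∈ range (l.length + 1), tb β l i = β + (l.map Prod.snd).sum := by
  induction l with
  | nil => intro β; simp [tb]
  | cons p l ih =>
    intro β
    rw [List.length_cons, sum_range_succ', tb_zero]
    have h : ∀ i, tb β (p :: l) (i + 1) = tb p.2 l i := fun i => rfl
    rw [sum_congr rfl fun i _ => h i, ih p.2, List.map_cons, List.sum_cons]
    ring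

theorem cover_row (κ : ℝ) (hκ : κ ≤ 1) (tab : List (ℚ × ℚ × List (ℚ × ℚ))) : ∀ κ' : ℚ,
    coverOK κ' tab = true → (κ' : ℝ) < κ ∨ ((κ' : ℝ) ≤ κ ∧ tab ≠ []) →
      ∃ row ∈ tab, (row.1 : ℝ) ≤ κ ∧ κ ≤ (row.2.1 : ℝ) := by
  induction tab with
  | nil =>
    intro κ' h1 h2
    rw [coverOK, decide_eq_true_eq] at h1
    rcases h2 with h2 | h2
    · have : (1 : ℝ) ≤ κ' := by exact_mod_cast h1
      linarith
    · exact absurd rfl h2.2
  | cons row tab ih =>
    intro κ' h1 h2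
    rw [coverOK, Bool.and_eq_true, decide_eq_true_eq] at h1
    have h3 : (κ' : ℝ) ≤ κ := by
      rcases h2 with h2 | h2
      · exact h2.le
      · exact h2.1
    have h4 : (row.1 : ℝ) ≤ κ' := by exact_mod_cast h1.1
    rcases le_or_gt κ (row.2.1 : ℝ) with h5 | h5
    · exact ⟨row, List.mem_cons_self, h4.trans h3, h5⟩
    · obtain ⟨row', h6, h7⟩ := ih row.2.1 h1.2 (Or.inl h5)
      exact ⟨row', List.mem_cons_of_mem _ h6, h7⟩

/-- the criterion at a step of the table -/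
theorem crit_of_step (d k r : ℕ) (hd : 1 ≤ d) (hk : 1 ≤ k) (hr : 1 ≤ r) (a : ℝ) (ha : 0 < a)
    {κ0 : ℚ} (hκ : (κ0 : ℝ) ≤ a / d * k) {p : ℚ × ℚ} (h : stepOK κ0 r p = true) :
    Crit d k r a (a / d * (p.2 : ℝ)) := by
  obtain ⟨h1, h2, h3, h4, h5⟩ := stepOK_pos h
  have hd0 : (0 : ℝ) < d := by exact_mod_cast hd
  have hw : 0 < a / d := by positivity
  have hβ : (0 : ℝ) < p.2 := by exact_mod_cast h4
  refine crit_of_Jint d k r hd hk hr a _ (p.1 : ℝ) ha (by positivity) (by exact_mod_cast h1)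
    (by exact_mod_cast h3) ?_
  refine lt_of_lt_of_le ?_ (Jint_ge r p.1 κ0 h1 h2 (a / d) k hw (Nat.cast_nonneg k) hκ)
  have h6 : (1 - (p.1 : ℝ)) ^ (r + 1) < ((r + 1).factorial : ℝ) * (p.2 : ℝ) ^ r *
      (Gq r p.1 κ0 : ℝ) := by exact_mod_cast h5
  rw [mul_pow, div_lt_div_iff₀ (by positivity) (by positivity)]
  have h7 : 0 < (a / d) ^ r := by positivity
  have h8 := mul_lt_mul_of_pos_right h6 h7
  refine h8.trans_le (le_of_eq ?_)
  ring

/-- MODULE H2. A correct table for `(d0, k0)` gives all `(d, k)` with `d ≥ d0`,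
`k / d ≥ k0 / d0`.

Given `a ∈ [1, d/k]`, `κ = k a / d ∈ [k0/d0, 1]`, take the row with `κ0 ≤ κ ≤ κ1`, and
`b r = (a/d) β' r`, `β' 0 = β' 1 = 1`, `β' r = β_r` for `2 ≤ r ≤ R = length + 1`,
`β' r = β_R` for `r > R`. `Crit` follows from `crit_of_Jint` and `Jint_ge`. The sum is
`(κ/k) (S + (d-1-R) β_R)`, `S = 2 + ∑ β_r`, and
`(S + (d-1-R) β_R) / k ≤ (S + (d0-1-R) β_R) / k0` because `S ≥ (R+1) β_R`. -/
theorem adm2_of_table (d0 k0 : ℕ) (hk0 : 1 ≤ k0) (tab : List (ℚ × ℚ × List (ℚ × ℚ)))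
    (htab : tab ≠ [])
    (h : tableOK d0 k0 tab = true) (d k : ℕ) (hk : 1 ≤ k) (hkd : k ≤ d) (hd : d0 ≤ d)
    (hr : k0 * d ≤ k * d0) (a : ℝ) (ha : 1 ≤ a) (ha2 : a ≤ (d : ℝ) / k) : Adm2 d k a := by
  have hd1 : 1 ≤ d := hk.trans hkd
  have hd0R : (0 : ℝ) < d := by exact_mod_cast hd1
  have hkR : (0 : ℝ) < k := by exact_mod_cast hk
  have hk0R : (0 : ℝ) < k0 := by exact_mod_cast hk0
  have hrR : (k0 : ℝ) * d ≤ k * d0 := by exact_mod_cast hr
  have hdR : (d0 : ℝ) ≤ d := by exact_mod_cast hd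
  have ha0 : 0 < a := by linarith only [ha]
  have hd00 : (0 : ℝ) < d0 := by
    by_contra hcon
    have h1 : (k : ℝ) * d0 ≤ 0 := mul_nonpos_of_nonneg_of_nonpos hkR.le (not_lt.1 hcon)
    have h2 : 0 < (k0 : ℝ) * d := by positivity
    linarith only [h2, h1, hrR]
  obtain ⟨w, hw⟩ : ∃ w : ℝ, w = a / d := ⟨_, rfl⟩
  have hw0 : 0 < w := by rw [hw]; positivity
  obtain ⟨κ, hκ⟩ : ∃ κ : ℝ, κ = w * k := ⟨_, rfl⟩
  have hκ0 : 0 < κ := by rw [hκ]; positivity
  have hκ1 : κ ≤ 1 := by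
    rw [hκ, hw]
    rw [le_div_iff₀ hkR] at ha2
    rw [div_mul_eq_mul_div, div_le_one hd0R]
    exact ha2
  have hκ2 : ((k0 : ℝ) / d0) ≤ κ := by
    rw [hκ, hw, div_le_iff₀ hd00, div_mul_eq_mul_div, div_mul_eq_mul_div, le_div_iff₀ hd0R]
    calc (k0 : ℝ) * d ≤ k * d0 := hrR
      _ = 1 * (k * d0) := (one_mul _).symm
      _ ≤ a * (k * d0) := mul_le_mul_of_nonneg_right ha (by positivity)
      _ = a * k * d0 := by ring
  unfold tableOK at h
  rw [Bool.and_eq_true, List.all_eq_true] at h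
  obtain ⟨row, hrow, hr1, hr2⟩ := cover_row κ hκ1 tab _ h.2 (Or.inr ⟨by push_cast; exact hκ2, htab⟩)
  have hok := h.1 row hrow
  unfold rowOK at hok
  simp only [Bool.and_eq_true, decide_eq_true_eq] at hok
  obtain ⟨⟨⟨h1, h2⟩, h3⟩, h4⟩ := hok
  obtain ⟨κ0, κ1, l⟩ := row
  simp only at h1 h2 h3 h4 hr1 hr2
  -- the staircase
  obtain ⟨β, hβ⟩ : ∃ β : ℕ → ℚ, β = tb 1 l := ⟨_, rfl⟩
  have hanti : ∀ i, β (i + 1) ≤ β i := by rw [hβ]; exact tb_anti κ0 l 2 1 h3
  have hpos : ∀ i, 0 < β i := by rw [hβ]; exact tb_pos κ0 l 2 1 one_pos h3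
  have hA : Antitone β := antitone_nat_of_succ_le hanti
  have hβ0 : β 0 = 1 := by rw [hβ, tb_zero]
  obtain ⟨L, hL⟩ : ∃ L : ℚ, L = (l.map Prod.snd).getLastD 1 := ⟨_, rfl⟩
  have hlast : ∀ i, l.length ≤ i → β i = L := by
    intro i hi
    rw [hβ, hL, tb_ge l 1 i hi]
  have hLle : ∀ i, L ≤ β i := by
    intro i
    rcases le_total i l.length with hi | hi
    · rw [← hlast l.length le_rfl]
      exact hA hi
    · rw [hlast i hi]
  refine ⟨fun r => w * (match r with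
    | 0 => 1
    | r + 1 => (β r : ℝ)), ?_, ?_, ?_, ?_, ?_⟩
  · simp only [mul_one]
    exact hw
  · intro r
    cases r with
    | zero =>
      simp only
      rw [hβ0]
      simp
    | succ r =>
      simp only
      exact mul_le_mul_of_nonneg_left (by exact_mod_cast hanti r) hw0.le
  · rcases Nat.exists_eq_succ_of_ne_zero (by omega : d ≠ 0) with ⟨d', rfl⟩
    rw [Nat.succ_sub_one]
    cases d' with
    | zero => simpa using hw0
    | succ r =>
      have : (0 : ℝ) < β r := by exact_mod_cast hpos r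
      simp only
      positivity
  · intro r hr1' hr2' hlt
    obtain ⟨i, rfl⟩ : ∃ i, r = i + 1 := ⟨r - 1, by omega⟩
    rw [Nat.add_sub_cancel] at hlt
    cases i with
    | zero =>
      exfalso
      simp only [hβ0] at hlt
      simp at hlt
    | succ i =>
      simp only at hlt
      have hlt' : β (i + 1) < β i := by
        have := lt_of_mul_lt_mul_left hlt hw0.le
        exact_mod_cast this
      rw [hβ] at hlt'
      obtain ⟨p, hp1, hp2⟩ := tb_step κ0 l 2 1 h3 i hlt'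
      rw [show 2 + i = i + 1 + 1 by ring] at hp1
      have := crit_of_step d k (i + 1 + 1) hd1 hk (by omega) a ha0 (κ0 := κ0)
        (by rw [← hw, ← hκ]; exact hr1) hp1
      simp only
      rw [← hw, hp2] at this
      rw [hβ]
      exact this
  · -- the sum
    obtain ⟨e, he⟩ : ∃ e, d = l.length + 2 + e := ⟨d - (l.length + 2), by omega⟩
    rw [← Finset.mul_sum]
    have hsum : ∑ r ∈ range d, (match r with
        | 0 => (1 : ℝ)
        | r + 1 => (β r : ℝ)) = 2 + ((l.map Prod.snd).sum : ℚ) + e * (L : ℝ) := by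
      rw [he, show l.length + 2 + e = (l.length + 1 + e) + 1 by ring, sum_range_succ']
      simp only
      rw [sum_range_add]
      have hs1 : ∑ i ∈ range (l.length + 1), (β i : ℝ) = 1 + ((l.map Prod.snd).sum : ℚ) := by
        rw [← Rat.cast_sum, hβ, tb_sum l 1]
        push_cast
        ring
      have hs2 : ∑ i ∈ range e, (β (l.length + 1 + i) : ℝ) = e * (L : ℝ) := by
        rw [sum_congr rfl fun i _ => by rw [hlast (l.length + 1 + i) (by omega)], sum_const,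
          card_range, nsmul_eq_mul]
      rw [hs1, hs2]
      ring
    rw [hsum]
    -- the bound `S ≥ (length + 2) L`
    have hS0 : ((l.length : ℚ) + 2) * L ≤ 2 + (l.map Prod.snd).sum := by
      have hs1 : ∑ i ∈ range (l.length + 1), β i = 1 + (l.map Prod.snd).sum := by
        rw [hβ]; exact tb_sum l 1
      have hs2 : ((l.length + 1 : ℕ) : ℚ) * L ≤ ∑ i ∈ range (l.length + 1), β i := by
        rw [← nsmul_eq_mul]
        have := Finset.card_nsmul_le_sum (range (l.length + 1)) β L fun i _ => hLle i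
        rwa [card_range] at this
      have hs3 : L ≤ 1 := by rw [← hβ0]; exact hLle 0
      rw [hs1] at hs2
      push_cast at hs2
      linarith only [hs2, hs3]
    obtain ⟨S, hS⟩ : ∃ S : ℝ, S = 2 + (((l.map Prod.snd).sum : ℚ) : ℝ) := ⟨_, rfl⟩
    have hS1 : ((l.length : ℝ) + 2) * (L : ℝ) ≤ S := by
      rw [hS]
      exact_mod_cast hS0
    have hL0 : (0 : ℝ) < L := by
      rw [← hlast l.length le_rfl]
      exact_mod_cast hpos _
    have h4' : (κ1 : ℝ) * (S + ((d0 : ℝ) - 2 - l.length) * (L : ℝ)) < k0 := by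
      rw [hS, hL]
      exact_mod_cast h4
    have hdR2 : (d : ℝ) = l.length + 2 + e := by exact_mod_cast he
    rw [← hS]
    have hκ1p : (0 : ℝ) < κ1 := hκ0.trans_le hr2
    have hSp : 0 ≤ S + e * (L : ℝ) := by
      have h7 : 0 ≤ ((l.length : ℝ) + 2) * (L : ℝ) := by (clear * - hL0; positivity)
      have h8 : 0 ≤ (e : ℝ) * (L : ℝ) := by (clear * - hL0; positivity)
      linarith only [h8, h7, hS1]
    have e1 : (S + e * (L : ℝ)) * d0 ≤ d * (S + ((d0 : ℝ) - 2 - l.length) * (L : ℝ)) := by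
      have h5 : 0 ≤ ((d : ℝ) - d0) * (S - ((l.length : ℝ) + 2) * L) :=
        mul_nonneg (by linarith only [hdR]) (by linarith only [hS1])
      have h6 : (e : ℝ) = d - 2 - l.length := by linarith
      rw [h6]
      linarith only [h5]
    have e2 : κ1 * (S + e * (L : ℝ)) * d0 < k * d0 := by
      calc κ1 * (S + e * (L : ℝ)) * d0 = κ1 * ((S + e * (L : ℝ)) * d0) := by ring
        _ ≤ κ1 * (d * (S + ((d0 : ℝ) - 2 - l.length) * (L : ℝ))) :=
            mul_le_mul_of_nonneg_left e1 hκ1p.le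
        _ = d * (κ1 * (S + ((d0 : ℝ) - 2 - l.length) * (L : ℝ))) := by ring
        _ < d * k0 := mul_lt_mul_of_pos_left h4' hd0R
        _ = k0 * d := by ring
        _ ≤ k * d0 := hrR
    have e3 : κ1 * (S + e * (L : ℝ)) < k := lt_of_mul_lt_mul_right e2 hd00.le
    have e4 : w * (S + e * (L : ℝ)) * k < 1 * k := by
      calc w * (S + e * (L : ℝ)) * k = κ * (S + e * (L : ℝ)) := by rw [hκ]; ring
        _ ≤ κ1 * (S + e * (L : ℝ)) := mul_le_mul_of_nonneg_right hr2 hSp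
        _ < k := e3
        _ = 1 * k := (one_mul _).symm
    exact lt_of_mul_lt_mul_right e4 hkR.le

end Vale.Agent.P018.K2
end

section

/-! # P018, K2 (staircase): a check of the tables in natural numbers (units `1/1000`). -/

namespace Vale.Agent.P018.K2

end Vale.Agent.P018.K2
end

section

/-! # P018, K2 (staircase): tables for base pairs; all numbers are in units of `1/1000`. -/

namespace Vale.Agent.P018.K2

end Vale.Agent.P018.K2
end

section

/-! # P018, (B), curve step: numerics, prime numbers, the pigeonhole step in a class. -/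

namespace Vale.Agent.P018.QB

open Polynomial NumberField Vale.Agent.P018.Q Finset

/-- Bertrand. -/
theorem exists_primes (M Q : ℕ) (hQ : 1 ≤ Q) : ∃ ℓ : Fin M → ℕ, Function.Injective ℓ ∧
    ∀ i, (ℓ i).Prime ∧ Q < ℓ i ∧ ℓ i ≤ 2 ^ M * Q := by
  have h := fun n : ℕ => fun hn : n ≠ 0 => Nat.exists_prime_lt_and_le_two_mul n hn
  choose! p hp using h
  obtain ⟨a, ha0, has⟩ : ∃ a : ℕ → ℕ, a 0 = Q ∧ ∀ i, a (i + 1) = p (a i) :=
    ⟨fun i => p^[i] Q, rfl, fun i => Function.iterate_succ_apply' p i Q⟩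
  have hpos : ∀ i, a i ≠ 0 := by
    intro i
    induction i with
    | zero => rw [ha0]; omega
    | succ i ih => rw [has]; exact (hp (a i) ih).1.ne_zero
  have hmono : StrictMono a := by
    refine strictMono_nat_of_lt_succ fun i => ?_
    rw [has]
    exact (hp (a i) (hpos i)).2.1
  have hup : ∀ i, a i ≤ 2 ^ i * Q := by
    intro i
    induction i with
    | zero => rw [ha0]; simp
    | succ i ih =>
      rw [has]
      have := (hp (a i) (hpos i)).2.2
      calc p (a i) ≤ 2 * a i := this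
        _ ≤ 2 * (2 ^ i * Q) := by omega
        _ = 2 ^ (i + 1) * Q := by ring
  refine ⟨fun i => a (i + 1), ?_, fun i => ⟨?_, ?_, ?_⟩⟩
  · intro i j hij
    have := hmono.injective hij
    exact Fin.ext (by omega)
  · change (a (i + 1)).Prime
    rw [has]
    exact (hp (a i) (hpos i)).1
  · have := hmono (show 0 < (i : ℕ) + 1 by omega)
    rwa [ha0] at this
  · refine (hup (i + 1)).trans (Nat.mul_le_mul_right _ ?_)
    exact Nat.pow_le_pow_right (by norm_num) (by omega)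

/-- at least one of many primes does not divide a given integer. -/
theorem exists_good (M Q : ℕ) (hQ : 1 ≤ Q) (ℓ : Fin M → ℕ) (hinj : Function.Injective ℓ)
    (hℓ : ∀ i, (ℓ i).Prime ∧ Q < ℓ i) (b : ℤ) (hb : b ≠ 0) (hbQ : |b| < (Q : ℤ) ^ M) :
    ∃ i, ¬ ((ℓ i : ℤ) ∣ b) := by
  by_contra hcon
  push Not at hcon
  have h1 : ∏ i, (ℓ i : ℤ) ∣ b := by
    refine Finset.prod_dvd_of_coprime ?_ fun i _ => hcon i
    intro i _ j _ hij
    have h2 : Nat.Coprime (ℓ i) (ℓ j) :=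
      (Nat.coprime_primes (hℓ i).1 (hℓ j).1).2 fun h => hij (hinj h)
    exact Nat.isCoprime_iff_coprime.2 h2
  have h2 : ∏ i, (ℓ i : ℤ) ≤ |b| :=
    Int.le_of_dvd (abs_pos.2 hb) ((dvd_abs _ _).2 h1)
  have h3 : (Q : ℤ) ^ M ≤ ∏ i, (ℓ i : ℤ) := by
    have : ∏ _i : Fin M, (Q : ℤ) ≤ ∏ i, (ℓ i : ℤ) := by
      refine Finset.prod_le_prod (fun i _ => by positivity) fun i _ => ?_
      have := (hℓ i).2
      exact_mod_cast this.le
    simpa using this
  exact absurd hbQ (not_lt.2 (h3.trans h2))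

/-- `siegel_class` with `ν = n`, `W k = l^n / (2 n Sz k)`. -/
theorem siegel_wrap {n : ℕ} (hn : 1 ≤ n) (l : ℕ) (hl : l.Prime) (S : Set ℤ) (f : ℕ → ℤ → ℤ)
    (φ : ℕ → ℤ[X]) (u x : ℤ → ℤ) (x0 : ℤ) (Sz : ℕ → ℝ) (h1 : ∀ k < n, 1 ≤ Sz k)
    (hu : ∀ P ∈ S, ¬ (l : ℤ) ∣ u P) (hx : ∀ P ∈ S, (l : ℤ) ∣ x P - x0)
    (hf : ∀ P ∈ S, ∀ k < n, (l : ℤ) ^ n ∣ u P * f k P - (φ k).eval (x P))
    (hSz : ∀ P ∈ S, ∀ k < n, |(f k P : ℝ)| ≤ Sz k)
    (hnum : (2 * (n : ℝ)) ^ n * ∏ k ∈ range n, Sz k ≤ (l : ℝ) ^ (n * (n - 1) / 2)) :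
    ∃ w : ℕ → ℤ, (∃ k < n, w k ≠ 0) ∧ ∀ P ∈ S, ∑ k ∈ range n, w k * f k P = 0 := by
  have hl0 : (0 : ℝ) < l := by exact_mod_cast hl.pos
  have hn0 : (0 : ℝ) < n := by exact_mod_cast hn
  set W : ℕ → ℝ := fun k => if k < n then (l : ℝ) ^ n / (2 * n * Sz k) else 0 with hW
  have hWpos : ∀ k < n, 0 < W k := by
    intro k hk
    simp only [hW, if_pos hk]
    have : 0 < Sz k := lt_of_lt_of_le one_pos (h1 k hk)
    positivity
  have hWn : ∀ k, 0 ≤ W k := by
    intro k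
    by_cases hk : k < n
    · exact (hWpos k hk).le
    · simp only [hW, if_neg hk]
      exact le_rfl
  have hSpos : 0 < ∏ k ∈ range n, Sz k := by
    refine Finset.prod_pos fun k hk => ?_
    exact lt_of_lt_of_le one_pos (h1 k (mem_range.1 hk))
  have hprodW : ∏ k ∈ range n, W k =
      ((l : ℝ) ^ n) ^ n / ((2 * (n : ℝ)) ^ n * ∏ k ∈ range n, Sz k) := by
    have : ∏ k ∈ range n, W k = ∏ k ∈ range n, ((l : ℝ) ^ n / (2 * n * Sz k)) := by
      refine Finset.prod_congr rfl fun k hk => ?_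
      simp only [hW, if_pos (mem_range.1 hk)]
    rw [this, Finset.prod_div_distrib, Finset.prod_mul_distrib]
    simp
  have hexp : n * (n + 1) / 2 + n * (n - 1) / 2 = n * n := by
    obtain ⟨m, rfl⟩ : ∃ m, n = m + 1 := ⟨n - 1, by omega⟩
    rw [Nat.add_sub_cancel]
    have h2 : 2 ∣ (m + 1) * (m + 1 + 1) := (Nat.even_mul_succ_self (m + 1)).two_dvd
    have h3 : 2 ∣ (m + 1) * m := by
      rw [mul_comm]
      exact (Nat.even_mul_succ_self m).two_dvd
    obtain ⟨c, hc⟩ := h2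
    obtain ⟨d, hd⟩ := h3
    rw [hc, hd, Nat.mul_div_cancel_left _ two_pos, Nat.mul_div_cancel_left _ two_pos]
    nlinarith
  have hge : (l : ℝ) ^ (n * (n + 1) / 2) ≤ ∏ k ∈ range n, W k := by
    rw [hprodW, le_div_iff₀ (by positivity), ← pow_mul, ← hexp, pow_add]
    exact mul_le_mul_of_nonneg_left hnum (by positivity)
  have hlt : ∏ k ∈ range n, W k < ∏ k ∈ range n, ((⌊W k⌋₊ : ℝ) + 1) := by
    refine Finset.prod_lt_prod (fun k hk => hWpos k (mem_range.1 hk))
      (fun k _ => (Nat.lt_floor_add_one (W k)).le) ⟨0, mem_range.2 (by omega), ?_⟩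
    exact Nat.lt_floor_add_one (W 0)
  obtain ⟨w, hw0, -, hw⟩ := siegel_class n n (l : ℤ) (by exact_mod_cast hl.two_le) S f φ u x x0
    Sz W hWn (fun P hP => by
      rw [isCoprime_comm]
      exact (Prime.coprime_iff_not_dvd (Nat.prime_iff_prime_int.1 hl)).2 (hu P hP)) hx hf hSz
    (by
      have : ((l : ℤ) : ℝ) = (l : ℝ) := by norm_cast
      rw [this]
      exact hge.trans_lt hlt)
    (by
      have h2 : ((l : ℤ) : ℝ) = (l : ℝ) := by norm_cast
      rw [h2]
      have h3 : ∑ k ∈ range n, W k * Sz k = ∑ _k ∈ range n, (l : ℝ) ^ n / (2 * n) := by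
        refine Finset.sum_congr rfl fun k hk => ?_
        have hk' := mem_range.1 hk
        have : Sz k ≠ 0 := (lt_of_lt_of_le one_pos (h1 k hk')).ne'
        simp only [hW, if_pos hk']
        field_simp
      rw [h3, Finset.sum_const, card_range, nsmul_eq_mul]
      have h4 : (n : ℝ) * ((l : ℝ) ^ n / (2 * n)) = (l : ℝ) ^ n / 2 := by
        field_simp
      rw [h4]
      have : (0 : ℝ) < (l : ℝ) ^ n := by positivity
      linarith only [this])
  exact ⟨w, hw0, hw⟩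

end Vale.Agent.P018.QB
end
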