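import Mathlib
import Vale.Agent.P018.Bdl.B4
import Vale.Agent.P018.Bdl.B7
import Vale.Agent.P018.Bdl.B2
import Vale.Agent.P018.Bdl.B5

set_option linter.all false

section

/-! # P018, quartics, family (A): the curve step at given exponents, one class. -/

set_option linter.unusedVariables false

namespace Vale.Agent.P018.Q

open Polynomial NumberField Finset

theorem pc_sum_lev (i R : ℕ) : ∑ k ∈ range (6 * i + 10 * R + 2), lev i k = 5 * (R * (R + 1)) := by
  induction R with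
  | zero =>
    refine Finset.sum_eq_zero fun k hk => ?_
    rw [mem_range] at hk
    rw [lev, if_pos (by omega)]
  | succ R ih =>
    have h1 : 6 * i + 10 * (R + 1) + 2 = 6 * i + 10 * R + 2 + 10 := by ring
    have h2 : ∀ r < 10, lev i (6 * i + 10 * R + 2 + r) = R + 1 := by
      intro r hr
      rw [lev, if_neg (by omega)]
      omega
    rw [h1, Finset.sum_range_add, ih]
    rw [Finset.sum_congr rfl fun r hr => h2 r (mem_range.1 hr), Finset.sum_const, card_range]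
    simp only [smul_eq_mul]
    ring

/-- choice of the parameters -/
theorem pc_choose (w m1 β : ℝ) (hw : 0 < w) (hw' : w ≤ 1 / 2) (hm1 : 0 ≤ m1) (hm : m1 < w)
    (hβ : 0 < β) (hcur : NumCurve w m1 β) :
    ∃ (j : ℕ) (ε : ℝ), 1 ≤ j ∧ 0 < ε ∧ ε ≤ β / 2 ∧
      (1 - 2 * w + 2 * ε) * ((2305 * j ^ 2 + 75 * j : ℕ) : ℝ) +
        (w - m1 + 2 * ε) * ((1210 * j ^ 2 + 280 * j + 2 : ℕ) : ℝ) + 1 ≤
      (β - ε) * ((14450 * j ^ 2 + 255 * j + 1 : ℕ) : ℝ) := by
  have hcur' : 23.05 * (1 - 2 * w) + 12.1 * (w - m1) < 144.5 * β := hcur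
  set gap := 144.5 * β - (23.05 * (1 - 2 * w) + 12.1 * (w - m1)) with hgap
  have hg : 0 < gap := by rw [hgap]; linarith only [hcur']
  obtain ⟨j0, hj0⟩ := exists_nat_gt (4 / gap)
  set j := j0 + 1 with hj
  have hj1 : (1 : ℝ) ≤ j := by rw [hj]; push_cast; linarith only [Nat.cast_nonneg (α := ℝ) j0]
  have hjg : 4 < gap * j := by
    have h1 : 4 / gap < j := by
      rw [hj]
      push_cast
      linarith only [hj0]
    rw [div_lt_iff₀ hg] at h1
    linarith only [h1]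
  set D : ℝ := 21480 * (j : ℝ) ^ 2 + 965 * j + 5 with hD
  have hD0 : 0 < D := by positivity
  refine ⟨j, min (β / 2) (1 / D), by omega, lt_min (by linarith only [hβ]) (by (clear * -; positivity)),
    min_le_left _ _, ?_⟩
  set ε := min (β / 2) (1 / D) with hε
  have hεD : ε * D ≤ 1 := by
    have : ε ≤ 1 / D := min_le_right _ _
    calc ε * D ≤ 1 / D * D := by gcongr
      _ = 1 := by field_simp
  push_cast
  have h2 : 100 * gap * (j : ℝ) ^ 2 ≥ 400 * j := by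
    (by_contra nlg; linarith only [nlg, mul_pos (sub_pos.2 hjg) (sub_pos.2 hjg), mul_pos (sub_pos.2 hm) (sub_pos.2 hjg), mul_nonneg (sub_nonneg.2 hm1) (le_of_lt (sub_pos.2 hjg)), mul_nonneg (sub_nonneg.2 hw') (le_of_lt (sub_pos.2 hjg)), mul_pos (sub_pos.2 (not_le.1 nlg)) (sub_pos.2 hg)])
  have h3 : (1 - 2 * w) * (75 * j) ≤ 75 * (j : ℝ) := by (by_contra nlg; linarith only [nlg, mul_nonneg (le_of_lt (sub_pos.2 hm)) (sub_nonneg.2 h2), mul_nonneg (sub_nonneg.2 hm1) (sub_nonneg.2 h2), mul_pos (sub_pos.2 (not_le.1 nlg)) (sub_pos.2 hjg)])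
  have h4 : (w - m1) * (280 * j + 2) ≤ 280 * (j : ℝ) + 2 := by
    have : w - m1 ≤ 1 := by linarith only [hm1, hw']
    (by_contra nlg; linarith only [mul_nonneg (sub_nonneg.2 hj1) (sub_nonneg.2 this), nlg, this])
  have h5 : 0 ≤ β * (255 * j + 1) := by positivity
  have h6 : (1 - 2 * w + 2 * ε) * (2305 * (j : ℝ) ^ 2 + 75 * j) +
      (w - m1 + 2 * ε) * (1210 * (j : ℝ) ^ 2 + 280 * j + 2) + 1 -
      (β - ε) * (14450 * (j : ℝ) ^ 2 + 255 * j + 1) =
      ε * D + 1 + (1 - 2 * w) * (75 * j) + (w - m1) * (280 * j + 2) - β * (255 * j + 1)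
        - 100 * gap * (j : ℝ) ^ 2 := by
    rw [hD, hgap]
    ring
  linarith only [h6, h5, h4, h3, h2, hεD, hj1]

/-- the numerical inequalities -/
theorem pc_num {n : ℕ} (hn : 1 ≤ n) (e1 e2 : ℕ → ℕ) (Gz Sg : ℝ) (hG : 0 < Gz) (hS : 0 < Sg)
    (q : ℕ) (hq : 1 ≤ q)
    (h : (2 * n : ℝ) ^ n * (Gz ^ (∑ k ∈ range n, e1 k) * Sg ^ (∑ k ∈ range n, e2 k)) <
      (q : ℝ) ^ (n * (n - 1) / 2)) :
    ∃ W : ℕ → ℝ, (∀ k, 0 ≤ W k) ∧
      (q : ℝ) ^ (n * (n + 1) / 2) < ∏ k ∈ range n, ((⌊W k⌋₊ : ℝ) + 1) ∧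
      ∑ k ∈ range n, W k * (Gz ^ e1 k * Sg ^ e2 k) < (q : ℝ) ^ n := by
  have hn0 : (0 : ℝ) < n := by exact_mod_cast hn
  have hq0 : (0 : ℝ) < q := by exact_mod_cast hq
  refine ⟨fun k => (q : ℝ) ^ n / (2 * n * (Gz ^ e1 k * Sg ^ e2 k)), fun k => by positivity, ?_, ?_⟩
  · have h1 : ∏ k ∈ range n, ((q : ℝ) ^ n / (2 * n * (Gz ^ e1 k * Sg ^ e2 k))) ≤
        ∏ k ∈ range n, ((⌊(q : ℝ) ^ n / (2 * n * (Gz ^ e1 k * Sg ^ e2 k))⌋₊ : ℝ) + 1) :=
      Finset.prod_le_prod (fun k _ => by positivity) fun k _ => (Nat.lt_floor_add_one _).le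
    refine lt_of_lt_of_le ?_ h1
    have h0 : ∏ k ∈ range n, (Gz ^ e1 k * Sg ^ e2 k) =
        Gz ^ (∑ k ∈ range n, e1 k) * Sg ^ (∑ k ∈ range n, e2 k) := by
      rw [Finset.prod_mul_distrib, Finset.prod_pow_eq_pow_sum, Finset.prod_pow_eq_pow_sum]
    have h0' : ∏ k ∈ range n, (2 * n * (Gz ^ e1 k * Sg ^ e2 k)) =
        (2 * n : ℝ) ^ n * (Gz ^ (∑ k ∈ range n, e1 k) * Sg ^ (∑ k ∈ range n, e2 k)) := by
      rw [Finset.prod_mul_distrib, h0, Finset.prod_const, card_range]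
    rw [Finset.prod_div_distrib, h0', Finset.prod_const, card_range, lt_div_iff₀ (by positivity)]
    have h2 : n * (n + 1) / 2 + n * (n - 1) / 2 = n * n := by
      have e1 : 2 ∣ n * (n + 1) := (Nat.even_mul_succ_self n).two_dvd
      have e2 : 2 ∣ n * (n - 1) := by
        have := (Nat.even_mul_pred_self n).two_dvd
        exact this
      obtain ⟨a, ha⟩ := e1
      obtain ⟨b, hb⟩ := e2
      rw [ha, hb, Nat.mul_div_cancel_left _ two_pos, Nat.mul_div_cancel_left _ two_pos]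
      have h3 : n * (n + 1) + n * (n - 1) = 2 * (n * n) := by
        obtain ⟨r, rfl⟩ := Nat.exists_eq_add_of_le' hn
        simp only [Nat.add_sub_cancel]
        ring
      omega
    calc (q : ℝ) ^ (n * (n + 1) / 2) *
          ((2 * n : ℝ) ^ n * (Gz ^ (∑ k ∈ range n, e1 k) * Sg ^ (∑ k ∈ range n, e2 k))) <
          (q : ℝ) ^ (n * (n + 1) / 2) * (q : ℝ) ^ (n * (n - 1) / 2) := by
            gcongr
      _ = ((q : ℝ) ^ n) ^ n := by rw [← pow_add, h2, pow_mul]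
  · have h1 : ∀ k ∈ range n, (q : ℝ) ^ n / (2 * n * (Gz ^ e1 k * Sg ^ e2 k)) *
        (Gz ^ e1 k * Sg ^ e2 k) = (q : ℝ) ^ n / (2 * n) := by
      intro k _
      have : Gz ^ e1 k * Sg ^ e2 k ≠ 0 := by positivity
      field_simp
    rw [Finset.sum_congr rfl h1, Finset.sum_const, card_range, nsmul_eq_mul]
    have : (n : ℝ) * ((q : ℝ) ^ n / (2 * n)) = (q : ℝ) ^ n / 2 := by
      field_simp
    rw [this]
    have : 0 < (q : ℝ) ^ n := by positivity
    linarith only [this]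

theorem pc_ell {L : Type} [Field L] [NumberField L] {G : ℤ[X]} {θ : Fin 4 → 𝓞 L}
    (hF : Fld G θ) {l1 : Fin 4 → ℤ} (hl1 : l1 ≠ 0) (j : Fin 4) : K.ell (θ j) l1 ≠ 0 := by
  obtain ⟨F, _, _, α, σ, h⟩ := exists_quartic hF.monic hF.deg hF.irr hF.split
  intro h0
  exact ellj_ne_zero h hl1 j (by rw [h0]; simp)

variable {L : Type} [Field L] [NumberField L]

/-- curves of degree `≥ 2`, all points in one class modulo `q`, smooth modulo all primes of `q`. -/
theorem curve_class {G : ℤ[X]} {θ : Fin 4 → 𝓞 L} (hF : Fld G θ) (C Dg : ℕ) (w m1 β : ℝ)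
    (hw : 0 < w) (hw' : w ≤ 1 / 2) (hm1 : 0 ≤ m1) (hm : m1 < w) (hβ : 0 < β)
    (hcur : NumCurve w m1 β) :
    ∃ ε : ℝ, 0 < ε ∧ ∃ K : ℝ, 0 < K ∧ ∀ (X T : ℝ) (l1 l2 : Fin 4 → ℤ) (d : Fin 2 → ℕ)
      (A B : Fin 2 → ℤ[X]) (Z : Fin 2 → Fin 4 → ℤ[X]) (Λ : ℤ[X]) (e : ℤ) (g : ℤ[X][X]) (q : ℕ)
      (x0 y0 v : ℤ) (S : Finset ℤ),
      K ≤ X → X ≤ T ^ 4 → X ^ (w - ε) ≤ T → T ≤ X ^ (w + ε) →
      X ^ (2 * (m1 - ε)) ≤ dot l1 l1 → dot l1 l1 ≤ dot l2 l2 → l1 ≠ 0 → NonDeg θ l1 l2 →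
      KData θ l1 l2 d A B Z Λ e →
      Irreducible (g.map (mapRingHom (Int.castRingHom ℚ))) → BiDeg Dg Dg g → 2 ≤ g.natDegree →
      (d 0 = 4 → ∃ i, 2 ≤ (g.coeff i).natDegree) →
      X ^ (β - ε) ≤ q → (q : ℝ) ≤ X ^ (β + ε) → (q : ℤ) ∣ 1 - v * ev2 (derivative g) x0 y0 →
      (∀ N ∈ S, ∃ (p : ℕ) (c : ℤ) (z : Fin 4 → ℤ) (s t kn kd : ℤ),
        Pt θ C X T l1 l2 N p c z s t ∧ KP A B Z N c s t kn kd z ∧
        ev (g.map (mapRingHom (Int.castRingHom ℚ))) ((kn : ℚ) / kd) ((s : ℚ) / t) = 0 ∧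
        IsCoprime t (q : ℤ) ∧ IsCoprime kd (q : ℤ) ∧ (q : ℤ) ∣ s - x0 * t ∧
        (q : ℤ) ∣ kn - y0 * kd ∧
        IsCoprime (kd * hom 5 (A 0) s t + kn * hom 5 (A 1) s t) (q : ℤ)) →
      (S.card : ℝ) ≤ K := by
  obtain ⟨j, ε, hj, hε, hεβ, hnum⟩ := pc_choose w m1 β hw hw' hm1 hm hβ hcur
  obtain ⟨C1, hC1⟩ := curve_step (L := L) (10 * j) (11 * j) Dg (by omega)
  set n : ℕ := 6 * (10 * j) + 10 * (11 * j) + 2 with hn
  set E1 : ℕ := 2305 * j ^ 2 + 75 * j with hE1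
  set E2 : ℕ := 1210 * j ^ 2 + 280 * j + 2 with hE2
  set E3 : ℕ := 14450 * j ^ 2 + 255 * j + 1 with hE3
  have hs1 : ∑ k ∈ range n, (10 * j + lev (10 * j) k) = E1 := by
    rw [Finset.sum_add_distrib, Finset.sum_const, card_range, hn, pc_sum_lev, hE1]
    simp only [smul_eq_mul]
    ring
  have hs2 : ∑ k ∈ range n, (1 + 2 * lev (10 * j) k) = E2 := by
    rw [Finset.sum_add_distrib, Finset.sum_const, card_range, ← Finset.mul_sum, hn, pc_sum_lev,
      hE2]
    simp only [smul_eq_mul]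
    ring
  have hs3 : n * (n - 1) / 2 = E3 := by
    have h1 : n - 1 = 170 * j + 1 := by omega
    have h2 : n * (n - 1) = 2 * E3 := by
      rw [h1, hn, hE3]
      ring
    rw [h2]
    omega
  set c0 : ℝ := (2 * n : ℝ) ^ n * ((C : ℝ) + 1) ^ (E1 + E2) with hc0
  have hc0' : 0 ≤ c0 := by (clear * - hj; positivity)
  have h2β : (0 : ℝ) ≤ 2 ^ (2 / β) := by positivity
  have hCC : (0 : ℝ) ≤ (2 * C + 1) * C1 := by (clear * -; positivity)
  refine ⟨ε, hε, 1 + 2 ^ (2 / β) + c0 + (2 * C + 1) * C1, by (clear * - hj; positivity), ?_⟩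
  intro X T l1 l2 d A B Z Λ e g q x0 y0 v S hKX hXT hT1 hT2 hl hl12 hl10 hnd hKD hg hgd hg2 hg4
    hq1 hq2 hv hS
  have hX1 : 1 ≤ X := by linarith only [hKX, hCC, h2β, hc0']
  have hX0 : 0 < X := by linarith only [hX1, hm, hm1, hw']
  have hcX : c0 < X := by linarith only [hKX, hCC, h2β, hm, hm1, hw']
  have h2X : (2 : ℝ) ^ (2 / β) ≤ X := by linarith only [hKX, hCC, hc0', hm, hm1, hw']
  have hT0 : 0 < T := lt_of_lt_of_le (by positivity) hT1
  -- `q` is large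
  have hq : 2 ≤ q := by
    have h1 : (2 : ℝ) ≤ X ^ (β / 2) := by
      have h2 : ((2 : ℝ) ^ (2 / β)) ^ (β / 2) ≤ X ^ (β / 2) :=
        Real.rpow_le_rpow h2β h2X (by positivity)
      rw [← Real.rpow_mul (by norm_num)] at h2
      have h3 : 2 / β * (β / 2) = 1 := by field_simp
      rw [h3, Real.rpow_one] at h2
      exact h2
    have h2 : X ^ (β / 2) ≤ X ^ (β - ε) := Real.rpow_le_rpow_of_exponent_le hX1 (by linarith only [hεβ])
    have h3 : (2 : ℝ) ≤ q := by linarith only [h2, h1, hq1]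
    exact_mod_cast h3
  set Gz : ℝ := ((C : ℝ) + 1) * X ^ (1 - 2 * w + 2 * ε) with hGz
  set Sg : ℝ := ((C : ℝ) + 1) * X ^ (w - m1 + 2 * ε) with hSg
  have hGz0 : 0 < Gz := by (clear * - hX1; positivity)
  have hSg0 : 0 < Sg := by (clear * - hX1; positivity)
  have hmain : (2 * n : ℝ) ^ n * (Gz ^ (∑ k ∈ range n, (10 * j + lev (10 * j) k)) *
      Sg ^ (∑ k ∈ range n, (1 + 2 * lev (10 * j) k))) < (q : ℝ) ^ (n * (n - 1) / 2) := by
    rw [hs1, hs2, hs3]
    have h1 : (2 * n : ℝ) ^ n * (Gz ^ E1 * Sg ^ E2) =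
        c0 * X ^ ((1 - 2 * w + 2 * ε) * (E1 : ℝ) + (w - m1 + 2 * ε) * (E2 : ℝ)) := by
      have key : ∀ a b : ℝ, (2 * n : ℝ) ^ n * ((((C : ℝ) + 1) * X ^ a) ^ E1 *
          (((C : ℝ) + 1) * X ^ b) ^ E2) = c0 * X ^ (a * (E1 : ℝ) + b * (E2 : ℝ)) := by
        intro a b
        have k1 : X ^ (a * (E1 : ℝ) + b * (E2 : ℝ)) = (X ^ a) ^ E1 * (X ^ b) ^ E2 := by
          rw [Real.rpow_add hX0, Real.rpow_mul hX0.le, Real.rpow_mul hX0.le, Real.rpow_natCast,
            Real.rpow_natCast]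
        rw [k1, hc0, pow_add, mul_pow ((C : ℝ) + 1), mul_pow ((C : ℝ) + 1)]
        ring
      exact key _ _
    rw [h1]
    have h2 : c0 * X ^ ((1 - 2 * w + 2 * ε) * (E1 : ℝ) + (w - m1 + 2 * ε) * (E2 : ℝ)) <
        X * X ^ ((1 - 2 * w + 2 * ε) * (E1 : ℝ) + (w - m1 + 2 * ε) * (E2 : ℝ)) := by
      gcongr
    have h3 : X * X ^ ((1 - 2 * w + 2 * ε) * (E1 : ℝ) + (w - m1 + 2 * ε) * (E2 : ℝ)) =
        X ^ ((1 - 2 * w + 2 * ε) * (E1 : ℝ) + (w - m1 + 2 * ε) * (E2 : ℝ) + 1) := by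
      rw [Real.rpow_add hX0 _ 1, Real.rpow_one]
      ring
    have h4 : X ^ ((1 - 2 * w + 2 * ε) * (E1 : ℝ) + (w - m1 + 2 * ε) * (E2 : ℝ) + 1) ≤
        X ^ ((β - ε) * (E3 : ℝ)) := Real.rpow_le_rpow_of_exponent_le hX1 hnum
    have h5 : X ^ ((β - ε) * (E3 : ℝ)) ≤ (q : ℝ) ^ E3 := by
      rw [Real.rpow_mul hX0.le, Real.rpow_natCast]
      exact pow_le_pow_left₀ (by (clear * - hX1; positivity)) hq1 _
    linarith only [h2, h3, h4, h5]
  obtain ⟨W, hW0, hW1, hW2⟩ := pc_num (n := n) (by omega) (fun k => 10 * j + lev (10 * j) k)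
    (fun k => 1 + 2 * lev (10 * j) k) Gz Sg hGz0 hSg0 q (by omega) hmain
  -- the functions of the point
  choose! p c z s t kn kd hpt using hS
  have hdot : 0 < (dot l1 l1 : ℝ) := lt_of_lt_of_le (by positivity) hl
  have hsq : ∀ a : ℤ, (a : ℝ) ^ 2 * dot l1 l1 ≤ C * T ^ 2 → |(a : ℝ)| ≤ Sg := by
    intro a ha
    refine abs_le_of_sq_le_sq ?_ hSg0.le
    have h1 : (a : ℝ) ^ 2 * X ^ (2 * (m1 - ε)) ≤ C * (X ^ (w + ε)) ^ 2 := by
      calc (a : ℝ) ^ 2 * X ^ (2 * (m1 - ε)) ≤ (a : ℝ) ^ 2 * dot l1 l1 := by gcongr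
        _ ≤ C * T ^ 2 := ha
        _ ≤ C * (X ^ (w + ε)) ^ 2 := by gcongr
    have h2 : (X ^ (w + ε)) ^ 2 = X ^ (2 * (m1 - ε)) * (X ^ (w - m1 + 2 * ε)) ^ 2 := by
      rw [← Real.rpow_natCast (X ^ (w + ε)), ← Real.rpow_natCast (X ^ (w - m1 + 2 * ε)),
        ← Real.rpow_mul hX0.le, ← Real.rpow_mul hX0.le, ← Real.rpow_add hX0]
      congr 1
      push_cast
      ring
    have h3 : 0 < X ^ (2 * (m1 - ε)) := by positivity
    have h4 : (a : ℝ) ^ 2 ≤ C * (X ^ (w - m1 + 2 * ε)) ^ 2 := by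
      rw [h2] at h1
      have h5 : (a : ℝ) ^ 2 * X ^ (2 * (m1 - ε)) ≤
          C * (X ^ (w - m1 + 2 * ε)) ^ 2 * X ^ (2 * (m1 - ε)) := by linarith only [h1]
      exact le_of_mul_le_mul_right h5 h3
    rw [hSg, mul_pow]
    refine h4.trans ?_
    have h6 : (C : ℝ) ≤ ((C : ℝ) + 1) ^ 2 := by (by_contra nlg; linarith only [mul_nonneg (le_of_lt (sub_pos.2 (not_le.1 nlg))) (sub_nonneg.2 hw'), mul_nonneg (le_of_lt (sub_pos.2 (not_le.1 nlg))) (sub_nonneg.2 hm1), mul_pos (sub_pos.2 (not_le.1 nlg)) (sub_pos.2 hm), mul_nonneg (sub_nonneg.2 (Nat.cast_nonneg (α := ℝ) C)) (sub_nonneg.2 (Nat.cast_nonneg (α := ℝ) C))])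
    gcongr
  have hclass : ∀ b ∈ (Finset.Icc (-(C : ℤ)) C), (S.filter fun N => c N = b).card ≤ C1 := by
    intro b _
    rcases eq_or_ne b 0 with rfl | hb
    · have : (S.filter fun N => c N = 0) = ∅ := by
        rw [Finset.filter_eq_empty_iff]
        intro N hN
        exact (hpt N hN).1.dat.c0
      rw [this]
      simp
    · refine hC1 hF.inj (pc_ell hF hl10) hnd hKD g hg hgd hg2 hg4 q hq n (by omega) b hb Gz Sg W hW0
        (S.filter fun N => c N = b) s t kn kd z x0 y0 v ?_ hv hW1 hW2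
      intro N hN
      rw [Finset.mem_filter] at hN
      obtain ⟨hN, hcN⟩ := hN
      obtain ⟨h1, h2, h3, h4, h5, h6, h7, h8⟩ := hpt N hN
      refine ⟨h4, h5, h2.t0, h6, h7, h3, h8, h2.eqN, ?_, ?_, ?_, ?_⟩
      · intro m
        rw [h2.eqz m, hcN]
      · intro m
        refine (h1.dat.hz m).trans ?_
        have e1 : (X ^ (w - ε)) ^ 2 ≤ T ^ 2 := pow_le_pow_left₀ (by positivity) hT1 2
        have e2 : (C : ℝ) * X / T ^ 2 ≤ C * X / (X ^ (w - ε)) ^ 2 := by
          gcongr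
        have e3 : (C : ℝ) * X / (X ^ (w - ε)) ^ 2 = C * X ^ (1 - 2 * w + 2 * ε) := by
          rw [← Real.rpow_natCast (X ^ (w - ε)), ← Real.rpow_mul hX0.le, mul_div_assoc]
          congr 1
          have e4 : X ^ (1 - 2 * w + 2 * ε) = X ^ (1 - (w - ε) * ((2 : ℕ) : ℝ)) := by
            congr 1
            push_cast
            ring
          rw [e4, Real.rpow_sub hX0, Real.rpow_one]
        rw [e3] at e2
        refine e2.trans ?_
        rw [hGz]
        gcongr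
        linarith only [hm, hm1, hw']
      · exact hsq _ h1.hs
      · refine hsq _ (le_trans ?_ h1.ht)
        have : (dot l1 l1 : ℝ) ≤ dot l2 l2 := by exact_mod_cast hl12
        gcongr
  have hcard : S.card ≤ C1 * (Finset.Icc (-(C : ℤ)) C).card :=
    Finset.card_le_mul_card_image_of_maps_to (f := c) (fun N hN => by
      rw [Finset.mem_Icc, ← abs_le]
      exact (hpt N hN).1.dat.cC) C1 hclass
  have hcard2 : (Finset.Icc (-(C : ℤ)) C).card = 2 * C + 1 := by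
    rw [Int.card_Icc]
    omega
  rw [hcard2] at hcard
  have h1 : (S.card : ℝ) ≤ C1 * (2 * C + 1) := by exact_mod_cast hcard
  linarith only [h1, h2β, hc0', hm, hm1, hw']

end Vale.Agent.P018.Q
end

section

/-! # P018, quartics, family (A): numerical verification. -/

namespace Vale.Agent.P018.Q

open Finset

/-- the admissible exponents. -/
def AdmA (w m1 m2 : ℝ) : Prop :=
  ∃ β : ℝ, 0 < β ∧ 5 * m1 + 3 * m2 + β < 1 ∧ NumRel w m1 m2 β ∧ NumCurve w m1 β

/-- `∑_{a ≤ H} min(K, H - a)`. -/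
theorem na_sum_min (K H : ℕ) (h : K ≤ H) :
    ∑ a ∈ range (H + 1), (min (K : ℝ) ((H : ℝ) - a)) = K * H - K ^ 2 / 2 + K / 2 := by
  induction H, h using Nat.le_induction with
  | base =>
    have h1 : ∀ a ∈ range (K + 1), min (K : ℝ) ((K : ℝ) - a) = (K : ℝ) - a := by
      intro a _
      exact min_eq_right (by linarith [Nat.cast_nonneg (α := ℝ) a])
    rw [sum_congr rfl h1, sum_sub_distrib, sum_const, card_range, nsmul_eq_mul]
    have h2 : ∑ a ∈ range (K + 1), (a : ℝ) = K * (K + 1) / 2 := by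
      clear h1
      induction K with
      | zero => simp
      | succ K ih =>
        rw [sum_range_succ, ih]
        push_cast
        ring
    rw [h2]
    push_cast
    ring
  | succ H hKH ih =>
    rw [sum_range_succ']
    have h1 : ∀ a ∈ range (H + 1), min (K : ℝ) (((H + 1 : ℕ) : ℝ) - ((a + 1 : ℕ) : ℝ)) =
        min (K : ℝ) ((H : ℝ) - a) := by
      intro a _
      congr 1
      push_cast
      ring
    rw [sum_congr rfl h1, ih]
    have h2 : min (K : ℝ) (((H + 1 : ℕ) : ℝ) - ((0 : ℕ) : ℝ)) = K := by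
      refine min_eq_left ?_
      push_cast
      have : (K : ℝ) ≤ H := by exact_mod_cast hKH
      linarith only [this]
    rw [h2]
    push_cast
    ring

/-- `∑_{b < k} (c - b m)`. -/
theorem na_sum_lin (c m : ℝ) (k : ℕ) :
    ∑ b ∈ range k, (c - b * m) = k * c - m * (k * (k - 1) / 2) := by
  induction k with
  | zero => simp
  | succ k ih =>
    rw [sum_range_succ, ih]
    push_cast
    ring

theorem na_sum_tri (c m : ℝ) (n : ℕ) :
    ∑ α ∈ range n, (((2 * n - 2 * α : ℕ) : ℝ) * c -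
      m * (((2 * n - 2 * α : ℕ) : ℝ) * (((2 * n - 2 * α : ℕ) : ℝ) - 1) / 2)) =
      n * (n + 1) * c - m * (n * (n + 1) * (4 * n - 1) / 6) := by
  induction n with
  | zero => simp
  | succ n ih =>
    rw [sum_range_succ']
    have h1 : ∀ α ∈ range n, (((2 * (n + 1) - 2 * (α + 1) : ℕ) : ℝ) * c -
        m * (((2 * (n + 1) - 2 * (α + 1) : ℕ) : ℝ) *
          (((2 * (n + 1) - 2 * (α + 1) : ℕ) : ℝ) - 1) / 2)) =
        (((2 * n - 2 * α : ℕ) : ℝ) * c -
      m * (((2 * n - 2 * α : ℕ) : ℝ) * (((2 * n - 2 * α : ℕ) : ℝ) - 1) / 2)) := by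
      intro α _
      have : 2 * (n + 1) - 2 * (α + 1) = 2 * n - 2 * α := by omega
      rw [this]
    rw [sum_congr rfl h1, ih]
    simp only [mul_zero, Nat.sub_zero]
    push_cast
    ring

/-- upper bound for the number of conditions. -/
theorem na_cond (n K H0 : ℕ) (V m1 : ℝ) (hV : 0 ≤ V) (hm1 : 0 ≤ m1) (hm : m1 ≤ V / 2) :
    ∑ α ∈ range (H0 + 1), ∑ b ∈ (range (10 * n + 1)).filter (fun b => 2 * α + b < 4 * n),
        max 0 ((min (K : ℝ) ((H0 : ℝ) - α) - (10 * n : ℕ) * V / 2) + (10 * n : ℕ) * V - b * m1) ≤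
      2 * n * (2 * n + 1) * (K + 5 * n * V) - m1 * (2 * n * (2 * n + 1) * (8 * n - 1) / 6) := by
  have h1 : ∀ α ∈ range (H0 + 1), ∑ b ∈ (range (10 * n + 1)).filter (fun b => 2 * α + b < 4 * n),
        max 0 ((min (K : ℝ) ((H0 : ℝ) - α) - (10 * n : ℕ) * V / 2) + (10 * n : ℕ) * V - b * m1) ≤
      ∑ b ∈ range (4 * n - 2 * α), ((K + 5 * n * V) - b * m1) := by
    intro α _
    have h2 : (range (10 * n + 1)).filter (fun b => 2 * α + b < 4 * n) ⊆ range (4 * n - 2 * α) := by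
      intro b hb
      rw [mem_filter, mem_range] at hb
      rw [mem_range]
      omega
    have h3 : ∀ b ∈ range (4 * n - 2 * α), 0 ≤ (K + 5 * n * V) - b * m1 := by
      intro b hb
      rw [mem_range] at hb
      have h4 : (b : ℝ) ≤ 4 * n := by exact_mod_cast (show b ≤ 4 * n by omega)
      have h5 : (b : ℝ) * m1 ≤ 4 * n * (V / 2) := mul_le_mul h4 hm hm1 (by positivity)
      have h6 : 0 ≤ (n : ℝ) * V := by positivity
      have h7 : (0 : ℝ) ≤ K := Nat.cast_nonneg _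
      linarith only [h7, h6, h5]
    refine (sum_le_sum fun b hb => ?_).trans (sum_le_sum_of_subset_of_nonneg h2 fun b hb _ => h3 b hb)
    refine max_le (h3 b (h2 hb)) ?_
    have := min_le_left (K : ℝ) ((H0 : ℝ) - α)
    push_cast
    linarith only [this]
  refine (sum_le_sum h1).trans ?_
  have h4 : ∀ α, 0 ≤ ∑ b ∈ range (4 * n - 2 * α), ((K + 5 * n * V) - b * m1) := by
    intro α
    refine sum_nonneg fun b hb => ?_
    rw [mem_range] at hb
    have h4 : (b : ℝ) ≤ 4 * n := by exact_mod_cast (show b ≤ 4 * n by omega)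
    have h5 : (b : ℝ) * m1 ≤ 4 * n * (V / 2) := mul_le_mul h4 hm hm1 (by positivity)
    have h6 : 0 ≤ (n : ℝ) * V := by positivity
    have h7 : (0 : ℝ) ≤ K := Nat.cast_nonneg _
    linarith only [h7, h6, h5]
  have h5 : ∑ α ∈ range (H0 + 1), ∑ b ∈ range (4 * n - 2 * α), (((K : ℝ) + 5 * n * V) - b * m1) ≤
      ∑ α ∈ range (2 * n), ∑ b ∈ range (4 * n - 2 * α), (((K : ℝ) + 5 * n * V) - b * m1) := by
    rw [sum_subset (s₁ := range (2 * n)) (s₂ := range (2 * n + (H0 + 1)))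
      (range_subset_range.2 (by omega))
      (f := fun α => ∑ b ∈ range (4 * n - 2 * α), (((K : ℝ) + 5 * n * V) - b * m1))]
    · exact sum_le_sum_of_subset_of_nonneg (range_subset_range.2 (by omega)) fun a _ _ => h4 a
    · intro α _ hα
      rw [mem_range] at hα
      rw [show 4 * n - 2 * α = 0 by omega]
      simp
  refine h5.trans (le_of_eq ?_)
  have h6 := na_sum_tri (K + 5 * n * V) m1 (2 * n)
  rw [← sum_congr rfl fun α _ => na_sum_lin (K + 5 * n * V) m1 (2 * (2 * n) - 2 * α)] at h6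
  rw [show (4 * n) = 2 * (2 * n) by ring, h6]
  push_cast
  ring

/-- the real inequality behind the relation step. -/
theorem na_main (n K H V m1 β h κ : ℝ) (hn : n = 1000000) (hκ : κ = h - 4 / 25)
    (hK1 : 10 * n * κ - 1 ≤ K) (hK2 : K ≤ 10 * n * κ) (hH1 : 10 * n * h - 2 ≤ H)
    (hH2 : H + 1 ≤ 10 * n * h) (hV : 0 ≤ V) (hV1 : V ≤ 1) (hm1 : 0 ≤ m1) (hm2 : m1 ≤ 1)
    (hβ : 0 < β) (hβ1 : β ≤ 1) (hh0 : 4 / 25 + 1 / 100 ≤ h) (hh1 : h ≤ 1)
    (hG : 1 / 5000 ≤ κ ^ 2 / 2 - 2 / 25 * V + 8 / 375 * m1 - β * h / 8) :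
    4 * (2 * n * (2 * n + 1) * (K + 5 * n * V) - m1 * (2 * n * (2 * n + 1) * (8 * n - 1) / 6)) +
      β * ((H + 1) * (5 * n * (5 * n + 1) / 2)) + 1 ≤
      (10 * n + 1) * (K * H - K ^ 2 / 2 + K / 2) := by
  subst hn
  subst hκ
  -- lower bound of the right hand side
  have hκ0 : 1 / 100 ≤ h - 4 / 25 := by linarith only [hh0]
  have e1 : (10 * 1000000 * (h - 4 / 25) - 1) * ((10 * 1000000 * h - 2) - 10 * 1000000 * (h - 4 / 25) / 2) ≤
      K * (H - K / 2) := by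
    refine mul_le_mul hK1 (by linarith only [hK2, hH1]) (by linarith only [hκ0]) (by linarith only [hK1, hκ0])
  have e2 : K * H - K ^ 2 / 2 + K / 2 = K * (H - K / 2) + K / 2 := by ring
  rw [e2]
  have hK0 : 0 ≤ K := by linarith only [hκ0, hK1]
  have e3 : β * ((H + 1) * (5 * 1000000 * (5 * 1000000 + 1) / 2)) ≤
      β * ((10 * 1000000 * h) * (5 * 1000000 * (5 * 1000000 + 1) / 2)) := by
    gcongr
  have e4 : 0 ≤ K * (H - K / 2) := le_trans (by (by_contra nlg; linarith only [nlg, mul_nonneg (sub_nonneg.2 hκ0) (sub_nonneg.2 hK0), mul_nonneg (sub_nonneg.2 hK2) (sub_nonneg.2 hκ0), mul_nonneg (sub_nonneg.2 hh1) (sub_nonneg.2 hκ0), mul_nonneg (le_of_lt (sub_pos.2 (not_le.1 nlg))) (sub_nonneg.2 hK2), mul_nonneg (le_of_lt (sub_pos.2 (not_le.1 nlg))) (sub_nonneg.2 hK1)])) e1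
  have e5 : β * h ≤ 1 := by nlinarith
  nlinarith

/-- all nontrivial exponents are admissible. -/
theorem admA (w m1 m2 : ℝ) (hw : 1 / 4 ≤ w) (hw' : w ≤ 0.349) (h0 : 0 ≤ m1) (h1 : m1 ≤ m2)
    (h2 : m1 + m2 ≤ 2 / 3 * w) (h3 : 1 - 2 * w ≤ 4 * m1 + 2 * m2) : AdmA w m1 m2 := by
  norm_num at hw'
  obtain ⟨β, hβ⟩ : ∃ β : ℝ, β = 999 / 1000 - 5 * m1 - 3 * m2 := ⟨_, rfl⟩
  have hβ0 : 0 < β := by rw [hβ]; linarith only [hw', h2, h1]
  refine ⟨β, hβ0, by linarith only [hβ0, hβ, hw', h3, h1], ?_, ?_⟩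
  swap
  · unfold NumCurve
    norm_num
    rw [hβ]
    linarith
  obtain ⟨V, hV⟩ : ∃ V : ℝ, V = m1 + m2 := ⟨_, rfl⟩
  obtain ⟨h, hh⟩ : ∃ h : ℝ, h = 3 / 5 * w + β / 2 + V / 2 := ⟨_, rfl⟩
  obtain ⟨κ, hκ⟩ : ∃ κ : ℝ, κ = h - 4 / 25 := ⟨_, rfl⟩
  have hV0 : 0 ≤ V := by linarith only [hV, hw', h3, h1]
  have hhl : 4 / 25 + 1 / 100 ≤ h := by linarith only [hh, hV, hβ0, hβ, h3, h1]
  have hhu : h ≤ 1 := by linarith only [h3, hw', hβ, hV, hh]
  have hG : 1 / 5000 ≤ κ ^ 2 / 2 - 2 / 25 * V + 8 / 375 * m1 - β * h / 8 := by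
    obtain ⟨x, hx⟩ : ∃ x : ℝ, x = 2 / 3 * w - V := ⟨_, rfl⟩
    obtain ⟨y, hy⟩ : ∃ y : ℝ, y = 1 / 3 * w - m1 := ⟨_, rfl⟩
    have hx0 : 0 ≤ x := by linarith only [hx, hV, h2]
    have hy0 : 0 ≤ y := by linarith only [hx0, hy, hx, hV, h1]
    have hVx : V = 2 / 3 * w - x := by linarith
    have hmy : m1 = 1 / 3 * w - y := by linarith
    have hβx : β = 999 / 1000 - 8 / 3 * w + 3 * x + 2 * y := by linarith
    have hhx : h = 999 / 2000 - 2 / 5 * w + x + y := by linarith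
    rw [hκ, hβx, hhx, hVx, hmy]
    nlinarith [mul_nonneg hx0 hy0, mul_nonneg hx0 (show 0 ≤ w - 1 / 4 by linarith only [hmy, hVx, hy0, hx0, hV, h3]),
      mul_nonneg hy0 (show 0 ≤ w - 1 / 4 by linarith only [hmy, hVx, hy0, hx0, hV, h3]), mul_nonneg (show 0 ≤ w - 1 / 4 by linarith only [hmy, hVx, hy0, hx0, hV, h3])
      (show 0 ≤ 349 / 1000 - w by linarith only [hw']), mul_nonneg hx0 (show 0 ≤ 349 / 1000 - w by linarith only [hw']),
      mul_nonneg hy0 (show 0 ≤ 349 / 1000 - w by linarith only [hw']), mul_nonneg hx0 hx0, mul_nonneg hy0 hy0]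
  obtain ⟨K, hK⟩ : ∃ K : ℕ, K = ⌊10 * (1000000 : ℝ) * κ⌋₊ := ⟨_, rfl⟩
  obtain ⟨H0, hH0⟩ : ∃ H0 : ℕ, H0 = ⌊10 * (1000000 : ℝ) * h⌋₊ - 1 := ⟨_, rfl⟩
  have hK1 : 10 * (1000000 : ℝ) * κ - 1 ≤ K := by
    rw [hK]
    linarith only [Nat.lt_floor_add_one (10 * (1000000 : ℝ) * κ)]
  have hK2 : (K : ℝ) ≤ 10 * (1000000 : ℝ) * κ := by
    rw [hK]
    exact Nat.floor_le (by rw [hκ]; linarith only [hhl])
  have hfl : 1 ≤ ⌊10 * (1000000 : ℝ) * h⌋₊ := (Nat.one_le_floor_iff _).2 (by linarith only [hhl])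
  have hH0c : (H0 : ℝ) = (⌊10 * (1000000 : ℝ) * h⌋₊ : ℝ) - 1 := by
    rw [hH0, Nat.cast_sub hfl, Nat.cast_one]
  have hH1 : 10 * (1000000 : ℝ) * h - 2 ≤ H0 := by
    rw [hH0c]
    linarith only [Nat.lt_floor_add_one (10 * (1000000 : ℝ) * h)]
  have hH2 : (H0 : ℝ) + 1 ≤ 10 * (1000000 : ℝ) * h := by
    rw [hH0c]
    linarith [Nat.floor_le (show 0 ≤ 10 * (1000000 : ℝ) * h by linarith only [hhl])]
  have hKH : K ≤ H0 := by
    have : (K : ℝ) ≤ H0 := by rw [hκ] at hK2; linarith only [hH1, hK2]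
    exact_mod_cast this
  refine ⟨4 * 1000000, 10 * 1000000, H0, 5 * 1000000,
    fun a => min (K : ℝ) ((H0 : ℝ) - a) - (10 * 1000000 : ℕ) * V / 2, 1, by norm_num, one_pos,
    ?_, ?_, ?_⟩
  · intro a _ a' ha'
    have : (a' : ℝ) ≤ a := by exact_mod_cast ha'
    have := min_le_min_left (K : ℝ) (show (H0 : ℝ) - a ≤ (H0 : ℝ) - a' by linarith only [this])
    simp only
    linarith only [this]
  · intro a _
    have := min_le_right (K : ℝ) ((H0 : ℝ) - a)
    push_cast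
    linarith only [this, hH2, hh]
  · have h5 := na_cond 1000000 K H0 V m1 hV0 h0 (by linarith only [hV, h1])
    have h6 := na_sum_min K H0 hKH
    have h7 := na_main 1000000 K H0 V m1 β h κ rfl hκ hK1 hK2 hH1 hH2 hV0 (by linarith only [hV, hβ0, hβ, hw', h3]) h0
      (by linarith only [hβ0, hβ, h1]) hβ0 (by linarith only [h1, h3, hw', hβ]) hhl hhu hG
    rw [← hV]
    have h8 : ∑ a ∈ range (H0 + 1), (((10 * 1000000 : ℕ) : ℝ) + 1) *
        (min (K : ℝ) ((H0 : ℝ) - a) - (10 * 1000000 : ℕ) * V / 2) +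
        (H0 + 1) * (((10 * 1000000 : ℕ) : ℝ) * (((10 * 1000000 : ℕ) : ℝ) + 1) / 2 * V) =
        (((10 * 1000000 : ℕ) : ℝ) + 1) * (K * H0 - K ^ 2 / 2 + K / 2) := by
      rw [← h6, ← mul_sum, sum_sub_distrib, sum_const, card_range, nsmul_eq_mul]
      push_cast
      ring
    have h9 : ∑ a ∈ range (H0 + 1), ((((10 * 1000000 : ℕ) : ℝ) + 1) *
        (min (K : ℝ) ((H0 : ℝ) - a) - (10 * 1000000 : ℕ) * V / 2) +
        ((10 * 1000000 : ℕ) : ℝ) * (((10 * 1000000 : ℕ) : ℝ) + 1) / 2 * V) =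
        (((10 * 1000000 : ℕ) : ℝ) + 1) * (K * H0 - K ^ 2 / 2 + K / 2) := by
      rw [← h8, sum_add_distrib, sum_const, card_range, nsmul_eq_mul]
      push_cast
      ring
    push_cast at h5 h7 h9 ⊢
    linarith only [h9, h5, h7]

end Vale.Agent.P018.Q
end

section

/-! # P018, (B): from ranks modulo the curve to the dimension of the span at a generic point. -/

namespace Vale.Agent.P018.QB

open Polynomial Vale.Agent.P018.Q

variable {Ω : Type} [Field Ω] [Algebra ℂ Ω]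

/-- evaluation as an algebra homomorphism. -/
noncomputable def evh (n w : Ω) : ℂ[X][X] →ₐ[ℂ] Ω :=
  { eval₂RingHom (aeval w : ℂ[X] →ₐ[ℂ] Ω).toRingHom n with
    commutes' := fun r => by
      change eval₂ (aeval w : ℂ[X] →ₐ[ℂ] Ω).toRingHom n (C (C r)) = _
      rw [eval₂_C]
      simp }

theorem evh_apply (n w : Ω) (F : ℂ[X][X]) : evh n w F = evB n w F := rfl

@[simp] theorem evh_X (n w : Ω) : evh n w X = n := by
  rw [evh_apply, evB, eval₂_X]

theorem evh_C (n w : Ω) (P : ℂ[X]) : evh n w (C P) = aeval w P := by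
  rw [evh_apply, evB, eval₂_C]; rfl

/-- the field `ℂ(n, w)` inside `Ω`. -/
def KF (n w : Ω) : Subfield Ω where
  carrier := {z | ∃ P Q : ℂ[X][X], evh n w Q ≠ 0 ∧ z * evh n w Q = evh n w P}
  mul_mem' := by
    rintro a b ⟨P, Q, hQ, h⟩ ⟨P', Q', hQ', h'⟩
    refine ⟨P * P', Q * Q', ?_, ?_⟩
    · rw [map_mul]; exact mul_ne_zero hQ hQ'
    · rw [map_mul, map_mul, ← h, ← h']; ring
  one_mem' := ⟨1, 1, by simp, by simp⟩
  add_mem' := by
    rintro a b ⟨P, Q, hQ, h⟩ ⟨P', Q', hQ', h'⟩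
    refine ⟨P * Q' + P' * Q, Q * Q', ?_, ?_⟩
    · rw [map_mul]; exact mul_ne_zero hQ hQ'
    · rw [map_add, map_mul, map_mul, map_mul, ← h, ← h']; ring
  zero_mem' := ⟨0, 1, by simp, by simp⟩
  neg_mem' := by
    rintro a ⟨P, Q, hQ, h⟩
    exact ⟨-P, Q, hQ, by rw [map_neg, ← h]; ring⟩
  inv_mem' := by
    rintro a ⟨P, Q, hQ, h⟩
    by_cases ha : a = 0
    · subst ha
      exact ⟨0, 1, by simp, by simp⟩
    · refine ⟨Q, P, ?_, ?_⟩
      · rw [← h]; exact mul_ne_zero ha hQ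
      · rw [← h]; field_simp

theorem evh_mem_KF (n w : Ω) (P : ℂ[X][X]) : evh n w P ∈ KF n w :=
  ⟨P, 1, by simp, by simp⟩

/-- the linear polynomials `γ_j`. -/
noncomputable def gm (g1 g2 : Fin 4 → ℂ) (j : Fin 4) : ℂ[X] := C (g1 j) + C (g2 j) * X

theorem aeval_gm (g1 g2 : Fin 4 → ℂ) (j : Fin 4) (w : Ω) :
    aeval w (gm g1 g2 j) = algebraMap ℂ Ω (g1 j) + w * algebraMap ℂ Ω (g2 j) := by
  rw [gm, map_add, map_mul, aeval_C, aeval_C, aeval_X, mul_comm w]

/-- (T1) a non square gives `π_i π_j ∉ ℂ(n, w)`. -/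
theorem nsq_not_mem {α g1 g2 : Fin 4 → ℂ} {c : ℂ} {n w : Ω} {pi : Fin 4 → Ω} {g : ℂ[X][X]}
    (hM : Mdl α g1 g2 c Ω n w pi) (hg : ∀ F, evB n w F = 0 ↔ g ∣ F) (hc : c ≠ 0) {i j : Fin 4}
    (hN : NSq α (gm g1 g2) g i j) : pi i * pi j ∉ KF n w := by
  rintro ⟨P, Q, hQ, h⟩
  set a := pi i with ha
  set b := pi j with hb
  have h1 := hM.eq i
  have h2 := hM.eq j
  rw [← ha, ← aeval_gm, ← evh_C n w] at h1
  rw [← hb, ← aeval_gm, ← evh_C n w] at h2
  have h3 := hN (P * C (gm g1 g2 i) * C (gm g1 g2 j)) (C (C c) * Q) (by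
    rw [← hg, ← evh_apply]
    simp only [map_sub, map_mul, map_pow, Vale.Agent.P018.Q.lin, evh_X]
    have hcc : evh n w (C (C c)) = algebraMap ℂ Ω c := by rw [evh_C]; simp
    have hai : evh n w (C (C (α i))) = algebraMap ℂ Ω (α i) := by rw [evh_C]; simp
    have haj : evh n w (C (C (α j))) = algebraMap ℂ Ω (α j) := by rw [evh_C]; simp
    rw [hcc, hai, haj, ← h]
    set u := evh n w (C (gm g1 g2 i))
    set v := evh n w (C (gm g1 g2 j))
    have e : (a * b * evh n w Q * u * v) ^ 2 - (n - algebraMap ℂ Ω (α i)) *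
        (n - algebraMap ℂ Ω (α j)) * (u * v) * (algebraMap ℂ Ω c * evh n w Q) ^ 2 =
        (evh n w Q) ^ 2 * u * v * ((a ^ 2 * u) * (b ^ 2 * v) -
          (algebraMap ℂ Ω c * (n - algebraMap ℂ Ω (α i))) *
          (algebraMap ℂ Ω c * (n - algebraMap ℂ Ω (α j)))) := by ring
    rw [e, h1, h2]
    ring)
  rw [← hg, ← evh_apply, map_mul, evh_C, aeval_C] at h3
  rcases mul_eq_zero.1 h3 with h4 | h4
  · exact hc (by simpa using h4)
  · exact hQ h4

/-- (T2) the classes are independent. -/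
theorem sum_finrank_le (F : Subfield Ω) {ι : Type} [Fintype ι] (ω : ι → Ω)
    (hω : LinearIndependent F ω) (E : ι → Submodule ℂ Ω) [∀ i, FiniteDimensional ℂ (E i)]
    (hE : ∀ i, ∀ z ∈ E i, z ∈ F) (V : Submodule ℂ Ω) [FiniteDimensional ℂ V]
    (hV : ∀ i, ∀ z ∈ E i, ω i * z ∈ V) :
    ∑ i, Module.finrank ℂ (E i) ≤ Module.finrank ℂ V := by
  classical
  rw [← Module.finrank_pi_fintype]
  let L : (∀ i, E i) →ₗ[ℂ] V :=
    { toFun := fun z => ⟨∑ i, ω i * (z i : Ω), Submodule.sum_mem _ fun i _ => hV i _ (z i).2⟩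
      map_add' := fun z z' => by
        ext
        simp [mul_add, Finset.sum_add_distrib]
      map_smul' := fun r z => by
        ext
        simp [Finset.smul_sum] }
  refine LinearMap.finrank_le_finrank_of_injective (f := L) ?_
  rw [← LinearMap.ker_eq_bot, LinearMap.ker_eq_bot']
  intro z hz
  have h1 : ∑ i, ω i * (z i : Ω) = 0 := congrArg Subtype.val hz
  have h2 := Fintype.linearIndependent_iff.1 hω (fun i => (⟨z i, hE i _ (z i).2⟩ : F)) (by
    rw [← h1]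
    refine Finset.sum_congr rfl fun i _ => ?_
    rw [Subfield.smul_def, smul_eq_mul, mul_comm])
  funext i
  ext
  exact congrArg (fun t : F => (t : Ω)) (h2 i)

/-- the image of a subspace at the generic point has dimension `rk`. -/
theorem finrank_map_evh {n w : Ω} {g : ℂ[X][X]} (hg : ∀ F, evB n w F = 0 ↔ g ∣ F)
    (W : Submodule ℂ ℂ[X][X]) :
    Module.finrank ℂ (W.map (evh n w).toLinearMap) = rk g W := by
  unfold rk
  set I : Submodule ℂ ℂ[X][X] := (Ideal.span {g}).restrictScalars ℂ with hI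
  have hker : I = LinearMap.ker (evh n w).toLinearMap := by
    ext F
    rw [hI, Submodule.restrictScalars_mem, Ideal.mem_span_singleton, LinearMap.mem_ker, ← hg]
    rfl
  let T : (ℂ[X][X] ⧸ I) →ₗ[ℂ] Ω := I.liftQ (evh n w).toLinearMap hker.le
  have hT : Function.Injective T := by
    rw [← LinearMap.ker_eq_bot]
    exact Submodule.ker_liftQ_eq_bot _ _ _ hker.ge
  have h1 : W.map (evh n w).toLinearMap = (W.map (Submodule.mkQ I)).map T := by
    rw [← Submodule.map_comp, Submodule.liftQ_mkQ]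
  rw [h1]
  exact (LinearEquiv.finrank_eq (Submodule.equivMapOfInjective T hT _)).symm

/-- the functions `fB` at the generic point. -/
theorem evh_fB {α g1 g2 : Fin 4 → ℂ} {c : ℂ} {n w : Ω} {pi : Fin 4 → Ω}
    (hM : Mdl α g1 g2 c Ω n w pi) (M : ℕ) (m : Fin 4 → ℕ) (hm : ∑ j, m j = M) (a : ℕ) :
    (algebraMap ℂ Ω c) ^ M * evh n w (fB α (gm g1 g2) M m a) =
      (∏ j, (algebraMap ℂ Ω (g1 j) + w * algebraMap ℂ Ω (g2 j))) ^ M * (w ^ a * ∏ j, pi j ^ (2 * m j)) := by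
  have hle : ∀ j, m j ≤ M := fun j => by
    rw [← hm]; exact Finset.single_le_sum (fun _ _ => Nat.zero_le _) (Finset.mem_univ j)
  have h1 : evh n w (fB α (gm g1 g2) M m a) = (∏ j, (n - algebraMap ℂ Ω (α j)) ^ m j *
      (algebraMap ℂ Ω (g1 j) + w * algebraMap ℂ Ω (g2 j)) ^ (M - m j)) * w ^ a := by
    unfold fB
    rw [map_mul, map_prod, evh_C, map_pow, aeval_X]
    congr 1
    refine Finset.prod_congr rfl fun j _ => ?_
    rw [map_mul, map_pow, evh_C, map_pow, aeval_gm, Vale.Agent.P018.Q.lin, map_sub, evh_X, evh_C,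
      aeval_C]
  have h2 : (algebraMap ℂ Ω c) ^ M = ∏ j, (algebraMap ℂ Ω c) ^ m j := by
    rw [Finset.prod_pow_eq_pow_sum, hm]
  rw [h1, h2, ← mul_assoc, ← Finset.prod_mul_distrib, ← Finset.prod_pow, mul_comm (w ^ a),
    ← mul_assoc, ← Finset.prod_mul_distrib]
  congr 1
  refine Finset.prod_congr rfl fun j _ => ?_
  rw [← mul_assoc, ← mul_pow, ← hM.eq j, mul_pow, pow_mul]
  have h3 : (algebraMap ℂ Ω (g1 j) + w * algebraMap ℂ Ω (g2 j)) ^ M =
      (algebraMap ℂ Ω (g1 j) + w * algebraMap ℂ Ω (g2 j)) ^ m j *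
      (algebraMap ℂ Ω (g1 j) + w * algebraMap ℂ Ω (g2 j)) ^ (M - m j) := by
    rw [← pow_add, Nat.add_sub_cancel' (hle j)]
  rw [h3]
  ring

/-- (T2) several classes: `ω_χ = ∏ π_j^(δ_χ j)`. -/
theorem sum_rk_le {α g1 g2 : Fin 4 → ℂ} {c : ℂ} {n w : Ω} {pi : Fin 4 → Ω} {g : ℂ[X][X]}
    (hM : Mdl α g1 g2 c Ω n w pi) (hg : ∀ F, evB n w F = 0 ↔ g ∣ F) (hc : c ≠ 0)
    {ι : Type} [Fintype ι] (δ : ι → Fin 4 → ℕ) (s : ι → ℕ) (hδ : ∀ χ, ∑ j, δ χ j = 2 * s χ)
    (hω : LinearIndependent (KF n w) fun χ => ∏ j, pi j ^ δ χ j) (I t : ℕ)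
    (hs : ∀ χ, s χ ≤ t) :
    ∑ χ, rk g (MB α (gm g1 g2) (t - s χ) I) ≤
      Module.finrank ℂ (spn w pi (mons I (2 * t) : Set Ix)) := by
  classical
  have hcΩ : algebraMap ℂ Ω c ≠ 0 := by
    rw [Ne, map_eq_zero_iff _ (algebraMap ℂ Ω).injective]; exact hc
  set G : Ω := ∏ j, (algebraMap ℂ Ω (g1 j) + w * algebraMap ℂ Ω (g2 j)) with hG
  have hG0 : G ≠ 0 := Finset.prod_ne_zero_iff.2 fun j _ => hM.ne j
  have hGmem : G ∈ KF n w := by
    rw [hG]
    refine prod_mem fun j _ => ?_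
    rw [← aeval_gm, ← evh_C n w]
    exact evh_mem_KF _ _ _
  have hcmem : algebraMap ℂ Ω c ∈ KF n w := by
    have := evh_mem_KF n w (C (C c))
    rwa [evh_C, aeval_C] at this
  let lam : ι → Ω := fun χ => (algebraMap ℂ Ω c) ^ (t - s χ) * (G ^ (t - s χ))⁻¹
  have hlam0 : ∀ χ, lam χ ≠ 0 := fun χ => mul_ne_zero (pow_ne_zero _ hcΩ)
    (inv_ne_zero (pow_ne_zero _ hG0))
  have hfinMB : ∀ M I : ℕ, FiniteDimensional ℂ (MB α (gm g1 g2) M I) := by
    intro M I
    refine FiniteDimensional.span_of_finite ℂ ?_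
    refine (((Finset.piAntidiag Finset.univ M) ×ˢ (Finset.range (I + 1)) :
      Finset ((Fin 4 → ℕ) × ℕ)).finite_toSet.image
      (fun x => fB α (gm g1 g2) M x.1 x.2)).subset ?_
    rintro F ⟨m, a, hm, ha, rfl⟩
    refine ⟨(m, a), ?_, rfl⟩
    simp only [Finset.coe_product, Set.mem_prod, Finset.mem_coe, Finset.mem_piAntidiag,
      Finset.mem_range]
    exact ⟨⟨hm, fun _ _ => Finset.mem_univ _⟩, by omega⟩
  let E : ι → Submodule ℂ Ω := fun χ =>
    ((MB α (gm g1 g2) (t - s χ) I).map (evh n w).toLinearMap).map (LinearMap.mulLeft ℂ (lam χ))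
  have hEfin : ∀ χ, FiniteDimensional ℂ (E χ) := by
    intro χ
    have := hfinMB (t - s χ) I
    infer_instance
  have hErk : ∀ χ, Module.finrank ℂ (E χ) = rk g (MB α (gm g1 g2) (t - s χ) I) := by
    intro χ
    rw [← finrank_map_evh hg]
    refine (LinearEquiv.finrank_eq (Submodule.equivMapOfInjective (LinearMap.mulLeft ℂ (lam χ)) ?_
      _)).symm
    intro a b hab
    exact mul_left_cancel₀ (hlam0 χ) hab
  have hEF : ∀ χ, ∀ z ∈ E χ, z ∈ KF n w := by
    rintro χ z ⟨z', ⟨F, _, rfl⟩, rfl⟩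
    exact mul_mem (mul_mem (pow_mem hcmem _) (inv_mem (pow_mem hGmem _))) (evh_mem_KF _ _ F)
  have hVfin : FiniteDimensional ℂ (spn w pi (mons I (2 * t) : Set Ix)) := by
    refine FiniteDimensional.span_of_finite ℂ ?_
    exact (Finset.finite_toSet _).image _
  have hEV : ∀ χ, ∀ z ∈ E χ, (∏ j, pi j ^ δ χ j) * z ∈ spn w pi (mons I (2 * t) : Set Ix) := by
    intro χ
    have h1 : (((MB α (gm g1 g2) (t - s χ) I).map (evh n w).toLinearMap).map
        (LinearMap.mulLeft ℂ (lam χ))).map (LinearMap.mulLeft ℂ (∏ j, pi j ^ δ χ j)) ≤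
        spn w pi (mons I (2 * t) : Set Ix) := by
      unfold MB
      rw [Submodule.map_span, Submodule.map_span, Submodule.map_span, Submodule.span_le]
      rintro _ ⟨_, ⟨_, ⟨_, ⟨m, a, hm, ha, rfl⟩, rfl⟩, rfl⟩, rfl⟩
      have h2 := evh_fB hM (t - s χ) m hm a
      rw [← hG] at h2
      have h3 : lam χ * evh n w (fB α (gm g1 g2) (t - s χ) m a) = w ^ a * ∏ j, pi j ^ (2 * m j) := by
        simp only [lam]
        rw [mul_right_comm, h2]
        field_simp
      rw [SetLike.mem_coe]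
      refine Submodule.subset_span ⟨((I - a, a), fun j => 2 * m j + δ χ j), ?_, ?_⟩
      · rw [SetLike.mem_coe, mons, Finset.mem_product, Finset.HasAntidiagonal.mem_antidiagonal,
          Finset.mem_piAntidiag]
        refine ⟨by simp only; omega, ?_, fun _ _ => Finset.mem_univ _⟩
        rw [Finset.sum_add_distrib, ← Finset.mul_sum, hm, hδ]
        have := hs χ
        omega
      · simp only [LinearMap.mulLeft_apply, AlgHom.toLinearMap_apply]
        rw [h3]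
        unfold fv
        simp only [one_pow, one_mul, pow_add, Finset.prod_mul_distrib]
        ring
    intro z hz
    exact h1 ⟨z, hz, rfl⟩
  calc ∑ χ, rk g (MB α (gm g1 g2) (t - s χ) I) = ∑ χ, Module.finrank ℂ (E χ) :=
        Finset.sum_congr rfl fun χ _ => (hErk χ).symm
    _ ≤ _ := sum_finrank_le (KF n w) _ hω E hEF _ hEV

theorem pi_sq_mem_KF {α g1 g2 : Fin 4 → ℂ} {c : ℂ} {n w : Ω} {pi : Fin 4 → Ω}
    (hM : Mdl α g1 g2 c Ω n w pi) (j : Fin 4) : pi j ^ 2 ∈ KF n w := by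
  refine ⟨C (C c) * (X - C (C (α j))), C (gm g1 g2 j), ?_, ?_⟩
  · rw [evh_C, aeval_gm]; exact hM.ne j
  · rw [evh_C, aeval_gm, hM.eq j, map_mul, map_sub, evh_X, evh_C, evh_C, aeval_C, aeval_C]

theorem mem_range_KF {n w z : Ω} : z ∈ (algebraMap (KF n w) Ω).range ↔ z ∈ KF n w := by
  constructor
  · rintro ⟨x, rfl⟩
    exact x.2
  · intro h
    exact ⟨⟨z, h⟩, rfl⟩

theorem one_class {n w : Ω} {pi : Fin 4 → Ω} :
    LinearIndependent (KF n w) fun χ : Fin 1 => ∏ j, pi j ^ (![(0 : Fin 4 → ℕ)] χ) j := by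
  refine LinearIndependent.of_subsingleton (0 : Fin 1) ?_
  simp

theorem prod_pow_single (pi : Fin 4 → Ω) (a : Fin 4) :
    ∏ j, pi j ^ (Pi.single a 1 : Fin 4 → ℕ) j = pi a := by
  rw [Finset.prod_eq_single a]
  · simp
  · intro b _ hb
    rw [Pi.single_eq_of_ne hb, pow_zero]
  · simp

theorem prod_pow_pair (pi : Fin 4 → Ω) (a b : Fin 4) :
    ∏ j, pi j ^ (Pi.single a 1 + Pi.single b 1 : Fin 4 → ℕ) j = pi a * pi b := by
  simp only [Pi.add_apply, pow_add, Finset.prod_mul_distrib, prod_pow_single]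

theorem charZero_KF (n w : Ω) : CharZero (KF n w) := by
  have h : CharZero Ω := charZero_of_injective_algebraMap (algebraMap ℂ Ω).injective
  refine ⟨fun a b hab => ?_⟩
  have h1 := congrArg (fun t : KF n w => (t : Ω)) hab
  exact Nat.cast_injective (R := Ω) (by simpa using h1)

theorem two_classes {α g1 g2 : Fin 4 → ℂ} {c : ℂ} {n w : Ω} {pi : Fin 4 → Ω}
    (hM : Mdl α g1 g2 c Ω n w pi) {a b : Fin 4} (h : pi a * pi b ∉ KF n w) :
    LinearIndependent (KF n w) fun χ : Fin 2 =>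
      ∏ j, pi j ^ (![(0 : Fin 4 → ℕ), Pi.single a 1 + Pi.single b 1] χ) j := by
  have := charZero_KF n w
  have e1 : ∏ j, pi j ^ (![(0 : Fin 4 → ℕ), Pi.single a 1 + Pi.single b 1] 0) j = 1 := by simp
  have e2 : ∏ j, pi j ^ (![(0 : Fin 4 → ℕ), Pi.single a 1 + Pi.single b 1] 1) j = pi a * pi b :=
    prod_pow_pair pi a b
  have hne : pi a * pi b ≠ 0 := fun h0 => h (h0 ▸ zero_mem _)
  refine kummer_indep _ ?_ ?_ ?_
  · intro χ
    fin_cases χ
    · simp only [Fin.zero_eta, e1]; exact one_ne_zero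
    · simp only [Fin.mk_one, e2]; exact hne
  · intro χ
    rw [mem_range_KF]
    fin_cases χ
    · simp only [Fin.zero_eta, e1]; simpa using one_mem _
    · simp only [Fin.mk_one, e2, mul_pow]
      exact mul_mem (pi_sq_mem_KF hM a) (pi_sq_mem_KF hM b)
  · intro χ ψ hne
    rw [mem_range_KF]
    fin_cases χ <;> fin_cases ψ <;> simp only [Fin.zero_eta, Fin.mk_one, e1, e2, one_mul,
      mul_one] at * <;> first | exact h | exact absurd rfl hne

theorem four_classes {α g1 g2 : Fin 4 → ℂ} {c : ℂ} {n w : Ω} {pi : Fin 4 → Ω}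
    (hM : Mdl α g1 g2 c Ω n w pi) (h : ∀ a b, a ≠ b → pi a * pi b ∉ KF n w) :
    LinearIndependent (KF n w) fun χ : Fin 4 =>
      ∏ j, pi j ^ (![(0 : Fin 4 → ℕ), Pi.single 0 1 + Pi.single 1 1,
        Pi.single 0 1 + Pi.single 2 1, Pi.single 1 1 + Pi.single 2 1] χ) j := by
  have := charZero_KF n w
  have hne : ∀ a b, a ≠ b → pi a * pi b ≠ 0 := fun a b hab h0 => h a b hab (h0 ▸ zero_mem _)
  have hpi : ∀ a, pi a ≠ 0 := by
    intro a h0
    obtain ⟨b, hb⟩ : ∃ b : Fin 4, a ≠ b := ⟨a + 1, by fin_cases a <;> decide⟩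
    exact hne a b hb (by rw [h0, zero_mul])
  have key : ∀ a b d, b ≠ d → pi a ^ 2 * (pi b * pi d) ∉ KF n w := by
    intro a b d hbd hmem
    apply h b d hbd
    have h1 := mul_mem (inv_mem (pi_sq_mem_KF hM a)) hmem
    rwa [← mul_assoc, inv_mul_cancel₀ (pow_ne_zero 2 (hpi a)), one_mul] at h1
  set W : Fin 4 → Ω := ![1, pi 0 * pi 1, pi 0 * pi 2, pi 1 * pi 2] with hW
  have e : (fun χ : Fin 4 =>
      ∏ j, pi j ^ (![(0 : Fin 4 → ℕ), Pi.single 0 1 + Pi.single 1 1,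
        Pi.single 0 1 + Pi.single 2 1, Pi.single 1 1 + Pi.single 2 1] χ) j) = W := by
    funext χ
    fin_cases χ
    · simp [hW]
    · exact prod_pow_pair pi 0 1
    · exact prod_pow_pair pi 0 2
    · exact prod_pow_pair pi 1 2
  rw [e]
  refine kummer_indep _ ?_ ?_ ?_
  · intro χ
    fin_cases χ
    · exact one_ne_zero
    · exact hne 0 1 (by decide)
    · exact hne 0 2 (by decide)
    · exact hne 1 2 (by decide)
  · intro χ
    rw [mem_range_KF]
    fin_cases χ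
    · change (1 : Ω) ^ 2 ∈ KF n w
      simpa using one_mem _
    · change (pi 0 * pi 1) ^ 2 ∈ KF n w
      rw [mul_pow]; exact mul_mem (pi_sq_mem_KF hM _) (pi_sq_mem_KF hM _)
    · change (pi 0 * pi 2) ^ 2 ∈ KF n w
      rw [mul_pow]; exact mul_mem (pi_sq_mem_KF hM _) (pi_sq_mem_KF hM _)
    · change (pi 1 * pi 2) ^ 2 ∈ KF n w
      rw [mul_pow]; exact mul_mem (pi_sq_mem_KF hM _) (pi_sq_mem_KF hM _)
  · intro χ ψ hχ
    rw [mem_range_KF]
    have h01 := h 0 1 (by decide)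
    have h02 := h 0 2 (by decide)
    have h12 := h 1 2 (by decide)
    have k1 := key 0 1 2 (by decide)
    have k2 := key 1 0 2 (by decide)
    have k3 := key 2 0 1 (by decide)
    fin_cases χ <;> fin_cases ψ
    · exact absurd rfl hχ
    · change (1 : Ω) * (pi 0 * pi 1) ∉ KF n w; rwa [one_mul]
    · change (1 : Ω) * (pi 0 * pi 2) ∉ KF n w; rwa [one_mul]
    · change (1 : Ω) * (pi 1 * pi 2) ∉ KF n w; rwa [one_mul]
    · change (pi 0 * pi 1) * (1 : Ω) ∉ KF n w; rwa [mul_one]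
    · exact absurd rfl hχ
    · change (pi 0 * pi 1) * (pi 0 * pi 2) ∉ KF n w
      convert k1 using 2; ring
    · change (pi 0 * pi 1) * (pi 1 * pi 2) ∉ KF n w
      convert k2 using 2; ring
    · change (pi 0 * pi 2) * (1 : Ω) ∉ KF n w; rwa [mul_one]
    · change (pi 0 * pi 2) * (pi 0 * pi 1) ∉ KF n w
      convert k1 using 2; ring
    · exact absurd rfl hχ
    · change (pi 0 * pi 2) * (pi 1 * pi 2) ∉ KF n w
      convert k3 using 2; ring
    · change (pi 1 * pi 2) * (1 : Ω) ∉ KF n w; rwa [mul_one]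
    · change (pi 1 * pi 2) * (pi 0 * pi 1) ∉ KF n w
      convert k2 using 2; ring
    · change (pi 1 * pi 2) * (pi 0 * pi 2) ∉ KF n w
      convert k3 using 2; ring
    · exact absurd rfl hχ

end Vale.Agent.P018.QB
end

section

/-! # P018, quartics, family (B): growth of the ranks. -/

namespace Vale.Agent.P018.Q

open Polynomial Module

variable {k : Type*} [Field k] {θ : Fin 4 → k} {ϖ : Fin 4 → k[X]}

theorem prime_pow_dvd {R : Type*} [CommRing R] [IsDomain R] {p : R} (hp : Prime p) (w : ℕ) :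
    ∀ {a b : R} {M : ℕ}, ¬ p ^ (w + 1) ∣ a → p ^ M ∣ a * b → p ^ (M - w) ∣ b := by
  induction w with
  | zero =>
    intro a b M ha hab
    rw [zero_add, pow_one] at ha
    simpa using hp.pow_dvd_of_dvd_mul_left M ha hab
  | succ w ih =>
    intro a b M ha hab
    by_cases h : p ∣ a
    · obtain ⟨a', rfl⟩ := h
      rcases Nat.eq_zero_or_pos M with rfl | hM
      · simp
      have h1 : ¬ p ^ (w + 1) ∣ a' := by
        rintro ⟨c, rfl⟩
        exact ha ⟨c, by ring⟩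
      have h2 : p ^ (M - 1) ∣ a' * b := by
        have h3 : p ^ M = p * p ^ (M - 1) := by
          rw [← pow_succ']
          congr 1
          omega
        rw [h3, mul_assoc] at hab
        exact (mul_dvd_mul_iff_left hp.ne_zero).mp hab
      have h4 := ih h1 h2
      have h5 : M - 1 - w = M - (w + 1) := by omega
      rwa [h5] at h4
    · exact (pow_dvd_pow _ (by omega)).trans (hp.pow_dvd_of_dvd_mul_left M h hab)

theorem coeff_tw {θ : k} {ϖ : k[X]} {Θ : k[X][X]} {e : ℕ} (h : Θ.natDegree ≤ e) :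
    (tw θ ϖ Θ).coeff e = Θ.coeff e * ϖ ^ e := by
  have hq : (C (C θ) + C ϖ * X : k[X][X]).natDegree ≤ 1 := by
    refine (natDegree_add_le _ _).trans (max_le ?_ ?_)
    · rw [natDegree_C]
      omega
    · exact (natDegree_C_mul_le _ _).trans natDegree_X_le
  unfold tw
  rw [comp, eval₂_eq_sum_range' C (Nat.lt_succ_of_le h), finsetSum_coeff, Finset.sum_range_succ,
    Finset.sum_eq_zero, zero_add, coeff_C_mul]
  · congr 1
    have := coeff_pow_of_natDegree_le (m := e) hq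
    rw [mul_one] at this
    rw [this]
    simp
  · intro i hi
    rw [Finset.mem_range] at hi
    have h1 : ((C (C θ) + C ϖ * X : k[X][X]) ^ i).coeff e = 0 := by
      refine coeff_eq_zero_of_natDegree_lt (lt_of_le_of_lt natDegree_pow_le ?_)
      calc i * (C (C θ) + C ϖ * X : k[X][X]).natDegree ≤ i * 1 := Nat.mul_le_mul_left _ hq
        _ < e := by omega
    rw [coeff_C_mul, h1, mul_zero]

/-- the top coefficient of the cofactor of a multiple of `g` in `MB M I`. -/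
theorem cofactor_top (hc : Conf θ ϖ) {g : k[X][X]} (hg : g ≠ 0) {w : Fin 4 → ℕ}
    (hw : ∀ j, ¬ C (ϖ j) ^ (w j + 1) ∣ tw (θ j) (ϖ j) g) {M I : ℕ} {Θ : k[X][X]} (hΘ : Θ ≠ 0)
    (hF : g * Θ ∈ MB θ ϖ M I) :
    g.natDegree ≤ M ∧ Θ.natDegree ≤ M - g.natDegree ∧ dIn g + dIn Θ ≤ 3 * M + I ∧
      ∀ j, ϖ j ^ (g.natDegree - w j) ∣ Θ.coeff (M - g.natDegree) := by
  have h1 := MB_natDegree hF
  rw [natDegree_mul hg hΘ] at h1
  have h2 := MB_dIn hc hF
  rw [dIn_mul hg hΘ] at h2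
  refine ⟨by omega, by omega, h2, fun j => ?_⟩
  rcases Nat.lt_or_ge (w j) g.natDegree with h3 | h3
  swap
  · rw [Nat.sub_eq_zero_of_le h3, pow_zero]
    exact one_dvd _
  have h4 := MB_tw hF j
  rw [tw_mul] at h4
  have h5 := prime_pow_dvd (hc.prime j) (w j) (hw j) h4
  rw [← C_pow, C_dvd_iff_dvd_coeff] at h5
  have h6 := h5 (M - g.natDegree)
  rw [coeff_tw (by omega)] at h6
  have h7 : M - w j = g.natDegree - w j + (M - g.natDegree) := by omega
  rw [h7, pow_add] at h6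
  exact (mul_dvd_mul_iff_right (pow_ne_zero _ (hc.ne j))).mp h6

theorem finrank_degreeLT (n : ℕ) : finrank k (degreeLT k n) = n := by
  rw [(degreeLTEquiv k n).finrank_eq, finrank_fin_fun]

instance (n : ℕ) : FiniteDimensional k (degreeLT k n) :=
  (degreeLTEquiv k n).symm.finiteDimensional

/-- growth of the rank when both `M` and `I` increase by one. -/
theorem rank_succ_both (hc : Conf θ ϖ) {g : k[X][X]} (hg : g ≠ 0) {w : Fin 4 → ℕ}
    (hw : ∀ j, ¬ C (ϖ j) ^ (w j + 1) ∣ tw (θ j) (ϖ j) g)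
    {Q : Type*} [AddCommGroup Q] [Module k Q] (q : k[X][X] →ₗ[k] Q)
    (hq : ∀ F, q F = 0 ↔ g ∣ F) (hP : ∀ F, g ∣ PP ϖ * F → g ∣ F) (M I v : ℕ)
    (hv : v + ∑ j, w j ≤ 4 * g.natDegree + dIn g) (hv2 : v ≤ 3 * M + I + 5) :
    finrank k ((MB θ ϖ M I).map q) + v ≤ finrank k ((MB θ ϖ (M + 1) (I + 1)).map q) := by
  set A := MB θ ϖ (M + 1) (I + 1) with hA
  set φ : k[X][X] →ₗ[k] k[X] := (lcoeff k[X] (M + 1)).restrictScalars k with hφ
  have hφa : ∀ F, φ F = F.coeff (M + 1) := fun F => rfl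
  set A' : Submodule k k[X][X] := (MB θ ϖ M I).map (LinearMap.mulLeft k (PP ϖ)) with hA'
  have h1 : A' ≤ A := by
    rintro _ ⟨F, hF, rfl⟩
    exact PP_mul_mem hc hF
  have h2 : A' ≤ LinearMap.ker φ := by
    rintro _ ⟨F, hF, rfl⟩
    rw [LinearMap.mem_ker, hφa, LinearMap.mulLeft_apply, PP, coeff_C_mul,
      coeff_eq_zero_of_natDegree_lt (lt_of_le_of_lt (MB_natDegree hF) (Nat.lt_succ_self M)),
      mul_zero]
  have h3 := growth q φ A' A h1 h2
  -- the rank of `A'`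
  have h4 : finrank k (A'.map q) = finrank k ((MB θ ϖ M I).map q) := by
    have e1 := finrank_map_add_inf q (MB θ ϖ M I)
    have e2 := finrank_map_add_inf (q ∘ₗ LinearMap.mulLeft k (PP ϖ)) (MB θ ϖ M I)
    have e3 : LinearMap.ker (q ∘ₗ LinearMap.mulLeft k (PP ϖ)) = LinearMap.ker q := by
      ext F
      rw [LinearMap.mem_ker, LinearMap.mem_ker, LinearMap.comp_apply, LinearMap.mulLeft_apply,
        hq, hq]
      exact ⟨hP F, fun h => Dvd.dvd.mul_left h _⟩
    rw [e3, Submodule.map_comp, ← hA'] at e2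
    omega
  -- the top coefficients
  have h5 : 3 * M + I + 5 ≤ finrank k (A.map φ) := by
    have e1 : degreeLT k (3 * M + I + 5) ≤ A.map φ := by
      intro P hP'
      rw [mem_degreeLT] at hP'
      have e2 : P.natDegree ≤ 1 * (M + 1) * 3 + (I + 1) := by
        by_cases h0 : P = 0
        · simp [h0]
        rw [degree_eq_natDegree h0] at hP'
        have : P.natDegree < 3 * M + I + 5 := by exact_mod_cast hP'
        omega
      have e3 := span_prodSet 1 (M + 1) (I + 1) (by omega) 3 ϖ hc.deg hc.cop P e2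
      refine (Submodule.span_le.mpr ?_) e3
      rintro _ ⟨m, μ, hm, hμ, rfl⟩
      refine ⟨fB θ ϖ (M + 1) m μ, Submodule.subset_span ⟨m, μ, hm, hμ, rfl⟩, ?_⟩
      rw [hφa, fB_eq, coeff_C_mul, coeff_map]
      have e4 : (∏ j, (X - C (θ j)) ^ m j : k[X]).coeff (M + 1) = 1 := by
        have e5 : (∏ j, (X - C (θ j)) ^ m j : k[X]).Monic :=
          monic_prod_of_monic _ _ fun j _ => (monic_X_sub_C _).pow _
        have e6 : (∏ j, (X - C (θ j)) ^ m j : k[X]).natDegree = M + 1 := by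
          rw [natDegree_prod_of_monic _ _ fun j _ => (monic_X_sub_C _).pow _, ← hm]
          refine Finset.sum_congr rfl fun j _ => ?_
          rw [natDegree_pow, natDegree_X_sub_C, mul_one]
        rw [← e6]
        exact e5.coeff_natDegree
      rw [e4, C_1, mul_one]
      simp only [one_mul]
    have e2 := Submodule.finrank_mono e1
    rwa [finrank_degreeLT] at e2
  -- the multiples of `g`
  have h6 : finrank k ((A ⊓ LinearMap.ker q).map φ) + v ≤ 3 * M + I + 5 := by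
    set N' := 3 * (M + 1) + (I + 1) - dIn g + 1 - ∑ j, (g.natDegree - w j) with hN'
    set c0 : k[X] := g.coeff g.natDegree * ∏ j, ϖ j ^ (g.natDegree - w j) with hc0
    by_cases hz : (A ⊓ LinearMap.ker q).map φ = ⊥
    · rw [hz, finrank_bot]
      omega
    -- there is a nonzero multiple
    have hex : ∃ Θ : k[X][X], Θ ≠ 0 ∧ g * Θ ∈ A := by
      by_contra hcon
      push Not at hcon
      apply hz
      rw [eq_bot_iff]
      rintro _ ⟨F, ⟨hFA, hFq⟩, rfl⟩
      obtain ⟨Θ, rfl⟩ := (hq F).mp hFq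
      by_cases h0 : Θ = 0
      · rw [h0, mul_zero, map_zero]
        exact Submodule.zero_mem _
      · exact absurd hFA (hcon Θ h0)
    obtain ⟨Θ0, hΘ0, hΘ0A⟩ := hex
    obtain ⟨b1, -, b3, -⟩ := cofactor_top hc hg hw hΘ0 hΘ0A
    have e1 : (A ⊓ LinearMap.ker q).map φ ≤ (degreeLT k N').map (LinearMap.mulLeft k c0) := by
      rintro _ ⟨F, ⟨hFA, hFq⟩, rfl⟩
      obtain ⟨Θ, rfl⟩ := (hq F).mp hFq
      by_cases h0 : Θ = 0
      · rw [h0, mul_zero, map_zero]
        exact Submodule.zero_mem _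
      obtain ⟨a1, a2, a3, a4⟩ := cofactor_top hc hg hw h0 hFA
      have e2 : φ (g * Θ) = g.coeff g.natDegree * Θ.coeff (M + 1 - g.natDegree) := by
        rw [hφa]
        have := coeff_mul_add_eq_of_natDegree_le (f := g) (g := Θ) le_rfl a2
        rwa [Nat.add_sub_cancel' a1] at this
      have e3 : (∏ j, ϖ j ^ (g.natDegree - w j)) ∣ Θ.coeff (M + 1 - g.natDegree) := by
        refine Finset.prod_dvd_of_coprime ?_ fun j _ => a4 j
        intro i _ j _ hij
        exact (hc.cop i j hij).pow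
      obtain ⟨S, hS⟩ := e3
      refine ⟨S, ?_, ?_⟩
      · rw [SetLike.mem_coe, mem_degreeLT]
        by_cases hS0 : S = 0
        · rw [hS0, degree_zero]
          exact WithBot.bot_lt_coe _
        rw [degree_eq_natDegree hS0]
        have e4 := natDegree_coeff_le Θ (M + 1 - g.natDegree)
        rw [hS, natDegree_mul (Finset.prod_ne_zero_iff.mpr fun j _ => pow_ne_zero _ (hc.ne j)) hS0,
          natDegree_prod _ _ (fun j _ => pow_ne_zero _ (hc.ne j))] at e4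
        have e5 : ∑ j, (ϖ j ^ (g.natDegree - w j)).natDegree = ∑ j, (g.natDegree - w j) :=
          Finset.sum_congr rfl fun j _ => by rw [natDegree_pow, hc.deg j, mul_one]
        rw [e5] at e4
        have : S.natDegree < N' := by omega
        exact_mod_cast this
      · rw [LinearMap.mulLeft_apply, e2, hS, hc0]
        ring
    have e6 : finrank k ((A ⊓ LinearMap.ker q).map φ) ≤ N' :=
      (Submodule.finrank_mono e1).trans ((Submodule.finrank_map_le _ _).trans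
        (finrank_degreeLT N').le)
    have e7 : 4 * g.natDegree ≤ ∑ j, (g.natDegree - w j) + ∑ j, w j := by
      rw [Fin.sum_univ_four, Fin.sum_univ_four]
      omega
    omega
  rw [h4] at h3
  omega

theorem swap_eq_C_mul (f : k[X]) (P : k[X]) :
    Bivariate.swap (C f * P.map C) = C P * f.map C := by
  rw [map_mul, Bivariate.swap_C, Bivariate.swap_map_C, mul_comm]

/-- growth of the rank when `I` increases by one. -/
theorem rank_succ_right (hc : Conf θ ϖ) {g : k[X][X]} (hg : g ≠ 0)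
    {Q : Type*} [AddCommGroup Q] [Module k Q] (q : k[X][X] →ₗ[k] Q)
    (hq : ∀ F, q F = 0 ↔ g ∣ F) (M I v : ℕ) (hv : v ≤ g.natDegree) (hv2 : v ≤ M + 1) :
    finrank k ((MB θ ϖ M I).map q) + v ≤ finrank k ((MB θ ϖ M (I + 1)).map q) := by
  set A := MB θ ϖ M (I + 1) with hA
  set φ : k[X][X] →ₗ[k] k[X] := ((lcoeff k[X] (3 * M + I + 1)).restrictScalars k) ∘ₗ
    (Bivariate.swap (R := k)).toLinearMap with hφ
  have hφa : ∀ F, φ F = (Bivariate.swap F).coeff (3 * M + I + 1) := fun F => rfl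
  have h1 : MB θ ϖ M I ≤ A := MB_mono (Nat.le_succ I)
  have h2 : MB θ ϖ M I ≤ LinearMap.ker φ := by
    intro F hF
    rw [LinearMap.mem_ker, hφa]
    exact coeff_eq_zero_of_natDegree_lt (lt_of_le_of_lt (MB_dIn hc hF) (Nat.lt_succ_self _))
  have h3 := growth q φ _ A h1 h2
  -- the top coefficients
  have h5 : M + 1 ≤ finrank k (A.map φ) := by
    have e1 : degreeLT k (M + 1) ≤ A.map φ := by
      intro P hP'
      rw [mem_degreeLT] at hP'
      have e2 : P.natDegree ≤ 1 * M * 1 + 0 := by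
        by_cases h0 : P = 0
        · simp [h0]
        rw [degree_eq_natDegree h0] at hP'
        have : P.natDegree < M + 1 := by exact_mod_cast hP'
        omega
      have h01 : (θ 0 : k) ≠ θ 1 := fun h => by simpa using hc.inj h
      have e3 := span_prodSet (k := k) 1 M 0 (by omega) 1 ![X - C (θ 0), X - C (θ 1)]
        (by intro j; fin_cases j <;> exact natDegree_X_sub_C _)
        (by
          intro i j hij
          fin_cases i <;> fin_cases j
          · exact absurd rfl hij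
          · exact isCoprime_X_sub_C_of_isUnit_sub (sub_ne_zero.mpr h01).isUnit
          · exact isCoprime_X_sub_C_of_isUnit_sub (sub_ne_zero.mpr h01.symm).isUnit
          · exact absurd rfl hij) P e2
      refine (Submodule.span_le.mpr ?_) e3
      rintro _ ⟨m, μ, hm, hμ, rfl⟩
      have hμ0 : μ = 0 := by omega
      subst hμ0
      rw [Fin.sum_univ_two] at hm
      set m' : Fin 4 → ℕ := ![M - m 0, M - m 1, 0, 0] with hm'
      have hm's : ∑ j, m' j = M := by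
        rw [Fin.sum_univ_four]
        simp only [hm', Matrix.cons_val]
        omega
      set cc : k := ∏ j, (ϖ j).leadingCoeff ^ (M - m' j) with hcc
      have hcc0 : cc ≠ 0 := Finset.prod_ne_zero_iff.mpr fun j _ =>
        pow_ne_zero _ (leadingCoeff_ne_zero.mpr (hc.ne j))
      refine ⟨cc⁻¹ • fB θ ϖ M m' (I + 1), Submodule.smul_mem _ _
        (Submodule.subset_span ⟨m', I + 1, hm's, le_rfl, rfl⟩), ?_⟩
      rw [map_smul, hφa, fB_eq, swap_eq_C_mul, coeff_C_mul, coeff_map]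
      have e4 : ((∏ j, ϖ j ^ (M - m' j)) * X ^ (I + 1) : k[X]).coeff (3 * M + I + 1) = cc := by
        have e5 : 3 * M + I + 1 = 3 * M + (I + 1) := by ring
        have e6 : (∏ j, ϖ j ^ (M - m' j) : k[X]).natDegree = 3 * M := by
          rw [natDegree_prod _ _ (fun j _ => pow_ne_zero _ (hc.ne j)), ← sum_sub_eq hm's]
          exact Finset.sum_congr rfl fun j _ => by rw [natDegree_pow, hc.deg j, mul_one]
        rw [e5, coeff_mul_X_pow, ← e6, coeff_natDegree, leadingCoeff_prod, hcc]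
        exact Finset.prod_congr rfl fun j _ => leadingCoeff_pow _ _
      rw [e4, mul_comm, ← smul_eq_C_mul, smul_smul, inv_mul_cancel₀ hcc0, one_smul]
      rw [Fin.prod_univ_four, Fin.prod_univ_two]
      simp [hm']
    have e2 := Submodule.finrank_mono e1
    rwa [finrank_degreeLT] at e2
  -- the multiples of `g`
  have h6 : finrank k ((A ⊓ LinearMap.ker q).map φ) + v ≤ M + 1 := by
    by_cases hz : (A ⊓ LinearMap.ker q).map φ = ⊥
    · rw [hz, finrank_bot]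
      omega
    have hex : ∃ Θ : k[X][X], Θ ≠ 0 ∧ g * Θ ∈ A := by
      by_contra hcon
      push Not at hcon
      apply hz
      rw [eq_bot_iff]
      rintro _ ⟨F, ⟨hFA, hFq⟩, rfl⟩
      obtain ⟨Θ, rfl⟩ := (hq F).mp hFq
      by_cases h0 : Θ = 0
      · rw [h0, mul_zero, map_zero]
        exact Submodule.zero_mem _
      · exact absurd hFA (hcon Θ h0)
    obtain ⟨Θ0, hΘ0, hΘ0A⟩ := hex
    have b1 := MB_natDegree hΘ0A
    rw [natDegree_mul hg hΘ0] at b1
    have e1 : (A ⊓ LinearMap.ker q).map φ ≤ (degreeLT k (M - g.natDegree + 1)).map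
        (LinearMap.mulLeft k ((Bivariate.swap g).coeff (dIn g))) := by
      rintro _ ⟨F, ⟨hFA, hFq⟩, rfl⟩
      obtain ⟨Θ, rfl⟩ := (hq F).mp hFq
      by_cases h0 : Θ = 0
      · rw [h0, mul_zero, map_zero]
        exact Submodule.zero_mem _
      have a1 := MB_natDegree hFA
      rw [natDegree_mul hg h0] at a1
      have a2 := MB_dIn hc hFA
      rw [dIn_mul hg h0] at a2
      refine ⟨(Bivariate.swap Θ).coeff (3 * M + I + 1 - dIn g), ?_, ?_⟩
      · rw [SetLike.mem_coe, mem_degreeLT]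
        refine lt_of_le_of_lt degree_le_natDegree ?_
        have := natDegree_swap_coeff_le Θ (3 * M + I + 1 - dIn g)
        have : ((Bivariate.swap Θ).coeff (3 * M + I + 1 - dIn g)).natDegree <
          M - g.natDegree + 1 := by omega
        exact_mod_cast this
      · rw [LinearMap.mulLeft_apply, hφa, map_mul]
        have h7 : (Bivariate.swap Θ).natDegree ≤ 3 * M + I + 1 - dIn g := by
          have : (Bivariate.swap Θ).natDegree = dIn Θ := rfl
          omega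
        have := coeff_mul_add_eq_of_natDegree_le (f := Bivariate.swap g)
          (g := Bivariate.swap Θ) (df := dIn g) le_rfl h7
        rw [← this]
        congr 1
        omega
    have e6 : finrank k ((A ⊓ LinearMap.ker q).map φ) ≤ M - g.natDegree + 1 :=
      (Submodule.finrank_mono e1).trans ((Submodule.finrank_map_le _ _).trans
        (finrank_degreeLT _).le)
    omega
  omega

end Vale.Agent.P018.Q
end
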