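import Mathlib
import Vale.Agent.P018.Bdl.B1
import Vale.Agent.P018.Bdl.B7
import Vale.Agent.P018.Bdl.B2
import Vale.Agent.P018.Bdl.B4
import Vale.Agent.P018.Bdl.B8

set_option linter.all false

section

/-! # P018, quartics: the swap trick (abstract form). -/

namespace Vale.Agent.P018.Q

open Finset

/-- exceptional points for a pair of index sets -/
private theorem swap_fiber {ι Γ : Type} [DecidableEq ι] [DecidableEq Γ] {M D B : ℕ}
    {S : Finset ι} {cl : Finset (Fin M) → ι → ℤ} {inc : ι → Γ → Prop}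
    {Cv : Finset (Fin M) → ℤ → Finset Γ}
    (hcl : ∀ (I J : Finset (Fin M)) (P P' : ι), I ⊆ J → cl J P = cl J P' → cl I P = cl I P')
    (hD : ∀ (I : Finset (Fin M)) (c : ℤ), (Cv I c).card ≤ D)
    (hB : ∀ γ γ' : Γ, γ ≠ γ' → ∀ S' ⊆ S, (∀ P ∈ S', inc P γ ∧ inc P γ') → S'.card ≤ B)
    (I J : Finset (Fin M)) (T : Finset ι) (hT : T ⊆ S)
    (hTe : ∀ P ∈ T, ∃ γ ∈ Cv I (cl I P), ∃ γ' ∈ Cv J (cl J P), γ ≠ γ' ∧ inc P γ ∧ inc P γ')
    (c : ℤ) (hTc : ∀ P ∈ T, cl (I ∪ J) P = c) : T.card ≤ D * D * B := by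
  classical
  rcases T.eq_empty_or_nonempty with rfl | ⟨P0, hP0⟩
  · simp
  set F : Finset (Γ × Γ) := ((Cv I (cl I P0)) ×ˢ (Cv J (cl J P0))).filter (fun g => g.1 ≠ g.2)
    with hF
  have hsub : T ⊆ F.biUnion fun g => S.filter fun P => inc P g.1 ∧ inc P g.2 := by
    intro P hP
    obtain ⟨γ, h1, γ', h2, h3, h4, h5⟩ := hTe P hP
    have e1 : cl I P = cl I P0 :=
      hcl I (I ∪ J) P P0 Finset.subset_union_left (by rw [hTc P hP, hTc P0 hP0])
    have e2 : cl J P = cl J P0 :=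
      hcl J (I ∪ J) P P0 Finset.subset_union_right (by rw [hTc P hP, hTc P0 hP0])
    rw [Finset.mem_biUnion]
    refine ⟨(γ, γ'), ?_, ?_⟩
    · rw [hF, Finset.mem_filter, Finset.mem_product]
      exact ⟨⟨e1 ▸ h1, e2 ▸ h2⟩, h3⟩
    · rw [Finset.mem_filter]
      exact ⟨hT hP, h4, h5⟩
  have h1 : (F.biUnion fun g => S.filter fun P => inc P g.1 ∧ inc P g.2).card ≤ F.card * B := by
    refine Finset.card_biUnion_le_card_mul _ _ _ fun g hg => ?_
    rw [hF, Finset.mem_filter] at hg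
    exact hB g.1 g.2 hg.2 _ (Finset.filter_subset _ _) fun P hP => (Finset.mem_filter.1 hP).2
  have h2 : F.card ≤ D * D := by
    refine (Finset.card_filter_le _ _).trans ?_
    rw [Finset.card_product]
    exact Nat.mul_le_mul (hD _ _) (hD _ _)
  calc T.card ≤ F.card * B := (Finset.card_le_card hsub).trans h1
    _ ≤ D * D * B := Nat.mul_le_mul_right _ h2

/-- the swap trick. `P ∈ S` are points, `Γ` the type of curves, `good P` the set of good primes of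
`P`, `cl I P` the class of `P` modulo `∏_{i ∈ I} ℓ_i`, `Cv I c` the curves attached to a class.
If every point lies on some curve of its class for every `I ⊆ good P` with `m` elements, then, apart
from few exceptional points, every point has ONE curve which is attached to all its classes. -/
theorem swap {ι Γ : Type} [DecidableEq ι] [DecidableEq Γ] (M m D B Q : ℕ) (S : Finset ι)
    (good : ι → Finset (Fin M)) (cl : Finset (Fin M) → ι → ℤ) (inc : ι → Γ → Prop)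
    (Cv : Finset (Fin M) → ℤ → Finset Γ)
    (hgood : ∀ P ∈ S, m + 1 ≤ (good P).card)
    (hcl : ∀ (I J : Finset (Fin M)) (P P' : ι), I ⊆ J → cl J P = cl J P' → cl I P = cl I P')
    (hQ : ∀ J : Finset (Fin M), J.card = m + 1 →
      ((S.filter (fun P => J ⊆ good P)).image (cl J)).card ≤ Q)
    (hD : ∀ (I : Finset (Fin M)) (c : ℤ), (Cv I c).card ≤ D)
    (hinc : ∀ P ∈ S, ∀ I ⊆ good P, I.card = m → ∃ γ ∈ Cv I (cl I P), inc P γ)
    (hB : ∀ γ γ' : Γ, γ ≠ γ' → ∀ S' ⊆ S, (∀ P ∈ S', inc P γ ∧ inc P γ') → S'.card ≤ B) :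
    ∃ E ⊆ S, E.card ≤ 4 ^ M * (Q * (D * D * B)) ∧ ∀ P ∈ S, P ∉ E → ∃ γ, inc P γ ∧
      ∀ I ⊆ good P, I.card = m → γ ∈ Cv I (cl I P) := by
  classical
  -- the exceptional points of a pair
  let T : Finset (Fin M) × Finset (Fin M) → Finset ι := fun g =>
    S.filter fun P => g.1 ∪ g.2 ⊆ good P ∧ (g.1 ∪ g.2).card = m + 1 ∧
      ∃ γ ∈ Cv g.1 (cl g.1 P), ∃ γ' ∈ Cv g.2 (cl g.2 P), γ ≠ γ' ∧ inc P γ ∧ inc P γ'
  refine ⟨(Finset.univ : Finset (Finset (Fin M) × Finset (Fin M))).biUnion T, ?_, ?_, ?_⟩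
  · intro P hP
    obtain ⟨g, _, hg⟩ := Finset.mem_biUnion.1 hP
    exact (Finset.mem_filter.1 hg).1
  · have hcard : (Finset.univ : Finset (Finset (Fin M) × Finset (Fin M))).card = 4 ^ M := by
      rw [Finset.card_univ, Fintype.card_prod, Fintype.card_finset, Fintype.card_fin,
        ← Nat.mul_pow]
    rw [← hcard]
    refine Finset.card_biUnion_le_card_mul _ _ _ fun g _ => ?_
    by_cases hg : (g.1 ∪ g.2).card = m + 1
    · have h1 : (T g).card ≤ (D * D * B) * ((T g).image (cl (g.1 ∪ g.2))).card := by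
        refine Finset.card_le_mul_card_image _ _ fun c _ => ?_
        refine swap_fiber hcl hD hB g.1 g.2 _ ?_ ?_ c ?_
        · intro P hP
          exact (Finset.mem_filter.1 (Finset.mem_filter.1 hP).1).1
        · intro P hP
          exact (Finset.mem_filter.1 (Finset.mem_filter.1 hP).1).2.2.2
        · intro P hP
          exact (Finset.mem_filter.1 hP).2
      have h2 : ((T g).image (cl (g.1 ∪ g.2))).card ≤ Q := by
        refine le_trans (Finset.card_le_card ?_) (hQ _ hg)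
        refine Finset.image_subset_image ?_
        intro P hP
        have := Finset.mem_filter.1 hP
        exact Finset.mem_filter.2 ⟨this.1, this.2.1⟩
      calc (T g).card ≤ (D * D * B) * ((T g).image (cl (g.1 ∪ g.2))).card := h1
        _ ≤ (D * D * B) * Q := Nat.mul_le_mul_left _ h2
        _ = Q * (D * D * B) := Nat.mul_comm _ _
    · have h1 : T g = ∅ := by
        refine Finset.filter_eq_empty_iff.2 ?_
        intro P _ hP
        exact hg hP.2.1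
      rw [h1]
      simp
  · intro P hP hPE
    have hPT : ∀ g : Finset (Fin M) × Finset (Fin M), P ∉ T g := fun g hg =>
      hPE (Finset.mem_biUnion.2 ⟨g, Finset.mem_univ _, hg⟩)
    -- one swap
    have hstep : ∀ I J : Finset (Fin M), I ⊆ good P → J ⊆ good P → I.card = m → J.card = m →
        (I ∪ J).card = m + 1 → ∀ γ ∈ Cv I (cl I P), inc P γ → γ ∈ Cv J (cl J P) := by
      intro I J hI hJ _ hJm hIJ γ hγ hinγ
      obtain ⟨γ', hγ', hin'⟩ := hinc P hP J hJ hJm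
      by_cases hne : γ = γ'
      · rw [hne]
        exact hγ'
      · exact absurd (Finset.mem_filter.2 ⟨hP, Finset.union_subset hI hJ, hIJ, γ, hγ, γ', hγ',
          hne, hinγ, hin'⟩) (hPT (I, J))
    -- all swaps
    have hall : ∀ n : ℕ, ∀ I J : Finset (Fin M), (J \ I).card = n → I ⊆ good P → J ⊆ good P →
        I.card = m → J.card = m → ∀ γ ∈ Cv I (cl I P), inc P γ → γ ∈ Cv J (cl J P) := by
      intro n
      induction n with
      | zero =>
        intro I J hn _ _ hIm hJm γ hγ _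
        have h1 : J ⊆ I := by
          rw [Finset.card_eq_zero, Finset.sdiff_eq_empty_iff_subset] at hn
          exact hn
        have h2 : J = I := Finset.eq_of_subset_of_card_le h1 (by rw [hIm, hJm])
        rw [h2]
        exact hγ
      | succ n ih =>
        intro I J hn hI hJ hIm hJm γ hγ hinγ
        have hcard : (I \ J).card = (J \ I).card := by
          have e1 := Finset.card_sdiff_add_card_inter I J
          have e2 := Finset.card_sdiff_add_card_inter J I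
          rw [Finset.inter_comm J I] at e2
          omega
        obtain ⟨j, hj⟩ : (J \ I).Nonempty := by
          rw [← Finset.card_pos]; omega
        obtain ⟨i, hi⟩ : (I \ J).Nonempty := by
          rw [← Finset.card_pos]; omega
        rw [Finset.mem_sdiff] at hi hj
        have hji : j ∉ I.erase i := fun h => hj.2 (Finset.mem_of_mem_erase h)
        have hI' : insert j (I.erase i) ⊆ good P := by
          intro x hx
          rcases Finset.mem_insert.1 hx with rfl | hx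
          · exact hJ hj.1
          · exact hI (Finset.mem_of_mem_erase hx)
        have hI'm : (insert j (I.erase i)).card = m := by
          rw [Finset.card_insert_of_notMem hji, Finset.card_erase_of_mem hi.1]
          have : 0 < I.card := Finset.card_pos.2 ⟨i, hi.1⟩
          omega
        have hun : I ∪ insert j (I.erase i) = insert j I := by
          ext x
          simp only [Finset.mem_union, Finset.mem_insert, Finset.mem_erase]
          tauto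
        have h1 := hstep I (insert j (I.erase i)) hI hI' hIm hI'm
          (by rw [hun, Finset.card_insert_of_notMem hj.2, hIm]) γ hγ hinγ
        refine ih (insert j (I.erase i)) J ?_ hI' hJ hI'm hJm γ h1 hinγ
        have hsd : J \ insert j (I.erase i) = (J \ I).erase j := by
          ext x
          simp only [Finset.mem_sdiff, Finset.mem_insert, Finset.mem_erase, not_or, not_and]
          constructor
          · rintro ⟨h2, h3, h4⟩
            refine ⟨h3, h2, fun h5 => ?_⟩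
            by_cases hx : x = i
            · exact hi.2 (hx ▸ h2)
            · exact h4 hx h5
          · rintro ⟨h2, h3, h4⟩
            exact ⟨h3, h2, fun _ h5 => h4 h5⟩
        rw [hsd, Finset.card_erase_of_mem (Finset.mem_sdiff.2 hj), hn]
        rfl
    obtain ⟨I0, hI0, hI0m⟩ := Finset.exists_subset_card_eq
      (show m ≤ (good P).card by have := hgood P hP; omega)
    obtain ⟨γ, hγ, hin⟩ := hinc P hP I0 hI0 hI0m
    exact ⟨γ, hin, fun J hJ hJm => hall _ I0 J rfl hI0 hJ hI0m hJm γ hγ hin⟩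

end Vale.Agent.P018.Q
end

section

/-! # P018, quartics, family (A): the abstract count over one reduced pair. -/

namespace Vale.Agent.P018.Q

open Finset

/-- swap trick plus the count on every curve. -/
theorem swap_count {ι Γ : Type} [DecidableEq ι] [DecidableEq Γ] (M m r D B Q Q0 Kc : ℕ)
    (S : Finset ι) (good : ι → Finset (Fin M)) (cl : Finset (Fin M) → ι → ℤ) (inc : ι → Γ → Prop)
    (Cv : Finset (Fin M) → ℤ → Finset Γ) (bad : ι → Γ → Finset (Fin M))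
    (hgood : ∀ P ∈ S, m + 1 + r ≤ (good P).card)
    (hbad : ∀ P ∈ S, ∀ γ, inc P γ → (bad P γ).card ≤ r)
    (hcl : ∀ (I J : Finset (Fin M)) (P P' : ι), I ⊆ J → cl J P = cl J P' → cl I P = cl I P')
    (hQ : ∀ J : Finset (Fin M), J.card = m + 1 → (S.image (cl J)).card ≤ Q)
    (hQ0 : ∀ J : Finset (Fin M), J.card = m → (S.image (cl J)).card ≤ Q0)
    (hD : ∀ (I : Finset (Fin M)) (c : ℤ), (Cv I c).card ≤ D)
    (hinc : ∀ P ∈ S, ∀ I ⊆ good P, I.card = m → ∃ γ ∈ Cv I (cl I P), inc P γ)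
    (hB : ∀ γ γ' : Γ, γ ≠ γ' → ∀ S' ⊆ S, (∀ P ∈ S', inc P γ ∧ inc P γ') → S'.card ≤ B)
    (hK : ∀ I : Finset (Fin M), I.card = m → ∀ (c : ℤ) (γ : Γ), ∀ S' ⊆ S,
      (∀ P ∈ S', inc P γ ∧ I ⊆ good P ∧ Disjoint I (bad P γ) ∧ cl I P = c) → S'.card ≤ Kc) :
    S.card ≤ 4 ^ M * (Q * (D * D * B)) + 2 ^ M * (Q0 * (D * Kc)) := by
  classical
  obtain ⟨E, hES, hE, hP⟩ := swap M m D B Q S good cl inc Cv
    (fun P hP => by have := hgood P hP; omega) hcl
    (fun J hJ => (Finset.card_le_card (Finset.image_subset_image (Finset.filter_subset _ _))).trans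
      (hQ J hJ)) hD hinc hB
  -- the remaining points
  let W : Finset (Fin M) → ℤ → Γ → Finset ι := fun I c γ =>
    S.filter fun P => inc P γ ∧ I ⊆ good P ∧ Disjoint I (bad P γ) ∧ cl I P = c
  have hsub : S \ E ⊆ (Finset.univ.filter (fun I : Finset (Fin M) => I.card = m)).biUnion
      fun I => (S.image (cl I)).biUnion fun c => (Cv I c).biUnion fun γ => W I c γ := by
    intro P hPS
    rw [Finset.mem_sdiff] at hPS
    obtain ⟨γ, hγ, hall⟩ := hP P hPS.1 hPS.2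
    have h1 := hgood P hPS.1
    have h2 := hbad P hPS.1 γ hγ
    have h3 : m ≤ (good P \ bad P γ).card := by
      have h4 := Finset.le_card_sdiff (bad P γ) (good P)
      omega
    obtain ⟨I, hI, hIm⟩ := Finset.exists_subset_card_eq h3
    have hIg : I ⊆ good P := hI.trans Finset.sdiff_subset
    have hIb : Disjoint I (bad P γ) := by
      rw [Finset.disjoint_left]
      intro x hx hxb
      exact (Finset.mem_sdiff.1 (hI hx)).2 hxb
    rw [Finset.mem_biUnion]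
    refine ⟨I, Finset.mem_filter.2 ⟨Finset.mem_univ _, hIm⟩, ?_⟩
    rw [Finset.mem_biUnion]
    refine ⟨cl I P, Finset.mem_image_of_mem _ hPS.1, ?_⟩
    rw [Finset.mem_biUnion]
    exact ⟨γ, hall I hIg hIm, Finset.mem_filter.2 ⟨hPS.1, hγ, hIg, hIb, rfl⟩⟩
  have hWc : ∀ I : Finset (Fin M), I.card = m → ∀ c γ, (W I c γ).card ≤ Kc := fun I hI c γ =>
    hK I hI c γ _ (Finset.filter_subset _ _) fun P hP => (Finset.mem_filter.1 hP).2
  have h5 : (S \ E).card ≤ 2 ^ M * (Q0 * (D * Kc)) := by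
    refine (Finset.card_le_card hsub).trans ?_
    refine (Finset.card_biUnion_le_card_mul _ _ (Q0 * (D * Kc)) fun I hI => ?_).trans ?_
    · rw [Finset.mem_filter] at hI
      refine (Finset.card_biUnion_le_card_mul _ _ (D * Kc) fun c _ => ?_).trans ?_
      · refine (Finset.card_biUnion_le_card_mul _ _ Kc fun γ _ => hWc I hI.2 c γ).trans ?_
        exact Nat.mul_le_mul_right _ (hD I c)
      · exact Nat.mul_le_mul_right _ (hQ0 I hI.2)
    · refine Nat.mul_le_mul_right _ ((Finset.card_filter_le _ _).trans ?_)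
      rw [Finset.card_univ, Fintype.card_finset, Fintype.card_fin]
  have h6 : S.card = (S \ E).card + E.card := by
    rw [Finset.card_sdiff_add_card_eq_card hES]
  omega

/-- primes of a given size. -/
theorem exists_primes_size (M b : ℕ) (hb : 1 ≤ b) : ∃ ℓ : Fin M → ℕ, Function.Injective ℓ ∧
    ∀ i, (ℓ i).Prime ∧ b < ℓ i ∧ ℓ i ≤ 2 ^ M * b := by
  have h : ∀ i : Fin M, ∃ p : ℕ, p.Prime ∧ 2 ^ (i : ℕ) * b < p ∧ p ≤ 2 * (2 ^ (i : ℕ) * b) :=
    fun i => Nat.exists_prime_lt_and_le_two_mul _ (by positivity)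
  choose ℓ h1 h2 h3 using h
  have hmono : StrictMono ℓ := by
    intro i j hij
    have h4 : (i : ℕ) + 1 ≤ j := hij
    calc ℓ i ≤ 2 * (2 ^ (i : ℕ) * b) := h3 i
      _ = 2 ^ ((i : ℕ) + 1) * b := by ring
      _ ≤ 2 ^ (j : ℕ) * b := Nat.mul_le_mul_right _ (Nat.pow_le_pow_right (by norm_num) h4)
      _ < ℓ j := h2 j
  refine ⟨ℓ, hmono.injective, fun i => ⟨h1 i, ?_, ?_⟩⟩
  · refine lt_of_le_of_lt ?_ (h2 i)
    exact Nat.le_mul_of_pos_left _ (by positivity)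
  · refine (h3 i).trans ?_
    calc 2 * (2 ^ (i : ℕ) * b) = 2 ^ ((i : ℕ) + 1) * b := by ring
      _ ≤ 2 ^ M * b := Nat.mul_le_mul_right _ (Nat.pow_le_pow_right (by norm_num) i.2)

/-- the class of `s / t` modulo `∏_{i ∈ I} ℓ i`. -/
def cls {M : ℕ} (ℓ : Fin M → ℕ) (I : Finset (Fin M)) (s t : ℤ) : ℤ :=
  (s * t ^ ((∏ i, (ℓ i - 1)) - 1)) % ((∏ i ∈ I, ℓ i : ℕ) : ℤ)

theorem cls_mono {M : ℕ} (ℓ : Fin M → ℕ) {I J : Finset (Fin M)} (hIJ : I ⊆ J) {s t s' t' : ℤ}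
    (h : cls ℓ J s t = cls ℓ J s' t') : cls ℓ I s t = cls ℓ I s' t' := by
  have hd : ((∏ i ∈ I, ℓ i : ℕ) : ℤ) ∣ ((∏ i ∈ J, ℓ i : ℕ) : ℤ) := by
    exact_mod_cast Finset.prod_dvd_prod_of_subset _ _ _ hIJ
  exact Int.ModEq.of_dvd hd (show Int.ModEq _ _ _ from h)

theorem prod_pos_of_prime {M : ℕ} {ℓ : Fin M → ℕ} (hℓ : ∀ i, (ℓ i).Prime) (I : Finset (Fin M)) :
    0 < ∏ i ∈ I, ℓ i := Finset.prod_pos fun i _ => (hℓ i).pos

theorem cls_coprime {M : ℕ} {ℓ : Fin M → ℕ} (hℓ : ∀ i, (ℓ i).Prime)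
    {I : Finset (Fin M)} {t : ℤ} (ht : ∀ i ∈ I, ¬ (ℓ i : ℤ) ∣ t) :
    IsCoprime t ((∏ i ∈ I, ℓ i : ℕ) : ℤ) := by
  push_cast
  refine IsCoprime.prod_right fun i hi => ?_
  exact ((Nat.prime_iff_prime_int.1 (hℓ i)).coprime_iff_not_dvd.2 (ht i hi)).symm

theorem cls_dvd {M : ℕ} {ℓ : Fin M → ℕ} (hinj : Function.Injective ℓ) (hℓ : ∀ i, (ℓ i).Prime)
    {I : Finset (Fin M)} {s t : ℤ} (ht : ∀ i ∈ I, ¬ (ℓ i : ℤ) ∣ t) :
    ((∏ i ∈ I, ℓ i : ℕ) : ℤ) ∣ s - cls ℓ I s t * t := by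
  obtain ⟨E, hE⟩ : ∃ E, E = ∏ i, (ℓ i - 1) := ⟨_, rfl⟩
  have hE0 : 0 < E := by
    rw [hE]
    refine Finset.prod_pos fun i _ => ?_
    have := (hℓ i).two_le
    omega
  have h1 : ((∏ i ∈ I, ℓ i : ℕ) : ℤ) ∣ 1 - t ^ E := by
    push_cast
    refine Finset.prod_dvd_of_coprime ?_ ?_
    · intro i _ j _ hij
      have hne : ℓ i ≠ ℓ j := fun h => hij (hinj h)
      have := (Nat.coprime_primes (hℓ i) (hℓ j)).2 hne
      exact Nat.isCoprime_iff_coprime.2 this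
    · intro i hi
      have h2 : IsCoprime t (ℓ i : ℤ) :=
        ((Nat.prime_iff_prime_int.1 (hℓ i)).coprime_iff_not_dvd.2 (ht i hi)).symm
      have h3 := Int.ModEq.pow_card_sub_one_eq_one (hℓ i) h2
      have h4 : (ℓ i - 1) ∣ E := by
        rw [hE]; exact Finset.dvd_prod_of_mem _ (Finset.mem_univ i)
      obtain ⟨k, hk⟩ := h4
      have h5 : t ^ E ≡ 1 [ZMOD (ℓ i : ℤ)] := by
        rw [hk, pow_mul]
        simpa using h3.pow k
      exact h5.dvd
  have h6 : cls ℓ I s t ≡ s * t ^ (E - 1) [ZMOD ((∏ i ∈ I, ℓ i : ℕ) : ℤ)] := by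
    unfold cls
    rw [← hE]
    exact Int.mod_modEq _ _
  have h7 : ((∏ i ∈ I, ℓ i : ℕ) : ℤ) ∣ s * t ^ (E - 1) - cls ℓ I s t := h6.dvd
  have h8 : s - cls ℓ I s t * t = s * (1 - t ^ E) + (s * t ^ (E - 1) - cls ℓ I s t) * t := by
    have : t ^ E = t ^ (E - 1) * t := by rw [← pow_succ, Nat.sub_add_cancel hE0]
    rw [this]; ring
  rw [h8]
  exact dvd_add (Dvd.dvd.mul_left h1 _) (Dvd.dvd.mul_right h7 _)

theorem card_image_cls {ι : Type} {M : ℕ} {ℓ : Fin M → ℕ}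
    (hℓ : ∀ i, (ℓ i).Prime) (b : ℕ) (hb : ∀ i, ℓ i ≤ b) (I : Finset (Fin M)) (S : Finset ι)
    (s t : ι → ℤ) : (S.image fun P => cls ℓ I (s P) (t P)).card ≤ b ^ I.card := by
  have h0 := prod_pos_of_prime hℓ I
  have h1 : (S.image fun P => cls ℓ I (s P) (t P)) ⊆ Finset.Ico (0 : ℤ) ((∏ i ∈ I, ℓ i : ℕ) : ℤ) := by
    intro x hx
    obtain ⟨P, _, rfl⟩ := Finset.mem_image.1 hx
    rw [Finset.mem_Ico]
    unfold cls
    exact ⟨Int.emod_nonneg _ (by exact_mod_cast h0.ne'),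
      Int.emod_lt_of_pos _ (by exact_mod_cast h0)⟩
  refine (Finset.card_le_card h1).trans ?_
  rw [Int.card_Ico, sub_zero, Int.toNat_natCast]
  calc ∏ i ∈ I, ℓ i ≤ ∏ _i ∈ I, b := Finset.prod_le_prod' fun i _ => hb i
    _ = b ^ I.card := by rw [Finset.prod_const]

end Vale.Agent.P018.Q
end

section

/-! # P018, (B), relation step: Taylor expansions of square roots. -/

namespace Vale.Agent.P018.QB

/-- principal square root of `1 + z`. -/
noncomputable def brsq (z : ℂ) : ℂ := (1 + z) ^ (1 / 2 : ℂ)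

/-- inverse square root of `1 + z`. -/
noncomputable def isq (z : ℂ) : ℂ := (1 + z) ^ (-(1 / 2) : ℂ)

theorem sq_sq (z : ℂ) : brsq z ^ 2 = 1 + z := by
  unfold brsq
  have h := Complex.cpow_nat_inv_pow (1 + z) (n := 2) two_ne_zero
  have e : ((2 : ℕ) : ℂ)⁻¹ = 1 / 2 := by norm_num
  rw [e] at h
  exact h

theorem isq_sq (z : ℂ) (hz : ‖z‖ < 1) : isq z ^ 2 * (1 + z) = 1 := by
  have h0 : 1 + z ≠ 0 := by
    intro h
    have : z = -1 := by linear_combination h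
    rw [this] at hz
    simp at hz
  have h1 : isq z = (brsq z)⁻¹ := by
    unfold isq brsq
    rw [Complex.cpow_neg]
  rw [h1, inv_pow, sq_sq]
  exact inv_mul_cancel₀ h0

/-- bounded holomorphic functions have jets with explicit constants. -/
theorem jet_of_bdd (R : ℕ) : ∀ (r M : ℝ), 0 < r → 0 < M → ∀ f : ℂ → ℂ,
    DifferentiableOn ℂ f (Metric.ball 0 r) → (∀ z ∈ Metric.ball (0 : ℂ) r, ‖f z‖ ≤ M) →
    ∃ c : ℕ → ℂ, (∀ n, ‖c n‖ ≤ M * (1 + 3 / r) ^ R) ∧ ∀ z ∈ Metric.ball (0 : ℂ) r,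
      ‖f z - ∑ n ∈ Finset.range R, c n * z ^ n‖ ≤ M * (1 + 3 / r) ^ R * ‖z‖ ^ R := by
  induction R with
  | zero =>
    intro r M hr hM f hf hb
    refine ⟨fun _ => 0, fun n => by simp [hM.le], fun z hz => ?_⟩
    simpa using hb z hz
  | succ R ih =>
    intro r M hr hM f hf hb
    have hnhds : Metric.ball (0 : ℂ) r ∈ nhds (0 : ℂ) := Metric.ball_mem_nhds _ hr
    have hd : DifferentiableOn ℂ (dslope f 0) (Metric.ball 0 r) :=
      (Complex.differentiableOn_dslope hnhds).2 hf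
    have h0 : ‖f 0‖ ≤ M := hb 0 (Metric.mem_ball_self hr)
    have hmap : Set.MapsTo f (Metric.ball 0 r) (Metric.ball (f 0) (3 * M)) := by
      intro z hz
      rw [mem_ball_iff_norm]
      calc ‖f z - f 0‖ ≤ ‖f z‖ + ‖f 0‖ := norm_sub_le _ _
        _ ≤ M + M := add_le_add (hb z hz) h0
        _ < 3 * M := by linarith
    have hb' : ∀ z ∈ Metric.ball (0 : ℂ) r, ‖dslope f 0 z‖ ≤ 3 * M / r := by
      intro z hz
      exact Complex.norm_dslope_le_div_of_mapsTo_ball hf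
        (hmap.mono_right Metric.ball_subset_closedBall) hz
    obtain ⟨c, hc, hz⟩ := ih r (3 * M / r) hr (by positivity) (dslope f 0) hd hb'
    have hpow : 1 ≤ (1 + 3 / r) ^ R := one_le_pow₀ (by
      have : 0 ≤ 3 / r := by positivity
      linarith only [this])
    have hle : 3 * M / r * (1 + 3 / r) ^ R ≤ M * (1 + 3 / r) ^ (R + 1) := by
      have e : M * (1 + 3 / r) ^ (R + 1) =
        M * (1 + 3 / r) ^ R + 3 * M / r * (1 + 3 / r) ^ R := by ring
      rw [e]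
      have : 0 ≤ M * (1 + 3 / r) ^ R := by positivity
      linarith only [this]
    have hle0 : M ≤ M * (1 + 3 / r) ^ (R + 1) := by
      have h1 : 1 ≤ (1 + 3 / r) ^ (R + 1) := one_le_pow₀ (by
        have : 0 ≤ 3 / r := by positivity
        linarith only [this])
      linarith only [mul_nonneg (le_of_lt (sub_pos.2 hM)) (sub_nonneg.2 h1)]
    refine ⟨fun n => Nat.casesOn n (f 0) c, ?_, ?_⟩
    · intro n
      cases n with
      | zero => exact h0.trans hle0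
      | succ n => exact (hc n).trans hle
    · intro z hzr
      have e1 : f z = f 0 + z * dslope f 0 z := by
        have := sub_smul_dslope f 0 z
        simp only [sub_zero, smul_eq_mul] at this
        rw [this]; ring
      have e2 : f z - ∑ n ∈ Finset.range (R + 1),
          (Nat.casesOn n (f 0) c : ℂ) * z ^ n =
          z * (dslope f 0 z - ∑ n ∈ Finset.range R, c n * z ^ n) := by
        rw [Finset.sum_range_succ', mul_sub, Finset.mul_sum]
        rw [e1]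
        have : ∑ x ∈ Finset.range R, (Nat.casesOn (x + 1) (f 0) c : ℂ) * z ^ (x + 1) =
            ∑ x ∈ Finset.range R, z * (c x * z ^ x) :=
          Finset.sum_congr rfl (fun x _ => by
            show c x * z ^ (x + 1) = _
            ring)
        rw [this]
        show f 0 + z * dslope f 0 z - (∑ x ∈ Finset.range R, z * (c x * z ^ x) + f 0 * z ^ 0) = _
        ring
      show ‖f z - ∑ n ∈ Finset.range (R + 1), (Nat.casesOn n (f 0) c : ℂ) * z ^ n‖ ≤ _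
      rw [e2, norm_mul]
      calc ‖z‖ * ‖dslope f 0 z - ∑ n ∈ Finset.range R, c n * z ^ n‖
          ≤ ‖z‖ * (3 * M / r * (1 + 3 / r) ^ R * ‖z‖ ^ R) := by
            gcongr
            exact hz z hzr
        _ ≤ ‖z‖ * (M * (1 + 3 / r) ^ (R + 1) * ‖z‖ ^ R) := by gcongr
        _ = M * (1 + 3 / r) ^ (R + 1) * ‖z‖ ^ (R + 1) := by ring

theorem norm_sq_le (z : ℂ) (hz : ‖z‖ < 1) : ‖brsq z‖ ≤ 2 := by
  have h := congrArg norm (sq_sq z)
  rw [norm_pow] at h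
  have h1 : ‖1 + z‖ ≤ 1 + ‖z‖ := by
    simpa using norm_add_le (1 : ℂ) z
  nlinarith [norm_nonneg (brsq z)]

theorem norm_isq_le (z : ℂ) (hz : ‖z‖ < 3 / 4) : ‖isq z‖ ≤ 2 := by
  have h := congrArg norm (isq_sq z (by linarith))
  rw [norm_mul, norm_pow, norm_one] at h
  have h1 : 1 / 4 ≤ ‖1 + z‖ := by
    have h2 : ‖(1 : ℂ)‖ ≤ ‖1 + z‖ + ‖z‖ := by
      have := norm_sub_le (1 + z) z
      simpa using this
    rw [norm_one] at h2
    linarith
  by_contra hc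
  push Not at hc
  have h3 : 4 < ‖isq z‖ ^ 2 := by nlinarith
  nlinarith

theorem one_add_mem_slit (z : ℂ) (hz : ‖z‖ < 1) : 1 + z ∈ Complex.slitPlane := by
  rw [Complex.mem_slitPlane_iff]
  left
  have h := Complex.abs_re_le_norm z
  have h2 := neg_abs_le z.re
  simp only [Complex.add_re, Complex.one_re]
  linarith

theorem sq_diff (z : ℂ) (hz : ‖z‖ < 1) : DifferentiableAt ℂ brsq z := by
  unfold brsq
  exact (DifferentiableAt.const_add (1 : ℂ) differentiableAt_id).cpow (differentiableAt_const _)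
    (one_add_mem_slit z hz)

theorem isq_diff (z : ℂ) (hz : ‖z‖ < 1) : DifferentiableAt ℂ isq z := by
  unfold isq
  exact (DifferentiableAt.const_add (1 : ℂ) differentiableAt_id).cpow (differentiableAt_const _)
    (one_add_mem_slit z hz)

/-- expansion of the functions of the relation step: jets of order `R` of
`(x0 + x1 ω)^a ∏ brsq(-α_j v)^(e_j) ∏ isq(b_j ω)^(e_j)`, a function of `v` times a function of `ω`.
Proof: `brsq`, `isq` are analytic on the unit disc (Taylor bound `HasFPowerSeriesOnBall`), so have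
`R`-jets `|f(z) - ∑_{τ<R} a_τ z^τ| ≤ K |z|^R` on `|z| ≤ 1/2`; jets with bounded coefficients are
closed under products and powers and under `z ↦ b z`, `|b| ≤ A`. -/
theorem entry_expand (R E : ℕ) (A : ℝ) (hA : 1 ≤ A) : ∃ K : ℝ, 0 < K ∧
    ∀ (α b : Fin 4 → ℂ) (x0 x1 : ℂ) (a : ℕ) (e : Fin 4 → ℕ), (∀ j, ‖α j‖ ≤ A) →
      (∀ j, ‖b j‖ ≤ 1) → ‖x0‖ ≤ A → ‖x1‖ ≤ A → a ≤ E → (∀ j, e j ≤ E) →
      ∃ cf : ℕ → ℕ → ℂ, (∀ τ k, ‖cf τ k‖ ≤ K) ∧ ∀ v ω : ℂ, ‖v‖ ≤ 1 / (2 * A) → ‖ω‖ ≤ 1 / 2 →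
        ‖(x0 + x1 * ω) ^ a * (∏ j, brsq (-(α j * v)) ^ e j) * (∏ j, isq (b j * ω) ^ e j) -
          ∑ τ ∈ Finset.range R, ∑ k ∈ Finset.range R, cf τ k * v ^ τ * ω ^ k‖ ≤
        K * (‖v‖ ^ R + ‖ω‖ ^ R) := by
  have hA0 : 0 < A := by linarith
  -- the two bounds
  set MG : ℝ := (2 ^ E) ^ 4 with hMG
  set MH : ℝ := (2 * A) ^ E * (2 ^ E) ^ 4 with hMH
  have hMG0 : 0 < MG := by positivity
  have hMH0 : 0 < MH := by positivity
  set KG : ℝ := MG * (1 + 3 / (1 / A)) ^ R with hKG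
  set KH : ℝ := MH * (1 + 3 / (3 / 4)) ^ R with hKH
  have hKG0 : 0 < KG := by positivity
  have hKH0 : 0 < KH := by positivity
  refine ⟨KG * KH + MG * KH + KG * (MH + KH), by positivity, ?_⟩
  intro α b x0 x1 a e hα hb hx0 hx1 ha he
  set G : ℂ → ℂ := fun v => ∏ j, brsq (-(α j * v)) ^ e j with hG
  set H : ℂ → ℂ := fun ω => (x0 + x1 * ω) ^ a * (∏ j, isq (b j * ω) ^ e j) with hH
  have hαv : ∀ v ∈ Metric.ball (0 : ℂ) (1 / A), ∀ j, ‖-(α j * v)‖ < 1 := by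
    intro v hv j
    rw [mem_ball_zero_iff] at hv
    rw [norm_neg, norm_mul]
    calc ‖α j‖ * ‖v‖ ≤ A * ‖v‖ := by gcongr; exact hα j
      _ < A * (1 / A) := by gcongr
      _ = 1 := by field_simp
  have hbω : ∀ ω ∈ Metric.ball (0 : ℂ) (3 / 4), ∀ j, ‖b j * ω‖ < 3 / 4 := by
    intro ω hω j
    rw [mem_ball_zero_iff] at hω
    rw [norm_mul]
    calc ‖b j‖ * ‖ω‖ ≤ 1 * ‖ω‖ := by gcongr; exact hb j
      _ < 3 / 4 := by rw [one_mul]; exact hω
  have hGd : DifferentiableOn ℂ G (Metric.ball 0 (1 / A)) := by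
    intro v hv
    apply DifferentiableAt.differentiableWithinAt
    rw [hG]
    apply DifferentiableAt.fun_finsetProd
    intro j _
    apply DifferentiableAt.fun_pow
    exact DifferentiableAt.comp v (sq_diff _ (hαv v hv j)) (by fun_prop)
  have hHd : DifferentiableOn ℂ H (Metric.ball 0 (3 / 4)) := by
    intro ω hω
    apply DifferentiableAt.differentiableWithinAt
    rw [hH]
    apply DifferentiableAt.fun_mul
    · fun_prop
    apply DifferentiableAt.fun_finsetProd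
    intro j _
    apply DifferentiableAt.fun_pow
    exact DifferentiableAt.comp ω (isq_diff _ ((hbω ω hω j).trans (by norm_num))) (by fun_prop)
  have hGb : ∀ v ∈ Metric.ball (0 : ℂ) (1 / A), ‖G v‖ ≤ MG := by
    intro v hv
    rw [hG]
    simp only
    rw [norm_prod]
    calc ∏ j, ‖brsq (-(α j * v)) ^ e j‖ ≤ ∏ _j : Fin 4, (2 : ℝ) ^ E := by
          apply Finset.prod_le_prod (fun j _ => norm_nonneg _)
          intro j _
          rw [norm_pow]
          calc ‖brsq (-(α j * v))‖ ^ e j ≤ 2 ^ e j := by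
                gcongr; exact norm_sq_le _ (hαv v hv j)
            _ ≤ 2 ^ E := pow_le_pow_right₀ (by norm_num) (he j)
      _ = MG := by rw [Finset.prod_const, Finset.card_univ, Fintype.card_fin]
  have hHb : ∀ ω ∈ Metric.ball (0 : ℂ) (3 / 4), ‖H ω‖ ≤ MH := by
    intro ω hω
    rw [hH]
    simp only
    rw [norm_mul, norm_prod, norm_pow, hMH]
    have h1 : ∏ j, ‖isq (b j * ω) ^ e j‖ ≤ (2 ^ E) ^ 4 := by
      calc ∏ j, ‖isq (b j * ω) ^ e j‖ ≤ ∏ _j : Fin 4, (2 : ℝ) ^ E := by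
            apply Finset.prod_le_prod (fun j _ => norm_nonneg _)
            intro j _
            rw [norm_pow]
            calc ‖isq (b j * ω)‖ ^ e j ≤ 2 ^ e j := by
                  gcongr; exact norm_isq_le _ (hbω ω hω j)
              _ ≤ 2 ^ E := pow_le_pow_right₀ (by norm_num) (he j)
        _ = (2 ^ E) ^ 4 := by rw [Finset.prod_const, Finset.card_univ, Fintype.card_fin]
    have h2 : ‖x0 + x1 * ω‖ ≤ 2 * A := by
      rw [mem_ball_zero_iff] at hω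
      calc ‖x0 + x1 * ω‖ ≤ ‖x0‖ + ‖x1 * ω‖ := norm_add_le _ _
        _ = ‖x0‖ + ‖x1‖ * ‖ω‖ := by rw [norm_mul]
        _ ≤ A + A * 1 := by
          gcongr
          linarith only [hω]
        _ = 2 * A := by ring
    have h3 : ‖x0 + x1 * ω‖ ^ a ≤ (2 * A) ^ E := by
      calc ‖x0 + x1 * ω‖ ^ a ≤ (2 * A) ^ a := by gcongr
        _ ≤ (2 * A) ^ E := pow_le_pow_right₀ (by linarith only [hA0, hA]) ha
    exact mul_le_mul h3 h1 (Finset.prod_nonneg (fun j _ => norm_nonneg _)) (by positivity)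
  obtain ⟨cG, hcG, hzG⟩ := jet_of_bdd R (1 / A) MG (by positivity) hMG0 G hGd hGb
  obtain ⟨cH, hcH, hzH⟩ := jet_of_bdd R (3 / 4) MH (by norm_num) hMH0 H hHd hHb
  refine ⟨fun τ k => cG τ * cH k, ?_, ?_⟩
  · intro τ k
    rw [norm_mul]
    calc ‖cG τ‖ * ‖cH k‖ ≤ KG * KH := mul_le_mul (hcG τ) (hcH k) (norm_nonneg _) hKG0.le
      _ ≤ KG * KH + MG * KH + KG * (MH + KH) := by
        have : 0 < MG * KH := by positivity
        have : 0 < KG * (MH + KH) := by positivity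
        linarith
  · intro v ω hv hω
    have hv' : v ∈ Metric.ball (0 : ℂ) (1 / A) := by
      rw [mem_ball_zero_iff]
      refine lt_of_le_of_lt hv ?_
      exact one_div_lt_one_div_of_lt hA0 (by linarith only [hA0])
    have hω' : ω ∈ Metric.ball (0 : ℂ) (3 / 4) := by
      rw [mem_ball_zero_iff]
      linarith only [hω]
    set PG : ℂ := ∑ τ ∈ Finset.range R, cG τ * v ^ τ with hPG
    set PH : ℂ := ∑ k ∈ Finset.range R, cH k * ω ^ k with hPH
    have e1 : ∑ τ ∈ Finset.range R, ∑ k ∈ Finset.range R, cG τ * cH k * v ^ τ * ω ^ k =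
        PG * PH := by
      rw [hPG, hPH, Finset.sum_mul_sum]
      exact Finset.sum_congr rfl (fun τ _ => Finset.sum_congr rfl (fun k _ => by ring))
    have e2 : (x0 + x1 * ω) ^ a * (∏ j, brsq (-(α j * v)) ^ e j) * (∏ j, isq (b j * ω) ^ e j) =
        G v * H ω := by
      rw [hG, hH]; ring
    rw [e1, e2]
    have e3 : G v * H ω - PG * PH = G v * (H ω - PH) + (G v - PG) * PH := by ring
    have hvn : ‖v‖ ≤ 1 := by
      refine hv.trans ?_
      rw [div_le_one (by positivity)]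
      linarith only [hA0, hA]
    have hωn : ‖ω‖ ^ R ≤ 1 := pow_le_one₀ (norm_nonneg _) (by linarith only [hω])
    have hE1 : ‖H ω - PH‖ ≤ KH * ‖ω‖ ^ R := hzH ω hω'
    have hE2 : ‖G v - PG‖ ≤ KG * ‖v‖ ^ R := hzG v hv'
    have hPHb : ‖PH‖ ≤ MH + KH := by
      have : PH = H ω - (H ω - PH) := by ring
      rw [this]
      calc ‖H ω - (H ω - PH)‖ ≤ ‖H ω‖ + ‖H ω - PH‖ := norm_sub_le _ _
        _ ≤ MH + KH * ‖ω‖ ^ R := add_le_add (hHb ω hω') hE1
        _ ≤ MH + KH * 1 := by gcongr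
        _ = MH + KH := by ring
    have hvR : 0 ≤ ‖v‖ ^ R := by (clear * -; positivity)
    have hωR : 0 ≤ ‖ω‖ ^ R := by (clear * -; positivity)
    rw [e3]
    calc ‖G v * (H ω - PH) + (G v - PG) * PH‖
        ≤ ‖G v * (H ω - PH)‖ + ‖(G v - PG) * PH‖ := norm_add_le _ _
      _ = ‖G v‖ * ‖H ω - PH‖ + ‖G v - PG‖ * ‖PH‖ := by rw [norm_mul, norm_mul]
      _ ≤ MG * (KH * ‖ω‖ ^ R) + KG * ‖v‖ ^ R * (MH + KH) := by
        gcongr
        exact hGb v hv'
      _ ≤ (KG * KH + MG * KH + KG * (MH + KH)) * (‖v‖ ^ R + ‖ω‖ ^ R) := by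
        have h1 : 0 ≤ KG * KH * ‖v‖ ^ R := by (clear * - hA; positivity)
        have h2 : 0 ≤ KG * KH * ‖ω‖ ^ R := by (clear * - hA; positivity)
        have h3 : 0 ≤ MG * KH * ‖v‖ ^ R := by (clear * - hA; positivity)
        have h4 : 0 ≤ KG * (MH + KH) * ‖ω‖ ^ R := by (clear * - hA; positivity)
        linarith only [h4, h3, h2, h1]

end Vale.Agent.P018.QB
end

section

/-! # P018, (B), relation step: the entries of the matrices in a cell, complex version. -/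

namespace Vale.Agent.P018.QB

open Finset

/-- the signs. -/
theorem ent_sign (a b : ℂ) (h : a ^ 2 = b ^ 2) : ∃ s : ℤˣ, a = ((s : ℤ) : ℂ) * b := by
  rcases sq_eq_sq_iff_eq_or_eq_neg.1 h with h1 | h1
  · exact ⟨1, by simp [h1]⟩
  · exact ⟨-1, by simp [h1]⟩

/-- the linear forms. -/
theorem ent_lin (u1 u2 : ℤ) (hu : u1 ≠ 0) (w0 w : ℝ) (hw : w = (u2 : ℝ) / u1 - w0) (G1 G2 d : ℂ)
    (hd : d = G1 + w0 * G2) : (u1 : ℂ) * G1 + u2 * G2 = u1 * (d + w * G2) := by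
  have h1 : (u1 : ℂ) ≠ 0 := by exact_mod_cast hu
  rw [hw, hd]
  push_cast
  field_simp
  ring

/-- the square of `π`. -/
theorem ent_pi (c n v α d b ω u z pi r h : ℂ) (hz : z ≠ 0) (hn : n ≠ 0) (hv : v = n⁻¹)
    (hu : u ≠ 0) (hd : d ≠ 0) (hzz : z = u * (d * (1 + b * ω))) (hc : c * (n - α) = pi ^ 2 * z)
    (hr : r ^ 2 = c * n / u) (hh : h ^ 2 = d⁻¹) (hbw : ‖b * ω‖ < 1) :
    pi ^ 2 = (r * h * (brsq (-(α * v)) * isq (b * ω))) ^ 2 := by
  have h1 := sq_sq (-(α * v))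
  have h2 := isq_sq (b * ω) hbw
  apply mul_right_cancel₀ hz
  rw [← hc]
  calc c * (n - α) = c * n * (1 + -(α * v)) := by
        rw [hv]; field_simp; ring
    _ = (c * n / u) * d⁻¹ * (1 + -(α * v)) * (u * d) := by field_simp
    _ = (c * n / u) * d⁻¹ * (1 + -(α * v)) * (isq (b * ω) ^ 2 * (1 + b * ω)) * (u * d) := by
        rw [h2]; ring
    _ = (r * h * (brsq (-(α * v)) * isq (b * ω))) ^ 2 * z := by
        rw [← h1, ← hr, ← hh, hzz]; ring

/-- the size of `r h`. -/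
theorem ent_rh (α v b ω pi r h : ℂ) (A T : ℝ) (hA : 0 ≤ A) (hT : 0 ≤ T) (hav : ‖α * v‖ ≤ 1 / 2)
    (hbw : ‖b * ω‖ ≤ 1 / 2)
    (hpi : pi ^ 2 = (r * h * (brsq (-(α * v)) * isq (b * ω))) ^ 2) (hT' : ‖pi‖ ≤ A * T) :
    ‖r‖ * ‖h‖ ≤ 2 * A * T := by
  have h1 := congrArg norm (sq_sq (-(α * v)))
  have h2 := congrArg norm (isq_sq (b * ω) (by linarith))
  rw [norm_mul, norm_pow, norm_one] at h2
  rw [norm_pow] at h1
  have h3 : (1 : ℝ) / 2 ≤ ‖1 + -(α * v)‖ := by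
    have := norm_sub_norm_le (1 : ℂ) (α * v)
    rw [norm_one] at this
    rw [← sub_eq_add_neg]
    linarith only [this, hav]
  have h4 : ‖1 + b * ω‖ ≤ 3 / 2 := by
    have := norm_add_le (1 : ℂ) (b * ω)
    rw [norm_one] at this
    linarith
  have h5 : 0 ≤ ‖isq (b * ω)‖ ^ 2 := by positivity
  have h6 : (2 : ℝ) / 3 ≤ ‖isq (b * ω)‖ ^ 2 := by nlinarith
  have h7 : ‖pi‖ ^ 2 = (‖r‖ * ‖h‖) ^ 2 * (‖brsq (-(α * v))‖ ^ 2 * ‖isq (b * ω)‖ ^ 2) := by
    have := congrArg norm hpi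
    rw [norm_pow, norm_pow, norm_mul, norm_mul, norm_mul] at this
    rw [this]; ring
  rw [h1] at h7
  have h8 : ‖pi‖ ^ 2 ≤ (A * T) ^ 2 := pow_le_pow_left₀ (norm_nonneg _) hT' 2
  have h9 : (1 : ℝ) / 3 ≤ ‖1 + -(α * v)‖ * ‖isq (b * ω)‖ ^ 2 := by linarith only [mul_nonneg (sub_nonneg.2 h4) (sub_nonneg.2 h5), mul_nonneg (sub_nonneg.2 h3) (sub_nonneg.2 h5), mul_eq_zero_of_left (sub_eq_zero.2 h2) (‖isq (b * ω)‖ ^ 2 - (2 / 3)), mul_eq_zero_of_left (sub_eq_zero.2 h2) (‖isq (b * ω)‖ ^ 2 - (0))]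
  have h10 : (‖r‖ * ‖h‖) ^ 2 * (1 / 3) ≤ (A * T) ^ 2 := by
    refine le_trans ?_ h8
    rw [h7]
    exact mul_le_mul_of_nonneg_left h9 (by (clear * -; positivity))
  have h11 : (‖r‖ * ‖h‖) ^ 2 ≤ (2 * A * T) ^ 2 := by (by_contra nlg; linarith only [nlg, mul_nonneg (le_of_lt (sub_pos.2 (not_le.1 nlg))) (sub_nonneg.2 h10), mul_pos (sub_pos.2 (not_le.1 nlg)) (sub_pos.2 (not_le.1 nlg)), mul_nonneg (sq_nonneg (2 * A * T : ℝ)) (le_of_lt (sub_pos.2 (not_le.1 nlg)))])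
  exact (pow_le_pow_iff_left₀ (by (clear * -; positivity)) (by (clear * - hA hT; positivity)) (by norm_num)).1 h11

/-- the algebraic identity. -/
theorem ent_alg (a1 a2 m : ℕ) (e : Fin 4 → ℕ) (he : ∑ j, e j = 2 * m) (u1 u2 U U1 R1 r X : ℂ)
    (s h q k : Fin 4 → ℂ) (hU1 : U1 ≠ 0) (hR1 : R1 ≠ 0) (hX : U * X * u1 = U1 * u2) :
    u1 ^ a1 * u2 ^ a2 * ∏ j, (s j * (r * h j * (q j * k j))) ^ e j =
      ((u1 / U1) ^ (a1 + a2) * (r / R1) ^ (2 * m)) *
        ((U1 ^ a1 * U ^ a2 * R1 ^ (2 * m) * ∏ j, (s j * h j) ^ e j) *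
          (X ^ a2 * (∏ j, q j ^ e j) * ∏ j, k j ^ e j)) := by
  have h1 : ∏ j, (s j * (r * h j * (q j * k j))) ^ e j =
      r ^ (2 * m) * (∏ j, (s j * h j) ^ e j) * (∏ j, q j ^ e j) * ∏ j, k j ^ e j := by
    rw [← he, ← prod_pow_eq_pow_sum, ← prod_mul_distrib, ← prod_mul_distrib, ← prod_mul_distrib]
    refine prod_congr rfl fun j _ => ?_
    rw [← mul_pow, ← mul_pow, ← mul_pow]
    congr 1
    ring
  rw [h1]
  have h2 : (u1 / U1) ^ (a1 + a2) * (U1 ^ a1 * U ^ a2 * X ^ a2) = u1 ^ a1 * u2 ^ a2 := by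
    rw [pow_add]
    have h3 : (u1 / U1) ^ a1 * U1 ^ a1 = u1 ^ a1 := by
      rw [← mul_pow, div_mul_cancel₀ _ hU1]
    have h4 : (u1 / U1) ^ a2 * (U ^ a2 * X ^ a2) = u2 ^ a2 := by
      rw [← mul_pow, ← mul_pow]
      congr 1
      rw [div_mul_eq_mul_div, div_eq_iff hU1]
      linear_combination hX
    calc (u1 / U1) ^ a1 * (u1 / U1) ^ a2 * (U1 ^ a1 * U ^ a2 * X ^ a2)
        = ((u1 / U1) ^ a1 * U1 ^ a1) * ((u1 / U1) ^ a2 * (U ^ a2 * X ^ a2)) := by ring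
      _ = _ := by rw [h3, h4]
  have h5 : (r / R1) ^ (2 * m) * R1 ^ (2 * m) = r ^ (2 * m) := by
    rw [← mul_pow, div_mul_cancel₀ _ hR1]
  rw [← h2, ← h5]
  ring

theorem ent_core (R i m : ℕ) (A : ℝ) (hA : 1 ≤ A) : ∃ Kc : ℝ, 1 ≤ Kc ∧
    ∀ (T U ρ : ℝ), 1 ≤ T → 0 < ρ → ρ ≤ 1 / 2 → 1 ≤ U →
    ∀ (α G1 G2 : Fin 4 → ℂ) (c : ℂ) (w0 B : ℝ) (S : Finset ℤ) (u1 u2 : ℤ → ℤ)
      (pi : ℤ → Fin 4 → ℂ) (j0 : Fin 4), c ≠ 0 → (∀ j, ‖α j‖ ≤ A) → 0 < B →
      B ≤ A * U * ‖G2 j0‖ →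
      (∀ N ∈ S, N ≠ 0 ∧ u1 N ≠ 0 ∧ |(u1 N : ℝ)| ≤ U ∧ |(u2 N : ℝ)| ≤ U ∧
        ‖(N : ℂ)⁻¹‖ ≤ 1 / (4 * A ^ 2) ∧
        ∀ j, ‖pi N j‖ ≤ A * T ∧ (u1 N : ℂ) * G1 j + u2 N * G2 j ≠ 0 ∧
          ‖(u1 N : ℂ) * G1 j + u2 N * G2 j‖ ≤ A * B ∧
          c * (N - α j) = pi N j ^ 2 * (u1 N * G1 j + u2 N * G2 j) ∧
          |(u2 N : ℝ) / u1 N - w0| * ‖G2 j‖ ≤ ρ * ‖G1 j + w0 * G2 j‖) →
      ∃ (sg : ℤ → Fin 4 → ℤˣ), ∀ s : Fin 4 → ℤˣ,
        ∃ (co : Ix → ℕ → ℕ → ℂ) (rr ω : ℤ → ℂ),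
          (∀ x ∈ mons i (2 * m), ∀ τ k, ‖co x τ k‖ ≤ Kc * (U ^ i * T ^ (2 * m))) ∧
          ∀ N ∈ S, sg N = s → ‖rr N‖ ≤ 1 ∧ ‖ω N‖ ≤ ρ ∧
            ∀ x ∈ mons i (2 * m),
              ∃ er : ℂ, ‖er‖ ≤ Kc * (U ^ i * T ^ (2 * m)) * (‖(N : ℂ)⁻¹‖ ^ R + ‖ω N‖ ^ R) ∧
              fv (u1 N : ℂ) (u2 N : ℂ) (pi N) x =
                rr N * (∑ τ ∈ Finset.range R, ∑ k ∈ Finset.range R,
                  co x τ k * (N : ℂ)⁻¹ ^ τ * ω N ^ k + er) := by
  classical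
  have hA2 : 1 ≤ 2 * A ^ 2 := by nlinarith
  obtain ⟨Ke, hKe, hexp⟩ := entry_expand R (i + 2 * m) (2 * A ^ 2) hA2
  refine ⟨max 1 ((2 * A) ^ (2 * m) * Ke), le_max_left _ _, ?_⟩
  intro T U ρ hT hρ hρ2 hU α G1 G2 c w0 B S u1 u2 pi j0 hc hα hB0 hB hS
  have hA0 : 0 < A := by linarith
  have hT0 : 0 < T := by linarith
  have hU0 : 0 < U := by linarith
  obtain ⟨d, hd⟩ : ∃ d : Fin 4 → ℂ, ∀ j, d j = G1 j + w0 * G2 j := ⟨_, fun _ => rfl⟩
  obtain ⟨w, hw⟩ : ∃ w : ℤ → ℝ, ∀ N, w N = (u2 N : ℝ) / u1 N - w0 := ⟨_, fun _ => rfl⟩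
  have hr0 : ∀ N : ℤ, ∃ r : ℂ, r ^ 2 = c * N / u1 N := fun N =>
    IsAlgClosed.exists_pow_nat_eq _ (by norm_num)
  choose r hr using hr0
  have hh0 : ∀ j, ∃ h : ℂ, h ^ 2 = (d j)⁻¹ := fun j =>
    IsAlgClosed.exists_pow_nat_eq _ (by norm_num)
  choose h hh using hh0
  rcases S.eq_empty_or_nonempty with hSe | ⟨N0, hN0⟩
  · refine ⟨fun _ _ => 1, fun s => ⟨fun _ _ _ => 0, fun _ => 0, fun _ => 0, ?_, ?_⟩⟩
    · intro x _ τ k
      rw [norm_zero]
      positivity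
    · intro N hN
      rw [hSe] at hN
      exact absurd hN (notMem_empty _)
  -- `d j ≠ 0`
  have hlin : ∀ N ∈ S, ∀ j, (u1 N : ℂ) * G1 j + u2 N * G2 j = u1 N * (d j + w N * G2 j) :=
    fun N hN j => ent_lin _ _ (hS N hN).2.1 w0 (w N) (hw N) _ _ _ (hd j)
  have hcell : ∀ N ∈ S, ∀ j, |w N| * ‖G2 j‖ ≤ ρ * ‖d j‖ := by
    intro N hN j
    have := ((hS N hN).2.2.2.2.2 j).2.2.2.2
    rw [← hw, ← hd] at this
    exact this
  have hd0 : ∀ j, d j ≠ 0 := by
    intro j hj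
    have h1 := hcell N0 hN0 j
    rw [hj, norm_zero, mul_zero] at h1
    have h2 : (w N0 : ℂ) * G2 j = 0 := by
      rw [← norm_eq_zero, norm_mul, Complex.norm_real, Real.norm_eq_abs]
      exact le_antisymm h1 (by (clear * -; positivity))
    apply ((hS N0 hN0).2.2.2.2.2 j).2.1
    rw [hlin N0 hN0 j, hj, h2]
    simp
  have hdn : ∀ j, 0 < ‖d j‖ := fun j => norm_pos_iff.2 (hd0 j)
  obtain ⟨j1, -, hj1⟩ := Finset.exists_max_image (Finset.univ : Finset (Fin 4))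
    (fun j => ‖G2 j / d j‖) Finset.univ_nonempty
  obtain ⟨as, has⟩ : ∃ as : ℝ, as = ‖G2 j1 / d j1‖ := ⟨_, rfl⟩
  have hasj : ∀ j, ‖G2 j / d j‖ ≤ as := fun j => by rw [has]; exact hj1 j (Finset.mem_univ j)
  have hG0 : 0 < ‖G2 j0‖ := by
    by_contra hcon
    have : ‖G2 j0‖ = 0 := le_antisymm (not_lt.1 hcon) (norm_nonneg _)
    rw [this, mul_zero] at hB
    linarith only [hB, hB0]
  have has0 : 0 < as := by
    refine lt_of_lt_of_le ?_ (hasj j0)
    rw [norm_div]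
    exact div_pos hG0 (hdn j0)
  have hasc : (as : ℂ) ≠ 0 := by exact_mod_cast has0.ne'
  -- `ω` and `b`
  obtain ⟨ω, hω⟩ : ∃ ω : ℤ → ℂ, ∀ N, ω N = ((as * w N : ℝ) : ℂ) := ⟨_, fun _ => rfl⟩
  obtain ⟨b, hb⟩ : ∃ b : Fin 4 → ℂ, ∀ j, b j = G2 j / d j / as := ⟨_, fun _ => rfl⟩
  have hb1 : ∀ j, ‖b j‖ ≤ 1 := by
    intro j
    rw [hb, norm_div, Complex.norm_real, Real.norm_eq_abs, abs_of_pos has0, div_le_one has0]
    exact hasj j
  have hωN : ∀ N, ‖ω N‖ = as * |w N| := by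
    intro N
    rw [hω, Complex.norm_real, Real.norm_eq_abs, abs_mul, abs_of_pos has0]
  have hωρ : ∀ N ∈ S, ‖ω N‖ ≤ ρ := by
    intro N hN
    rw [hωN, has, norm_div]
    have h1 := hcell N hN j1
    rw [div_mul_eq_mul_div, div_le_iff₀ (hdn j1)]
    linarith only [h1]
  have hbω : ∀ N ∈ S, ∀ j, ‖b j * ω N‖ ≤ 1 / 2 := by
    intro N hN j
    rw [norm_mul]
    have h1 := hb1 j
    have h2 := hωρ N hN
    have h3 := norm_nonneg (b j)
    have h4 := norm_nonneg (ω N)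
    (by_contra nlg; linarith only [nlg, mul_nonneg (sub_nonneg.2 h2) (sub_nonneg.2 h3), mul_nonneg (sub_nonneg.2 h1) (sub_nonneg.2 h3), mul_nonneg (sub_nonneg.2 h1) (sub_nonneg.2 h1), mul_nonneg (sub_nonneg.2 hρ2) (sub_nonneg.2 h3), mul_nonneg (le_of_lt (sub_pos.2 (not_le.1 nlg))) (sub_nonneg.2 hρ2), mul_pos (sub_pos.2 (not_le.1 nlg)) (sub_pos.2 hρ)])
  have hz : ∀ N ∈ S, ∀ j, (u1 N : ℂ) * G1 j + u2 N * G2 j =
      u1 N * (d j * (1 + b j * ω N)) := by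
    intro N hN j
    rw [hlin N hN j, hb, hω]
    have h1 := hd0 j
    push_cast
    field_simp
  have hαv : ∀ N ∈ S, ∀ j, ‖α j * (N : ℂ)⁻¹‖ ≤ 1 / 2 := by
    intro N hN j
    rw [norm_mul]
    have h1 := (hS N hN).2.2.2.2.1
    calc ‖α j‖ * ‖(N : ℂ)⁻¹‖ ≤ A * (1 / (4 * A ^ 2)) :=
          mul_le_mul (hα j) h1 (norm_nonneg _) hA0.le
      _ = 1 / (4 * A) := by field_simp
      _ ≤ 1 / 2 := one_div_le_one_div_of_le (by norm_num) (by linarith only [hρ2, hρ, hA])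
  have hpi : ∀ N ∈ S, ∀ j, pi N j ^ 2 =
      (r N * h j * (brsq (-(α j * (N : ℂ)⁻¹)) * isq (b j * ω N))) ^ 2 := by
    intro N hN j
    obtain ⟨hNz, hu1, -, -, -, hj⟩ := hS N hN
    obtain ⟨-, h2, -, h4, -⟩ := hj j
    have hbw := hbω N hN j
    exact ent_pi c N (N : ℂ)⁻¹ (α j) (d j) (b j) (ω N) (u1 N) _ (pi N j) (r N) (h j) h2
      (by exact_mod_cast hNz) rfl (by exact_mod_cast hu1) (hd0 j) (hz N hN j) h4 (hr N) (hh j)
      (by linarith only [hbw, hρ2, hρ])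
  have hrh : ∀ N ∈ S, ∀ j, ‖r N‖ * ‖h j‖ ≤ 2 * A * T := fun N hN j =>
    ent_rh (α j) (N : ℂ)⁻¹ (b j) (ω N) (pi N j) (r N) (h j) A T hA0.le hT0.le (hαv N hN j)
      (hbω N hN j) (hpi N hN j) ((hS N hN).2.2.2.2.2 j).1
  have hu1a : ∀ N ∈ S, |(u1 N : ℝ)| ≤ 2 * A ^ 2 * U * as := by
    intro N hN
    have h1 := ((hS N hN).2.2.2.2.2 j0).2.2.1
    rw [hz N hN j0, norm_mul, norm_mul, Complex.norm_intCast] at h1
    have h2 : (1 : ℝ) / 2 ≤ ‖1 + b j0 * ω N‖ := by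
      have h3 := norm_sub_norm_le (1 : ℂ) (-(b j0 * ω N))
      rw [norm_one, norm_neg, sub_neg_eq_add] at h3
      have h4 := hbω N hN j0
      linarith only [h4, h3]
    have h5 : |(u1 N : ℝ)| * ‖d j0‖ ≤ 2 * (A * B) := by
      have h6 : 0 ≤ |(u1 N : ℝ)| * ‖d j0‖ := by (clear * -; positivity)
      (by_contra nlg; linarith only [nlg, mul_nonneg (sub_nonneg.2 h2) (sub_nonneg.2 h6), mul_nonneg (sub_nonneg.2 hρ2) (sub_nonneg.2 h1), mul_nonneg (le_of_lt (sub_pos.2 hρ)) (sub_nonneg.2 h1), mul_nonneg (le_of_lt (sub_pos.2 (not_le.1 nlg))) (sub_nonneg.2 hρ2), mul_pos (sub_pos.2 (not_le.1 nlg)) (sub_pos.2 hρ)])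
    have h7 : ‖G2 j0‖ / ‖d j0‖ ≤ as := by
      have := hasj j0
      rwa [norm_div] at this
    rw [div_le_iff₀ (hdn j0)] at h7
    have h8 : |(u1 N : ℝ)| * ‖d j0‖ ≤ (2 * A ^ 2 * U * as) * ‖d j0‖ := by
      calc |(u1 N : ℝ)| * ‖d j0‖ ≤ 2 * (A * B) := h5
        _ ≤ 2 * (A * (A * U * ‖G2 j0‖)) := by gcongr
        _ ≤ 2 * (A * (A * U * (as * ‖d j0‖))) := by gcongr
        _ = (2 * A ^ 2 * U * as) * ‖d j0‖ := by ring
    exact le_of_mul_le_mul_right h8 (hdn j0)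
  -- the signs
  have hsg : ∀ N j, ∃ s : ℤˣ, N ∈ S → pi N j = ((s : ℤ) : ℂ) *
      (r N * h j * (brsq (-(α j * (N : ℂ)⁻¹)) * isq (b j * ω N))) := by
    intro N j
    by_cases hN : N ∈ S
    · obtain ⟨s, hs⟩ := ent_sign _ _ (hpi N hN j)
      exact ⟨s, fun _ => hs⟩
    · exact ⟨1, fun h => absurd h hN⟩
  choose sg hsg using hsg
  refine ⟨sg, fun s => ?_⟩
  rcases (S.filter fun N => sg N = s).eq_empty_or_nonempty with hSe | hSn
  · refine ⟨fun _ _ _ => 0, fun _ => 0, fun _ => 0, ?_, ?_⟩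
    · intro x _ τ k
      rw [norm_zero]
      positivity
    · intro N hN hs
      exact absurd (mem_filter.2 ⟨hN, hs⟩) (by rw [hSe]; exact notMem_empty _)
  obtain ⟨N1, hN1, hN1m⟩ := Finset.exists_max_image _ (fun N => |(u1 N : ℝ)|) hSn
  obtain ⟨N2, hN2, hN2m⟩ := Finset.exists_max_image _ (fun N => ‖r N‖) hSn
  rw [mem_filter] at hN1 hN2
  obtain ⟨U1, hU1⟩ : ∃ U1 : ℝ, U1 = |(u1 N1 : ℝ)| := ⟨_, rfl⟩
  obtain ⟨R1, hR1⟩ : ∃ R1 : ℝ, R1 = ‖r N2‖ := ⟨_, rfl⟩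
  have hU10 : 0 < U1 := by
    rw [hU1]
    have := (hS N1 hN1.1).2.1
    (clear * - this; positivity)
  have hR10 : 0 < R1 := by
    rw [hR1, norm_pos_iff]
    intro h0
    have h1 := hr N2
    rw [h0] at h1
    have h2 := (hS N2 hN2.1).1
    have h3 := (hS N2 hN2.1).2.1
    have h4 : c * (N2 : ℂ) / u1 N2 ≠ 0 := by
      have h5 : (N2 : ℂ) ≠ 0 := by exact_mod_cast h2
      have h6 : (u1 N2 : ℂ) ≠ 0 := by exact_mod_cast h3
      (clear * - hc h2 h3; positivity)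
    apply h4
    rw [← h1]
    simp
  have hU1U : U1 ≤ U := by rw [hU1]; exact (hS N1 hN1.1).2.2.1
  have hR1h : ∀ j, R1 * ‖h j‖ ≤ 2 * A * T := by
    intro j
    rw [hR1]
    exact hrh N2 hN2.1 j
  obtain ⟨x0, hx0⟩ : ∃ x0 : ℂ, x0 = ((U1 * w0 / U : ℝ) : ℂ) := ⟨_, rfl⟩
  obtain ⟨x1, hx1⟩ : ∃ x1 : ℂ, x1 = ((U1 / (as * U) : ℝ) : ℂ) := ⟨_, rfl⟩
  have hx1n : ‖x1‖ ≤ 2 * A ^ 2 := by
    rw [hx1, Complex.norm_real, Real.norm_eq_abs, abs_of_pos (by (clear * - hU10 has0 hU; positivity)),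
      div_le_iff₀ (by (clear * - has0 hU; positivity)), hU1]
    have := hu1a N1 hN1.1
    linarith only [this]
  have hx0n : ‖x0‖ ≤ 2 * A ^ 2 := by
    rw [hx0, Complex.norm_real, Real.norm_eq_abs, abs_div, abs_of_pos hU0,
      div_le_iff₀ hU0, abs_mul, abs_of_pos hU10, hU1]
    have h1 : (u1 N1 : ℝ) * w0 = u2 N1 - u1 N1 * w N1 := by
      have h2 : (u1 N1 : ℝ) ≠ 0 := by
        have := (hS N1 hN1.1).2.1
        exact_mod_cast this
      rw [hw]
      field_simp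
      ring
    rw [← abs_mul, h1]
    have h3 : |(u1 N1 : ℝ) * w N1| ≤ A ^ 2 * U := by
      rw [abs_mul]
      have h4 := hu1a N1 hN1.1
      have h5 := hωρ N1 hN1.1
      rw [hωN] at h5
      calc |(u1 N1 : ℝ)| * |w N1| ≤ (2 * A ^ 2 * U * as) * |w N1| := by gcongr
        _ = 2 * A ^ 2 * U * (as * |w N1|) := by ring
        _ ≤ 2 * A ^ 2 * U * (1 / 2) := by
            have h6 : as * |w N1| ≤ 1 / 2 := by linarith only [h5, hρ2]
            gcongr
        _ = A ^ 2 * U := by ring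
    have h6 := (hS N1 hN1.1).2.2.2.1
    have h7 := abs_sub (u2 N1 : ℝ) (u1 N1 * w N1)
    have h8 : 1 ≤ A ^ 2 := by (by_contra nlg; linarith only [nlg, mul_nonneg (sub_nonneg.2 hA) (le_of_lt (sub_pos.2 hA0)), mul_nonneg (sub_nonneg.2 hA) (sub_nonneg.2 hρ2), mul_nonneg (sub_nonneg.2 hA) (le_of_lt (sub_pos.2 hρ)), mul_nonneg (sub_nonneg.2 hA) (sub_nonneg.2 hA2), mul_pos (sub_pos.2 (not_le.1 nlg)) (sub_pos.2 hA0)])
    (by_contra nlg; linarith only [nlg, mul_nonneg (sub_nonneg.2 hU1U) (sub_nonneg.2 h8), mul_nonneg (le_of_lt (sub_pos.2 hU10)) (sub_nonneg.2 h8), mul_nonneg (sub_nonneg.2 hρ2) (sub_nonneg.2 h7), mul_nonneg (sub_nonneg.2 hρ2) (sub_nonneg.2 h6), mul_nonneg (sub_nonneg.2 hρ2) (sub_nonneg.2 h3), mul_nonneg (le_of_lt (sub_pos.2 hρ)) (sub_nonneg.2 h7), mul_nonneg (le_of_lt (sub_pos.2 hρ)) (sub_nonneg.2 h6), mul_nonneg (le_of_lt (sub_pos.2 hρ)) (sub_nonneg.2 h3), mul_nonneg (le_of_lt (sub_pos.2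 (not_le.1 nlg))) (sub_nonneg.2 hρ2), mul_pos (sub_pos.2 (not_le.1 nlg)) (sub_pos.2 hρ)])
  have hex : ∀ x : Ix, x ∈ mons i (2 * m) → ∃ cf : ℕ → ℕ → ℂ, (∀ τ k, ‖cf τ k‖ ≤ Ke) ∧
      ∀ v ω : ℂ, ‖v‖ ≤ 1 / (2 * (2 * A ^ 2)) → ‖ω‖ ≤ 1 / 2 →
        ‖(x0 + x1 * ω) ^ x.1.2 * (∏ j, brsq (-(α j * v)) ^ x.2 j) *
            (∏ j, isq (b j * ω) ^ x.2 j) -
          ∑ τ ∈ Finset.range R, ∑ k ∈ Finset.range R, cf τ k * v ^ τ * ω ^ k‖ ≤
        Ke * (‖v‖ ^ R + ‖ω‖ ^ R) := by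
    intro x hx
    rw [mons, mem_product, HasAntidiagonal.mem_antidiagonal, mem_piAntidiag] at hx
    refine hexp α b x0 x1 x.1.2 x.2 (fun j => (hα j).trans ?_) hb1 hx0n hx1n ?_ ?_
    · (by_contra nlg; linarith only [nlg, mul_nonneg (sub_nonneg.2 hρ2) (le_of_lt (sub_pos.2 hA0)), mul_nonneg (le_of_lt (sub_pos.2 hρ)) (sub_nonneg.2 hρ2), mul_pos (sub_pos.2 hρ) (sub_pos.2 hρ), mul_nonneg (sub_nonneg.2 hA) (le_of_lt (sub_pos.2 hA0)), mul_nonneg (sub_nonneg.2 hA) (sub_nonneg.2 hρ2), mul_nonneg (sub_nonneg.2 hA) (le_of_lt (sub_pos.2 hρ)), mul_nonneg (sub_nonneg.2 hA) (sub_nonneg.2 hA2), mul_pos (sub_pos.2 (not_le.1 nlg)) (sub_pos.2 hA0)])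
    · omega
    · intro j
      have h0 : ∑ j, x.2 j = 2 * m := hx.2.1
      have : x.2 j ≤ ∑ j, x.2 j := single_le_sum (fun _ _ => Nat.zero_le _) (mem_univ j)
      omega
  choose! cf hcf1 hcf2 using hex
  obtain ⟨F, hF⟩ : ∃ F : Ix → ℂ, ∀ x, F x = (U1 : ℂ) ^ x.1.1 * (U : ℂ) ^ x.1.2 *
      (R1 : ℂ) ^ (2 * m) * ∏ j, (((s j : ℤ) : ℂ) * h j) ^ x.2 j := ⟨_, fun _ => rfl⟩
  have hFn : ∀ x ∈ mons i (2 * m), ‖F x‖ ≤ (2 * A) ^ (2 * m) * (U ^ i * T ^ (2 * m)) := by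
    intro x hx
    rw [mons, mem_product, HasAntidiagonal.mem_antidiagonal, mem_piAntidiag] at hx
    obtain ⟨hx1, hx2, -⟩ := hx
    have hs1 : ∀ j, ‖((s j : ℤ) : ℂ)‖ = 1 := by
      intro j
      rcases Int.units_eq_one_or (s j) with h1 | h1 <;> simp [h1]
    rw [hF, norm_mul, norm_mul, norm_mul, norm_pow, norm_pow, norm_pow, norm_prod,
      Complex.norm_real, Complex.norm_real, Complex.norm_real, Real.norm_eq_abs,
      Real.norm_eq_abs, Real.norm_eq_abs, abs_of_pos hU10, abs_of_pos hU0, abs_of_pos hR10]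
    have h1 : R1 ^ (2 * m) * ∏ j, ‖(((s j : ℤ) : ℂ) * h j) ^ x.2 j‖ ≤ (2 * A * T) ^ (2 * m) := by
      rw [← hx2, ← prod_pow_eq_pow_sum, ← prod_pow_eq_pow_sum, ← prod_mul_distrib]
      refine prod_le_prod (fun j _ => by (clear * - hR10; positivity)) fun j _ => ?_
      rw [norm_pow, ← mul_pow, norm_mul, hs1, one_mul]
      exact pow_le_pow_left₀ (by (clear * - hR10; positivity)) (hR1h j) _
    calc U1 ^ x.1.1 * U ^ x.1.2 * R1 ^ (2 * m) * ∏ j, ‖(((s j : ℤ) : ℂ) * h j) ^ x.2 j‖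
        = (U1 ^ x.1.1 * U ^ x.1.2) *
            (R1 ^ (2 * m) * ∏ j, ‖(((s j : ℤ) : ℂ) * h j) ^ x.2 j‖) := by ring
      _ ≤ (U ^ x.1.1 * U ^ x.1.2) * (2 * A * T) ^ (2 * m) := by gcongr
      _ = (2 * A) ^ (2 * m) * (U ^ i * T ^ (2 * m)) := by
          rw [← pow_add, hx1, mul_pow]
          ring
  have hKle : (2 * A) ^ (2 * m) * Ke ≤ max 1 ((2 * A) ^ (2 * m) * Ke) := le_max_right _ _
  have hUT : 0 ≤ U ^ i * T ^ (2 * m) := by positivity
  refine ⟨fun x τ k => F x * cf x τ k,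
    fun N => ((u1 N : ℂ) / U1) ^ i * (r N / R1) ^ (2 * m), ω, ?_, ?_⟩
  · intro x hx τ k
    rw [norm_mul]
    calc ‖F x‖ * ‖cf x τ k‖ ≤ ((2 * A) ^ (2 * m) * (U ^ i * T ^ (2 * m))) * Ke :=
          mul_le_mul (hFn x hx) (hcf1 x hx τ k) (norm_nonneg _) (by positivity)
      _ = ((2 * A) ^ (2 * m) * Ke) * (U ^ i * T ^ (2 * m)) := by ring
      _ ≤ _ := mul_le_mul_of_nonneg_right hKle hUT
  · intro N hN hs
    have hNf : N ∈ S.filter fun N => sg N = s := mem_filter.2 ⟨hN, hs⟩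
    obtain ⟨hNz, hu1, -, -, hNi, hj⟩ := hS N hN
    refine ⟨?_, hωρ N hN, ?_⟩
    · rw [norm_mul, norm_pow, norm_pow, norm_div, norm_div, Complex.norm_intCast,
        Complex.norm_real, Complex.norm_real, Real.norm_eq_abs, Real.norm_eq_abs,
        abs_of_pos hU10, abs_of_pos hR10]
      have h1 : |(u1 N : ℝ)| / U1 ≤ 1 := by
        rw [div_le_one hU10, hU1]
        exact hN1m N hNf
      have h2 : ‖r N‖ / R1 ≤ 1 := by
        rw [div_le_one hR10, hR1]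
        exact hN2m N hNf
      exact mul_le_one₀ (pow_le_one₀ (by (clear * - hu1 hU10; positivity)) h1) (by (clear * - hR10; positivity))
        (pow_le_one₀ (by (clear * - hR10; positivity)) h2)
    · intro x hx
      have hx' := hx
      rw [mons, mem_product, HasAntidiagonal.mem_antidiagonal, mem_piAntidiag] at hx'
      obtain ⟨hx1', hx2', -⟩ := hx'
      have hvi : ‖(N : ℂ)⁻¹‖ ≤ 1 / (2 * (2 * A ^ 2)) := by
        refine hNi.trans (le_of_eq ?_)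
        congr 1
        ring
      have hω2 : ‖ω N‖ ≤ 1 / 2 := (hωρ N hN).trans hρ2
      have hE := hcf2 x hx (N : ℂ)⁻¹ (ω N) hvi hω2
      refine ⟨F x * ((x0 + x1 * ω N) ^ x.1.2 * (∏ j, brsq (-(α j * (N : ℂ)⁻¹)) ^ x.2 j) *
            (∏ j, isq (b j * ω N) ^ x.2 j) -
          ∑ τ ∈ Finset.range R, ∑ k ∈ Finset.range R,
            cf x τ k * (N : ℂ)⁻¹ ^ τ * ω N ^ k), ?_, ?_⟩
      · rw [norm_mul]
        calc _ ≤ ((2 * A) ^ (2 * m) * (U ^ i * T ^ (2 * m))) *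
              (Ke * (‖(N : ℂ)⁻¹‖ ^ R + ‖ω N‖ ^ R)) :=
              mul_le_mul (hFn x hx) hE (norm_nonneg _) (by positivity)
          _ = ((2 * A) ^ (2 * m) * Ke) * (U ^ i * T ^ (2 * m)) *
              (‖(N : ℂ)⁻¹‖ ^ R + ‖ω N‖ ^ R) := by ring
          _ ≤ _ := by
              refine mul_le_mul_of_nonneg_right ?_ (by (clear * -; positivity))
              exact mul_le_mul_of_nonneg_right hKle hUT
      · have h1 : ∑ τ ∈ Finset.range R, ∑ k ∈ Finset.range R,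
            F x * cf x τ k * (N : ℂ)⁻¹ ^ τ * ω N ^ k =
            F x * ∑ τ ∈ Finset.range R, ∑ k ∈ Finset.range R,
              cf x τ k * (N : ℂ)⁻¹ ^ τ * ω N ^ k := by
          rw [mul_sum]
          refine sum_congr rfl fun τ _ => ?_
          rw [mul_sum]
          exact sum_congr rfl fun k _ => by ring
        rw [h1, ← mul_add, add_sub_cancel, hF]
        unfold fv
        have h2 : ∀ j, pi N j = ((s j : ℤ) : ℂ) *
            (r N * h j * (brsq (-(α j * (N : ℂ)⁻¹)) * isq (b j * ω N))) := by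
          intro j
          have := hsg N j hN
          rw [hs] at this
          exact this
        have h3 : ∏ j, pi N j ^ x.2 j = ∏ j, (((s j : ℤ) : ℂ) *
            (r N * h j * (brsq (-(α j * (N : ℂ)⁻¹)) * isq (b j * ω N)))) ^ x.2 j :=
          prod_congr rfl fun j _ => by rw [h2 j]
        rw [h3, ← hx1']
        refine ent_alg x.1.1 x.1.2 m x.2 hx2' (u1 N) (u2 N) U U1 R1 (r N) (x0 + x1 * ω N) _ h _ _
          (by exact_mod_cast hU10.ne') (by exact_mod_cast hR10.ne') ?_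
        have h4 : (u1 N : ℂ) ≠ 0 := by exact_mod_cast hu1
        have h5 : (U : ℂ) ≠ 0 := by exact_mod_cast hU0.ne'
        rw [hx0, hx1, hω, hw]
        push_cast
        field_simp
        ring

end Vale.Agent.P018.QB
end

section

/-! # P018, quartics, family (B): the curves `A n = B`. -/

namespace Vale.Agent.P018.Q

open Polynomial

variable {k : Type*} [Field k]

/-- a constant divisible by `A n - B`, `A ≠ 0`, is zero. -/
theorem lin_dvd_C {A B r : k[X]} (hA : A ≠ 0) (h : (C A * X - C B : k[X][X]) ∣ C r) : r = 0 := by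
  by_contra hr
  have hd : (C A * X - C B : k[X][X]).natDegree = 1 := by
    have h1 : (C A * X - C B : k[X][X]) = C A * X + C (-B) := by rw [C_neg]; ring
    rw [h1, natDegree_linear hA]
  have h2 := natDegree_le_of_dvd h (by rwa [Ne, C_eq_zero])
  rw [hd, natDegree_C] at h2
  omega

theorem lin_dvd_cancel {A B : k[X]} (hA : A ≠ 0) (hAB : IsCoprime A B) {h : k[X][X]}
    (hd : (C A * X - C B : k[X][X]) ∣ C A * h) : (C A * X - C B : k[X][X]) ∣ h := by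
  obtain ⟨q, hq⟩ := hd
  have hc : IsCoprime (C A : k[X][X]) (C B) := by
    have := hAB.map (C : k[X] →+* k[X][X])
    exact this
  have h1 : (C A : k[X][X]) ∣ C B * q := ⟨X * q - h, by linear_combination hq⟩
  obtain ⟨q', hq'⟩ := hc.dvd_of_dvd_mul_left h1
  refine ⟨q', ?_⟩
  have hCA : (C A : k[X][X]) ≠ 0 := by rwa [Ne, C_eq_zero]
  apply mul_left_cancel₀ hCA
  rw [hq, hq']
  ring

theorem lin_dvd_cancel_pow {A B : k[X]} (hA : A ≠ 0) (hAB : IsCoprime A B) {h : k[X][X]} (N : ℕ)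
    (hd : (C A * X - C B : k[X][X]) ∣ C A ^ N * h) : (C A * X - C B : k[X][X]) ∣ h := by
  induction N with
  | zero => simpa using hd
  | succ N ih =>
    apply ih
    apply lin_dvd_cancel hA hAB
    have : (C A : k[X][X]) * (C A ^ N * h) = C A ^ (N + 1) * h := by ring
    rwa [this]

theorem lin_exists_const (A B : k[X]) (h : k[X][X]) :
    ∃ (N : ℕ) (r : k[X]), (C A * X - C B : k[X][X]) ∣ C A ^ N * h - C r := by
  induction h using Polynomial.induction_on' with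
  | add p q hp hq =>
    obtain ⟨N₁, r₁, h₁⟩ := hp
    obtain ⟨N₂, r₂, h₂⟩ := hq
    refine ⟨N₁ + N₂, A ^ N₂ * r₁ + A ^ N₁ * r₂, ?_⟩
    have : (C A : k[X][X]) ^ (N₁ + N₂) * (p + q) - C (A ^ N₂ * r₁ + A ^ N₁ * r₂)
        = C A ^ N₂ * (C A ^ N₁ * p - C r₁) + C A ^ N₁ * (C A ^ N₂ * q - C r₂) := by
      rw [C_add, C_mul, C_mul, C_pow, C_pow]; ring
    rw [this]
    exact dvd_add (Dvd.dvd.mul_left h₁ _) (Dvd.dvd.mul_left h₂ _)
  | monomial n a =>
    refine ⟨n, B ^ n * a, ?_⟩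
    have : (C A : k[X][X]) ^ n * monomial n a - C (B ^ n * a)
        = C a * ((C A * X) ^ n - (C B) ^ n) := by
      rw [← C_mul_X_pow_eq_monomial, C_mul, C_pow]; ring
    rw [this]
    exact Dvd.dvd.mul_left (sub_dvd_pow_sub_pow _ _ n) _

/-- criterion: if `f_i f_j ϖ_i ϖ_j` is not a square in the fraction field, then `NSq`. -/
theorem lin_nsq_crit {θ : Fin 4 → k} {ϖ : Fin 4 → k[X]} {A B : k[X]} (hA : A ≠ 0)
    (hAB : IsCoprime A B) (i j : Fin 4)
    (hns : ∀ r s : k[X], r ^ 2 = (B - C (θ i) * A) * (B - C (θ j) * A) * (ϖ i * ϖ j) * s ^ 2 →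
      s = 0) : NSq θ ϖ (C A * X - C B) i j := by
  intro f h hfh
  obtain ⟨N₁, r, h₁⟩ := lin_exists_const A B f
  obtain ⟨N₂, s, h₂⟩ := lin_exists_const A B h
  set g : k[X][X] := C A * X - C B with hg
  -- work modulo `g`
  have hC : g ∣ C ((A ^ (1 + N₂) * r) ^ 2 - (B - C (θ i) * A) * (B - C (θ j) * A) * (ϖ i * ϖ j)
      * (A ^ N₁ * s) ^ 2) := by
    obtain ⟨e, he⟩ := hfh
    obtain ⟨e₁, he₁⟩ := h₁
    obtain ⟨e₂, he₂⟩ := h₂
    have hr : (C r : k[X][X]) = C A ^ N₁ * f - g * e₁ := by rw [← he₁]; ring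
    have hs : (C s : k[X][X]) = C A ^ N₂ * h - g * e₂ := by rw [← he₂]; ring
    have hfi : ∀ l : Fin 4, (C (B - C (θ l) * A) : k[X][X]) = C A * lin (θ l) - g := by
      intro l
      rw [hg, lin, C_sub, C_mul]; ring
    have hf2 : f ^ 2 = lin (θ i) * lin (θ j) * C (ϖ i * ϖ j) * h ^ 2 + g * e := by
      rw [← he]; ring
    have hexp : (C ((A ^ (1 + N₂) * r) ^ 2 - (B - C (θ i) * A) * (B - C (θ j) * A) * (ϖ i * ϖ j)
        * (A ^ N₁ * s) ^ 2) : k[X][X]) = (C A ^ (1 + N₂) * C r) ^ 2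
        - C (B - C (θ i) * A) * C (B - C (θ j) * A) * C (ϖ i * ϖ j) * (C A ^ N₁ * C s) ^ 2 := by
      simp only [C_sub, C_mul, C_pow]
    rw [hexp, hfi i, hfi j, hr, hs]
    have hkey : ∀ a l₁ l₂ w F H x y E : k[X][X], F ^ 2 = l₁ * l₂ * w * H ^ 2 + g * E →
        g ∣ (a ^ (1 + N₂) * (a ^ N₁ * F - g * x)) ^ 2
          - (a * l₁ - g) * (a * l₂ - g) * w * (a ^ N₁ * (a ^ N₂ * H - g * y)) ^ 2 := by
      intro a l₁ l₂ w F H x y E hF
      refine ⟨a ^ (2 + 2 * N₂ + 2 * N₁) * E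
        + a ^ (2 + 2 * N₂) * (- 2 * a ^ N₁ * F * x + g * x ^ 2)
        - (a * l₁ - g) * (a * l₂ - g) * w * a ^ (2 * N₁) * (- 2 * a ^ N₂ * H * y + g * y ^ 2)
        - (- a * l₁ - a * l₂ + g) * w * a ^ (2 * N₁ + 2 * N₂) * H ^ 2, ?_⟩
      linear_combination (a ^ (2 + 2 * N₂ + 2 * N₁)) * hF
    exact hkey _ _ _ _ _ _ _ _ _ hf2
  have h0 := lin_dvd_C hA hC
  have hs0 : A ^ N₁ * s = 0 := hns _ _ (sub_eq_zero.mp h0)
  have hs : s = 0 := by
    rcases mul_eq_zero.mp hs0 with h3 | h3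
    · exact absurd h3 (pow_ne_zero _ hA)
    · exact h3
  apply lin_dvd_cancel_pow hA hAB N₂
  rw [hs, C_0, sub_zero] at h₂
  exact h₂

theorem lin_cop {a b : k} (hab : a ≠ b) {A B : k[X]} (hAB : IsCoprime A B) :
    IsCoprime (B - C a * A) (B - C b * A) := by
  obtain ⟨u, v, huv⟩ := hAB
  have hne : b - a ≠ 0 := sub_ne_zero.mpr (Ne.symm hab)
  refine ⟨C (b - a)⁻¹ * (u + v * C b), C (b - a)⁻¹ * (- u - v * C a), ?_⟩
  have h1 : (C (b - a)⁻¹ : k[X]) * C (b - a) = 1 := by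
    rw [← C_mul, inv_mul_cancel₀ hne, C_1]
  have h2 : (C (b - a) : k[X]) = C b - C a := C_sub
  rw [h2] at h1
  linear_combination (C (b - a)⁻¹ * (C b - C a)) * huv + h1

/-- the common algebra: from a relation `r² = f_i f_j ϖ_i ϖ_j s²` we get a polynomial square. -/
theorem lin_square {F w r s : k[X]} (hs : s ≠ 0) (h : r ^ 2 = F * w * s ^ 2) :
    ∃ t, t ^ 2 = F * w := by
  have h1 : s ^ 2 ∣ r ^ 2 := ⟨F * w, by rw [h]; ring⟩
  have h2 : s ∣ r := (UniqueFactorizationMonoid.pow_dvd_pow_iff_dvd two_ne_zero).mp h1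
  obtain ⟨t, rfl⟩ := h2
  refine ⟨t, ?_⟩
  apply mul_left_cancel₀ (pow_ne_zero 2 hs)
  linear_combination h

theorem lin_ne_zero {w : k[X]} (hw : w.natDegree = 1) : w ≠ 0 := by
  rintro rfl
  simp at hw

theorem lin_prime {w : k[X]} (hw : w.natDegree = 1) : Prime w := by
  have : w.degree = 1 := by
    rw [degree_eq_natDegree (lin_ne_zero hw), hw]; rfl
  exact (irreducible_of_degree_eq_one this).prime

theorem lin_assoc {w w' h h' t : k[X]} (hw : w ≠ 0) (hw' : w' ≠ 0) (hh : IsCoprime h h')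
    (ht : t ^ 2 = (w * h) * (w' * h') * (w * w')) :
    ∃ (c : k) (K : k[X]), c ≠ 0 ∧ h = C c * K ^ 2 := by
  have h1 : (w * w') ^ 2 ∣ t ^ 2 := ⟨h * h', by rw [ht]; ring⟩
  have h2 : w * w' ∣ t := (UniqueFactorizationMonoid.pow_dvd_pow_iff_dvd two_ne_zero).mp h1
  obtain ⟨u, rfl⟩ := h2
  have h3 : h * h' = u ^ 2 := by
    apply mul_left_cancel₀ (pow_ne_zero 2 (mul_ne_zero hw hw'))
    linear_combination -ht
  obtain ⟨d, hd⟩ := exists_associated_pow_of_mul_eq_pow' hh h3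
  obtain ⟨v, hv⟩ := hd
  obtain ⟨c, hc, hcv⟩ := Polynomial.isUnit_iff.mp v.isUnit
  refine ⟨c, d, hc.ne_zero, ?_⟩
  rw [← hv, ← hcv]; ring

/-- the curve `A n = B`: either some `x_i x_j` is not a square, or all `B - θ_j A` are, up to
constants, `ϖ_j` times a square. -/
theorem lin_dichotomy {θ : Fin 4 → k} {ϖ : Fin 4 → k[X]} (hc : Conf θ ϖ)
    {A B : k[X]} (hA : A ≠ 0) (hAB : IsCoprime A B) :
    (∃ i j, i ≠ j ∧ NSq θ ϖ (C A * X - C B) i j) ∨
      ∀ j, ∃ (c : k) (K : k[X]), c ≠ 0 ∧ B - C (θ j) * A = C c * ϖ j * K ^ 2 := by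
  by_cases hex : ∃ i j, i ≠ j ∧ NSq θ ϖ (C A * X - C B) i j
  · exact Or.inl hex
  right
  push Not at hex
  have hsq : ∀ i j, i ≠ j →
      ∃ t : k[X], t ^ 2 = (B - C (θ i) * A) * (B - C (θ j) * A) * (ϖ i * ϖ j) := by
    intro i j hij
    by_contra hno
    apply hex i j hij
    apply lin_nsq_crit hA hAB
    intro r s hrs
    by_contra hs
    exact hno (lin_square hs hrs)
  have hpr : ∀ i, Prime (ϖ i) := fun i => lin_prime (hc.deg i)
  have hcop : ∀ i j, i ≠ j → IsCoprime (B - C (θ i) * A) (B - C (θ j) * A) :=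
    fun i j hij => lin_cop (fun h => hij (hc.inj h)) hAB
  have hnd : ∀ i j, i ≠ j → ¬ ϖ i ∣ ϖ j := by
    intro i j hij h
    have := (hc.cop i j hij).isUnit_of_dvd' dvd_rfl h
    exact (hpr i).not_isUnit this
  have hdv0 : ∀ i j, i ≠ j → ¬ ϖ i ∣ B - C (θ j) * A → ϖ i ∣ B - C (θ i) * A := by
    intro i j hij hn
    obtain ⟨t, ht⟩ := hsq i j hij
    have h1 : ϖ i ∣ t := by
      apply (hpr i).dvd_of_dvd_pow (n := 2)
      rw [ht]
      exact Dvd.dvd.mul_left (dvd_mul_right _ _) _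
    obtain ⟨u, rfl⟩ := h1
    have h2 : ϖ i ∣ (B - C (θ i) * A) * (B - C (θ j) * A) * ϖ j := by
      refine ⟨u ^ 2, ?_⟩
      apply mul_left_cancel₀ (hpr i).ne_zero
      linear_combination -ht
    rcases (hpr i).dvd_or_dvd h2 with h3 | h3
    · rcases (hpr i).dvd_or_dvd h3 with h4 | h4
      · exact h4
      · exact absurd h4 hn
    · exact absurd h3 (hnd i j hij)
  have hdv : ∀ i, ϖ i ∣ B - C (θ i) * A := by
    intro i
    obtain ⟨j, j', hj, hj', hjj'⟩ : ∃ j j' : Fin 4, i ≠ j ∧ i ≠ j' ∧ j ≠ j' := by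
      fin_cases i
      · exact ⟨1, 2, by decide, by decide, by decide⟩
      · exact ⟨0, 2, by decide, by decide, by decide⟩
      · exact ⟨0, 1, by decide, by decide, by decide⟩
      · exact ⟨0, 1, by decide, by decide, by decide⟩
    by_cases h : ϖ i ∣ B - C (θ j) * A
    · apply hdv0 i j' hj'
      intro h'
      exact (hpr i).not_isUnit ((hcop j j' hjj').isUnit_of_dvd' h h')
    · exact hdv0 i j hj h
  intro i
  obtain ⟨j, hij⟩ : ∃ j : Fin 4, i ≠ j := by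
    fin_cases i
    · exact ⟨1, by decide⟩
    · exact ⟨0, by decide⟩
    · exact ⟨0, by decide⟩
    · exact ⟨0, by decide⟩
  obtain ⟨hi, ei⟩ := hdv i
  obtain ⟨hj, ej⟩ := hdv j
  obtain ⟨t, ht⟩ := hsq i j hij
  have hch : IsCoprime hi hj := by
    have h1 := hcop i j hij
    rw [ei, ej] at h1
    exact h1.of_mul_left_right.of_mul_right_right
  rw [ei, ej] at ht
  obtain ⟨c, K, hc0, hK⟩ := lin_assoc (hpr i).ne_zero (hpr j).ne_zero hch ht
  refine ⟨c, K, hc0, ?_⟩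
  rw [ei, hK]; ring

/-- the orders on the curve `A n = B` are `≤ 1`. -/
theorem lin_ord {θ : Fin 4 → k} {ϖ : Fin 4 → k[X]} (hc : Conf θ ϖ)
    {A B : k[X]} (hA : A ≠ 0) (hAB : IsCoprime A B) {w : ℕ} (j : Fin 4)
    (hw : C (ϖ j) ^ w ∣ tw (θ j) (ϖ j) (C A * X - C B)) :
    w ≤ 1 ∧ (w = 1 → ϖ j ∣ B - C (θ j) * A) := by
  have htw : tw (θ j) (ϖ j) (C A * X - C B) = C (A * C (θ j) - B) + C (A * ϖ j) * X := by
    rw [tw, sub_comp, mul_comp, C_comp, X_comp, C_comp, C_sub, C_mul, C_mul]; ring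
  rw [htw, ← C_pow, C_dvd_iff_dvd_coeff] at hw
  have h0 : ϖ j ^ w ∣ A * C (θ j) - B := by simpa using hw 0
  have h1 : ϖ j ^ w ∣ A * ϖ j := by
    have := hw 1
    simpa [coeff_C] using this
  have hpr : Prime (ϖ j) := lin_prime (hc.deg j)
  constructor
  · by_contra hw2
    push Not at hw2
    have h2 : ϖ j ^ 2 ∣ A * ϖ j := (pow_dvd_pow _ hw2).trans h1
    have h3 : ϖ j ∣ A := by
      obtain ⟨q, hq⟩ := h2
      refine ⟨q, ?_⟩
      apply mul_right_cancel₀ hpr.ne_zero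
      rw [hq]; ring
    have h4 : ϖ j ∣ A * C (θ j) - B := (dvd_pow_self _ (by omega)).trans h0
    have h5 : ϖ j ∣ B := by
      have : B = A * C (θ j) - (A * C (θ j) - B) := by ring
      rw [this]
      exact dvd_sub (Dvd.dvd.mul_right h3 _) h4
    exact hpr.not_isUnit (hAB.isUnit_of_dvd' h3 h5)
  · intro hw1
    rw [hw1, pow_one] at h0
    have : B - C (θ j) * A = - (A * C (θ j) - B) := by ring
    rw [this, dvd_neg]
    exact h0

/-- in the case `deg ≤ 2`, all orders `1`, all `x_i x_j`, `i ≠ j`, are non squares. -/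
theorem lin_nsq_all {θ : Fin 4 → k} {ϖ : Fin 4 → k[X]} (hc : Conf θ ϖ)
    {A B : k[X]} (hA : A ≠ 0) (hAB : IsCoprime A B) (hdA : A.natDegree ≤ 2)
    (hdB : B.natDegree ≤ 2) (h2 : A.natDegree = 2 ∨ B.natDegree = 2)
    (hw : ∀ j, ϖ j ∣ B - C (θ j) * A) : ∀ i j, i ≠ j → NSq θ ϖ (C A * X - C B) i j := by
  intro i j hij
  apply lin_nsq_crit hA hAB
  intro r s hrs
  by_contra hs
  obtain ⟨t, ht⟩ := lin_square hs hrs
  have hcop : IsCoprime (B - C (θ i) * A) (B - C (θ j) * A) :=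
    lin_cop (fun h => hij (hc.inj h)) hAB
  have hpr : ∀ i, Prime (ϖ i) := fun i => lin_prime (hc.deg i)
  obtain ⟨a, ea⟩ := hw i
  obtain ⟨b, eb⟩ := hw j
  have hch : IsCoprime a b := by
    have h1 := hcop
    rw [ea, eb] at h1
    exact h1.of_mul_left_right.of_mul_right_right
  have hdeg : ∀ l : Fin 4, (B - C (θ l) * A).natDegree ≤ 2 := by
    intro l
    apply (natDegree_sub_le _ _).trans
    refine max_le hdB ((natDegree_C_mul_le _ _).trans hdA)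
  -- a factor which is a constant times a square has degree zero
  have hsmall : ∀ (l : Fin 4) (p : k[X]), B - C (θ l) * A = ϖ l * p →
      (∃ (c : k) (K : k[X]), c ≠ 0 ∧ p = C c * K ^ 2) → (B - C (θ l) * A).natDegree ≤ 1 := by
    rintro l p hp ⟨c, K, hc0, hK⟩
    by_cases hK0 : K = 0
    · rw [hp, hK, hK0]; simp
    have hp0 : p ≠ 0 := by
      rw [hK]
      exact mul_ne_zero (by rwa [Ne, C_eq_zero]) (pow_ne_zero _ hK0)
    have h1 := hdeg l
    have h3 : p.natDegree = 2 * K.natDegree := by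
      rw [hK, natDegree_C_mul hc0, natDegree_pow]
    rw [hp, natDegree_mul (hpr l).ne_zero hp0, hc.deg l, h3] at h1 ⊢
    omega
  have hdi : (B - C (θ i) * A).natDegree ≤ 1 := by
    apply hsmall i a ea
    rw [ea, eb] at ht
    exact lin_assoc (hpr i).ne_zero (hpr j).ne_zero hch ht
  have hdj : (B - C (θ j) * A).natDegree ≤ 1 := by
    apply hsmall j b eb
    rw [ea, eb] at ht
    refine lin_assoc (hpr j).ne_zero (hpr i).ne_zero hch.symm (t := t) ?_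
    rw [ht]; ring
  have hne : θ j - θ i ≠ 0 := sub_ne_zero.mpr (fun h => hij (hc.inj h).symm)
  have hA1 : A.natDegree ≤ 1 := by
    have h1 : C (θ j - θ i) * A = (B - C (θ i) * A) - (B - C (θ j) * A) := by
      rw [C_sub]; ring
    have h3 : (C (θ j - θ i) * A).natDegree ≤ 1 := by
      rw [h1]
      exact (natDegree_sub_le _ _).trans (max_le hdi hdj)
    rwa [natDegree_C_mul hne] at h3
  have hB1 : B.natDegree ≤ 1 := by
    have h1 : B = (B - C (θ i) * A) + C (θ i) * A := by ring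
    rw [h1]
    exact (natDegree_add_le _ _).trans (max_le hdi ((natDegree_C_mul_le _ _).trans hA1))
  omega

end Vale.Agent.P018.Q
end

section

/-! # P018, (B): auxiliary lemmas for `curve_count`. -/

namespace Vale.Agent.P018.QB

open Polynomial NumberField Vale.Agent.P018.Q

variable {L : Type} [Field L] [NumberField L]

/-- Vandermonde. -/
theorem cc_vander {R : Type*} [CommRing R] [IsDomain R] {θ : Fin 4 → R}
    (hθ : Function.Injective θ) {a : Fin 4 → R}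
    (h : ∀ j, ∑ m : Fin 4, a m * θ j ^ (m : ℕ) = 0) : a = 0 := by
  have h1 : (Matrix.vandermonde θ).mulVec a = 0 := by
    funext j
    simp only [Matrix.mulVec, dotProduct, Matrix.vandermonde_apply, Pi.zero_apply]
    rw [← h j]
    exact Finset.sum_congr rfl fun m _ => mul_comm _ _
  exact Matrix.eq_zero_of_mulVec_eq_zero (Matrix.det_vandermonde_ne_zero_iff.mpr hθ) h1

/-- counting proportional integer vectors of bounded content. -/
theorem cc_prop_count (M : ℕ) (V : Finset (Fin 4 → ℤ)) (h0 : ∀ v ∈ V, v ≠ 0)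
    (hp : ∀ v ∈ V, ∀ w ∈ V, ∀ a b, v a * w b = v b * w a)
    (hc : ∀ v ∈ V, ∀ d : ℤ, (∀ a, d ∣ v a) → |d| ≤ M) : V.card ≤ (2 * M + 1) * (M + 1) := by
  classical
  rcases V.eq_empty_or_nonempty with rfl | ⟨w, hw⟩
  · simp
  obtain ⟨a, ha⟩ : ∃ a, w a ≠ 0 := by
    by_contra hcon
    push Not at hcon
    exact h0 w hw (funext hcon)
  have haQ : (w a : ℚ) ≠ 0 := by exact_mod_cast ha
  set r : (Fin 4 → ℤ) → ℚ := fun v => (v a : ℚ) / w a with hr
  -- every vector is a multiple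
  have key : ∀ v ∈ V, ∀ b, (v b : ℚ) = r v * w b := by
    intro v hv b
    have h1 := hp v hv w hw a b
    have h2 : (v a : ℚ) * w b = v b * w a := by exact_mod_cast h1
    rw [hr]
    field_simp
    linarith
  have key2 : ∀ v ∈ V, ∀ b, v b * (r v).den = (r v).num * w b := by
    intro v hv b
    have h1 := key v hv b
    have h2 : (r v : ℚ) * (r v).den = (r v).num := Rat.mul_den_eq_num _
    have h3 : (v b : ℚ) * (r v).den = (r v).num * w b := by
      rw [h1, ← h2]; ring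
    exact_mod_cast h3
  have hcop : ∀ v, IsCoprime (r v).num ((r v).den : ℤ) := fun v =>
    Rat.isCoprime_num_den (r v)
  have hnum : ∀ v ∈ V, |(r v).num| ≤ M := by
    intro v hv
    refine hc v hv _ fun b => ?_
    exact (hcop v).dvd_of_dvd_mul_right ⟨w b, key2 v hv b⟩
  have hden : ∀ v ∈ V, ((r v).den : ℤ) ≤ M := by
    intro v hv
    have h1 := hc w hw ((r v).den : ℤ) fun b => by
      refine (hcop v).symm.dvd_of_dvd_mul_left ⟨v b, ?_⟩
      rw [← key2 v hv b]; ring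
    exact (le_abs_self _).trans h1
  have hmap : ∀ v ∈ V, ((r v).num, (r v).den) ∈ (Finset.Icc (-(M : ℤ)) M) ×ˢ Finset.range (M + 1) := by
    intro v hv
    rw [Finset.mem_product, Finset.mem_Icc, Finset.mem_range]
    have h1 := abs_le.1 (hnum v hv)
    have h2 := hden v hv
    refine ⟨⟨h1.1, h1.2⟩, ?_⟩
    have : (r v).den ≤ M := by exact_mod_cast h2
    simpa using Nat.lt_succ_of_le this
  have hinj : Set.InjOn (fun v => ((r v).num, (r v).den)) (V : Set (Fin 4 → ℤ)) := by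
    intro v hv v' hv' hvv
    simp only [Prod.mk.injEq] at hvv
    have h1 : r v = r v' := by
      rw [← Rat.num_div_den (r v), ← Rat.num_div_den (r v'), hvv.1, hvv.2]
    funext b
    have h2 : (v b : ℚ) = v' b := by
      rw [key v hv b, key v' hv' b, h1]
    exact_mod_cast h2
  calc V.card ≤ ((Finset.Icc (-(M : ℤ)) M) ×ˢ Finset.range (M + 1)).card :=
        Finset.card_le_card_of_injOn _ hmap hinj
    _ = (2 * M + 1) * (M + 1) := by
        rw [Finset.card_product, Int.card_Icc, Finset.card_range]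
        congr 1
        omega

/-- divisors of a fixed integer are bounded. -/
theorem cc_dvd_bound (d : ℤ) (x : 𝓞 L) (hx : x ≠ 0) (h : (d : 𝓞 L) ∣ x) :
    |d| ≤ |Algebra.norm ℤ x| := by
  obtain ⟨y, rfl⟩ := h
  rw [map_mul, abs_mul]
  have hy : y ≠ 0 := fun h0 => hx (by rw [h0, mul_zero])
  have hd : (d : 𝓞 L) ≠ 0 := fun h0 => hx (by rw [h0, zero_mul])
  have hd0 : d ≠ 0 := by rintro rfl; simp at hd
  have h1 : (1 : ℤ) ≤ |Algebra.norm ℤ y| := Int.one_le_abs (Algebra.norm_ne_zero_iff.2 hy)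
  have h2 : Algebra.norm ℤ (d : 𝓞 L) = d ^ (Fintype.card (Module.Free.ChooseBasisIndex ℤ (𝓞 L))) := by
    have := Algebra.norm_algebraMap_of_basis (RingOfIntegers.basis L) d
    simpa using this
  have h3 : (Fintype.card (Module.Free.ChooseBasisIndex ℤ (𝓞 L))) ≠ 0 := by
    have : Nonempty (Module.Free.ChooseBasisIndex ℤ (𝓞 L)) := (RingOfIntegers.basis L).index_nonempty
    exact Fintype.card_ne_zero
  have h4 : |d| ≤ |Algebra.norm ℤ (d : 𝓞 L)| := by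
    rw [h2, abs_pow]
    exact le_self_pow₀ (Int.one_le_abs hd0) h3
  linarith only [mul_nonneg (sub_nonneg.2 h1) (sub_nonneg.2 (abs_nonneg (Algebra.norm ℤ (d : 𝓞 L)))), h4]

/-- the bound for contents. -/
noncomputable def ccM (θ : Fin 4 → 𝓞 L) (C : ℕ) : ℕ :=
  ∑ c ∈ Finset.Icc (-(C : ℤ)) C, (Algebra.norm ℤ ((c : 𝓞 L) * (θ 1 - θ 0))).natAbs

theorem cc_ccM {θ : Fin 4 → 𝓞 L} (hθ : Function.Injective θ) {C : ℕ} {c : ℤ} (hc : c ≠ 0)
    (hcC : |c| ≤ C) {d : ℤ} (h : (d : 𝓞 L) ∣ (c : 𝓞 L) * (θ 1 - θ 0)) : |d| ≤ ccM θ C := by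
  have hx : (c : 𝓞 L) * (θ 1 - θ 0) ≠ 0 := by
    refine mul_ne_zero (by exact_mod_cast hc) (sub_ne_zero.2 fun h => ?_)
    exact absurd (hθ h) (by decide)
  refine (cc_dvd_bound d _ hx h).trans ?_
  rw [Int.abs_eq_natAbs]
  have h2 : (Algebra.norm ℤ ((c : 𝓞 L) * (θ 1 - θ 0))).natAbs ≤ ccM θ C :=
    Finset.single_le_sum (f := fun c : ℤ => (Algebra.norm ℤ ((c : 𝓞 L) * (θ 1 - θ 0))).natAbs)
      (fun _ _ => Nat.zero_le _) (Finset.mem_Icc.2 (abs_le.1 hcC))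
  exact_mod_cast h2

theorem cc_content {θ : Fin 4 → 𝓞 L} (hθ : Function.Injective θ) {C : ℕ} {X T : ℝ} {N : ℤ}
    {p : ℕ} {c : ℤ} {y z : Fin 4 → ℤ} (hD : Dat θ C X T N p c y z) (d : ℤ)
    (h : (∀ a, d ∣ z a) ∨ (∀ a, d ∣ y a)) : |d| ≤ ccM θ C := by
  refine cc_ccM hθ hD.c0 hD.cC ?_
  have h0 := hD.eqn 0
  have h1 := hD.eqn 1
  have e : (c : 𝓞 L) * (θ 1 - θ 0) = K.ell (θ 0) y ^ 2 * K.ell (θ 0) z -
      K.ell (θ 1) y ^ 2 * K.ell (θ 1) z := by
    rw [← h0, ← h1]; ring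
  have hell : ∀ (w : Fin 4 → ℤ) (t : 𝓞 L), (∀ a, d ∣ w a) → (d : 𝓞 L) ∣ K.ell t w := by
    intro w t hw
    unfold K.ell
    refine Finset.dvd_sum fun a _ => Dvd.dvd.mul_right ?_ _
    obtain ⟨e, he⟩ := hw a
    exact ⟨(e : 𝓞 L), by rw [he]; push_cast; ring⟩
  rw [e]
  rcases h with h | h
  · exact dvd_sub ((hell z _ h).mul_left _) ((hell z _ h).mul_left _)
  · exact dvd_sub ((dvd_pow (hell y _ h) two_ne_zero).mul_right _)
      ((dvd_pow (hell y _ h) two_ne_zero).mul_right _)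

/-- counting via the fibres of `v`. -/
theorem cc_fibre (K M : ℕ) (S : Finset ℤ) (v : ℤ → Fin 4 → ℤ) (h0 : ∀ N ∈ S, v N ≠ 0)
    (hp : ∀ N ∈ S, ∀ N' ∈ S, ∀ a b, v N a * v N' b = v N b * v N' a)
    (hc : ∀ N ∈ S, ∀ d : ℤ, (∀ a, d ∣ v N a) → |d| ≤ M)
    (hf : ∀ w, ∀ S' ⊆ S, (∀ N ∈ S', v N = w) → S'.card ≤ K) :
    S.card ≤ K * ((2 * M + 1) * (M + 1)) := by
  classical
  refine (Finset.card_le_mul_card_image (f := v) S K fun w _ => ?_).trans
    (Nat.mul_le_mul_left _ (cc_prop_count M (S.image v) ?_ ?_ ?_))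
  · exact hf w _ (Finset.filter_subset _ _) fun N hN => (Finset.mem_filter.1 hN).2
  · intro x hx
    obtain ⟨N, hN, rfl⟩ := Finset.mem_image.1 hx
    exact h0 N hN
  · intro x hx x' hx' a b
    obtain ⟨N, hN, rfl⟩ := Finset.mem_image.1 hx
    obtain ⟨N', hN', rfl⟩ := Finset.mem_image.1 hx'
    exact hp N hN N' hN' a b
  · intro x hx d hd
    obtain ⟨N, hN, rfl⟩ := Finset.mem_image.1 hx
    exact hc N hN d hd

/-- constant direction up to signs. -/
theorem cc_signs {θ : Fin 4 → 𝓞 L} (hθ : Function.Injective θ) (φ : L →+* ℂ) (r : Fin 4 → ℂ)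
    (hr : ∀ j, r j ≠ 0) (Kf M : ℕ) (S : Finset ℤ) (y : ℤ → Fin 4 → ℤ)
    (hy : ∀ N ∈ S, ∀ j, K.ell (θ j) (y N) ≠ 0)
    (h : ∀ N ∈ S, ∀ j, r 0 * φ ((K.ell (θ j) (y N) : 𝓞 L) : L) ^ 2 =
      r j * φ ((K.ell (θ 0) (y N) : 𝓞 L) : L) ^ 2)
    (hc : ∀ N ∈ S, ∀ d : ℤ, (∀ a, d ∣ y N a) → |d| ≤ M)
    (hf : ∀ w, ∀ S' ⊆ S, (∀ N ∈ S', y N = w) → S'.card ≤ Kf) :
    S.card ≤ (Kf * ((2 * M + 1) * (M + 1))) * 16 := by
  classical
  rcases S.eq_empty_or_nonempty with rfl | ⟨N0, hN0⟩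
  · simp
  have hφ : Function.Injective (fun x : 𝓞 L => φ (x : L)) :=
    φ.injective.comp RingOfIntegers.coe_injective
  -- squares
  have hsq : ∀ N ∈ S, ∀ j, (K.ell (θ j) (y N) * K.ell (θ 0) (y N0)) ^ 2 =
      (K.ell (θ j) (y N0) * K.ell (θ 0) (y N)) ^ 2 := by
    intro N hN j
    apply hφ
    have h1 := h N hN j
    have h2 := h N0 hN0 j
    have h3 : φ (((K.ell (θ j) (y N) * K.ell (θ 0) (y N0)) ^ 2 : 𝓞 L) : L) =
        φ ((K.ell (θ j) (y N) : 𝓞 L) : L) ^ 2 * φ ((K.ell (θ 0) (y N0) : 𝓞 L) : L) ^ 2 := by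
      simp [mul_pow]
    have h4 : φ (((K.ell (θ j) (y N0) * K.ell (θ 0) (y N)) ^ 2 : 𝓞 L) : L) =
        φ ((K.ell (θ j) (y N0) : 𝓞 L) : L) ^ 2 * φ ((K.ell (θ 0) (y N) : 𝓞 L) : L) ^ 2 := by
      simp [mul_pow]
    change φ (((K.ell (θ j) (y N) * K.ell (θ 0) (y N0)) ^ 2 : 𝓞 L) : L) =
      φ (((K.ell (θ j) (y N0) * K.ell (θ 0) (y N)) ^ 2 : 𝓞 L) : L)
    rw [h3, h4]
    apply mul_left_cancel₀ (hr 0)
    rw [← mul_assoc, h1, ← mul_assoc, h2]
    ring
  set s : ℤ → Fin 4 → Bool := fun N j =>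
    decide (K.ell (θ j) (y N) * K.ell (θ 0) (y N0) = K.ell (θ j) (y N0) * K.ell (θ 0) (y N))
    with hs
  have hcard : (S.image s).card ≤ 16 := by
    refine (Finset.card_le_univ _).trans ?_
    simp
  refine (Finset.card_le_mul_card_image (f := s) S (Kf * ((2 * M + 1) * (M + 1)))
    fun w _ => ?_).trans (Nat.mul_le_mul_left _ hcard)
  refine cc_fibre Kf M _ y ?_ ?_ ?_ ?_
  · intro N hN h0
    refine hy N (Finset.mem_filter.1 hN).1 0 ?_
    rw [h0]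
    simp [K.ell]
  · intro N hN N' hN' a b
    obtain ⟨hN1, hN2⟩ := Finset.mem_filter.1 hN
    obtain ⟨hN'1, hN'2⟩ := Finset.mem_filter.1 hN'
    have hp : ∀ j, K.ell (θ j) (y N) * K.ell (θ 0) (y N') =
        K.ell (θ j) (y N') * K.ell (θ 0) (y N) := by
      intro j
      apply mul_right_cancel₀ (hy N0 hN0 0)
      have e : s N j = s N' j := by rw [hN2, hN'2]
      simp only [hs, decide_eq_decide] at e
      by_cases h1 : K.ell (θ j) (y N) * K.ell (θ 0) (y N0) =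
          K.ell (θ j) (y N0) * K.ell (θ 0) (y N)
      · have h2 := e.1 h1
        linear_combination K.ell (θ 0) (y N') * h1 - K.ell (θ 0) (y N) * h2
      · have h2 := fun h => h1 (e.2 h)
        have h3 := (sq_eq_sq_iff_eq_or_eq_neg.1 (hsq N hN1 j)).resolve_left h1
        have h4 := (sq_eq_sq_iff_eq_or_eq_neg.1 (hsq N' hN'1 j)).resolve_left h2
        linear_combination K.ell (θ 0) (y N') * h3 - K.ell (θ 0) (y N) * h4
    -- Vandermonde
    have hv : ∀ m, (y N m : 𝓞 L) * K.ell (θ 0) (y N') = (y N' m : 𝓞 L) * K.ell (θ 0) (y N) := by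
      have := cc_vander hθ (a := fun m => (y N m : 𝓞 L) * K.ell (θ 0) (y N') -
        (y N' m : 𝓞 L) * K.ell (θ 0) (y N)) fun j => by
          have h5 := hp j
          calc ∑ m : Fin 4, ((y N m : 𝓞 L) * K.ell (θ 0) (y N') -
                (y N' m : 𝓞 L) * K.ell (θ 0) (y N)) * θ j ^ (m : ℕ) =
              K.ell (θ j) (y N) * K.ell (θ 0) (y N') -
                K.ell (θ j) (y N') * K.ell (θ 0) (y N) := by
                conv_rhs => rw [K.ell.eq_1 (θ j) (y N), K.ell.eq_1 (θ j) (y N'),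
                  Finset.sum_mul, Finset.sum_mul, ← Finset.sum_sub_distrib]
                refine Finset.sum_congr rfl fun m _ => ?_
                ring
            _ = 0 := by rw [h5, sub_self]
      intro m
      have h6 := congrFun this m
      exact sub_eq_zero.1 h6
    have h7 : ((y N a * y N' b : ℤ) : 𝓞 L) = ((y N b * y N' a : ℤ) : 𝓞 L) := by
      apply mul_right_cancel₀ (hy N' hN'1 0)
      push_cast
      linear_combination (y N' b : 𝓞 L) * hv a - (y N' a : 𝓞 L) * hv b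
    exact_mod_cast h7
  · intro N hN d hd
    exact hc N (Finset.mem_filter.1 hN).1 d hd
  · intro w' S' hS' h'
    exact hf w' S' (hS'.trans (Finset.filter_subset _ _)) h'

theorem cc_root_ne {θ : Fin 4 → 𝓞 L} {G : ℤ[X]} (hG : Root4 θ G) (N : ℤ) (j : Fin 4) :
    (N : 𝓞 L) - θ j ≠ 0 := by
  intro h
  have h1 : (G.map (algebraMap ℤ (𝓞 L))).eval (N : 𝓞 L) = 0 := by
    rw [hG.roots, eval_prod]
    exact Finset.prod_eq_zero (Finset.mem_univ j) (by simpa using h)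
  have h2 : (G.map (algebraMap ℤ (𝓞 L))).eval (N : 𝓞 L) = ((G.eval N : ℤ) : 𝓞 L) := by
    have := eval_intCast_map (algebraMap ℤ (𝓞 L)) G N
    simpa only [Int.cast_id, eq_intCast] using this
  have h3 : G.eval N = 0 := by
    rw [h2] at h1
    exact_mod_cast h1
  have h4 : (G.map (Int.castRingHom ℚ)).IsRoot (N : ℚ) := by
    have := eval_intCast_map (Int.castRingHom ℚ) G N
    rw [IsRoot, this, Int.cast_id, h3]
    simp
  have h5 := degree_eq_one_of_irreducible_of_root hG.irr h4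
  have h6 : (G.map (Int.castRingHom ℚ)).natDegree = 4 := by
    rw [natDegree_map_eq_of_injective (RingHom.injective_int _), hG.deg]
  have h7 : (G.map (Int.castRingHom ℚ)).natDegree = 1 :=
    natDegree_eq_of_degree_eq_some (by simpa using h5)
  omega

theorem cc_pi_ne {θ : Fin 4 → 𝓞 L} {C : ℕ} {X T : ℝ} {N : ℤ} {p : ℕ} {c : ℤ}
    {y z : Fin 4 → ℤ} (hD : Dat θ C X T N p c y z) (j : Fin 4) : K.ell (θ j) y ≠ 0 := by
  obtain ⟨c', h1, -, h2⟩ := hD.nrm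
  intro h
  rw [Finset.prod_eq_zero (Finset.mem_univ j) h] at h2
  have h3 : (p : ℤ) * c' = 0 := by exact_mod_cast h2.symm
  rcases mul_eq_zero.1 h3 with h4 | h4
  · exact hD.prime.ne_zero (by exact_mod_cast h4)
  · exact h1 h4

theorem cc_ga_ne {θ : Fin 4 → 𝓞 L} {G : ℤ[X]} (hG : Root4 θ G) {C : ℕ} {X T : ℝ} {N : ℤ} {p : ℕ}
    {c : ℤ} {y z : Fin 4 → ℤ} (hD : Dat θ C X T N p c y z) (j : Fin 4) : K.ell (θ j) z ≠ 0 := by
  intro h
  have h1 := hD.eqn j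
  rw [h, mul_zero] at h1
  rcases mul_eq_zero.1 h1 with h2 | h2
  · exact hD.c0 (by exact_mod_cast h2)
  · exact cc_root_ne hG N j h2

/-- finitely many values of `w`. -/
theorem cc_fibre_w {θ : Fin 4 → 𝓞 L} {G : ℤ[X]} (hG : Root4 θ G) {C : ℕ} {X T U : ℝ} {c : ℤ}
    {g1 g2 : Fin 4 → ℤ} (Kf D : ℕ) (S : Finset ℤ) (p : ℤ → ℕ) (y : ℤ → Fin 4 → ℤ)
    (u1 u2 : ℤ → ℤ) (hB : ∀ N ∈ S, BDat θ C X T U c g1 g2 N (p N) (y N) (u1 N) (u2 N))
    (F : ℂ[X]) (hF : F ≠ 0) (hD : F.natDegree ≤ D)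
    (hroot : ∀ N ∈ S, F.eval ((u2 N : ℂ) / u1 N) = 0)
    (hf : ∀ w, ∀ S' ⊆ S, (∀ N ∈ S', (fun j => u1 N * g1 j + u2 N * g2 j) = w) → S'.card ≤ Kf) :
    S.card ≤ (Kf * ((2 * ccM θ C + 1) * (ccM θ C + 1))) * D := by
  classical
  have hcard : (S.image fun N => (u2 N : ℂ) / u1 N).card ≤ D := by
    have h1 : (S.image fun N => (u2 N : ℂ) / u1 N) ⊆ F.roots.toFinset := by
      intro x hx
      obtain ⟨N, hN, rfl⟩ := Finset.mem_image.1 hx
      rw [Multiset.mem_toFinset, mem_roots hF]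
      exact hroot N hN
    exact (Finset.card_le_card h1).trans ((Multiset.toFinset_card_le _).trans
      ((card_roots' F).trans hD))
  refine (Finset.card_le_mul_card_image (f := fun N => (u2 N : ℂ) / u1 N) S
    (Kf * ((2 * ccM θ C + 1) * (ccM θ C + 1))) fun w _ => ?_).trans (Nat.mul_le_mul_left _ hcard)
  refine cc_fibre Kf (ccM θ C) _ (fun N j => u1 N * g1 j + u2 N * g2 j) ?_ ?_ ?_ ?_
  · intro N hN h0
    refine cc_ga_ne hG (hB N (Finset.mem_filter.1 hN).1).dat 0 ?_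
    rw [h0]
    simp [K.ell]
  · intro N hN N' hN' a b
    obtain ⟨hN1, hN2⟩ := Finset.mem_filter.1 hN
    obtain ⟨hN'1, hN'2⟩ := Finset.mem_filter.1 hN'
    have h1 : (u1 N : ℂ) ≠ 0 := by exact_mod_cast (hB N hN1).u10
    have h2 : (u1 N' : ℂ) ≠ 0 := by exact_mod_cast (hB N' hN'1).u10
    have h3 : (u2 N : ℂ) / u1 N = (u2 N' : ℂ) / u1 N' := by rw [hN2, hN'2]
    rw [div_eq_div_iff h1 h2] at h3
    have h4 : u2 N * u1 N' = u2 N' * u1 N := by exact_mod_cast h3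
    linear_combination (g1 b * g2 a - g1 a * g2 b) * h4
  · intro N hN d hd
    exact cc_content hG.inj (hB N (Finset.mem_filter.1 hN).1).dat d (Or.inl hd)
  · intro w' S' hS' h'
    exact hf w' S' (hS'.trans (Finset.filter_subset _ _)) h'

/-- the third case. -/
theorem cc_dir {θ : Fin 4 → 𝓞 L} {G : ℤ[X]} (hG : Root4 θ G) (φ : L →+* ℂ) {C : ℕ}
    {X T U : ℝ} {c : ℤ} {g1 g2 : Fin 4 → ℤ} {N : ℤ} {p : ℕ} {y : Fin 4 → ℤ} {u1 u2 : ℤ}
    (hB : BDat θ C X T U c g1 g2 N p y u1 u2) (r : Fin 4 → ℂ) (j k : Fin 4)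
    (h : r k * (((N : ℂ) - φ (θ j)) * (cf θ φ g1 k + (u2 : ℂ) / u1 * cf θ φ g2 k)) =
          r j * (((N : ℂ) - φ (θ k)) * (cf θ φ g1 j + (u2 : ℂ) / u1 * cf θ φ g2 j))) :
    r k * φ ((K.ell (θ j) y : 𝓞 L) : L) ^ 2 = r j * φ ((K.ell (θ k) y : 𝓞 L) : L) ^ 2 := by
  set z : Fin 4 → ℤ := fun j => u1 * g1 j + u2 * g2 j with hz
  have hφ : Function.Injective (fun x : 𝓞 L => φ (x : L)) :=
    φ.injective.comp RingOfIntegers.coe_injective
  have hu : (u1 : ℂ) ≠ 0 := by exact_mod_cast hB.u10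
  have hc : (c : ℂ) ≠ 0 := by exact_mod_cast hB.dat.c0
  have hga : ∀ i, (u1 : ℂ) * (cf θ φ g1 i + (u2 : ℂ) / u1 * cf θ φ g2 i) =
      φ ((K.ell (θ i) z : 𝓞 L) : L) := by
    intro i
    have h1 : K.ell (θ i) z = (u1 : 𝓞 L) * el (θ i) g1 + (u2 : 𝓞 L) * el (θ i) g2 := by
      simp only [hz, el, K.ell, Finset.mul_sum, ← Finset.sum_add_distrib]
      refine Finset.sum_congr rfl fun m _ => ?_
      push_cast
      ring
    rw [h1]
    have h2 : φ (((u1 : 𝓞 L) * el (θ i) g1 + (u2 : 𝓞 L) * el (θ i) g2 : 𝓞 L) : L) =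
        (u1 : ℂ) * cf θ φ g1 i + (u2 : ℂ) * cf θ φ g2 i := by
      simp [cf]
    rw [h2]
    field_simp
  have heq : ∀ i, (c : ℂ) * ((N : ℂ) - φ (θ i)) =
      φ ((K.ell (θ i) y : 𝓞 L) : L) ^ 2 * φ ((K.ell (θ i) z : 𝓞 L) : L) := by
    intro i
    have h1 := congrArg (fun x : 𝓞 L => φ (x : L)) (hB.dat.eqn i)
    simpa using h1
  have hne : ∀ i, φ ((K.ell (θ i) z : 𝓞 L) : L) ≠ 0 := by
    intro i h0
    refine cc_ga_ne hG hB.dat i (hφ ?_)
    simpa using h0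
  apply mul_right_cancel₀ (mul_ne_zero (hne j) (hne k))
  have e1 := heq j
  have e2 := heq k
  have e3 := hga j
  have e4 := hga k
  linear_combination (r k * φ ((K.ell (θ k) z : 𝓞 L) : L)) * (-e1) +
    (r j * φ ((K.ell (θ j) z : 𝓞 L) : L)) * e2 + (c : ℂ) * u1 * h +
    (r k * c * ((N : ℂ) - φ (θ j))) * (-e4) + (r j * c * ((N : ℂ) - φ (θ k))) * e3

theorem cc_bideg {Ψ : ℤ[X][X]} {Φ : ℂ[X][X]} {a : ℂ} (h : toC Ψ = C (C a) * Φ) {D : ℕ}
    (hΦ : BiDeg D D Φ) : BiDeg D D Ψ := by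
  have hinj : Function.Injective (Int.castRingHom ℂ) := RingHom.injective_int _
  constructor
  · have h1 : (toC Ψ).natDegree = Ψ.natDegree := by
      unfold toC
      refine natDegree_map_eq_of_injective ?_ _
      exact map_injective _ hinj
    rw [← h1, h]
    exact (natDegree_C_mul_le _ _).trans hΦ.1
  · intro i
    have h1 : (toC Ψ).coeff i = (Ψ.coeff i).map (Int.castRingHom ℂ) := by
      unfold toC
      rw [coeff_map]
      rfl
    have h2 : ((toC Ψ).coeff i).natDegree = (Ψ.coeff i).natDegree := by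
      rw [h1]
      exact natDegree_map_eq_of_injective hinj _
    rw [← h2, h, coeff_C_mul]
    exact (natDegree_C_mul_le _ _).trans (hΦ.2 i)

theorem cc_evB0 {Φ : ℂ[X][X]} (h : Φ.natDegree = 0) (n w : ℂ) :
    evB n w Φ = (Φ.coeff 0).eval w := by
  rw [eq_C_of_natDegree_eq_zero h]
  simp [evB]

theorem cc_evB_mul (a : ℂ) (Φ : ℂ[X][X]) (n w : ℂ) :
    evB n w (C (C a) * Φ) = a * evB n w Φ := by
  simp [evB]

theorem cc_height (C K0 : ℕ) (T : ℝ) (hT : 1 ≤ T) : ∃ H : ℕ, 2 ≤ H ∧ (C : ℝ) * (C * T ^ 4) ≤ H ∧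
    (C : ℝ) * T ^ 4 ≤ H ∧
    (H : ℝ) ^ K0 ≤ (((C ^ 2 + C + 3) ^ K0 + 4 * K0 : ℕ) : ℝ) *
      T ^ ((C ^ 2 + C + 3) ^ K0 + 4 * K0) := by
  have hT4 : 1 ≤ T ^ 4 := one_le_pow₀ hT
  have hC : (0 : ℝ) ≤ C := Nat.cast_nonneg _
  have h1 : ((C : ℝ) ^ 2 + C + 2) * T ^ 4 ≤ (⌈((C : ℝ) ^ 2 + C + 2) * T ^ 4⌉₊ : ℝ) := Nat.le_ceil _
  have h2 : (⌈((C : ℝ) ^ 2 + C + 2) * T ^ 4⌉₊ : ℝ) ≤ ((C : ℝ) ^ 2 + C + 2) * T ^ 4 + 1 :=
    (Nat.ceil_lt_add_one (by positivity)).le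
  refine ⟨⌈((C : ℝ) ^ 2 + C + 2) * T ^ 4⌉₊, ?_, ?_, ?_, ?_⟩
  · have : (2 : ℝ) ≤ (⌈((C : ℝ) ^ 2 + C + 2) * T ^ 4⌉₊ : ℝ) := by
      refine le_trans ?_ h1
      nlinarith [mul_nonneg hC hC, sq_nonneg (C : ℝ)]
    exact_mod_cast this
  · refine le_trans ?_ h1
    linarith only [mul_nonneg hC (zero_le_one.trans hT4), hT4]
  · refine le_trans ?_ h1
    linarith only [mul_nonneg (sq_nonneg (C : ℝ)) (zero_le_one.trans hT4), hT4]
  · have h3 : (⌈((C : ℝ) ^ 2 + C + 2) * T ^ 4⌉₊ : ℝ) ≤ ((C : ℝ) ^ 2 + C + 3) * T ^ 4 := by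
      linarith only [h2, hT4]
    have h4 : ((C : ℝ) ^ 2 + C + 3) ^ K0 ≤ (((C ^ 2 + C + 3) ^ K0 + 4 * K0 : ℕ) : ℝ) := by
      push_cast
      have : (0 : ℝ) ≤ 4 * (K0 : ℝ) := by positivity
      linarith
    calc (⌈((C : ℝ) ^ 2 + C + 2) * T ^ 4⌉₊ : ℝ) ^ K0 ≤ (((C : ℝ) ^ 2 + C + 3) * T ^ 4) ^ K0 :=
          pow_le_pow_left₀ (Nat.cast_nonneg _) h3 _
      _ = ((C : ℝ) ^ 2 + C + 3) ^ K0 * T ^ (4 * K0) := by rw [mul_pow, ← pow_mul]
      _ ≤ (((C ^ 2 + C + 3) ^ K0 + 4 * K0 : ℕ) : ℝ) * T ^ ((C ^ 2 + C + 3) ^ K0 + 4 * K0) := by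
          refine mul_le_mul h4 (pow_le_pow_right₀ hT (Nat.le_add_left _ _)) (by positivity)
            (Nat.cast_nonneg _)

end Vale.Agent.P018.QB
end

section

/-! # P018, (B), curve step: one class modulo `l` is parametrised by polynomials in `x = u2/u1`,
modulo `l ^ ν`. -/

namespace Vale.Agent.P018.QB

open Polynomial NumberField Vale.Agent.P018.Q

theorem el_map {R R' : Type*} [CommRing R] [CommRing R'] (f : R →+* R') (t : R) (y : Fin 4 → ℤ) :
    f (el t y) = el (f t) y := by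
  simp only [el, K.ell, map_sum, map_mul, map_pow, map_intCast]

theorem bc_el_comb {R : Type*} [CommRing R] (t : R) (a b : ℤ) (g h : Fin 4 → ℤ) :
    el t (fun m => a * g m + b * h m) = (a : R) * el t g + (b : R) * el t h := by
  simp only [el, K.ell, Finset.mul_sum, ← Finset.sum_add_distrib]
  refine Finset.sum_congr rfl fun m _ => ?_
  push_cast
  ring

theorem dvd_el {R : Type*} [CommRing R] (t : R) (l : ℕ) (v : Fin 4 → ℤ)
    (h : ∀ m, (l : ℤ) ∣ v m) : (l : R) ∣ el t v := by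
  simp only [el, K.ell]
  refine Finset.dvd_sum fun m _ => ?_
  obtain ⟨a, ha⟩ := h m
  rw [ha]
  push_cast
  exact ⟨(a : R) * t ^ (m : ℕ), by ring⟩

/-- transfer of the equation to `ℤ[X]/(G)`. -/
theorem eqn_root {L : Type} [Field L] [NumberField L] (θ : Fin 4 → 𝓞 L) (G : ℤ[X])
    (hG : Root4 θ G) (c N : ℤ) (y z : Fin 4 → ℤ)
    (h : ∀ j, (c : 𝓞 L) * ((N : 𝓞 L) - θ j) = el (θ j) y ^ 2 * el (θ j) z) :
    (c : AdjoinRoot G) * ((N : AdjoinRoot G) - AdjoinRoot.root G) =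
      el (AdjoinRoot.root G) y ^ 2 * el (AdjoinRoot.root G) z := by
  set F : ℤ[X] := (c : ℤ[X]) * ((N : ℤ[X]) - X) - el (X : ℤ[X]) y ^ 2 * el (X : ℤ[X]) z with hF
  have hev : ∀ {R : Type} [CommRing R] (f : ℤ[X] →+* R), f F =
      (c : R) * ((N : R) - f X) - el (f X) y ^ 2 * el (f X) z := by
    intro R _ f
    rw [hF, map_sub, map_mul, map_sub, map_mul, map_pow, el_map, el_map, map_intCast, map_intCast]
  have hdvd : G ∣ F := by
    have hinj : Function.Injective (algebraMap ℤ L) := (algebraMap ℤ L).injective_int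
    rw [← map_dvd_map (algebraMap ℤ L) hinj hG.monic]
    have h1 : G.map (algebraMap ℤ L) = ∏ i, (X - C ((θ i : 𝓞 L) : L)) := by
      have h2 := congrArg (Polynomial.map (algebraMap (𝓞 L) L)) hG.roots
      rw [Polynomial.map_map, ← IsScalarTower.algebraMap_eq, Polynomial.map_prod] at h2
      rw [h2]
      refine Finset.prod_congr rfl fun i _ => ?_
      rw [Polynomial.map_sub, map_X, map_C]
    rw [h1]
    refine Finset.prod_dvd_of_coprime ?_ ?_
    · have h3 : Function.Injective (fun i => ((θ i : 𝓞 L) : L)) := fun i j hij =>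
        hG.inj (RingOfIntegers.coe_injective hij)
      exact fun i _ j _ hij => pairwise_coprime_X_sub_C h3 hij
    · intro i _
      rw [dvd_iff_isRoot, IsRoot.def, eval_map]
      have h4 := hev (eval₂RingHom (algebraMap ℤ L) ((θ i : 𝓞 L) : L))
      rw [coe_eval₂RingHom, eval₂_X] at h4
      rw [h4]
      have h5 := congrArg (algebraMap (𝓞 L) L) (h i)
      rw [map_mul, map_sub, map_intCast, map_intCast, map_mul, map_pow, el_map, el_map] at h5
      rw [h5, sub_self]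
  have h6 := hev (AdjoinRoot.mk G)
  rw [AdjoinRoot.mk_eq_zero.mpr hdvd, AdjoinRoot.mk_X] at h6
  exact (sub_eq_zero.mp h6.symm)

/-- coordinates in `ℤ[X]/(G)`. -/
theorem exists_coord (G : ℤ[X]) (hm : G.Monic) (hd : G.natDegree = 4) :
    ∃ co : Fin 4 → (AdjoinRoot G →ₗ[ℤ] ℤ), ∀ (y : Fin 4 → ℤ) (m : Fin 4),
      co m (el (AdjoinRoot.root G) y) = y m := by
  set pb := AdjoinRoot.powerBasis' hm with hpb
  have hdim : pb.dim = 4 := by rw [hpb, AdjoinRoot.powerBasis'_dim, hd]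
  have hgen : pb.gen = AdjoinRoot.root G := by rw [hpb, AdjoinRoot.powerBasis'_gen]
  set B := pb.basis.reindex (finCongr hdim) with hB
  refine ⟨fun m => B.coord m, fun y m => ?_⟩
  have h1 : el (AdjoinRoot.root G) y = ∑ k, y k • B k := by
    simp only [el, K.ell]
    refine Finset.sum_congr rfl fun k _ => ?_
    rw [hB, Module.Basis.reindex_apply, pb.basis_eq_pow, hgen, zsmul_eq_mul]
    rfl
  rw [h1, Module.Basis.coord_apply, B.repr_sum_self]

/-- units modulo `l` in `ℤ[X]/(G)`. -/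
theorem exists_unit_mod (G : ℤ[X]) (l : ℕ) (hl : l.Prime) (c N0 : ℤ) (hc : ¬ (l : ℤ) ∣ c)
    (hN : ¬ (l : ℤ) ∣ G.eval N0) :
    ∃ V : AdjoinRoot G, (l : AdjoinRoot G) ∣
      V * ((c : AdjoinRoot G) * ((N0 : AdjoinRoot G) - AdjoinRoot.root G)) - 1 := by
  have h1 : ((N0 : AdjoinRoot G) - AdjoinRoot.root G) ∣ ((G.eval N0 : ℤ) : AdjoinRoot G) := by
    have h2 := sub_dvd_eval_sub (N0 : AdjoinRoot G) (AdjoinRoot.root G)
      (G.map (algebraMap ℤ (AdjoinRoot G)))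
    have h3 : (G.map (algebraMap ℤ (AdjoinRoot G))).eval (AdjoinRoot.root G) = 0 := by
      rw [eval_map_algebraMap, AdjoinRoot.aeval_eq, AdjoinRoot.mk_self]
    have h4 : (G.map (algebraMap ℤ (AdjoinRoot G))).eval (N0 : AdjoinRoot G) =
        ((G.eval N0 : ℤ) : AdjoinRoot G) := by
      have : (N0 : AdjoinRoot G) = algebraMap ℤ (AdjoinRoot G) N0 := by simp
      rw [this, eval_map_apply]
      simp
    rwa [h3, h4, sub_zero] at h2
  obtain ⟨W, hW⟩ := h1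
  have hlp : Prime (l : ℤ) := Nat.prime_iff_prime_int.mp hl
  have h5 : IsCoprime (c * G.eval N0) (l : ℤ) := by
    refine (IsCoprime.symm ?_)
    rw [Prime.coprime_iff_not_dvd hlp]
    intro h
    rcases hlp.dvd_or_dvd h with h | h
    · exact hc h
    · exact hN h
  obtain ⟨a, b, hab⟩ := h5
  refine ⟨(a : AdjoinRoot G) * W, -(b : AdjoinRoot G), ?_⟩
  have h6 : ((a * (c * G.eval N0) + b * l : ℤ) : AdjoinRoot G) = 1 := by rw [hab]; simp
  push_cast at h6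
  rw [hW] at h6
  linear_combination h6

theorem isPol_coord {ι R : Type*} [CommRing R] {S : Set ι} {x : ι → ℤ} {m : ℤ} {F : ι → R}
    (h : IsPol S x m F) (co : R →ₗ[ℤ] ℤ) : IsPol S x m (fun P => co (F P)) := by
  obtain ⟨Q, hQ⟩ := h
  refine ⟨∑ k ∈ Finset.range (Q.natDegree + 1), C (co (Q.coeff k)) * X ^ k, fun P hP => ?_⟩
  obtain ⟨r, hr⟩ := hQ P hP
  refine ⟨co r, ?_⟩
  have h1 : co (F P) - co (Q.eval ((x P : ℤ) : R)) = m * co r := by
    rw [← map_sub, hr]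
    have : (m : R) * r = m • r := by simp
    rw [this, map_smul, smul_eq_mul]
  have h2 : (∑ k ∈ Finset.range (Q.natDegree + 1), C (co (Q.coeff k)) * X ^ k).eval
      ((x P : ℤ) : ℤ) = co (Q.eval ((x P : ℤ) : R)) := by
    rw [eval_finsetSum, eval_eq_sum_range (p := Q), map_sum]
    refine Finset.sum_congr rfl fun k _ => ?_
    rw [eval_mul, eval_C, eval_pow, eval_X]
    have h3 : Q.coeff k * ((x P : ℤ) : R) ^ k = ((x P) ^ k) • Q.coeff k := by
      rw [zsmul_eq_mul]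
      push_cast
      ring
    rw [h3, map_smul, smul_eq_mul, mul_comm]
  simp only [Int.cast_id] at h2 ⊢
  rw [h2, h1]

/-- a rational root modulo `m`. -/
theorem dvd_eval_of_root (p : ℤ[X]) (u1 u2 m x : ℤ) (h1 : u1 ≠ 0) (hm : IsCoprime m u1)
    (hx : m ∣ u1 * x - u2) (h : (p.map (Int.castRingHom ℂ)).eval ((u2 : ℂ) / u1) = 0) :
    m ∣ p.eval x := by
  have h2 : (p.scaleRoots u1).eval u2 = 0 := by
    have h3 : eval₂ (Int.castRingHom ℂ) (Int.castRingHom ℂ u2) (p.scaleRoots u1) = 0 := by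
      refine scaleRoots_eval₂_eq_zero_of_eval₂_div_eq_zero (Int.castRingHom ℂ).injective_int ?_
        (mem_nonZeroDivisors_of_ne_zero h1)
      rw [← eval_map]
      exact h
    rw [eval₂_hom] at h3
    exact (map_eq_zero_iff _ (Int.castRingHom ℂ).injective_int).mp h3
  have h4 : m ∣ (p.scaleRoots u1).eval (u1 * x) := by
    have h5 : m ∣ (p.scaleRoots u1).eval (u1 * x) - (p.scaleRoots u1).eval u2 :=
      hx.trans (sub_dvd_eval_sub _ _ _)
    rwa [h2, sub_zero] at h5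
  have h6 : (p.scaleRoots u1).eval (u1 * x) = u1 ^ p.natDegree * p.eval x := by
    have h7 := scaleRoots_eval₂_mul (p := p) (f := RingHom.id ℤ) x u1
    simpa [eval₂_id] using h7
  rw [h6] at h4
  exact (hm.pow_right).dvd_of_dvd_mul_left h4

theorem evB_int (Φ : ℤ[X][X]) (N : ℤ) (w : ℂ) :
    evB (N : ℂ) w (toC Φ) = ((Φ.eval (C N)).map (Int.castRingHom ℂ)).eval w := by
  unfold evB toC
  rw [eval₂_map]
  have h1 : ((Φ.eval (C N)).map (Int.castRingHom ℂ)).eval w =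
    ((evalRingHom w).comp (mapRingHom (Int.castRingHom ℂ))) (Φ.eval (C N)) := rfl
  rw [h1, ← eval₂_at_apply]
  have h2 : ((evalRingHom w).comp (mapRingHom (Int.castRingHom ℂ))) (C N) = (N : ℂ) := by
    simp
  rw [h2]
  congr 1

/-- the ring part of `class_param`. -/
theorem class_ring {R : Type} [CommRing R] (t : R) (l ν : ℕ) (hodd : Odd l) (hν : 1 ≤ ν)
    (S : Set ℤ) (c r0 x0 N0 : ℤ) (g1 g2 y0 : Fin 4 → ℤ) (x κ' u1 u2 : ℤ → ℤ)
    (y : ℤ → Fin 4 → ℤ) (φn : ℤ[X]) (P0 : ℤ) (hP0 : P0 ∈ S) (V : R)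
    (hV : (l : R) ∣ V * ((c : R) * ((N0 : R) - t)) - 1)
    (heq : ∀ N ∈ S, (c : R) * ((N : R) - t) =
      el t (y N) ^ 2 * ((u1 N : R) * el t g1 + (u2 N : R) * el t g2))
    (hxx0 : ∀ N ∈ S, (l : ℤ) ∣ x N - x0) (hx : ∀ N ∈ S, (l : ℤ) ^ ν ∣ u1 N * x N - u2 N)
    (hκ : ∀ N ∈ S, (l : ℤ) ^ ν ∣ κ' N ^ 2 * r0 - u1 N)
    (hκ0 : ∀ N ∈ S, ∀ m, (l : ℤ) ∣ κ' N * y N m - y0 m)
    (hN : ∀ N ∈ S, (l : ℤ) ^ ν ∣ N - φn.eval (x N)) (hN0 : (l : ℤ) ∣ P0 - N0) :
    IsPol S x ((l : ℤ) ^ ν) (fun N => (κ' N : R) * el t (y N)) := by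
  have hcast : ∀ {a b k : ℤ}, a = b * k → (a : R) = (b : R) * (k : R) := by
    intro a b k h
    rw [h]
    push_cast
    ring
  have hQ : ∀ Q : ℤ[X], IsPol S x ((l : ℤ) ^ ν) (fun N => ((Q.eval (x N) : ℤ) : R)) := by
    intro Q
    refine ⟨Q.map (algebraMap ℤ R), fun N _ => ?_⟩
    have : ((x N : ℤ) : R) = algebraMap ℤ R (x N) := by simp
    rw [this, eval_map_apply]
    simp
  have hAF : ∀ N ∈ S, (((l : ℤ) ^ ν : ℤ) : R) ∣ ((r0 : R) * (el t g1 + (x N : R) * el t g2)) *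
      ((κ' N : R) * el t (y N)) ^ 2 - (c : R) * ((N : R) - t) := by
    intro N hNS
    obtain ⟨a, ha⟩ := hκ N hNS
    obtain ⟨b, hb⟩ := hx N hNS
    have h1 := heq N hNS
    have ha' := hcast ha
    have hb' := hcast hb
    push_cast at ha' hb'
    refine ⟨(a : R) * (el t g1 + (x N : R) * el t g2) * el t (y N) ^ 2 +
      (b : R) * el t g2 * el t (y N) ^ 2, ?_⟩
    push_cast
    linear_combination (el t g1 + (x N : R) * el t g2) * el t (y N) ^ 2 * ha' +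
      el t g2 * el t (y N) ^ 2 * hb' - h1
  have hA0 : ∀ N ∈ S, (l : R) ∣ ((r0 : R) * (el t g1 + (x N : R) * el t g2)) -
      ((r0 : R) * (el t g1 + (x0 : R) * el t g2)) := by
    intro N hNS
    obtain ⟨a, ha⟩ := hxx0 N hNS
    have ha' := hcast ha
    push_cast at ha'
    exact ⟨(r0 : R) * el t g2 * a, by linear_combination (r0 : R) * el t g2 * ha'⟩
  have hF0 : ∀ N ∈ S, (l : R) ∣ (κ' N : R) * el t (y N) - el t y0 := by
    intro N hNS
    have h1 : (κ' N : R) * el t (y N) - el t y0 = el t (fun m => κ' N * y N m + (-1) * y0 m) := by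
      rw [bc_el_comb]
      push_cast
      ring
    rw [h1]
    refine dvd_el t l _ fun m => ?_
    have h2 := hκ0 N hNS m
    rwa [sub_eq_add_neg, ← neg_one_mul (y0 m)] at h2
  refine isPol_of_sq S x l ν hodd hν (fun N => (r0 : R) * (el t g1 + (x N : R) * el t g2))
    (fun N => (c : R) * ((N : R) - t)) _ ((r0 : R) * (el t g1 + (x0 : R) * el t g2)) (el t y0)
    (V * el t y0) ?_ ?_ hAF hA0 hF0 ?_
  · refine ⟨C ((r0 : R) * el t g1) + C ((r0 : R) * el t g2) * X, fun N _ => ⟨0, ?_⟩⟩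
    simp only [eval_add, eval_mul, eval_C, eval_X]
    ring
  · obtain ⟨Q, hQ'⟩ := hQ φn
    refine ⟨C (c : R) * (Q - C t), fun N hNS => ?_⟩
    obtain ⟨r, hr⟩ := hQ' N hNS
    obtain ⟨a, ha⟩ := hN N hNS
    have ha' := hcast ha
    push_cast at ha' hr
    refine ⟨(c : R) * (a + r), ?_⟩
    simp only [eval_sub, eval_mul, eval_C]
    push_cast
    linear_combination (c : R) * ha' + (c : R) * hr
  · have h1 : (l : R) ∣ (((l : ℤ) ^ ν : ℤ) : R) := by
      push_cast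
      exact dvd_pow_self _ (by omega)
    obtain ⟨a2, h2⟩ := h1.trans (hAF P0 hP0)
    obtain ⟨a3, h3⟩ := hA0 P0 hP0
    obtain ⟨a4, h4⟩ := hF0 P0 hP0
    obtain ⟨a6, h6⟩ := hV
    obtain ⟨a5, h5⟩ := hN0
    have h5' := hcast h5
    push_cast at h5'
    set A := (r0 : R) * (el t g1 + (x P0 : R) * el t g2) with hA
    set A0 := (r0 : R) * (el t g1 + (x0 : R) * el t g2) with hA0'
    set F := (κ' P0 : R) * el t (y P0) with hF
    refine ⟨V * (a2 + c * a5 - a3 * F ^ 2 - A0 * a4 * (F + el t y0)) + a6, ?_⟩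
    linear_combination V * h2 + V * c * h5' - V * F ^ 2 * h3 - V * A0 * (F + el t y0) * h4 + h6

theorem class_param {L : Type} [Field L] [NumberField L] (θ : Fin 4 → 𝓞 L) (G : ℤ[X])
    (hG : Root4 θ G) (Φ : ℤ[X][X]) (l : ℕ) (hl : l.Prime) (hl2 : l ≠ 2) (ν : ℕ) (hν : 1 ≤ ν)
    (c : ℤ) (hc : ¬ (l : ℤ) ∣ c) (g1 g2 : Fin 4 → ℤ) (S : Set ℤ) (y : ℤ → Fin 4 → ℤ)
    (u1 u2 : ℤ → ℤ) (x0 N0 r0 : ℤ) (y0 : Fin 4 → ℤ) (hr0 : ¬ (l : ℤ) ∣ r0)
    (hGN : ¬ (l : ℤ) ∣ G.eval N0) (hΦ0 : ¬ (l : ℤ) ∣ ev2 (derivative Φ) x0 N0)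
    (h : ∀ N ∈ S, ¬ (l : ℤ) ∣ u1 N ∧ (l : ℤ) ∣ u2 N - x0 * u1 N ∧ (l : ℤ) ∣ N - N0 ∧
      (∀ j, (c : 𝓞 L) * ((N : 𝓞 L) - θ j) =
        el (θ j) (y N) ^ 2 * el (θ j) (fun m => u1 N * g1 m + u2 N * g2 m)) ∧
      evB (N : ℂ) ((u2 N : ℂ) / u1 N) (toC Φ) = 0 ∧
      ∃ κ : ℤ, (l : ℤ) ∣ κ ^ 2 * r0 - u1 N ∧ ∀ m, (l : ℤ) ∣ κ * y N m - y0 m) :
    ∃ (x lam : ℤ → ℤ) (Y : Fin 4 → ℤ[X]), ∀ N ∈ S, (l : ℤ) ∣ x N - x0 ∧
      (l : ℤ) ^ ν ∣ u1 N * x N - u2 N ∧ ¬ (l : ℤ) ∣ lam N ∧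
      (l : ℤ) ^ ν ∣ lam N ^ 2 * u1 N - r0 ∧
      ∀ m, (l : ℤ) ^ ν ∣ y N m - lam N * (Y m).eval (x N) := by
  classical
  have hlp : Prime (l : ℤ) := Nat.prime_iff_prime_int.mp hl
  have hodd : Odd l := hl.odd_of_ne_two hl2
  rcases S.eq_empty_or_nonempty with rfl | ⟨P0, hP0⟩
  · exact ⟨fun _ => 0, fun _ => 0, fun _ => 0, fun N hN => absurd hN (Set.notMem_empty N)⟩
  -- the parameter `x`
  have hx : ∀ N : ℤ, ∃ x : ℤ, N ∈ S → (l : ℤ) ^ ν ∣ u1 N * x - u2 N := by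
    intro N
    by_cases hN : N ∈ S
    · have h1 : IsCoprime ((l : ℤ) ^ ν) (u1 N) :=
        ((Prime.coprime_iff_not_dvd hlp).mpr (h N hN).1).pow_left
      obtain ⟨a, b, hab⟩ := h1
      exact ⟨b * u2 N, fun _ => ⟨-(a * u2 N), by linear_combination (u2 N) * hab⟩⟩
    · exact ⟨0, fun h => absurd h hN⟩
  choose x hx using hx
  have hκ : ∀ N : ℤ, ∃ κ' lam : ℤ, N ∈ S → (l : ℤ) ^ ν ∣ κ' ^ 2 * r0 - u1 N ∧
      (l : ℤ) ^ ν ∣ κ' * lam - 1 ∧ ∀ m, (l : ℤ) ∣ κ' * y N m - y0 m := by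
    intro N
    by_cases hN : N ∈ S
    · obtain ⟨h1, _, _, _, _, κ, h5, h6⟩ := h N hN
      obtain ⟨κ', lam, h7, h8, h9⟩ := sqrt_lift l ν hl hl2 hν (u1 N) r0 κ h1 hr0 h5
      refine ⟨κ', lam, fun _ => ⟨h8, h9, fun m => ?_⟩⟩
      have h10 : κ' * y N m - y0 m = (κ' - κ) * y N m + (κ * y N m - y0 m) := by ring
      rw [h10]
      exact dvd_add (h7.mul_right _) (h6 m)
    · exact ⟨0, 0, fun h => absurd h hN⟩
  choose κ' lam hκ using hκ
  have hlν : (l : ℤ) ∣ (l : ℤ) ^ ν := dvd_pow_self _ (by omega)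
  have hxx0 : ∀ N ∈ S, (l : ℤ) ∣ x N - x0 := by
    intro N hN
    have h1 : (l : ℤ) ∣ u1 N * (x N - x0) := by
      have h2 := dvd_add (hlν.trans (hx N hN)) (h N hN).2.1
      have h3 : u1 N * x N - u2 N + (u2 N - x0 * u1 N) = u1 N * (x N - x0) := by ring
      rwa [h3] at h2
    exact (hlp.dvd_or_dvd h1).resolve_left (h N hN).1
  -- `N` is a polynomial in `x`
  obtain ⟨v, hv⟩ : ∃ v : ℤ, (l : ℤ) ∣ 1 - v * ev2 (derivative Φ) x0 N0 := by
    have h1 : IsCoprime ((l : ℤ)) (ev2 (derivative Φ) x0 N0) :=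
      (Prime.coprime_iff_not_dvd hlp).mpr hΦ0
    obtain ⟨a, b, hab⟩ := h1
    exact ⟨b, a, by linear_combination -hab⟩
  obtain ⟨φn, hφn⟩ := hensel_poly' Φ hv (ν - 1)
  rw [Nat.sub_add_cancel hν] at hφn
  have hN : ∀ N ∈ S, (l : ℤ) ^ ν ∣ N - φn.eval (x N) := by
    intro N hN
    refine hφn (x N) N (hxx0 N hN) (h N hN).2.2.1 ?_
    have h1 := (h N hN).2.2.2.2.1
    have h2 : ((Φ.eval (C N)).map (Int.castRingHom ℂ)).eval ((u2 N : ℂ) / u1 N) = 0 := by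
      rw [← h1, evB_int]
    have h3 : u1 N ≠ 0 := fun h0 => (h N hN).1 (by rw [h0]; exact dvd_zero _)
    have h4 := dvd_eval_of_root (Φ.eval (C N)) (u1 N) (u2 N) ((l : ℤ) ^ ν) (x N) h3
      ((Prime.coprime_iff_not_dvd hlp).mpr (h N hN).1).pow_left (hx N hN) h2
    rwa [ev2_eval, eval_C] at h4
  -- the ring
  obtain ⟨V, hV⟩ := exists_unit_mod G l hl c N0 hc hGN
  have hsq := class_ring (AdjoinRoot.root G) l ν hodd hν S c r0 x0 N0 g1 g2 y0 x κ' u1 u2 y φn P0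
    hP0 V hV (fun N hNS => by
      have h1 := eqn_root θ G hG c N (y N) _ (h N hNS).2.2.2.1
      rwa [bc_el_comb] at h1) hxx0 hx (fun N hNS => (hκ N hNS).1) (fun N hNS => (hκ N hNS).2.2) hN
    (h P0 hP0).2.2.1
  obtain ⟨co, hco⟩ := exists_coord G hG.monic hG.deg
  have hY : ∀ m, ∃ Y : ℤ[X], ∀ N ∈ S, (l : ℤ) ^ ν ∣ κ' N * y N m - Y.eval (x N) := by
    intro m
    obtain ⟨Y, hY⟩ := isPol_coord hsq (co m)
    refine ⟨Y, fun N hNS => ?_⟩
    have h1 := hY N hNS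
    have h2 : co m ((κ' N : AdjoinRoot G) * el (AdjoinRoot.root G) (y N)) = κ' N * y N m := by
      have h3 : (κ' N : AdjoinRoot G) * el (AdjoinRoot.root G) (y N) =
        κ' N • el (AdjoinRoot.root G) (y N) := by rw [zsmul_eq_mul]
      rw [h3, map_smul, hco, smul_eq_mul]
    simp only [Int.cast_id] at h1
    rw [h2] at h1
    exact h1
  choose Y hY using hY
  refine ⟨x, lam, Y, fun N hNS => ⟨hxx0 N hNS, hx N hNS, ?_, ?_, fun m => ?_⟩⟩
  · intro h0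
    have h1 : (l : ℤ) ∣ 1 := by
      have h2 := dvd_sub (h0.mul_left (κ' N)) (hlν.trans (hκ N hNS).2.1)
      rwa [sub_sub_cancel] at h2
    exact hlp.not_dvd_one h1
  · obtain ⟨a, ha⟩ := (hκ N hNS).1
    obtain ⟨b, hb⟩ := (hκ N hNS).2.1
    refine ⟨-(lam N ^ 2 * a) + r0 * b * (κ' N * lam N + 1), ?_⟩
    linear_combination -(lam N ^ 2) * ha + r0 * (κ' N * lam N + 1) * hb
  · obtain ⟨a, ha⟩ := hY m N hNS
    obtain ⟨b, hb⟩ := (hκ N hNS).2.1
    refine ⟨lam N * a - y N m * b, ?_⟩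
    linear_combination lam N * ha - y N m * hb

end Vale.Agent.P018.QB
end

section

/-! # P018, (B): few solutions with given `y`. -/

namespace Vale.Agent.P018.QB

open Polynomial NumberField Vale.Agent.P018.Q

/-- an integer divisible by all differences of the conjugates. -/
theorem fy_disc {L : Type*} [Field L] [NumberField L] (θ : Fin 4 → 𝓞 L)
    (hθ : Function.Injective θ) :
    ∃ Δ : ℤ, Δ ≠ 0 ∧ ∀ i j, i ≠ j → θ i - θ j ∣ (Δ : 𝓞 L) := by
  classical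
  set d : 𝓞 L := ∏ q ∈ (Finset.univ : Finset (Fin 4 × Fin 4)) with q.1 ≠ q.2,
    (θ q.1 - θ q.2) with hd
  have hd0 : d ≠ 0 := by
    rw [hd, Finset.prod_ne_zero_iff]
    intro q hq
    rw [Finset.mem_filter] at hq
    exact sub_ne_zero.2 fun h => hq.2 (hθ h)
  have hdΔ : d ∣ ((Ideal.absNorm (Ideal.span {d}) : ℤ) : 𝓞 L) := by
    rw [← Ideal.mem_span_singleton]
    exact_mod_cast Ideal.absNorm_mem (Ideal.span {d})
  have hΔ0 : (Ideal.absNorm (Ideal.span {d}) : ℤ) ≠ 0 := by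
    rw [Nat.cast_ne_zero, Ne, Ideal.absNorm_eq_zero_iff, Ideal.span_singleton_eq_bot]
    exact hd0
  refine ⟨Ideal.absNorm (Ideal.span {d}), hΔ0, fun i j hij => dvd_trans ?_ hdΔ⟩
  rw [hd]
  exact Finset.dvd_prod_of_mem (fun q : Fin 4 × Fin 4 => θ q.1 - θ q.2)
    (Finset.mem_filter.2 ⟨Finset.mem_univ (i, j), hij⟩)

/-- a finite set of integers in an interval. -/
theorem fy_card (S : Finset ℤ) (B : ℕ) (h : ∀ N ∈ S, |N| ≤ B) : S.card ≤ 2 * B + 1 := by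
  have h1 : S ⊆ Finset.Icc (-(B : ℤ)) B := fun N hN => Finset.mem_Icc.2 (abs_le.1 (h N hN))
  have h2 := Finset.card_le_card h1
  rw [Int.card_Icc] at h2
  omega

/-- two solutions with the same `y` are congruent modulo `p ^ 2`. -/
theorem fy_dvd {L : Type*} [Field L] [NumberField L] {θ : Fin 4 → 𝓞 L} {Δ : ℤ}
    (hΔ0 : Δ ≠ 0) (hΔ : ∀ i j, i ≠ j → θ i - θ j ∣ (Δ : 𝓞 L))
    (π γ γ' : Fin 4 → 𝓞 L) (N N' c c' : ℤ) (p : ℕ) (hp : p.Prime) (hc : c ≠ 0) (hcp : |c| < p)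
    (hΔp : |Δ| < p) (heq : ∀ i, (c : 𝓞 L) * ((N : 𝓞 L) - θ i) = π i ^ 2 * γ i)
    (heq' : ∀ i, (c : 𝓞 L) * ((N' : 𝓞 L) - θ i) = π i ^ 2 * γ' i)
    (hprod : ∏ i, π i = (((p : ℤ) * c' : ℤ) : 𝓞 L)) : (p : ℤ) ^ 2 ∣ N - N' := by
  have hk : ∀ i j, i ≠ j → (((c * Δ : ℤ)) : 𝓞 L) ∈ Ideal.span {π i, π j} := by
    intro i j hij
    obtain ⟨w, hw⟩ := hΔ i j hij
    have h2 : (c : 𝓞 L) * (θ i - θ j) = π j ^ 2 * γ j - π i ^ 2 * γ i := by
      rw [← heq i, ← heq j]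
      ring
    rw [Int.cast_mul, hw, ← mul_assoc, h2]
    exact Ideal.mem_span_pair.2 ⟨-(π i * γ i * w), π j * γ j * w, by ring⟩
  have hk' : ∀ i j, i ≠ j → (((c * Δ : ℤ)) : 𝓞 L) ^ (2 * 2) ∈ Ideal.span {π i ^ 2, π j ^ 2} :=
    fun i j hij => rd_pow (hk i j hij) 2
  have hx : ∀ j, π j ^ 2 ∣ (((c * (N - N') : ℤ)) : 𝓞 L) := by
    intro j
    refine ⟨γ j - γ' j, ?_⟩
    push_cast
    linear_combination heq j - heq' j
  have h4 := rd_four (A := fun j => π j ^ 2) hk' hx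
  rw [Finset.prod_pow, hprod] at h4
  have h5 : (((p : ℤ) ^ 2 : ℤ) : 𝓞 L) ∣
      (((c * Δ) ^ (2 * 2)) ^ 6 * (c * (N - N')) : ℤ) := by
    refine dvd_trans ?_ (show ((((p : ℤ) * c' : ℤ) : 𝓞 L)) ^ 2 ∣ _ by
      push_cast at h4 ⊢
      exact h4)
    push_cast
    rw [mul_pow]
    exact dvd_mul_right _ _
  have h6 := rd_int L h5
  have hc1 : IsCoprime ((p : ℤ) ^ 2) (((c * Δ) ^ (2 * 2)) ^ 6 * c) := by
    have a1 := rd_cop hp hc hcp
    have a2 := rd_cop hp hΔ0 hΔp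
    exact IsCoprime.pow_left (IsCoprime.mul_right
      (IsCoprime.pow_right (IsCoprime.pow_right (a1.mul_right a2))) a1)
  rw [← mul_assoc] at h6
  exact hc1.dvd_of_dvd_mul_left h6

/-- few solutions with given `y`. -/
theorem few_y {L : Type} [Field L] [NumberField L] (θ : Fin 4 → 𝓞 L) (G : ℤ[X])
    (hG : Root4 θ G) (C : ℕ) : ∃ K : ℕ, ∀ (X T : ℝ), 1 ≤ T → 1 ≤ X → T ^ 2 ≤ C * X → X ≤ C * T ^ 4 →
      ∀ (c : ℤ) (y : Fin 4 → ℤ) (S : Finset ℤ) (p : ℤ → ℕ) (z : ℤ → Fin 4 → ℤ),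
      (∀ N ∈ S, X ≤ C * |(N : ℝ)| ∧ Dat θ C X T N (p N) c y (z N)) → S.card ≤ K := by
  obtain ⟨Δ, hΔ0, hΔ⟩ := fy_disc θ hG.inj
  set M : ℕ := C + Δ.natAbs + 2 * C ^ 2 + 1 with hM
  refine ⟨2 * (C * (C * M)) + 1, fun X T hT hX hTX hXT c y S p z hS => ?_⟩
  have hC0 : (0 : ℝ) ≤ C := Nat.cast_nonneg _
  by_cases hTM : T ^ 4 ≤ M
  · refine fy_card S _ fun N hN => ?_
    obtain ⟨-, hd⟩ := hS N hN
    have h1 : |(N : ℝ)| ≤ C * (C * M) := by
      refine hd.hN.trans ?_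
      refine mul_le_mul_of_nonneg_left (hXT.trans ?_) hC0
      exact mul_le_mul_of_nonneg_left hTM hC0
    have h2 : ((|N| : ℤ) : ℝ) ≤ ((C * (C * M) : ℕ) : ℝ) := by
      push_cast
      exact h1
    exact_mod_cast h2
  · push Not at hTM
    have hone : S.card ≤ 1 := by
      rw [Finset.card_le_one]
      intro N hN N' hN'
      obtain ⟨-, hd⟩ := hS N hN
      obtain ⟨-, hd'⟩ := hS N' hN'
      obtain ⟨c', -, -, hprod⟩ := hd.nrm
      have hp1 : (M : ℝ) < p N := hTM.trans_le hd.lo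
      have hp2 : M < p N := by exact_mod_cast hp1
      have h1 := fy_dvd hΔ0 hΔ (fun j => K.ell (θ j) y) (fun j => K.ell (θ j) (z N))
        (fun j => K.ell (θ j) (z N')) N N' c c' (p N) hd.prime hd.c0 (by
          have := hd.cC
          omega) (by
          have := Int.abs_eq_natAbs Δ
          omega) hd.eqn hd'.eqn hprod
      have h2 : |N - N'| < (p N : ℤ) ^ 2 := by
        have e1 : |((N - N' : ℤ) : ℝ)| ≤ 2 * (C * (C * T ^ 4)) := by
          push_cast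
          have e2 := hd.hN
          have e3 := hd'.hN
          have e4 : (C : ℝ) * X ≤ C * (C * T ^ 4) := mul_le_mul_of_nonneg_left hXT hC0
          calc |(N : ℝ) - N'| ≤ |(N : ℝ)| + |(N' : ℝ)| := abs_sub _ _
            _ ≤ 2 * (C * (C * T ^ 4)) := by linarith only [e4, e3, e2]
        have e5 : |((N - N' : ℤ) : ℝ)| < (p N : ℝ) ^ 2 := by
          have e6 : (2 * (C : ℝ) ^ 2) < p N := by
            have : ((2 * C ^ 2 : ℕ) : ℝ) ≤ M := by exact_mod_cast (by omega)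
            push_cast at this
            linarith only [this, hp1]
          have e7 : (0 : ℝ) < p N := by
            have : (0 : ℝ) ≤ M := Nat.cast_nonneg _
            linarith only [this, hp1]
          have e8 := hd.lo
          have e9 : (0 : ℝ) ≤ T ^ 4 := by positivity
          calc |((N - N' : ℤ) : ℝ)| ≤ 2 * (C * (C * T ^ 4)) := e1
            _ = (2 * (C : ℝ) ^ 2) * T ^ 4 := by ring
            _ ≤ (2 * (C : ℝ) ^ 2) * p N := mul_le_mul_of_nonneg_left e8 (by positivity)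
            _ < p N * p N := mul_lt_mul_of_pos_right e6 e7
            _ = (p N : ℝ) ^ 2 := by ring
        have e10 : ((|N - N'| : ℤ) : ℝ) < (((p N : ℤ) ^ 2 : ℤ) : ℝ) := by
          rw [Int.cast_abs]
          push_cast at e5 ⊢
          exact e5
        exact_mod_cast e10
      have h3 := Int.eq_zero_of_abs_lt_dvd h1 h2
      omega
    omega

end Vale.Agent.P018.QB
end

section

/-! # P018, (B): special lattices, algebra and counting. -/

namespace Vale.Agent.P018.QB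

open Polynomial NumberField Vale.Agent.P018.Q

variable {L : Type} [Field L] [NumberField L]

theorem bs_root {θ : Fin 4 → 𝓞 L} {G : ℤ[X]} (hG : Root4 θ G) (j : Fin 4) :
    aeval (θ j) G = 0 := by
  have h1 : (G.map (algebraMap ℤ (𝓞 L))).eval (θ j) = 0 := by
    rw [hG.roots, eval_prod]
    exact Finset.prod_eq_zero (Finset.mem_univ j) (by simp)
  rwa [eval_map_algebraMap] at h1

/-- the polynomial of a vector -/
noncomputable def bsp (y : Fin 4 → ℤ) : ℤ[X] := ∑ k : Fin 4, C (y k) * X ^ (k : ℕ)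

theorem bsp_aeval {R : Type*} [CommRing R] (t : R) (y : Fin 4 → ℤ) : aeval t (bsp y) = el t y := by
  unfold bsp el K.ell
  rw [map_sum]
  refine Finset.sum_congr rfl fun k _ => ?_
  rw [map_mul, map_pow, aeval_X, aeval_C]
  simp

theorem bsp_coeff (y : Fin 4 → ℤ) (k : Fin 4) : (bsp y).coeff k = y k := by
  unfold bsp
  rw [finsetSum_coeff, Finset.sum_eq_single k]
  · simp
  · intro b _ hb
    rw [coeff_C_mul, coeff_X_pow, if_neg, mul_zero]
    exact fun h => hb (Fin.ext h.symm)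
  · intro h; exact absurd (Finset.mem_univ k) h

theorem bsp_ne_zero {y : Fin 4 → ℤ} (hy : y ≠ 0) : bsp y ≠ 0 := by
  intro h
  apply hy
  funext k
  rw [← bsp_coeff y k, h]; simp

theorem bsp_degree (y : Fin 4 → ℤ) : (bsp y).degree < 4 := by
  unfold bsp
  refine lt_of_le_of_lt (degree_sum_le _ _) ?_
  rw [Finset.sup_lt_iff (by exact WithBot.bot_lt_coe 4)]
  intro k _
  refine lt_of_le_of_lt (degree_C_mul_X_pow_le _ _) ?_
  exact_mod_cast k.2

theorem el_ne_zero {θ : Fin 4 → 𝓞 L} {G : ℤ[X]} (hG : Root4 θ G) {y : Fin 4 → ℤ} (hy : y ≠ 0)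
    (j : Fin 4) : el (θ j) y ≠ 0 := by
  intro h0
  have hr := bs_root hG j
  have hr' : aeval ((θ j : 𝓞 L) : L) (G.map (Int.castRingHom ℚ)) = 0 := by
    rw [show (Int.castRingHom ℚ) = algebraMap ℤ ℚ from rfl, aeval_map_algebraMap]
    have := congrArg (algebraMap (𝓞 L) L) hr
    rwa [map_zero, ← aeval_algebraMap_apply] at this
  have hy' : aeval ((θ j : 𝓞 L) : L) ((bsp y).map (Int.castRingHom ℚ)) = 0 := by
    rw [show (Int.castRingHom ℚ) = algebraMap ℤ ℚ from rfl, aeval_map_algebraMap]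
    have := congrArg (algebraMap (𝓞 L) L) h0
    rw [← bsp_aeval] at this
    rwa [map_zero, ← aeval_algebraMap_apply] at this
  have hmin : minpoly ℚ ((θ j : 𝓞 L) : L) = G.map (Int.castRingHom ℚ) :=
    (minpoly.eq_of_irreducible_of_monic hG.irr hr' (hG.monic.map _)).symm
  have hd := minpoly.degree_le_of_ne_zero ℚ ((θ j : 𝓞 L) : L)
    (p := (bsp y).map (Int.castRingHom ℚ))
    (by rw [Ne, Polynomial.map_eq_zero_iff (RingHom.injective_int _)]; exact bsp_ne_zero hy) hy'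
  rw [hmin] at hd
  have h4 : (G.map (Int.castRingHom ℚ)).degree = 4 := by
    rw [degree_map_eq_of_injective (RingHom.injective_int _), degree_eq_natDegree hG.monic.ne_zero,
      hG.deg]; rfl
  rw [h4, degree_map_eq_of_injective (RingHom.injective_int _)] at hd
  exact absurd (bsp_degree y) (not_lt.2 hd)

/-- multiplication by `θ` on the coordinates -/
def mth (G : ℤ[X]) (v : Fin 4 → ℤ) : Fin 4 → ℤ :=
  ![- v 3 * G.coeff 0, v 0 - v 3 * G.coeff 1, v 1 - v 3 * G.coeff 2, v 2 - v 3 * G.coeff 3]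

theorem el_mth {θ : Fin 4 → 𝓞 L} {G : ℤ[X]} (hG : Root4 θ G) (v : Fin 4 → ℤ) (j : Fin 4) :
    el (θ j) (mth G v) = θ j * el (θ j) v := by
  have hr := bs_root hG j
  rw [aeval_eq_sum_range, hG.deg] at hr
  have h4 : G.coeff 4 = 1 := by
    have := hG.monic.coeff_natDegree
    rwa [hG.deg] at this
  simp only [Finset.sum_range_succ, Finset.sum_range_zero, h4, zsmul_eq_mul, pow_zero, zero_add] at hr
  unfold el K.ell mth
  simp only [Fin.sum_univ_four]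
  simp only [Matrix.cons_val_zero, Matrix.cons_val_one, Matrix.cons_val]
  push_cast
  push_cast at hr
  simp only [Fin.isValue, Fin.val_zero, Fin.val_one, Fin.val_two, pow_zero, pow_one] 
  have h3 : ((3 : Fin 4) : ℕ) = 3 := rfl
  rw [h3]
  linear_combination (-(v 3 : 𝓞 L)) * hr

theorem el_add {R : Type*} [CommRing R] (t : R) (x y : Fin 4 → ℤ) :
    el t (x + y) = el t x + el t y := by
  unfold el K.ell
  rw [← Finset.sum_add_distrib]
  refine Finset.sum_congr rfl fun k _ => ?_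
  simp only [Pi.add_apply]; push_cast; ring

theorem el_smul {R : Type*} [CommRing R] (t : R) (c : ℤ) (y : Fin 4 → ℤ) :
    el t (c • y) = c * el t y := by
  unfold el K.ell
  rw [Finset.mul_sum]
  refine Finset.sum_congr rfl fun k _ => ?_
  simp only [Pi.smul_apply, smul_eq_mul]; push_cast; ring

theorem el_zero {R : Type*} [CommRing R] (t : R) : el t (0 : Fin 4 → ℤ) = 0 := by
  unfold el K.ell
  simp

/-- multiplication by `θ` as a linear map -/
def mthL (G : ℤ[X]) : (Fin 4 → ℤ) →ₗ[ℤ] (Fin 4 → ℤ) where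
  toFun := mth G
  map_add' x y := by
    funext i
    fin_cases i <;> simp [mth] <;> ring
  map_smul' c x := by
    funext i
    fin_cases i <;> simp [mth] <;> ring

/-- the lattice of the line of `g` -/
def spl (θ : Fin 4 → 𝓞 L) (j k : Fin 4) (g : Fin 4 → ℤ) : Submodule ℤ (Fin 4 → ℤ) where
  carrier := {z | el (θ j) g * el (θ k) z = el (θ k) g * el (θ j) z}
  zero_mem' := by simp only [Set.mem_ofPred_eq, el_zero, mul_zero]
  add_mem' {x y} hx hy := by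
    simp only [Set.mem_ofPred_eq] at hx hy ⊢
    rw [el_add, el_add, mul_add, mul_add, hx, hy]
  smul_mem' c x hx := by
    simp only [Set.mem_ofPred_eq] at hx ⊢
    rw [el_smul, el_smul]
    linear_combination (c : 𝓞 L) * hx

omit [NumberField L] in
theorem mem_spl {θ : Fin 4 → 𝓞 L} {j k : Fin 4} {g z : Fin 4 → ℤ} :
    z ∈ spl θ j k g ↔ el (θ j) g * el (θ k) z = el (θ k) g * el (θ j) z := Iff.rfl

theorem finrank_spl {θ : Fin 4 → 𝓞 L} {G : ℤ[X]} (hG : Root4 θ G) {j k : Fin 4} (hjk : j ≠ k)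
    {g : Fin 4 → ℤ} (hg : g ≠ 0) : Module.finrank ℤ (spl θ j k g) ≤ 2 := by
  by_contra hcon
  push Not at hcon
  let f : (spl θ j k g × spl θ j k g) →ₗ[ℤ] (Fin 4 → ℤ) :=
    (spl θ j k g).subtype.comp (LinearMap.fst ℤ _ _) -
      (mthL G).comp ((spl θ j k g).subtype.comp (LinearMap.snd ℤ _ _))
  have hf : ¬ Function.Injective f := by
    intro hinj
    have h1 := LinearMap.finrank_le_finrank_of_injective hinj
    rw [Module.finrank_prod, Module.finrank_fin_fun] at h1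
    omega
  obtain ⟨x, hx, hx0⟩ : ∃ x, f x = 0 ∧ x ≠ 0 := by
    by_contra h
    push Not at h
    exact hf ((injective_iff_map_eq_zero f).2 h)
  obtain ⟨⟨v, hv⟩, ⟨w, hw⟩⟩ := x
  have hvw : v = mth G w := by
    have : v - mth G w = 0 := hx
    exact sub_eq_zero.1 this
  have hw0 : w ≠ 0 := by
    rintro rfl
    apply hx0
    have : v = 0 := by rw [hvw]; exact (mthL G).map_zero
    subst this
    rfl
  rw [mem_spl] at hv hw
  rw [hvw, el_mth hG, el_mth hG] at hv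
  have h2 : (θ k - θ j) * (el (θ j) g * el (θ k) w) = 0 := by
    linear_combination hv - θ j * hw
  rcases mul_eq_zero.1 h2 with h3 | h3
  · exact hjk (hG.inj (sub_eq_zero.1 h3).symm)
  · rcases mul_eq_zero.1 h3 with h4 | h4
    · exact el_ne_zero hG hg j h4
    · exact el_ne_zero hG hw0 k h4

/-- number of short vectors of a lattice of rank `≤ 2` -/
theorem card_short (Λ : Submodule ℤ (Fin 4 → ℤ)) (hΛ : Module.finrank ℤ Λ ≤ 2) (D : ℤ) (_hD : 0 < D)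
    (hmin : ∀ w ∈ Λ, w ≠ 0 → D ≤ dot w w) (m : ℕ) (hm : 0 < m) (E : ℤ)
    (hE : 4 * E < (m : ℤ) ^ 2 * D) (Z : Finset (Fin 4 → ℤ))
    (hZ : ∀ z ∈ Z, z ∈ Λ ∧ dot z z ≤ E) : Z.card ≤ m ^ 2 := by
  classical
  have : NeZero m := ⟨hm.ne'⟩
  let b := Module.finBasis ℤ Λ
  let F : (Fin 4 → ℤ) → (Fin (Module.finrank ℤ Λ) → ZMod m) := fun z =>
    if hz : z ∈ Λ then fun i => ((b.repr ⟨z, hz⟩ i : ℤ) : ZMod m) else 0
  have hinj : Set.InjOn F (Z : Set (Fin 4 → ℤ)) := by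
    intro z hz z' hz' h
    obtain ⟨hzΛ, hzE⟩ := hZ z hz
    obtain ⟨hzΛ', hzE'⟩ := hZ z' hz'
    simp only [F, dif_pos hzΛ, dif_pos hzΛ'] at h
    have h1 : ∀ i, ∃ c : ℤ, b.repr ⟨z, hzΛ⟩ i - b.repr ⟨z', hzΛ'⟩ i = m * c := by
      intro i
      have h2 := congrFun h i
      rw [ZMod.intCast_eq_intCast_iff_dvd_sub] at h2
      obtain ⟨c, hc⟩ := h2
      exact ⟨-c, by linarith⟩
    choose c hc using h1
    set w : Λ := ∑ i, c i • b i with hw
    have h3 : (⟨z, hzΛ⟩ : Λ) - ⟨z', hzΛ'⟩ = (m : ℤ) • w := by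
      rw [← b.sum_repr ⟨z, hzΛ⟩, ← b.sum_repr ⟨z', hzΛ'⟩, hw, Finset.smul_sum,
        ← Finset.sum_sub_distrib]
      refine Finset.sum_congr rfl fun i _ => ?_
      rw [← sub_smul, hc i, mul_smul]
    have h4 : z - z' = (m : ℤ) • (w : Fin 4 → ℤ) := congrArg Subtype.val h3
    by_contra hne
    have hw0 : (w : Fin 4 → ℤ) ≠ 0 := by
      intro h0
      rw [h0, smul_zero] at h4
      exact hne (sub_eq_zero.1 h4)
    have h5 := hmin w w.2 hw0
    have h6 : dot (z - z') (z - z') = (m : ℤ) ^ 2 * dot (w : Fin 4 → ℤ) w := by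
      rw [h4]
      simp only [dot, Fin.sum_univ_four, Pi.smul_apply, smul_eq_mul]; ring
    have h7 : dot (z - z') (z - z') ≤ 2 * dot z z + 2 * dot z' z' := by
      simp only [dot, Fin.sum_univ_four, Pi.sub_apply]
      linarith only [sq_nonneg (z 3 + z' 3), sq_nonneg (z 2 + z' 2), sq_nonneg (z 1 + z' 1), sq_nonneg (z 0 + z' 0)]
    have h8 : (m : ℤ) ^ 2 * D ≤ (m : ℤ) ^ 2 * dot (w : Fin 4 → ℤ) w :=
      mul_le_mul_of_nonneg_left h5 (by positivity)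
    linarith only [h8, h7, h6, hzE', hzE, hE]
  have hcard : Z.card ≤ (Finset.univ : Finset (Fin (Module.finrank ℤ Λ) → ZMod m)).card :=
    Finset.card_le_card_of_injOn F (fun _ _ => Finset.mem_coe.2 (Finset.mem_univ _)) hinj
  rw [Finset.card_univ, Fintype.card_fun, ZMod.card, Fintype.card_fin] at hcard
  exact hcard.trans (Nat.pow_le_pow_right hm hΛ)

theorem box_fib (i : Fin 4) (c : ℤ) (A : Finset (Fin 4 → ℤ))
    (hA : ∀ g ∈ A, g i = c ∧ ∀ l, |g l| ≤ |c|) : (A.card : ℝ) ≤ (2 * |(c : ℝ)| + 1) ^ 3 := by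
  classical
  have h1 : A ⊆ Fintype.piFinset (fun l => if l = i then {c} else Finset.Icc (-|c|) |c|) := by
    intro g hg
    rw [Fintype.mem_piFinset]
    intro l
    split_ifs with hl
    · rw [hl, Finset.mem_singleton]; exact (hA g hg).1
    · rw [Finset.mem_Icc]; exact abs_le.1 ((hA g hg).2 l)
  have h2 := Finset.card_le_card h1
  rw [Fintype.card_piFinset] at h2
  have key : ∀ S : Finset ℤ, ∏ l : Fin 4, (if l = i then ({c} : Finset ℤ) else S).card =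
      S.card ^ 3 := by
    intro S
    fin_cases i <;> simp [Fin.prod_univ_four] <;> ring
  rw [key] at h2
  have h4 : ((Finset.Icc (-|c|) |c|).card : ℝ) = 2 * |(c : ℝ)| + 1 := by
    rw [Int.card_Icc]
    have : ((|c| + 1 - -|c|).toNat : ℤ) = 2 * |c| + 1 := by
      rw [Int.toNat_of_nonneg (by have := abs_nonneg c; linarith only [this])]; ring
    exact_mod_cast this
  rw [← h4]
  exact_mod_cast h2

theorem sum_inv_dot (N : ℕ) (T : Finset (Fin 4 → ℤ))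
    (hT : ∀ g ∈ T, g ≠ 0 ∧ ∀ l, |g l| ≤ N) :
    ∑ g ∈ T, (1 : ℝ) / (dot g g : ℝ) ≤ 324 * (N : ℝ) ^ 2 := by
  classical
  have hN0 : (0 : ℝ) ≤ N := Nat.cast_nonneg N
  have h1 : ∀ g ∈ T, (1 : ℝ) / (dot g g : ℝ) ≤
      ∑ i : Fin 4, if g i ≠ 0 ∧ ∀ l, |g l| ≤ |g i| then 1 / (g i : ℝ) ^ 2 else 0 := by
    intro g hg
    obtain ⟨i, hi⟩ := Finite.exists_max fun l : Fin 4 => |g l|
    have hgi : g i ≠ 0 := by
      intro h0
      apply (hT g hg).1
      funext l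
      have := hi l
      simp only [h0, abs_zero] at this
      exact abs_eq_zero.1 (le_antisymm this (abs_nonneg _))
    have h2 : ((g i : ℝ)) ^ 2 ≤ (dot g g : ℝ) := by
      have : (g i) ^ 2 ≤ dot g g := by
        unfold dot
        rw [pow_two]
        exact Finset.single_le_sum (f := fun l => g l * g l) (fun l _ => mul_self_nonneg _)
          (Finset.mem_univ i)
      exact_mod_cast this
    have h3 : (0 : ℝ) < (g i : ℝ) ^ 2 := by (clear * - hgi; positivity)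
    refine (one_div_le_one_div_of_le h3 h2).trans ?_
    refine le_trans ?_ (Finset.single_le_sum (f := fun i : Fin 4 =>
      if g i ≠ 0 ∧ ∀ l, |g l| ≤ |g i| then 1 / (g i : ℝ) ^ 2 else 0) (fun l _ => ?_)
      (Finset.mem_univ i))
    · rw [if_pos ⟨hgi, hi⟩]
    · split_ifs
      · (clear * -; positivity)
      · exact le_rfl
  refine (Finset.sum_le_sum h1).trans ?_
  rw [Finset.sum_comm]
  have h4 : ∀ i ∈ (Finset.univ : Finset (Fin 4)),
      ∑ g ∈ T, (if g i ≠ 0 ∧ ∀ l, |g l| ≤ |g i| then 1 / (g i : ℝ) ^ 2 else 0) ≤ 81 * (N : ℝ) ^ 2 := by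
    intro i _
    rw [← Finset.sum_filter]
    set A := T.filter (fun g => g i ≠ 0 ∧ ∀ l, |g l| ≤ |g i|) with hA
    have hmaps : ∀ g ∈ A, g i ∈ (Finset.Icc (-(N : ℤ)) N).erase 0 := by
      intro g hg
      rw [hA, Finset.mem_filter] at hg
      rw [Finset.mem_erase, Finset.mem_Icc]
      exact ⟨hg.2.1, abs_le.1 ((hT g hg.1).2 i)⟩
    rw [← Finset.sum_fiberwise_of_maps_to hmaps]
    have h5 : ∀ c ∈ (Finset.Icc (-(N : ℤ)) N).erase 0,
        ∑ g ∈ A.filter (fun g => g i = c), (1 : ℝ) / (g i : ℝ) ^ 2 ≤ 27 * N := by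
      intro c hc
      rw [Finset.mem_erase, Finset.mem_Icc] at hc
      have hc0 : (1 : ℝ) ≤ |(c : ℝ)| := by
        have : (1 : ℤ) ≤ |c| := Int.one_le_abs hc.1
        exact_mod_cast this
      have hcN : |(c : ℝ)| ≤ N := by
        have : |c| ≤ (N : ℤ) := abs_le.2 hc.2
        exact_mod_cast this
      have h6 := box_fib i c (A.filter (fun g => g i = c)) (by
        intro g hg
        rw [Finset.mem_filter, hA, Finset.mem_filter] at hg
        refine ⟨hg.2, fun l => ?_⟩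
        have := hg.1.2.2 l
        rwa [hg.2] at this)
      calc ∑ g ∈ A.filter (fun g => g i = c), (1 : ℝ) / (g i : ℝ) ^ 2
          = ∑ g ∈ A.filter (fun g => g i = c), (1 : ℝ) / (c : ℝ) ^ 2 := by
            refine Finset.sum_congr rfl fun g hg => ?_
            rw [(Finset.mem_filter.1 hg).2]
        _ = (A.filter (fun g => g i = c)).card * (1 / (c : ℝ) ^ 2) := by
            rw [Finset.sum_const, nsmul_eq_mul]
        _ ≤ (2 * |(c : ℝ)| + 1) ^ 3 * (1 / (c : ℝ) ^ 2) :=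
            mul_le_mul_of_nonneg_right h6 (by (clear * -; positivity))
        _ ≤ (3 * |(c : ℝ)|) ^ 3 * (1 / (c : ℝ) ^ 2) := by
            refine mul_le_mul_of_nonneg_right ?_ (by positivity)
            exact pow_le_pow_left₀ (by positivity) (by linarith only [hc0]) 3
        _ = 27 * |(c : ℝ)| := by
            rw [← sq_abs (c : ℝ)]
            field_simp
            ring
        _ ≤ 27 * N := by linarith only [hcN]
    refine (Finset.sum_le_sum h5).trans ?_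
    rw [Finset.sum_const, nsmul_eq_mul]
    have h7 : (((Finset.Icc (-(N : ℤ)) N).erase 0).card : ℝ) = 2 * N := by
      rw [Finset.card_erase_of_mem (by rw [Finset.mem_Icc]; omega), Int.card_Icc]
      have : ((N : ℤ) + 1 - -(N : ℤ)).toNat - 1 = 2 * N := by omega
      rw [this]; push_cast; ring
    rw [h7]
    linarith only [sq_nonneg (N : ℝ)]
  refine (Finset.sum_le_sum h4).trans ?_
  rw [Finset.sum_const, Finset.card_univ, Fintype.card_fin, nsmul_eq_mul]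
  push_cast
  linarith

end Vale.Agent.P018.QB
end

section

/-! # P018, (B): special lattices. -/

namespace Vale.Agent.P018.QB

open Polynomial NumberField Vale.Agent.P018.Q

/-- `z` is on a line over a quadratic subfield through a short vector. -/
def SpecZ {L : Type} [Field L] [NumberField L] (θ : Fin 4 → 𝓞 L) (R : ℝ) (z : Fin 4 → ℤ) : Prop :=
  ∃ g : Fin 4 → ℤ, g ≠ 0 ∧ (dot g g : ℝ) ≤ R ^ 2 ∧
    ∃ j k, j ≠ k ∧ el (θ j) g * el (θ k) z = el (θ k) g * el (θ j) z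

/-- two vectors on the line of `g` have the same lattice -/
theorem spl_trans {L : Type} [Field L] [NumberField L] {θ : Fin 4 → 𝓞 L} {G : ℤ[X]}
    (hG : Root4 θ G) {j k : Fin 4} {g z w : Fin 4 → ℤ} (hg : g ≠ 0) (hz : z ∈ spl θ j k g)
    (hw : w ∈ spl θ j k g) : el (θ j) w * el (θ k) z = el (θ k) w * el (θ j) z := by
  rw [mem_spl] at hz hw
  refine mul_left_cancel₀ (el_ne_zero hG hg j) ?_
  linear_combination el (θ j) w * hz - el (θ j) z * hw

/-- a shortest vector -/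
theorem exists_short {L : Type} [Field L] [NumberField L] {θ : Fin 4 → 𝓞 L} {R : ℝ}
    {z : Fin 4 → ℤ} (h : SpecZ θ R z) : ∃ x : Fin 4 × Fin 4 × (Fin 4 → ℤ), x.1 ≠ x.2.1 ∧
      x.2.2 ≠ 0 ∧ (dot x.2.2 x.2.2 : ℝ) ≤ R ^ 2 ∧ z ∈ spl θ x.1 x.2.1 x.2.2 ∧
      ∀ w : Fin 4 → ℤ, w ≠ 0 → el (θ x.1) w * el (θ x.2.1) z = el (θ x.2.1) w * el (θ x.1) z →
        dot x.2.2 x.2.2 ≤ dot w w := by
  classical
  obtain ⟨g, hg0, hgR, j, k, hjk, hg⟩ := h
  let P : ℕ → Prop := fun n => ∃ w : Fin 4 → ℤ, w ≠ 0 ∧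
    el (θ j) w * el (θ k) z = el (θ k) w * el (θ j) z ∧ (dot w w).toNat = n
  have hP : ∃ n, P n := ⟨_, g, hg0, hg, rfl⟩
  obtain ⟨w, hw0, hw, hn⟩ := Nat.find_spec hP
  have hnn : ∀ v : Fin 4 → ℤ, 0 ≤ dot v v := fun v =>
    Finset.sum_nonneg fun _ _ => mul_self_nonneg _
  have hmin : ∀ v : Fin 4 → ℤ, v ≠ 0 → el (θ j) v * el (θ k) z = el (θ k) v * el (θ j) z →
      dot w w ≤ dot v v := by
    intro v hv0 hv
    have h1 := Nat.find_min' hP ⟨v, hv0, hv, rfl⟩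
    rw [← hn] at h1
    have := hnn v
    have := hnn w
    omega
  refine ⟨(j, k, w), hjk, hw0, ?_, hw, hmin⟩
  refine le_trans ?_ hgR
  exact_mod_cast hmin g hg0 hg

/-- number of special `z`.  Proof: for `j ≠ k`, `g ≠ 0` the set
`Λ(g) = {z : el (θ j) g * el (θ k) z = el (θ k) g * el (θ j) z}` is a submodule of `ℤ^4`; it has
rank `≤ 2`: `z ↦ el (θ j) z / el (θ j) g` identifies `Λ(g) ⊗ ℚ` with a vector space over the
subfield `{x ∈ ℚ(θ_j) : x = its conjugate under θ_j ↦ θ_k}`, a proper subfield of a quartic field,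
containing that subfield's multiples only; so its degree is `1` or `2`, and in fact `Λ(g) ⊗ ℚ` is
`g` times that subfield.  Let `g'` be a shortest nonzero vector of `Λ(g)`; then `Λ(g') = Λ(g)`.  The
number of `z ∈ Λ(g')` with `|z| ≤ H` is `≤ (1 + 2H/|g'|)^2` (classes of `Λ/mΛ`, `m |g'| > 2H`).
Sum over `|g'| ≤ R` in dyadic shells. -/
theorem special_z {L : Type} [Field L] [NumberField L] (θ : Fin 4 → 𝓞 L) (G : ℤ[X])
    (hG : Root4 θ G) : ∃ K : ℝ, 0 < K ∧ ∀ (R H : ℝ), 1 ≤ R → R ≤ H → ∀ Z : Finset (Fin 4 → ℤ),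
      (∀ z ∈ Z, z ≠ 0 ∧ (dot z z : ℝ) ≤ H ^ 2 ∧ SpecZ θ R z) →
      (Z.card : ℝ) ≤ K * R ^ 2 * H ^ 2 := by
  classical
  refine ⟨16 * 9 * 324, by norm_num, fun R H hR hRH Z hZ => ?_⟩
  have hH : 0 < H := by linarith
  choose! F hF1 hF2 hF3 hF4 hF5 using fun z hz => exists_short (hZ z hz).2.2
  set N : ℕ := ⌊R⌋₊ with hN
  set T : Finset (Fin 4 → ℤ) := (Fintype.piFinset fun _ => Finset.Icc (-(N : ℤ)) N).erase 0 with hT
  have hTmem : ∀ g ∈ T, g ≠ 0 ∧ ∀ l, |g l| ≤ N := by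
    intro g hg
    rw [hT, Finset.mem_erase, Fintype.mem_piFinset] at hg
    exact ⟨hg.1, fun l => abs_le.2 (Finset.mem_Icc.1 (hg.2 l))⟩
  have hmaps : ∀ z ∈ Z, F z ∈ (Finset.univ : Finset (Fin 4)) ×ˢ
      ((Finset.univ : Finset (Fin 4)) ×ˢ T) := by
    intro z hz
    rw [Finset.mem_product, Finset.mem_product]
    refine ⟨Finset.mem_univ _, Finset.mem_univ _, ?_⟩
    rw [hT, Finset.mem_erase, Fintype.mem_piFinset]
    refine ⟨hF2 z hz, fun l => ?_⟩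
    rw [Finset.mem_Icc, ← abs_le]
    have h1 : ((F z).2.2 l : ℝ) ^ 2 ≤ R ^ 2 := by
      refine le_trans ?_ (hF3 z hz)
      have : ((F z).2.2 l) ^ 2 ≤ dot (F z).2.2 (F z).2.2 := by
        unfold dot
        rw [pow_two]
        exact Finset.single_le_sum (f := fun l => (F z).2.2 l * (F z).2.2 l)
          (fun l _ => mul_self_nonneg _) (Finset.mem_univ l)
      exact_mod_cast this
    have h2 : |((F z).2.2 l : ℝ)| ≤ R := abs_le_of_sq_le_sq h1 (by linarith only [hR])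
    have h3 : (((F z).2.2 l).natAbs : ℝ) ≤ R := by
      rw [Nat.cast_natAbs]; push_cast; exact h2
    have h4 := Nat.le_floor h3
    rw [← hN] at h4
    have h5 : (((F z).2.2 l).natAbs : ℤ) ≤ N := by exact_mod_cast h4
    rwa [Int.natCast_natAbs] at h5
  have hfib : ∀ x ∈ (Finset.univ : Finset (Fin 4)) ×ˢ ((Finset.univ : Finset (Fin 4)) ×ˢ T),
      ((Z.filter (fun z => F z = x)).card : ℝ) ≤ 9 * H ^ 2 * (1 / (dot x.2.2 x.2.2 : ℝ)) := by
    rintro ⟨j, k, g⟩ hx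
    rw [Finset.mem_product, Finset.mem_product] at hx
    have hg0 := (hTmem g hx.2.2).1
    simp only
    have hDpos : 0 < dot g g := by
      obtain ⟨l, hl⟩ := Function.ne_iff.1 hg0
      unfold dot
      refine Finset.sum_pos' (fun _ _ => mul_self_nonneg _) ⟨l, Finset.mem_univ _, ?_⟩
      exact mul_self_pos.2 hl
    have hDpos' : (0 : ℝ) < (dot g g : ℝ) := by exact_mod_cast hDpos
    rcases (Z.filter (fun z => F z = (j, k, g))).eq_empty_or_nonempty with he | ⟨z0, hz0⟩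
    · rw [he]
      simp only [Finset.card_empty, Nat.cast_zero]
      (clear * - hH hDpos; positivity)
    rw [Finset.mem_filter] at hz0
    obtain ⟨hz0, hFz0⟩ := hz0
    have hjk : j ≠ k := by have := hF1 z0 hz0; rwa [hFz0] at this
    have hDR : (dot g g : ℝ) ≤ R ^ 2 := by have := hF3 z0 hz0; rwa [hFz0] at this
    have hz0g : z0 ∈ spl θ j k g := by have := hF4 z0 hz0; rwa [hFz0] at this
    set sD := Real.sqrt (dot g g : ℝ) with hsD
    have hsDpos : 0 < sD := Real.sqrt_pos.2 hDpos'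
    have hsD2 : sD ^ 2 = (dot g g : ℝ) := Real.sq_sqrt hDpos'.le
    have hsDR : sD ≤ R := by
      rw [hsD]; exact Real.sqrt_le_iff.2 ⟨by linarith only [hR], hDR⟩
    set m : ℕ := ⌊2 * H / sD⌋₊ + 1 with hm
    have hm1 : 2 * H / sD < m := by rw [hm]; push_cast; exact Nat.lt_floor_add_one _
    have hm2 : (m : ℝ) ≤ 3 * H / sD := by
      have h1 : (⌊2 * H / sD⌋₊ : ℝ) ≤ 2 * H / sD := Nat.floor_le (by positivity)
      have h2 : 1 ≤ H / sD := by rw [le_div_iff₀ hsDpos]; linarith only [hsDR, hRH]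
      rw [hm]; push_cast
      have h3 : 3 * H / sD = 2 * H / sD + H / sD := by ring
      linarith only [h3, h2, h1]
    have hcard := card_short (spl θ j k g) (finrank_spl hG hjk hg0) (dot g g) hDpos (by
      intro w hw hw0
      have h1 := hF5 z0 hz0 w hw0
      rw [hFz0] at h1
      exact h1 (spl_trans hG hg0 hz0g hw)) m (by omega) ⌊H ^ 2⌋ (by
      have h1 : (4 : ℝ) * (⌊H ^ 2⌋ : ℝ) < (m : ℝ) ^ 2 * (dot g g : ℝ) := by
        have h2 : (⌊H ^ 2⌋ : ℝ) ≤ H ^ 2 := Int.floor_le _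
        have h3 : 2 * H < m * sD := by rwa [div_lt_iff₀ hsDpos] at hm1
        have h4 : (2 * H) ^ 2 < (m * sD) ^ 2 := pow_lt_pow_left₀ h3 (by positivity) (by norm_num)
        rw [mul_pow (m : ℝ) sD, hsD2, mul_pow] at h4
        linarith only [h4, h2]
      exact_mod_cast h1) (Z.filter (fun z => F z = (j, k, g))) (by
      intro z hz
      rw [Finset.mem_filter] at hz
      refine ⟨?_, ?_⟩
      · have := hF4 z hz.1; rwa [hz.2] at this
      · exact Int.le_floor.2 (hZ z hz.1).2.1)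
    have h5 : (((Z.filter (fun z => F z = (j, k, g))).card : ℕ) : ℝ) ≤ (m : ℝ) ^ 2 := by
      exact_mod_cast hcard
    refine h5.trans ?_
    calc (m : ℝ) ^ 2 ≤ (3 * H / sD) ^ 2 := pow_le_pow_left₀ (Nat.cast_nonneg _) hm2 2
      _ = 9 * H ^ 2 * (1 / (dot g g : ℝ)) := by rw [div_pow, hsD2]; ring
  have hsum : (Z.card : ℝ) = ∑ x ∈ (Finset.univ : Finset (Fin 4)) ×ˢ
      ((Finset.univ : Finset (Fin 4)) ×ˢ T), ((Z.filter (fun z => F z = x)).card : ℝ) := by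
    rw [Finset.card_eq_sum_card_fiberwise hmaps]
    push_cast
    rfl
  rw [hsum]
  refine (Finset.sum_le_sum hfib).trans ?_
  rw [Finset.sum_product]
  simp only [Finset.sum_product]
  have hT2 := sum_inv_dot N T hTmem
  have hNR : (N : ℝ) ≤ R := Nat.floor_le (by linarith only [hR])
  simp only [Finset.sum_const, Finset.card_univ, Fintype.card_fin, nsmul_eq_mul, ← Finset.mul_sum]
  have hN2 : (N : ℝ) ^ 2 ≤ R ^ 2 := pow_le_pow_left₀ (Nat.cast_nonneg _) hNR 2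
  have h9 : ∑ g ∈ T, (1 : ℝ) / (dot g g : ℝ) ≤ 324 * R ^ 2 := hT2.trans (by linarith only [hN2])
  have h10 : 9 * H ^ 2 * ∑ g ∈ T, (1 : ℝ) / (dot g g : ℝ) ≤ 9 * H ^ 2 * (324 * R ^ 2) :=
    mul_le_mul_of_nonneg_left h9 (by positivity)
  push_cast
  linarith only [h10]

end Vale.Agent.P018.QB
end
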