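import Mathlib
import Vale.Agent.P018.Bdl.B1
import Vale.Agent.P018.Bdl.B8
import Vale.Agent.P018.Bdl.B4
import Vale.Agent.P018.Bdl.B7

set_option linter.all false

section

/-! # P018, quartics, family (A): the numerical part of the relation step at given exponents. -/

namespace Vale.Agent.P018.Q

open Finset

theorem rq_sq {X : ℝ} (hX : 0 < X) (u : ℝ) : X ^ (2 * u) = (X ^ u) ^ 2 := by
  rw [two_mul, Real.rpow_add hX, sq]

theorem rq_sqrt_le {X u a : ℝ} (hX : 0 < X) (h : a ≤ X ^ (2 * u)) : Real.sqrt a ≤ X ^ u := by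
  rw [rq_sq hX] at h
  exact (Real.sqrt_le_left (Real.rpow_pos_of_pos hX u).le).2 h

theorem rq_le_sqrt {X u a : ℝ} (hX : 0 < X) (h : X ^ (2 * u) ≤ a) : X ^ u ≤ Real.sqrt a := by
  rw [rq_sq hX] at h
  exact Real.le_sqrt_of_sq_le h

theorem rq_gauss (D : ℕ) : ∑ b ∈ range (D + 1), (b : ℝ) = D * (D + 1) / 2 := by
  induction D with
  | zero => simp
  | succ n ih =>
    rw [Finset.sum_range_succ, ih]
    push_cast
    ring

theorem rq_half (ν : ℕ) : ((ν * (ν + 1) / 2 : ℕ) : ℝ) = (ν : ℝ) * (ν + 1) / 2 := by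
  have h : 2 ∣ ν * (ν + 1) := (Nat.even_mul_succ_self ν).two_dvd
  rw [Nat.cast_div h (by norm_num)]
  push_cast
  ring

/-- the bound for the coefficients of the expansion. -/
theorem rq_bd (Nd D : ℕ) (ω : ℕ → ℝ) (X K0 K1 L1 L2 m1 m2 ε : ℝ) (hX : 1 ≤ X) (hK0 : 1 ≤ K0)
    (hK1 : 1 ≤ K1) (hL1 : 0 ≤ L1) (hL2 : 0 ≤ L2) (h1 : L1 ≤ X ^ (m1 + ε))
    (h2 : L2 ≤ X ^ (m2 + ε)) (hε : 0 ≤ ε) (hω : ∀ a ≤ Nd, ∀ a' ≤ a, ω a ≤ ω a') (α b' : ℕ)
    (hb' : b' ≤ D) :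
    ∑ a ∈ range (Nd + 1), ∑ b ∈ range (D + 1), (X ^ ω a * L1 ^ b * L2 ^ (D - b)) *
      (a.choose α : ℝ) * ((D - b).choose b' : ℝ) * K0 ^ (a - α) * (K1 * L2) ^ b *
      (K1 * L1) ^ (D - b - b') ≤
      (((Nd : ℝ) + 1) * ((D : ℝ) + 1) * (2 ^ Nd * 2 ^ D * K0 ^ Nd * K1 ^ D)) *
        X ^ (ω α + D * (m1 + m2) - b' * m1 + 2 * D * ε) := by
  have hX0 : 0 < X := by linarith
  have hterm : ∀ a ∈ range (Nd + 1), ∀ b ∈ range (D + 1), (X ^ ω a * L1 ^ b * L2 ^ (D - b)) *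
      (a.choose α : ℝ) * ((D - b).choose b' : ℝ) * K0 ^ (a - α) * (K1 * L2) ^ b *
      (K1 * L1) ^ (D - b - b') ≤ (2 ^ Nd * 2 ^ D * K0 ^ Nd * K1 ^ D) *
        X ^ (ω α + D * (m1 + m2) - b' * m1 + 2 * D * ε) := by
    intro a ha b hb
    rw [Finset.mem_range] at ha hb
    have hR : 0 ≤ (2 ^ Nd * 2 ^ D * K0 ^ Nd * K1 ^ D) *
        X ^ (ω α + D * (m1 + m2) - b' * m1 + 2 * D * ε) := by positivity
    by_cases h3 : a < α
    · rw [Nat.choose_eq_zero_of_lt h3]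
      simpa using hR
    by_cases h4 : D - b < b'
    · rw [Nat.choose_eq_zero_of_lt h4]
      simpa using hR
    have hpow : L1 ^ b * L2 ^ (D - b) * (K1 * L2) ^ b * (K1 * L1) ^ (D - b - b') =
        K1 ^ (D - b') * (L1 ^ (D - b') * L2 ^ D) := by
      have e1 : b + (D - b - b') = D - b' := by omega
      have e2 : (D - b) + b = D := by omega
      calc L1 ^ b * L2 ^ (D - b) * (K1 * L2) ^ b * (K1 * L1) ^ (D - b - b')
          = (K1 ^ b * K1 ^ (D - b - b')) * ((L1 ^ b * L1 ^ (D - b - b')) *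
              (L2 ^ (D - b) * L2 ^ b)) := by
            rw [mul_pow, mul_pow]; ring
        _ = K1 ^ (D - b') * (L1 ^ (D - b') * L2 ^ D) := by
            rw [← pow_add, ← pow_add, ← pow_add, e1, e2]
    have c1 : X ^ ω a ≤ X ^ ω α :=
      Real.rpow_le_rpow_of_exponent_le hX (hω a (by omega) α (by omega))
    have c2 : (a.choose α : ℝ) ≤ 2 ^ Nd := by
      have h5 : a.choose α ≤ 2 ^ Nd :=
        (Nat.choose_le_two_pow a α).trans (Nat.pow_le_pow_right (by norm_num) (by omega))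
      exact_mod_cast h5
    have c3 : ((D - b).choose b' : ℝ) ≤ 2 ^ D := by
      have h5 : (D - b).choose b' ≤ 2 ^ D :=
        (Nat.choose_le_two_pow _ _).trans (Nat.pow_le_pow_right (by norm_num) (by omega))
      exact_mod_cast h5
    have c4 : K0 ^ (a - α) ≤ K0 ^ Nd := pow_le_pow_right₀ hK0 (by omega)
    have c5 : K1 ^ (D - b') ≤ K1 ^ D := pow_le_pow_right₀ hK1 (by omega)
    have c6 : L1 ^ (D - b') ≤ X ^ ((m1 + ε) * ((D - b' : ℕ) : ℝ)) := by
      rw [Real.rpow_mul_natCast hX0.le]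
      exact pow_le_pow_left₀ hL1 h1 _
    have c7 : L2 ^ D ≤ X ^ ((m2 + ε) * (D : ℝ)) := by
      rw [Real.rpow_mul_natCast hX0.le]
      exact pow_le_pow_left₀ hL2 h2 _
    have c8 : X ^ ω α * (X ^ ((m1 + ε) * ((D - b' : ℕ) : ℝ)) * X ^ ((m2 + ε) * (D : ℝ))) ≤
        X ^ (ω α + D * (m1 + m2) - b' * m1 + 2 * D * ε) := by
      rw [← Real.rpow_add hX0, ← Real.rpow_add hX0]
      refine Real.rpow_le_rpow_of_exponent_le hX ?_
      rw [Nat.cast_sub hb']
      have : 0 ≤ (b' : ℝ) * ε := by (clear * - hε; positivity)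
      linarith only [this]
    calc (X ^ ω a * L1 ^ b * L2 ^ (D - b)) * (a.choose α : ℝ) * ((D - b).choose b' : ℝ) *
          K0 ^ (a - α) * (K1 * L2) ^ b * (K1 * L1) ^ (D - b - b')
        = X ^ ω a * (a.choose α : ℝ) * ((D - b).choose b' : ℝ) * K0 ^ (a - α) *
            (L1 ^ b * L2 ^ (D - b) * (K1 * L2) ^ b * (K1 * L1) ^ (D - b - b')) := by ring
      _ = X ^ ω a * (a.choose α : ℝ) * ((D - b).choose b' : ℝ) * K0 ^ (a - α) *
            (K1 ^ (D - b') * (L1 ^ (D - b') * L2 ^ D)) := by rw [hpow]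
      _ ≤ X ^ ω α * 2 ^ Nd * 2 ^ D * K0 ^ Nd * (K1 ^ D *
            (X ^ ((m1 + ε) * ((D - b' : ℕ) : ℝ)) * X ^ ((m2 + ε) * (D : ℝ)))) := by
          gcongr
      _ = (2 ^ Nd * 2 ^ D * K0 ^ Nd * K1 ^ D) * (X ^ ω α *
            (X ^ ((m1 + ε) * ((D - b' : ℕ) : ℝ)) * X ^ ((m2 + ε) * (D : ℝ)))) := by ring
      _ ≤ _ := by
          refine mul_le_mul_of_nonneg_left c8 ?_
          positivity
  calc _ ≤ ∑ a ∈ range (Nd + 1), ∑ b ∈ range (D + 1), ((2 ^ Nd * 2 ^ D * K0 ^ Nd * K1 ^ D) *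
        X ^ (ω α + D * (m1 + m2) - b' * m1 + 2 * D * ε)) :=
        Finset.sum_le_sum fun a ha => Finset.sum_le_sum fun b hb => hterm a ha b hb
    _ = _ := by
        rw [Finset.sum_const, Finset.sum_const, Finset.card_range, Finset.card_range,
          nsmul_eq_mul, nsmul_eq_mul]
        push_cast
        ring

/-- the pigeonhole inequality. -/
theorem rq_pig (M D Nd ν q : ℕ) (ω : ℕ → ℝ) (m1 m2 β ε η δ X K0 : ℝ) (W Bd : ℕ → ℕ → ℝ)
    (hX : 1 < X) (hη : 0 ≤ η)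
    (hBd0 : ∀ α b, 0 ≤ K0 * Bd α b + 1)
    (hBd : ∀ α ≤ Nd, ∀ b ≤ D, K0 * Bd α b + 1 ≤
      X ^ (max 0 (ω α + D * (m1 + m2) - b * m1) + η))
    (hW : ∀ a ≤ Nd, ∀ b ≤ D, X ^ (ω a + b * (m1 - ε) + (D - b) * (m2 - ε)) ≤ W a b)
    (hq : (q : ℝ) ≤ X ^ (β + ε))
    (hN2 : 4 * ∑ α ∈ range (Nd + 1), ∑ b ∈ (range (D + 1)).filter (fun b => 2 * α + b < M),
        max 0 (ω α + D * (m1 + m2) - b * m1) + β * ((Nd + 1) * (ν * (ν + 1) / 2)) + δ ≤
      ∑ a ∈ range (Nd + 1), ((D + 1) * ω a + D * (D + 1) / 2 * (m1 + m2)))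
    (hsmall : 4 * η * (((Nd : ℝ) + 1) * (D + 1)) +
      ε * (((Nd : ℝ) + 1) * (ν * (ν + 1) / 2) + ((Nd : ℝ) + 1) * (D * (D + 1))) < δ) :
    (∏ α ∈ range (Nd + 1), ∏ b ∈ (range (D + 1)).filter (fun b => 2 * α + b < M),
        (K0 * Bd α b + 1) ^ 4) * (q : ℝ) ^ ((Nd + 1) * (ν * (ν + 1) / 2)) <
        ∏ a ∈ range (Nd + 1), ∏ b ∈ range (D + 1), ((⌊W a b⌋₊ : ℝ) + 1) := by
  have hX0 : 0 < X := by linarith only [hX]
  -- the left side
  have hL : ∏ α ∈ range (Nd + 1), ∏ b ∈ (range (D + 1)).filter (fun b => 2 * α + b < M),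
      (K0 * Bd α b + 1) ^ 4 ≤ X ^ (∑ α ∈ range (Nd + 1),
        ∑ b ∈ (range (D + 1)).filter (fun b => 2 * α + b < M),
          (max 0 (ω α + D * (m1 + m2) - b * m1) + η) * 4) := by
    rw [Real.rpow_sum_of_pos hX0]
    refine Finset.prod_le_prod (fun α _ => Finset.prod_nonneg fun b _ =>
      pow_nonneg (hBd0 α b) 4) fun α hα => ?_
    rw [Real.rpow_sum_of_pos hX0]
    refine Finset.prod_le_prod (fun b _ => pow_nonneg (hBd0 α b) 4) fun b hb => ?_
    rw [Finset.mem_range] at hα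
    rw [Finset.mem_filter, Finset.mem_range] at hb
    have h1 := pow_le_pow_left₀ (hBd0 α b) (hBd α (by omega) b (by omega)) 4
    have h2 := Real.rpow_mul_natCast hX0.le (max 0 (ω α + D * (m1 + m2) - b * m1) + η) 4
    rw [Nat.cast_ofNat] at h2
    rw [h2]
    exact h1
  have hexp1 : ∑ α ∈ range (Nd + 1), ∑ b ∈ (range (D + 1)).filter (fun b => 2 * α + b < M),
      (max 0 (ω α + D * (m1 + m2) - b * m1) + η) * 4 ≤
      4 * ∑ α ∈ range (Nd + 1), ∑ b ∈ (range (D + 1)).filter (fun b => 2 * α + b < M),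
        max 0 (ω α + D * (m1 + m2) - b * m1) + 4 * η * (((Nd : ℝ) + 1) * (D + 1)) := by
    have h1 : ∑ α ∈ range (Nd + 1), ∑ b ∈ (range (D + 1)).filter (fun b => 2 * α + b < M),
        (max 0 (ω α + D * (m1 + m2) - b * m1) + η) * 4 ≤
        ∑ α ∈ range (Nd + 1), (4 * ∑ b ∈ (range (D + 1)).filter (fun b => 2 * α + b < M),
          max 0 (ω α + D * (m1 + m2) - b * m1) + 4 * η * ((D : ℝ) + 1)) := by
      refine Finset.sum_le_sum fun α _ => ?_
      rw [← Finset.sum_mul, Finset.sum_add_distrib, Finset.sum_const, nsmul_eq_mul]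
      have h2 : (((range (D + 1)).filter (fun b => 2 * α + b < M)).card : ℝ) ≤ (D : ℝ) + 1 := by
        have h3 := Finset.card_filter_le (range (D + 1)) (fun b => 2 * α + b < M)
        rw [Finset.card_range] at h3
        exact_mod_cast h3
      have h4 := mul_le_mul_of_nonneg_right h2 hη
      linarith only [h4]
    refine h1.trans (le_of_eq ?_)
    rw [Finset.sum_add_distrib, ← Finset.mul_sum, Finset.sum_const, Finset.card_range,
      nsmul_eq_mul]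
    push_cast
    ring
  have hQ : (q : ℝ) ^ ((Nd + 1) * (ν * (ν + 1) / 2)) ≤
      X ^ ((β + ε) * (((Nd : ℝ) + 1) * (ν * (ν + 1) / 2))) := by
    have h1 := pow_le_pow_left₀ (Nat.cast_nonneg q) hq ((Nd + 1) * (ν * (ν + 1) / 2))
    rw [← Real.rpow_mul_natCast hX0.le, Nat.cast_mul, rq_half] at h1
    push_cast at h1
    exact h1
  -- the right side
  have hRt : X ^ (∑ a ∈ range (Nd + 1), ∑ b ∈ range (D + 1),
      (ω a + b * (m1 - ε) + (D - b) * (m2 - ε))) ≤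
      ∏ a ∈ range (Nd + 1), ∏ b ∈ range (D + 1), ((⌊W a b⌋₊ : ℝ) + 1) := by
    rw [Real.rpow_sum_of_pos hX0]
    refine Finset.prod_le_prod (fun a _ => (Real.rpow_pos_of_pos hX0 _).le) fun a ha => ?_
    rw [Real.rpow_sum_of_pos hX0]
    refine Finset.prod_le_prod (fun b _ => (Real.rpow_pos_of_pos hX0 _).le) fun b hb => ?_
    rw [Finset.mem_range] at ha hb
    exact (hW a (by omega) b (by omega)).trans (Nat.lt_floor_add_one _).le
  have hexp2 : ∑ a ∈ range (Nd + 1), ∑ b ∈ range (D + 1),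
      (ω a + b * (m1 - ε) + (D - b) * (m2 - ε)) =
      ∑ a ∈ range (Nd + 1), ((D + 1) * ω a + D * (D + 1) / 2 * (m1 + m2)) -
        ε * (((Nd : ℝ) + 1) * (D * (D + 1))) := by
    have h1 : ∀ a, ∑ b ∈ range (D + 1), (ω a + b * (m1 - ε) + ((D : ℝ) - b) * (m2 - ε)) =
        ((D + 1) * ω a + D * (D + 1) / 2 * (m1 + m2)) - ε * (D * (D + 1)) := by
      intro a
      rw [Finset.sum_add_distrib, Finset.sum_add_distrib, Finset.sum_const, ← Finset.sum_mul,
        ← Finset.sum_mul, Finset.sum_sub_distrib, rq_gauss, Finset.sum_const, Finset.card_range,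
        nsmul_eq_mul, nsmul_eq_mul]
      push_cast
      ring
    rw [Finset.sum_congr rfl fun a _ => h1 a, Finset.sum_sub_distrib, Finset.sum_const,
      Finset.card_range, nsmul_eq_mul]
    push_cast
    ring
  calc (∏ α ∈ range (Nd + 1), ∏ b ∈ (range (D + 1)).filter (fun b => 2 * α + b < M),
        (K0 * Bd α b + 1) ^ 4) * (q : ℝ) ^ ((Nd + 1) * (ν * (ν + 1) / 2))
      ≤ X ^ (∑ α ∈ range (Nd + 1), ∑ b ∈ (range (D + 1)).filter (fun b => 2 * α + b < M),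
          (max 0 (ω α + D * (m1 + m2) - b * m1) + η) * 4) *
        X ^ ((β + ε) * (((Nd : ℝ) + 1) * (ν * (ν + 1) / 2))) :=
        mul_le_mul hL hQ (by (clear * -; positivity)) (Real.rpow_pos_of_pos hX0 _).le
    _ = X ^ ((∑ α ∈ range (Nd + 1), ∑ b ∈ (range (D + 1)).filter (fun b => 2 * α + b < M),
          (max 0 (ω α + D * (m1 + m2) - b * m1) + η) * 4) +
          (β + ε) * (((Nd : ℝ) + 1) * (ν * (ν + 1) / 2))) := by
        rw [Real.rpow_add hX0]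
    _ < X ^ (∑ a ∈ range (Nd + 1), ∑ b ∈ range (D + 1),
          (ω a + b * (m1 - ε) + (D - b) * (m2 - ε))) := by
        refine Real.rpow_lt_rpow_of_exponent_lt hX ?_
        rw [hexp2]
        linarith
    _ ≤ _ := hRt

/-- the size of the value at a point. -/
theorem rq_size (M D Nd ν q p C : ℕ) (ω : ℕ → ℝ) (w β ε δ X T L1 L2 N s t : ℝ) (hX : 1 < X)
    (hT1 : X ^ (w - ε) ≤ T) (hT2 : T ≤ X ^ (w + ε)) (hp : T ^ 4 ≤ p) (hq : X ^ (β - ε) ≤ q)
    (hL1 : 0 ≤ L1) (hL2 : 0 ≤ L2)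
    (hN : |N| ≤ C * X) (hs : s ^ 2 * L1 ^ 2 ≤ C * T ^ 2) (ht : t ^ 2 * L2 ^ 2 ≤ C * T ^ 2)
    (hω : ∀ a ≤ Nd, ω a + a + D * w + δ ≤ 4 * w * M + β * ν)
    (hε : ε * (D + 4 * M + ν) ≤ δ / 2)
    (hc : ((Nd : ℝ) + 1) * (D + 1) * ((C : ℝ) + 1) ^ (Nd + D) < X ^ (δ / 2)) :
    (∑ a ∈ range (Nd + 1), ∑ b ∈ range (D + 1),
      (X ^ ω a * L1 ^ b * L2 ^ (D - b)) * |N| ^ a * |s| ^ b * |t| ^ (D - b)) <
      (p : ℝ) ^ M * (q : ℝ) ^ ν := by
  have hX0 : 0 < X := by linarith only [hX]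
  have hT0 : 0 < T := (Real.rpow_pos_of_pos hX0 _).trans_le hT1
  have hC0 : (0 : ℝ) ≤ C := Nat.cast_nonneg C
  have hroot : ∀ u v : ℝ, 0 ≤ v → u ^ 2 * v ^ 2 ≤ C * T ^ 2 → |u| * v ≤ ((C : ℝ) + 1) * T := by
    intro u v hv h
    refine abs_le_of_sq_le_sq' ?_ (by (clear * - hT0; positivity)) |>.2
    rw [mul_pow, sq_abs, mul_pow]
    linarith only [h, sq_nonneg T, mul_nonneg hC0 (sq_nonneg T), mul_nonneg (sq_nonneg (C : ℝ)) (sq_nonneg T)]
  have hs' := hroot s L1 hL1 hs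
  have ht' := hroot t L2 hL2 ht
  have hterm : ∀ a ∈ range (Nd + 1), ∀ b ∈ range (D + 1),
      (X ^ ω a * L1 ^ b * L2 ^ (D - b)) * |N| ^ a * |s| ^ b * |t| ^ (D - b) ≤
        ((C : ℝ) + 1) ^ (Nd + D) * X ^ (4 * w * M + β * ν - δ + D * ε) := by
    intro a ha b hb
    rw [Finset.mem_range] at ha hb
    have e1 : (|s| * L1) ^ b * (|t| * L2) ^ (D - b) ≤ (((C : ℝ) + 1) * T) ^ D := by
      calc (|s| * L1) ^ b * (|t| * L2) ^ (D - b)
          ≤ (((C : ℝ) + 1) * T) ^ b * (((C : ℝ) + 1) * T) ^ (D - b) := by gcongr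
        _ = _ := by
            rw [← pow_add]
            congr 1
            omega
    have e2 : |N| ^ a ≤ (((C : ℝ) + 1) * X) ^ a := by
      refine pow_le_pow_left₀ (abs_nonneg _) (hN.trans ?_) a
      linarith only [hX]
    have e3 : T ^ D ≤ X ^ ((w + ε) * D) := by
      rw [Real.rpow_mul_natCast hX0.le]
      exact pow_le_pow_left₀ hT0.le hT2 _
    have e4 : ((C : ℝ) + 1) ^ a * ((C : ℝ) + 1) ^ D ≤ ((C : ℝ) + 1) ^ (Nd + D) := by
      rw [← pow_add]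
      exact pow_le_pow_right₀ (by linarith only [ht']) (by omega)
    have e5 : X ^ ω a * X ^ (a : ℝ) * X ^ ((w + ε) * D) ≤
        X ^ (4 * w * M + β * ν - δ + D * ε) := by
      rw [← Real.rpow_add hX0, ← Real.rpow_add hX0]
      refine Real.rpow_le_rpow_of_exponent_le hX.le ?_
      have := hω a (by omega)
      linarith only [this]
    calc (X ^ ω a * L1 ^ b * L2 ^ (D - b)) * |N| ^ a * |s| ^ b * |t| ^ (D - b)
        = X ^ ω a * |N| ^ a * ((|s| * L1) ^ b * (|t| * L2) ^ (D - b)) := by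
          rw [mul_pow, mul_pow]; ring
      _ ≤ X ^ ω a * (((C : ℝ) + 1) * X) ^ a * (((C : ℝ) + 1) * T) ^ D := by gcongr
      _ = (((C : ℝ) + 1) ^ a * ((C : ℝ) + 1) ^ D) * (X ^ ω a * X ^ (a : ℝ) * T ^ D) := by
          rw [mul_pow, mul_pow, Real.rpow_natCast]; ring
      _ ≤ ((C : ℝ) + 1) ^ (Nd + D) * (X ^ ω a * X ^ (a : ℝ) * X ^ ((w + ε) * D)) := by gcongr
      _ ≤ _ := mul_le_mul_of_nonneg_left e5 (by (clear * -; positivity))
  calc (∑ a ∈ range (Nd + 1), ∑ b ∈ range (D + 1),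
      (X ^ ω a * L1 ^ b * L2 ^ (D - b)) * |N| ^ a * |s| ^ b * |t| ^ (D - b))
      ≤ ∑ a ∈ range (Nd + 1), ∑ b ∈ range (D + 1),
        (((C : ℝ) + 1) ^ (Nd + D) * X ^ (4 * w * M + β * ν - δ + D * ε)) :=
        Finset.sum_le_sum fun a ha => Finset.sum_le_sum fun b hb => hterm a ha b hb
    _ = (((Nd : ℝ) + 1) * (D + 1) * ((C : ℝ) + 1) ^ (Nd + D)) *
        X ^ (4 * w * M + β * ν - δ + D * ε) := by
        rw [Finset.sum_const, Finset.sum_const, Finset.card_range, Finset.card_range,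
          nsmul_eq_mul, nsmul_eq_mul]
        push_cast
        ring
    _ < X ^ (δ / 2) * X ^ (4 * w * M + β * ν - δ + D * ε) :=
        mul_lt_mul_of_pos_right hc (Real.rpow_pos_of_pos hX0 _)
    _ = X ^ (δ / 2 + (4 * w * M + β * ν - δ + D * ε)) := (Real.rpow_add hX0 _ _).symm
    _ ≤ X ^ ((w - ε) * ((4 * M : ℕ) : ℝ) + (β - ε) * (ν : ℝ)) := by
        refine Real.rpow_le_rpow_of_exponent_le hX.le ?_
        push_cast
        linarith only [hε]
    _ = (X ^ (w - ε)) ^ (4 * M) * (X ^ (β - ε)) ^ ν := by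
        rw [Real.rpow_add hX0, Real.rpow_mul_natCast hX0.le, Real.rpow_mul_natCast hX0.le]
    _ ≤ T ^ (4 * M) * (q : ℝ) ^ ν := by
        have := Real.rpow_pos_of_pos hX0 (w - ε)
        have := Real.rpow_pos_of_pos hX0 (β - ε)
        gcongr
    _ ≤ (p : ℝ) ^ M * (q : ℝ) ^ ν := by
        rw [pow_mul]
        gcongr

/-- the choice of the small exponents. -/
theorem rq_eps (M D Nd ν : ℕ) (w m2 β δ : ℝ) (hm : m2 < w) (hβ : 0 < β) (hδ : 0 < δ) :
    ∃ ε η : ℝ, 0 < ε ∧ 0 < η ∧ 2 * D * ε ≤ η / 2 ∧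
      4 * η * (((Nd : ℝ) + 1) * (D + 1)) +
        ε * (((Nd : ℝ) + 1) * (ν * (ν + 1) / 2) + ((Nd : ℝ) + 1) * (D * (D + 1))) < δ ∧
      ε * (D + 4 * M + ν) ≤ δ / 2 ∧ ε ≤ (w - m2) / 4 ∧ ε ≤ β / 2 := by
  set n1 : ℝ := ((Nd : ℝ) + 1) * (D + 1) with hn1
  have hn1' : 0 < n1 := by positivity
  set η : ℝ := δ / (16 * n1) with hη
  have hη0 : 0 < η := by (clear * - hδ; positivity)
  set μ : ℝ := min (min (δ / 4) (η / 4)) (min ((w - m2) / 4) (β / 2)) with hμ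
  have hμ0 : 0 < μ := by
    rw [hμ]
    refine lt_min (lt_min (by positivity) (by (clear * - hδ; positivity))) (lt_min ?_ (by positivity))
    linarith only [hm]
  have hμ1 : μ ≤ δ / 4 := (min_le_left _ _).trans (min_le_left _ _)
  have hμ2 : μ ≤ η / 4 := (min_le_left _ _).trans (min_le_right _ _)
  have hμ3 : μ ≤ (w - m2) / 4 := (min_le_right _ _).trans (min_le_left _ _)
  have hμ4 : μ ≤ β / 2 := (min_le_right _ _).trans (min_le_right _ _)
  set Z : ℝ := 1 + D + 4 * M + ν + (((Nd : ℝ) + 1) * (ν * (ν + 1) / 2) +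
    ((Nd : ℝ) + 1) * (D * (D + 1))) with hZ
  have hZ0 : 0 < Z := by (clear * -; positivity)
  have key : ∀ y : ℝ, y ≤ Z → μ / Z * y ≤ μ := by
    intro y hy
    rw [div_mul_eq_mul_div, div_le_iff₀ hZ0]
    exact mul_le_mul_of_nonneg_left hy hμ0.le
  have p1 : (0 : ℝ) ≤ D := Nat.cast_nonneg D
  have p2 : (0 : ℝ) ≤ 4 * M := by (clear * -; positivity)
  have p3 : (0 : ℝ) ≤ ν := Nat.cast_nonneg ν
  have p4 : (0 : ℝ) ≤ ((Nd : ℝ) + 1) * (ν * (ν + 1) / 2) + ((Nd : ℝ) + 1) * (D * (D + 1)) := by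
    (clear * -; positivity)
  have k0 := key 1 (by rw [hZ]; linarith only [p2, p3, p4])
  have k1 := key D (by rw [hZ]; linarith only [p2, p3, p4])
  have k2 := key (D + 4 * M + ν) (by rw [hZ]; linarith only [p4])
  have k3 := key (((Nd : ℝ) + 1) * (ν * (ν + 1) / 2) + ((Nd : ℝ) + 1) * (D * (D + 1)))
    (by rw [hZ]; linarith only [k2])
  have hηn : 4 * η * n1 = δ / 4 := by
    rw [hη]
    field_simp
    ring
  refine ⟨μ / Z, η, by (clear * - hδ hm hβ; positivity), hη0, ?_, ?_, ?_, ?_, ?_⟩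
  · linarith only [k1, hμ2]
  · rw [hηn]
    linarith only [k3, hμ1, hμ0]
  · linarith only [k2, hμ1, hμ0]
  · linarith only [k0, hμ3]
  · linarith only [k0, hμ4]

/-- the real numbers which have to be exceeded. -/
theorem rq_large (x1 x2 x3 x4 x5 a b c d : ℝ) (ha : 0 < a) (hb : 0 < b) (hc : 0 < c)
    (hd : 0 < d) : ∃ K : ℝ, 1 < K ∧ ∀ X, K ≤ X → x1 ≤ X ^ a ∧ x2 < X ^ b ∧ x3 < X ^ c ∧
      x4 < X ∧ x5 < X ∧ 2 ≤ X ^ d := by
  have h1 := (tendsto_rpow_atTop ha).eventually_ge_atTop x1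
  have h2 := (tendsto_rpow_atTop hb).eventually_gt_atTop x2
  have h3 := (tendsto_rpow_atTop hc).eventually_gt_atTop x3
  have h4 := Filter.eventually_gt_atTop x4
  have h5 := Filter.eventually_gt_atTop x5
  have h6 := (tendsto_rpow_atTop hd).eventually_ge_atTop 2
  obtain ⟨K, hK⟩ := Filter.eventually_atTop.1 (((((h1.and h2).and h3).and h4).and h5).and h6)
  refine ⟨max K 2, lt_of_lt_of_le (by norm_num) (le_max_right _ _), fun X hX => ?_⟩
  obtain ⟨⟨⟨⟨⟨g1, g2⟩, g3⟩, g4⟩, g5⟩, g6⟩ := hK X ((le_max_left _ _).trans hX)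
  exact ⟨g1, g2, g3, g4, g5, g6⟩

/-- the boxes of the pigeonhole principle. -/
theorem rq_box (e D ε η X K0 Cst B : ℝ) (hX1 : 1 < X) (hK0 : 1 ≤ K0) (hC : 0 ≤ Cst)
    (hη : 0 < η) (hDε : 2 * D * ε ≤ η / 2) (h1 : B ≤ Cst * X ^ (e + 2 * D * ε))
    (g1 : K0 * Cst + 1 ≤ X ^ (η / 2)) : K0 * B + 1 ≤ X ^ (max 0 e + η) := by
  have hX0 : 0 < X := by linarith only [hX1]
  have hK00 : 0 ≤ K0 := by linarith only [hK0]
  have h2 : X ^ (e + 2 * D * ε) ≤ X ^ (max 0 e + η / 2) := by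
    refine Real.rpow_le_rpow_of_exponent_le hX1.le ?_
    have := le_max_right 0 e
    linarith only [this, hDε]
  have h3 : 1 ≤ X ^ (max 0 e + η / 2) := by
    refine Real.one_le_rpow hX1.le ?_
    have := le_max_left 0 e
    linarith only [this, hη]
  calc K0 * B + 1 ≤ K0 * (Cst * X ^ (max 0 e + η / 2)) + X ^ (max 0 e + η / 2) := by
        refine add_le_add (mul_le_mul_of_nonneg_left (h1.trans ?_) hK00) h3
        exact mul_le_mul_of_nonneg_left h2 hC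
    _ = (K0 * Cst + 1) * X ^ (max 0 e + η / 2) := by ring
    _ ≤ X ^ (η / 2) * X ^ (max 0 e + η / 2) :=
        mul_le_mul_of_nonneg_right g1 (Real.rpow_pos_of_pos hX0 _).le
    _ = X ^ (max 0 e + η) := by
        rw [← Real.rpow_add hX0]
        congr 1
        ring

/-- lower bound for the weights. -/
theorem rq_Wl (D a b : ℕ) (u m1 m2 ε X L1 L2 : ℝ) (hX0 : 0 < X) (hb : b ≤ D)
    (h1 : X ^ (m1 - ε) ≤ L1) (h2 : X ^ (m2 - ε) ≤ L2) :
    X ^ (u + b * (m1 - ε) + ((D : ℝ) - b) * (m2 - ε)) ≤ X ^ u * L1 ^ b * L2 ^ (D - b) := by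
  rw [Real.rpow_add hX0, Real.rpow_add hX0, mul_comm (b : ℝ), mul_comm ((D : ℝ) - b),
    Real.rpow_mul_natCast hX0.le, ← Nat.cast_sub hb, Real.rpow_mul_natCast hX0.le]
  have h3 := Real.rpow_pos_of_pos hX0 (m1 - ε)
  have h4 := Real.rpow_pos_of_pos hX0 (m2 - ε)
  have h5 := Real.rpow_pos_of_pos hX0 u
  have h6 : 0 ≤ L1 := h3.le.trans h1
  have h7 : 0 ≤ L2 := h4.le.trans h2
  gcongr

/-- upper bound for the weights. -/
theorem rq_Wu (D b C0 : ℕ) (u S m1 m2 ε X Y L1 L2 : ℝ) (hX1 : 1 < X) (hXY : X ≤ Y) (hb : b ≤ D)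
    (hL10 : 0 ≤ L1) (hL20 : 0 ≤ L2) (hL1u : L1 ≤ X ^ (m1 + ε)) (hL2u : L2 ≤ X ^ (m2 + ε))
    (hm1 : 0 ≤ m1 + ε) (hm2 : 0 ≤ m2 + ε) (hu : |u| ≤ S)
    (hC : S + D * (m1 + ε) + D * (m2 + ε) ≤ C0) :
    X ^ u * L1 ^ b * L2 ^ (D - b) ≤ Y ^ C0 := by
  have hX0 : 0 < X := by linarith
  have h1 : L1 ^ b ≤ X ^ ((m1 + ε) * (b : ℝ)) := by
    rw [Real.rpow_mul_natCast hX0.le]
    exact pow_le_pow_left₀ hL10 hL1u _
  have h2 : L2 ^ (D - b) ≤ X ^ ((m2 + ε) * ((D - b : ℕ) : ℝ)) := by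
    rw [Real.rpow_mul_natCast hX0.le]
    exact pow_le_pow_left₀ hL20 hL2u _
  have h5 : (m1 + ε) * (b : ℝ) ≤ D * (m1 + ε) := by
    rw [mul_comm]
    have : (b : ℝ) ≤ D := by exact_mod_cast hb
    exact mul_le_mul_of_nonneg_right this hm1
  have h6 : (m2 + ε) * ((D - b : ℕ) : ℝ) ≤ D * (m2 + ε) := by
    rw [mul_comm]
    have : ((D - b : ℕ) : ℝ) ≤ D := by exact_mod_cast Nat.sub_le _ _
    exact mul_le_mul_of_nonneg_right this hm2
  calc X ^ u * L1 ^ b * L2 ^ (D - b)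
      ≤ X ^ u * X ^ ((m1 + ε) * (b : ℝ)) * X ^ ((m2 + ε) * ((D - b : ℕ) : ℝ)) := by
        have := Real.rpow_pos_of_pos hX0 u
        gcongr
    _ = X ^ (u + (m1 + ε) * (b : ℝ) + (m2 + ε) * ((D - b : ℕ) : ℝ)) := by
        rw [Real.rpow_add hX0, Real.rpow_add hX0]
    _ ≤ X ^ (C0 : ℝ) := by
        refine Real.rpow_le_rpow_of_exponent_le hX1.le ?_
        have h7 := le_abs_self u
        linarith only [h7, h6, h5, hC, hu]
    _ = X ^ C0 := Real.rpow_natCast X C0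
    _ ≤ Y ^ C0 := pow_le_pow_left₀ hX0.le hXY _

/-- the norm of `l2` is smaller than the prime. -/
theorem rq_N2 (w m2 ε X T Kb d N2 : ℝ) (hX1 : 1 < X) (hT1 : X ^ (w - ε) ≤ T) (hKb : 0 ≤ Kb)
    (hd0 : 0 ≤ d) (hd : d ≤ X ^ (2 * (m2 + ε))) (hN : N2 ≤ Kb * d ^ 2)
    (g3 : Kb < X ^ (2 * (w - m2))) (hεm : ε ≤ (w - m2) / 4) : N2 < T ^ 4 := by
  have hX0 : 0 < X := by linarith only [hX1]
  have hp := Real.rpow_pos_of_pos hX0 (2 * (m2 + ε))
  calc N2 ≤ Kb * d ^ 2 := hN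
    _ ≤ Kb * (X ^ (2 * (m2 + ε))) ^ 2 := by gcongr
    _ < X ^ (2 * (w - m2)) * (X ^ (2 * (m2 + ε))) ^ 2 :=
        mul_lt_mul_of_pos_right g3 (by positivity)
    _ = X ^ (2 * (w - m2) + 2 * (m2 + ε) * ((2 : ℕ) : ℝ)) := by
        rw [Real.rpow_add hX0, Real.rpow_mul_natCast hX0.le]
    _ ≤ X ^ ((w - ε) * ((4 : ℕ) : ℝ)) := by
        refine Real.rpow_le_rpow_of_exponent_le hX1.le ?_
        push_cast
        linarith only [hεm]
    _ = (X ^ (w - ε)) ^ 4 := by rw [Real.rpow_mul_natCast hX0.le]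
    _ ≤ T ^ 4 := pow_le_pow_left₀ (Real.rpow_pos_of_pos hX0 _).le hT1 4

end Vale.Agent.P018.Q
end

section

/-! # P018, quartics: rank two lattices through a vector. -/

namespace Vale.Agent.P018.Q

theorem dot4 (v w : Fin 4 → ℤ) :
    dot v w = v 0 * w 0 + v 1 * w 1 + v 2 * w 2 + v 3 * w 3 := by
  simp [dot, Fin.sum_univ_four]

theorem dot_comb (a b c d : ℤ) (u v : Fin 4 → ℤ) :
    dot (a • u + b • v) (c • u + d • v) =
      a * c * dot u u + (a * d + b * c) * dot u v + b * d * dot v v := by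
  simp only [dot4, Pi.add_apply, Pi.smul_apply, smul_eq_mul]; ring

theorem dot_nonneg (u : Fin 4 → ℤ) : 0 ≤ dot u u := by
  rw [dot4]
  linarith [mul_self_nonneg (u 0), mul_self_nonneg (u 1), mul_self_nonneg (u 2), mul_self_nonneg (u 3)]

theorem dot_pos {u : Fin 4 → ℤ} (h : u ≠ 0) : 0 < dot u u := by
  rcases (dot_nonneg u).lt_or_eq with h' | h'
  · exact h'
  · exfalso; apply h
    rw [dot4] at h'
    funext i
    have h0 : u 0 = 0 := by nlinarith [mul_self_nonneg (u 0), mul_self_nonneg (u 1), mul_self_nonneg (u 2), mul_self_nonneg (u 3)]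
    have h1 : u 1 = 0 := by nlinarith [mul_self_nonneg (u 0), mul_self_nonneg (u 1), mul_self_nonneg (u 2), mul_self_nonneg (u 3)]
    have h2 : u 2 = 0 := by nlinarith [mul_self_nonneg (u 0), mul_self_nonneg (u 1), mul_self_nonneg (u 2), mul_self_nonneg (u 3)]
    have h3 : u 3 = 0 := by nlinarith [mul_self_nonneg (u 0), mul_self_nonneg (u 1), mul_self_nonneg (u 2), mul_self_nonneg (u 3)]
    fin_cases i <;> simp [h0, h1, h2, h3]

/-- Gauss reduction. -/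
theorem exists_red {u v : Fin 4 → ℤ} (hind : ∀ a b : ℤ, a • u + b • v = 0 → a = 0 ∧ b = 0) :
    ∃ a b c d : ℤ, (a * d - b * c) ^ 2 = 1 ∧ Red (a • u + b • v) (c • u + d • v) := by
  classical
  let P : ℕ → Prop := fun n => ∃ a b c d : ℤ, (a * d - b * c) ^ 2 = 1 ∧
    (dot (a • u + b • v) (a • u + b • v) + dot (c • u + d • v) (c • u + d • v)).toNat = n
  have hP : ∃ n, P n := ⟨_, 1, 0, 0, 1, by norm_num, rfl⟩
  obtain ⟨a, b, c, d, hdet, hn⟩ := Nat.find_spec hP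
  have hmin : ∀ a' b' c' d' : ℤ, (a' * d' - b' * c') ^ 2 = 1 →
      dot (a • u + b • v) (a • u + b • v) + dot (c • u + d • v) (c • u + d • v) ≤
      dot (a' • u + b' • v) (a' • u + b' • v) + dot (c' • u + d' • v) (c' • u + d' • v) := by
    intro a' b' c' d' hd'
    have := Nat.find_min' hP ⟨a', b', c', d', hd', rfl⟩
    rw [← hn] at this
    have h1 := dot_nonneg (a • u + b • v)
    have h2 := dot_nonneg (c • u + d • v)
    have h3 := dot_nonneg (a' • u + b' • v)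
    have h4 := dot_nonneg (c' • u + d' • v)
    omega
  have e1 := hmin a b (c + a) (d + b) (by rw [← hdet]; ring)
  have e2 := hmin a b (c - a) (d - b) (by rw [← hdet]; ring)
  have e3 := hmin (a + c) (b + d) c d (by rw [← hdet]; ring)
  have e4 := hmin (a - c) (b - d) c d (by rw [← hdet]; ring)
  have hne : ∀ p q : ℤ, p • (a • u + b • v) + q • (c • u + d • v) = 0 → p = 0 ∧ q = 0 := by
    intro p q h
    have h' : (p * a + q * c) • u + (p * b + q * d) • v = 0 := by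
      rw [← h]; funext i; simp only [Pi.add_apply, Pi.smul_apply, smul_eq_mul]; ring
    obtain ⟨h1, h2⟩ := hind _ _ h'
    have hp : p * (a * d - b * c) = 0 := by linear_combination d * h1 - c * h2
    have hq : q * (a * d - b * c) = 0 := by linear_combination a * h2 - b * h1
    have hdn : a * d - b * c ≠ 0 := by
      intro h0; rw [h0] at hdet; norm_num at hdet
    exact ⟨(mul_eq_zero.mp hp).resolve_right hdn, (mul_eq_zero.mp hq).resolve_right hdn⟩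
  have hne' : ∀ p q : ℤ, p • (c • u + d • v) + q • (a • u + b • v) = 0 → p = 0 ∧ q = 0 := by
    intro p q h
    have := hne q p (by rw [add_comm]; exact h)
    exact ⟨this.2, this.1⟩
  have n1 : a • u + b • v ≠ 0 := by
    intro h; have := hne 1 0 (by rw [h]; simp); omega
  have n2 : c • u + d • v ≠ 0 := by
    intro h; have := hne 0 1 (by rw [h]; simp); omega
  have k1 : 0 ≤ dot (a • u + b • v) (a • u + b • v) + 2 * dot (a • u + b • v) (c • u + d • v) := by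
    simp only [dot_comb] at e1 ⊢; linarith only [e1]
  have k2 : 0 ≤ dot (a • u + b • v) (a • u + b • v) - 2 * dot (a • u + b • v) (c • u + d • v) := by
    simp only [dot_comb] at e2 ⊢; linarith only [e2]
  have k3 : 0 ≤ dot (c • u + d • v) (c • u + d • v) + 2 * dot (a • u + b • v) (c • u + d • v) := by
    simp only [dot_comb] at e3 ⊢; linarith only [e3]
  have k4 : 0 ≤ dot (c • u + d • v) (c • u + d • v) - 2 * dot (a • u + b • v) (c • u + d • v) := by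
    simp only [dot_comb] at e4 ⊢; linarith only [e4]
  have hcomm : dot (c • u + d • v) (a • u + b • v) = dot (a • u + b • v) (c • u + d • v) := by
    simp only [dot_comb]; ring
  rcases le_total (dot (a • u + b • v) (a • u + b • v)) (dot (c • u + d • v) (c • u + d • v)) with h | h
  · refine ⟨a, b, c, d, hdet, n1, h, ?_, hne⟩
    rcases abs_choice (dot (a • u + b • v) (c • u + d • v)) with hx | hx <;> rw [hx] <;> linarith
  · refine ⟨c, d, a, b, by rw [← hdet]; ring, n2, h, ?_, hne'⟩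
    rw [hcomm]
    rcases abs_choice (dot (a • u + b • v) (c • u + d • v)) with hx | hx <;> rw [hx] <;> linarith

/-- pigeonhole. -/
theorem exists_small_minors (y : Fin 4 → ℤ) (k : Fin 4) (hk : ∀ i, |y i| ≤ |y k|)
    (M : ℕ) (hM : 1 ≤ M) (hMY : (M : ℤ) ^ 3 < |y k|) :
    ∃ l : Fin 4 → ℤ, 0 < |l k| ∧ |l k| < |y k| ∧ ∀ j, |y k * l j - l k * y j| * M < |y k| := by
  classical
  set Y : ℤ := |y k| with hY
  have hYpos : 0 < Y := lt_of_le_of_lt (by positivity) hMY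
  have hyk : y k ≠ 0 := by
    intro h; rw [hY, h] at hYpos; simp at hYpos
  let f : ℕ → (Fin 3 → ℤ) := fun n i => (M * ((n * y (k.succAbove i)) % Y)) / Y
  have hcard : (Fintype.piFinset (fun _ : Fin 3 => Finset.Ico (0 : ℤ) M)).card <
      (Finset.range Y.toNat).card := by
    rw [Fintype.card_piFinset]
    simp only [Int.card_Ico, Finset.prod_const, Finset.card_univ, Fintype.card_fin,
      Finset.card_range]
    zify
    rw [Int.toNat_of_nonneg hYpos.le]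
    simpa using hMY
  have hmaps : ∀ n ∈ Finset.range Y.toNat,
      f n ∈ Fintype.piFinset (fun _ : Fin 3 => Finset.Ico (0 : ℤ) M) := by
    intro n _
    rw [Fintype.mem_piFinset]
    intro i
    rw [Finset.mem_Ico]
    have h0 := Int.emod_nonneg (n * y (k.succAbove i)) hYpos.ne'
    have h1 := Int.emod_lt_of_pos (n * y (k.succAbove i)) hYpos
    constructor
    · exact Int.ediv_nonneg (by (clear * - hM h0; positivity)) hYpos.le
    · apply Int.ediv_lt_of_lt_mul hYpos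
      have : (0 : ℤ) < M := by exact_mod_cast hM
      linarith only [mul_pos (sub_pos.2 h1) (sub_pos.2 this)]
  obtain ⟨n, hn, n', hn', hne, hf⟩ :=
    Finset.exists_ne_map_eq_of_card_lt_of_maps_to hcard hmaps
  rw [Finset.mem_range] at hn hn'
  wlog hlt : n < n' generalizing n n'
  · exact this n' hn' n hn hne.symm hf.symm (by omega)
  obtain ⟨e, he, hek⟩ : ∃ e : ℤ, e * e = 1 ∧ Y = e * y k := by
    rcases abs_choice (y k) with h | h
    · exact ⟨1, by norm_num, by rw [hY, h]; ring⟩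
    · exact ⟨-1, by norm_num, by rw [hY, h]; ring⟩
  have hek' : y k = e * Y := by rw [hek, ← mul_assoc, he, one_mul]
  let l : Fin 4 → ℤ := fun j => e * ((n' * y j) / Y - (n * y j) / Y)
  have hlk : l k = n' - n := by
    have h1 : ∀ m : ℕ, ((m : ℤ) * y k) / Y = m * e := by
      intro m
      rw [hek', ← mul_assoc, Int.mul_ediv_cancel _ hYpos.ne']
    show e * ((n' * y k) / Y - (n * y k) / Y) = n' - n
    rw [h1, h1]
    linear_combination (n' - n : ℤ) * he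
  have hlj : ∀ j, y k * l j - l k * y j = (n * y j) % Y - (n' * y j) % Y := by
    intro j
    have h1 := Int.emod_add_mul_ediv (n' * y j) Y
    have h2 := Int.emod_add_mul_ediv (n * y j) Y
    rw [hlk]
    show y k * (e * ((n' * y j) / Y - (n * y j) / Y)) - (n' - n) * y j = _
    have h3 : y k * (e * ((n' * y j) / Y - (n * y j) / Y)) =
      Y * ((n' * y j) / Y - (n * y j) / Y) := by rw [hek]; ring
    rw [h3]
    linear_combination h1 - h2
  refine ⟨l, ?_, ?_, ?_⟩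
  · rw [hlk, abs_pos]; omega
  · rw [hlk, abs_of_pos (by omega)]; omega
  · intro j
    rw [hlj]
    rcases eq_or_ne j k with rfl | hjk
    · have h1 : ∀ m : ℕ, ((m : ℤ) * y j) % Y = 0 := by
        intro m
        rw [hek', ← mul_assoc]
        exact Int.mul_emod_left _ _
      rw [h1, h1]
      simpa using hYpos
    · obtain ⟨i, rfl⟩ := Fin.exists_succAbove_eq hjk
      have hfi := congrFun hf i
      simp only [f] at hfi
      have h1 := Int.emod_add_mul_ediv (M * ((n * y (k.succAbove i)) % Y)) Y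
      have h2 := Int.emod_add_mul_ediv (M * ((n' * y (k.succAbove i)) % Y)) Y
      have h3 := Int.emod_nonneg (M * ((n * y (k.succAbove i)) % Y)) hYpos.ne'
      have h4 := Int.emod_lt_of_pos (M * ((n * y (k.succAbove i)) % Y)) hYpos
      have h5 := Int.emod_nonneg (M * ((n' * y (k.succAbove i)) % Y)) hYpos.ne'
      have h6 := Int.emod_lt_of_pos (M * ((n' * y (k.succAbove i)) % Y)) hYpos
      rw [hfi] at h1
      have hM0 : (M : ℤ) = |(M : ℤ)| := (abs_of_nonneg (by positivity)).symm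
      rw [hM0, ← abs_mul, abs_lt]
      constructor <;> nlinarith

theorem minor_le (y l : Fin 4 → ℤ) (k : Fin 4) (hk : ∀ i, |y i| ≤ |y k|) (hy : y k ≠ 0)
    (R : ℝ) (h : ∀ j, (|y k * l j - l k * y j| : ℤ) ≤ R) (i j : Fin 4) :
    ((y i * l j - y j * l i : ℤ) : ℝ) ^ 2 ≤ 4 * R ^ 2 := by
  have hyk : (0 : ℝ) < |(y k : ℝ)| := abs_pos.mpr (by exact_mod_cast hy)
  have e : (y k : ℝ) * ((y i * l j - y j * l i : ℤ) : ℝ) =
      y i * ((y k * l j - l k * y j : ℤ) : ℝ) - y j * ((y k * l i - l k * y i : ℤ) : ℝ) := by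
    push_cast; ring
  have hi : |(y i : ℝ)| ≤ |(y k : ℝ)| := by exact_mod_cast hk i
  have hj : |(y j : ℝ)| ≤ |(y k : ℝ)| := by exact_mod_cast hk j
  have h1 : |((y k * l j - l k * y j : ℤ) : ℝ)| ≤ R := by
    have := h j; rwa [Int.cast_abs] at this
  have h2 : |((y k * l i - l k * y i : ℤ) : ℝ)| ≤ R := by
    have := h i; rwa [Int.cast_abs] at this
  have h3 : |(y k : ℝ)| * |((y i * l j - y j * l i : ℤ) : ℝ)| ≤ |(y k : ℝ)| * (2 * R) := by
    rw [← abs_mul, e]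
    calc _ ≤ |(y i : ℝ) * ((y k * l j - l k * y j : ℤ) : ℝ)| +
          |(y j : ℝ) * ((y k * l i - l k * y i : ℤ) : ℝ)| := abs_sub _ _
      _ ≤ |(y k : ℝ)| * R + |(y k : ℝ)| * R := by
          rw [abs_mul, abs_mul]
          exact add_le_add (mul_le_mul hi h1 (abs_nonneg _) hyk.le)
            (mul_le_mul hj h2 (abs_nonneg _) hyk.le)
      _ = _ := by ring
  have h4 := le_of_mul_le_mul_left h3 hyk
  calc _ = |((y i * l j - y j * l i : ℤ) : ℝ)| ^ 2 := (sq_abs _).symm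
    _ ≤ (2 * R) ^ 2 := pow_le_pow_left₀ (abs_nonneg _) h4 2
    _ = _ := by ring

theorem gram_le (y l : Fin 4 → ℤ) (k : Fin 4) (hk : ∀ i, |y i| ≤ |y k|) (hy : y k ≠ 0)
    (R : ℝ) (h : ∀ j, (|y k * l j - l k * y j| : ℤ) ≤ R) :
    (dot y y : ℝ) * dot l l - (dot y l : ℝ) ^ 2 ≤ 24 * R ^ 2 := by
  have e : (dot y y : ℝ) * dot l l - (dot y l : ℝ) ^ 2 =
      ((y 0 * l 1 - y 1 * l 0 : ℤ) : ℝ) ^ 2 + ((y 0 * l 2 - y 2 * l 0 : ℤ) : ℝ) ^ 2 +
      ((y 0 * l 3 - y 3 * l 0 : ℤ) : ℝ) ^ 2 + ((y 1 * l 2 - y 2 * l 1 : ℤ) : ℝ) ^ 2 +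
      ((y 1 * l 3 - y 3 * l 1 : ℤ) : ℝ) ^ 2 + ((y 2 * l 3 - y 3 * l 2 : ℤ) : ℝ) ^ 2 := by
    simp only [dot4]; push_cast; ring
  rw [e]
  linarith only [minor_le y l k hk hy R h 0 1, minor_le y l k hk hy R h 0 2, minor_le y l k hk hy R h 0 3, minor_le y l k hk hy R h 1 2, minor_le y l k hk hy R h 1 3, minor_le y l k hk hy R h 2 3]

theorem cube_third (x : ℝ) (hx : 0 ≤ x) : (x ^ (2 / 3 : ℝ)) ^ 3 = x ^ 2 := by
  rw [← Real.rpow_natCast, ← Real.rpow_mul hx]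
  norm_num

theorem exists_M (Y : ℕ) (hY : 2 ≤ Y) : ∃ M : ℕ, 1 ≤ M ∧ M ^ 3 < Y ∧ Y ≤ (M + 1) ^ 3 := by
  have h : ∃ m : ℕ, Y ≤ m ^ 3 := ⟨Y, Nat.le_self_pow (by norm_num) Y⟩
  have h1 := Nat.find_spec h
  have h2 : ∀ m, Y ≤ m ^ 3 → Nat.find h ≤ m := fun m hm => Nat.find_min' h hm
  have h3 : Nat.find h ≠ 0 := by
    intro h0; rw [h0] at h1; omega
  have h4 : Nat.find h ≠ 1 := by
    intro h0; rw [h0] at h1; omega
  refine ⟨Nat.find h - 1, by omega, ?_, ?_⟩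
  · by_contra hc
    have := h2 (Nat.find h - 1) (by omega)
    omega
  · rwa [Nat.sub_add_cancel (by omega)]

theorem exists_partner (y : Fin 4 → ℤ) (hy0 : y ≠ 0) (hg : Finset.univ.gcd y = 1) :
    ∃ l : Fin 4 → ℤ, (∀ a b : ℤ, a • y + b • l = 0 → a = 0 ∧ b = 0) ∧
      (dot y y : ℝ) * dot l l - (dot y l : ℝ) ^ 2 ≤ 96 * (dot y y : ℝ) ^ (2 / 3 : ℝ) := by
  classical
  obtain ⟨k, -, hk⟩ := Finset.exists_max_image (Finset.univ : Finset (Fin 4)) (fun i => |y i|)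
    ⟨0, Finset.mem_univ 0⟩
  replace hk : ∀ i, |y i| ≤ |y k| := fun i => hk i (Finset.mem_univ i)
  have hyk : y k ≠ 0 := by
    intro h
    apply hy0
    funext i
    have := hk i
    rw [h, abs_zero] at this
    exact abs_nonpos_iff.mp this
  have hYpos : 0 < |y k| := abs_pos.mpr hyk
  have hdot : ((|y k| : ℤ) : ℝ) ^ 2 ≤ (dot y y : ℝ) := by
    have : |y k| ^ 2 ≤ dot y y := by
      rw [sq_abs, dot, sq]
      exact Finset.single_le_sum (f := fun i => y i * y i) (fun i _ => mul_self_nonneg _)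
        (Finset.mem_univ k)
    exact_mod_cast this
  have hfin : ∀ R : ℝ, R ^ 2 ≤ 4 * (((|y k| : ℤ) : ℝ) ^ 2) ^ (2 / 3 : ℝ) →
      24 * R ^ 2 ≤ 96 * (dot y y : ℝ) ^ (2 / 3 : ℝ) := by
    intro R h
    have := Real.rpow_le_rpow (sq_nonneg _) hdot (by norm_num : (0 : ℝ) ≤ 2 / 3)
    linarith only [this, h]
  rcases le_or_gt 2 |y k| with h2 | h2
  · obtain ⟨M, hM1, hM2, hM3⟩ := exists_M (|y k|).toNat (by omega)
    have hY : ((|y k|).toNat : ℤ) = |y k| := Int.toNat_of_nonneg hYpos.le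
    have hM2' : (M : ℤ) ^ 3 < |y k| := by rw [← hY]; exact_mod_cast hM2
    obtain ⟨l, l1, l2, l3⟩ := exists_small_minors y k hk M hM1 hM2'
    refine ⟨l, ?_, ?_⟩
    · intro a b hab
      have hj : ∀ j, a * y j + b * l j = 0 := fun j => by
        have := congrFun hab j
        simpa using this
      by_cases hb : b = 0
      · refine ⟨?_, hb⟩
        have := hj k
        rw [hb, zero_mul, add_zero] at this
        exact (mul_eq_zero.mp this).resolve_right hyk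
      · exfalso
        have hd : b ∣ Finset.univ.gcd (fun j => a * y j) :=
          Finset.dvd_gcd (fun j _ => ⟨-l j, by linear_combination hj j⟩)
        rw [Finset.gcd_mul_left, hg, mul_one] at hd
        have hd' : b ∣ a := (dvd_normalize_iff).mp hd
        obtain ⟨c, hc⟩ := hd'
        have h5 : c * y k + l k = 0 := by
          have := hj k
          rw [hc] at this
          have h6 : b * (c * y k + l k) = 0 := by linear_combination this
          exact (mul_eq_zero.mp h6).resolve_left hb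
        have h7 : l k = - (c * y k) := by linear_combination h5
        rw [h7, abs_neg, abs_mul] at l1 l2
        have h8 : 0 < |c| := by
          by_contra h9
          have : |c| = 0 := le_antisymm (not_lt.mp h9) (abs_nonneg _)
          rw [this, zero_mul] at l1
          exact lt_irrefl _ l1
        nlinarith
    · have hMr : (0 : ℝ) < M := by exact_mod_cast hM1
      set Y : ℝ := ((|y k| : ℤ) : ℝ) with hYr
      have hY0 : 0 < Y := by rw [hYr]; exact_mod_cast hYpos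
      refine (gram_le y l k hk hyk (Y / M) ?_).trans (hfin _ ?_)
      · intro j
        rw [le_div_iff₀ hMr]
        have := (l3 j).le
        rw [hYr]
        exact_mod_cast this
      · have hYM : Y ≤ 8 * (M : ℝ) ^ 3 := by
          have h1 : (|y k|) ≤ ((M : ℤ) + 1) ^ 3 := by rw [← hY]; exact_mod_cast hM3
          have h2 : Y ≤ ((M : ℝ) + 1) ^ 3 := by rw [hYr]; exact_mod_cast h1
          have h3 : (1 : ℝ) ≤ M := by exact_mod_cast hM1
          have h4 : ((M : ℝ) + 1) ^ 3 ≤ (2 * M) ^ 3 := pow_le_pow_left₀ (by positivity) (by linarith only [h3]) 3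
          calc Y ≤ _ := h2
            _ ≤ _ := h4
            _ = _ := by ring
        have h5 : ((Y / M) ^ 2) ^ 3 ≤ (4 * (Y ^ 2) ^ (2 / 3 : ℝ)) ^ 3 := by
          rw [mul_pow, cube_third _ (sq_nonneg Y), div_pow, div_pow, div_le_iff₀ (by positivity)]
          have h6 : Y ^ 2 ≤ (8 * (M : ℝ) ^ 3) ^ 2 := pow_le_pow_left₀ hY0.le hYM 2
          have h7 : Y ^ 4 * Y ^ 2 ≤ Y ^ 4 * (8 * (M : ℝ) ^ 3) ^ 2 :=
            mul_le_mul_of_nonneg_left h6 (by positivity)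
          calc (Y ^ 2) ^ 3 = Y ^ 4 * Y ^ 2 := by ring
            _ ≤ _ := h7
            _ = _ := by ring
        exact (pow_le_pow_iff_left₀ (sq_nonneg _) (by positivity) (by norm_num)).mp h5
  · have hY1 : |y k| = 1 := by omega
    obtain ⟨j, hj⟩ : ∃ j : Fin 4, j ≠ k := exists_ne k
    refine ⟨Pi.single j 1, ?_, ?_⟩
    · intro a b hab
      have h1 := congrFun hab k
      have h2 := congrFun hab j
      simp [hj.symm] at h1 h2
      have h3 : a = 0 := h1.resolve_right hyk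
      rw [h3] at h2
      exact ⟨h3, by simpa using h2⟩
    · refine (gram_le y _ k hk hyk 1 ?_).trans (hfin _ ?_)
      · intro i
        have : |y k * (Pi.single j (1 : ℤ) : Fin 4 → ℤ) i - (Pi.single j (1 : ℤ) : Fin 4 → ℤ) k * y i| ≤ 1 := by
          rw [Pi.single_eq_of_ne hj.symm, zero_mul, sub_zero, abs_mul, hY1, one_mul]
          rcases eq_or_ne i j with rfl | hij
          · simp
          · simp [Pi.single_eq_of_ne hij]
        exact_mod_cast this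
      · rw [hY1]; norm_num

theorem exists_rank2 : ∃ C : ℝ, 1 ≤ C ∧ ∀ y : Fin 4 → ℤ, y ≠ 0 → ∃ (l1 l2 : Fin 4 → ℤ) (s t : ℤ),
    Red l1 l2 ∧ y = s • l1 + t • l2 ∧
    (dot l1 l1 : ℝ) * dot l2 l2 ≤ C * (dot y y : ℝ) ^ (2 / 3 : ℝ) ∧
    (s : ℝ) ^ 2 * dot l1 l1 ≤ C * dot y y ∧ (t : ℝ) ^ 2 * dot l2 l2 ≤ C * dot y y := by
  refine ⟨128, by norm_num, ?_⟩
  intro y hy
  obtain ⟨y', hy', hg⟩ := Finset.extract_gcd (s := (Finset.univ : Finset (Fin 4))) y
    ⟨0, Finset.mem_univ 0⟩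
  set g := Finset.univ.gcd y with hgdef
  have hyg : y = g • y' := by
    funext i; simpa using hy' i (Finset.mem_univ i)
  have hg0 : g ≠ 0 := by
    intro h; apply hy; rw [hyg, h, zero_smul]
  have hy'0 : y' ≠ 0 := by
    intro h; apply hy; rw [hyg, h, smul_zero]
  obtain ⟨l, hind, hgram⟩ := exists_partner y' hy'0 hg
  obtain ⟨a, b, c, d, hdet, hred⟩ := exists_red hind
  have hdd : dot y y = g ^ 2 * dot y' y' := by
    rw [hyg]; simp only [dot4, Pi.smul_apply, smul_eq_mul]; ring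
  have hdle : (dot y' y' : ℝ) ≤ dot y y := by
    have h1 := dot_nonneg y'
    have h2 : 1 ≤ g ^ 2 := by
      have : 0 < g ^ 2 := by positivity
      omega
    have : dot y' y' ≤ dot y y := by rw [hdd]; (by_contra nlg; linarith only [mul_nonneg (sub_nonneg.2 h1) (sub_nonneg.2 h2), nlg])
    exact_mod_cast this
  have hyrep : y = (g * (a * d - b * c) * d) • (a • y' + b • l) +
      (-(g * (a * d - b * c) * b)) • (c • y' + d • l) := by
    rw [hyg]
    funext i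
    simp only [Pi.add_apply, Pi.smul_apply, smul_eq_mul]
    linear_combination (-(g * y' i)) * hdet
  have hG : (dot (a • y' + b • l) (a • y' + b • l) : ℝ) * dot (c • y' + d • l) (c • y' + d • l) -
      (dot (a • y' + b • l) (c • y' + d • l) : ℝ) ^ 2 =
      (dot y' y' : ℝ) * dot l l - (dot y' l : ℝ) ^ 2 := by
    have hdet' : ((a : ℝ) * d - b * c) ^ 2 = 1 := by exact_mod_cast hdet
    simp only [dot_comb]; push_cast
    linear_combination ((dot y' y' : ℝ) * dot l l - (dot y' l : ℝ) ^ 2) * hdet'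
  set l1 := a • y' + b • l with hl1
  set l2 := c • y' + d • l with hl2
  set s := g * (a * d - b * c) * d with hs
  set t := -(g * (a * d - b * c) * b) with ht
  have hr1 := hred.2.1
  have hr2 := hred.2.2.1
  have hr1' : (dot l1 l1 : ℝ) ≤ dot l2 l2 := by exact_mod_cast hr1
  have hr2' : 2 * |(dot l1 l2 : ℝ)| ≤ dot l1 l1 := by exact_mod_cast hr2
  have hr0 : (0 : ℝ) ≤ dot l1 l1 := by exact_mod_cast dot_nonneg l1
  have hB0 : (0 : ℝ) ≤ dot l2 l2 := hr0.trans hr1'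
  have hexp : (dot y y : ℝ) = (s : ℝ) ^ 2 * dot l1 l1 + 2 * (s * t) * dot l1 l2 +
      (t : ℝ) ^ 2 * dot l2 l2 := by
    have : dot y y = s ^ 2 * dot l1 l1 + 2 * (s * t) * dot l1 l2 + t ^ 2 * dot l2 l2 := by
      rw [hyrep, dot_comb]; ring
    exact_mod_cast this
  have hy0 : (0 : ℝ) ≤ dot y y := by exact_mod_cast dot_nonneg y
  have hst : (s : ℝ) ^ 2 * dot l1 l1 ≤ 2 * dot y y ∧ (t : ℝ) ^ 2 * dot l2 l2 ≤ 2 * dot y y := by
    have h1 : |2 * ((s : ℝ) * t) * dot l1 l2| ≤ (1 / 2) * ((s : ℝ) ^ 2 * dot l1 l1) +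
        (1 / 2) * ((t : ℝ) ^ 2 * dot l2 l2) := by
      have h2 : |2 * ((s : ℝ) * t) * dot l1 l2| = |(s : ℝ) * t| * (2 * |(dot l1 l2 : ℝ)|) := by
        rw [abs_mul, abs_mul, abs_of_pos (by norm_num : (0 : ℝ) < 2)]; ring
      have h3 : |(s : ℝ) * t| ≤ (1 / 2) * ((s : ℝ) ^ 2 + (t : ℝ) ^ 2) := by
        rw [abs_le]; constructor <;> nlinarith [sq_nonneg ((s : ℝ) + t), sq_nonneg ((s : ℝ) - t)]
      rw [h2]
      calc _ ≤ ((1 / 2) * ((s : ℝ) ^ 2 + (t : ℝ) ^ 2)) * dot l1 l1 :=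
            mul_le_mul h3 hr2' (by (clear * -; positivity)) (by (clear * -; positivity))
        _ ≤ _ := by linarith only [mul_nonneg (sub_nonneg.2 hr1') (sq_nonneg (t : ℝ))]
    have h4 := neg_abs_le (2 * ((s : ℝ) * t) * dot l1 l2)
    have h5 : 0 ≤ (s : ℝ) ^ 2 * dot l1 l1 := by (clear * - hr0; positivity)
    have h6 : 0 ≤ (t : ℝ) ^ 2 * dot l2 l2 := by (clear * - hB0; positivity)
    constructor <;> linarith
  refine ⟨l1, l2, s, t, hred, hyrep, ?_, ?_, ?_⟩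
  · have h1 : (dot l1 l2 : ℝ) ^ 2 ≤ (1 / 4) * ((dot l1 l1 : ℝ) * dot l2 l2) := by
      have h2 : |(dot l1 l2 : ℝ)| ^ 2 ≤ ((dot l1 l1 : ℝ) / 2) ^ 2 :=
        pow_le_pow_left₀ (abs_nonneg _) (by linarith only [hr2']) 2
      rw [sq_abs] at h2
      linarith only [mul_nonneg (sub_nonneg.2 hr1') (sub_nonneg.2 hr0), mul_nonneg (mul_self_nonneg (1 : ℝ)) (sub_nonneg.2 h2)]
    have h3 := Real.rpow_le_rpow (by exact_mod_cast dot_nonneg y') hdle
      (by norm_num : (0 : ℝ) ≤ 2 / 3)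
    linarith
  · have := hst.1; linarith only [this, hy0]
  · have := hst.2; linarith only [this, hy0]

theorem card_le_diam (T : Finset ℤ) (D : ℕ) (h : ∀ x ∈ T, ∀ x' ∈ T, x - x' ≤ D) :
    T.card ≤ D + 1 := by
  rcases T.eq_empty_or_nonempty with rfl | hT
  · simp
  · have hsub : T ⊆ Finset.Icc (T.min' hT) (T.min' hT + D) := by
      intro x hx
      rw [Finset.mem_Icc]
      have h1 := T.min'_le x hx
      have h2 := h x hx _ (T.min'_mem hT)
      constructor <;> omega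
    have h3 := Finset.card_le_card hsub
    rw [Int.card_Icc] at h3
    omega

theorem coord_le (w : Fin 4 → ℤ) (R : ℝ) (hR : 0 ≤ R) (h : (dot w w : ℝ) ≤ R ^ 2) (i : Fin 4) :
    w i ∈ Finset.Icc (-(⌊R⌋₊ : ℤ)) ⌊R⌋₊ := by
  have h1 : w i ^ 2 ≤ dot w w := by
    rw [dot, sq]
    exact Finset.single_le_sum (f := fun i => w i * w i) (fun i _ => mul_self_nonneg _)
      (Finset.mem_univ i)
  have h2 : (w i : ℝ) ^ 2 ≤ R ^ 2 := le_trans (by exact_mod_cast h1) h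
  have h3 : |(w i : ℝ)| ≤ R := abs_le_of_sq_le_sq h2 hR
  have h4 : ((w i).natAbs : ℝ) ≤ R := by
    rw [Nat.cast_natAbs, Int.cast_abs]; exact h3
  have h5 : (w i).natAbs ≤ ⌊R⌋₊ := Nat.le_floor h4
  rw [Finset.mem_Icc]
  omega

theorem fib_le (A : ℝ) (hA : 0 < A) (b : Fin 4 → ℤ) (k : Fin 4) (hk : ∀ i, |b i| ≤ |b k|)
    (hA4 : (dot b b : ℝ) ≤ 4 * A ^ 2) (v : Fin 3 → ℤ)
    (S : Finset ((Fin 4 → ℤ) × (Fin 4 → ℤ)))
    (hS : ∀ w ∈ S, w.1 = b ∧ Red b w.2 ∧ (fun i : Fin 3 => w.2 (k.succAbove i)) = v) :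
    S.card ≤ ⌊8 * A⌋₊ + 1 := by
  classical
  rcases S.eq_empty_or_nonempty with rfl | ⟨w0, hw0⟩
  · simp
  have hb0 : b ≠ 0 := (hS w0 hw0).2.1.1
  have hbk : b k ≠ 0 := by
    intro h
    apply hb0
    funext i
    have := hk i
    rw [h, abs_zero] at this
    exact abs_nonpos_iff.mp this
  have hbpos : 0 < |b k| := abs_pos.mpr hbk
  have hinj : Set.InjOn (fun w : (Fin 4 → ℤ) × (Fin 4 → ℤ) => w.2 k) S := by
    intro w hw w' hw' h
    obtain ⟨h1, -, h2⟩ := hS w hw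
    obtain ⟨h1', -, h2'⟩ := hS w' hw'
    refine Prod.ext (h1.trans h1'.symm) ?_
    funext j
    rcases eq_or_ne j k with rfl | hj
    · exact h
    · obtain ⟨i, rfl⟩ := Fin.exists_succAbove_eq hj
      exact (congrFun h2 i).trans (congrFun h2' i).symm
  rw [← Finset.card_image_of_injOn hinj]
  apply card_le_diam
  have hdb : dot b b ≤ 4 * |b k| ^ 2 := by
    have h : ∀ i, b i * b i ≤ |b k| ^ 2 := fun i => by
      rw [← sq, ← sq_abs]; exact pow_le_pow_left₀ (abs_nonneg _) (hk i) 2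
    rw [dot4]; linarith only [h 3, h 2, h 1, h 0]
  have hb8 : 4 * |b k| ≤ ⌊8 * A⌋₊ := by
    have h2 : (|(b k : ℝ)|) ≤ 2 * A := by
      have h3 : (b k : ℝ) ^ 2 ≤ (2 * A) ^ 2 := by
        have h4 : b k ^ 2 ≤ dot b b := by
          rw [dot, sq]
          exact Finset.single_le_sum (f := fun i => b i * b i) (fun i _ => mul_self_nonneg _)
            (Finset.mem_univ k)
        have h5 : (b k : ℝ) ^ 2 ≤ dot b b := by exact_mod_cast h4
        rw [mul_pow]; linarith only [h5, hA4]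
      exact abs_le_of_sq_le_sq h3 (by positivity)
    have h6 : ((4 * (b k).natAbs : ℕ) : ℝ) ≤ 8 * A := by
      push_cast
      rw [Nat.cast_natAbs, Int.cast_abs]; linarith only [h2]
    have h7 : 4 * (b k).natAbs ≤ ⌊8 * A⌋₊ := Nat.le_floor h6
    rw [Int.abs_eq_natAbs]
    omega
  intro x hx x' hx'
  rw [Finset.mem_image] at hx hx'
  obtain ⟨w, hw, rfl⟩ := hx
  obtain ⟨w', hw', rfl⟩ := hx'
  obtain ⟨-, hr, h2⟩ := hS w hw
  obtain ⟨-, hr', h2'⟩ := hS w' hw'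
  have e1 := hr.2.2.1
  have e2 := hr'.2.2.1
  have hdiff : dot b w.2 - dot b w'.2 = b k * (w.2 k - w'.2 k) := by
    have h3 : ∀ j, j ≠ k → b j * (w.2 j - w'.2 j) = 0 := by
      intro j hj
      obtain ⟨i, rfl⟩ := Fin.exists_succAbove_eq hj
      rw [(congrFun h2 i).trans (congrFun h2' i).symm, sub_self, mul_zero]
    have h4 : dot b w.2 - dot b w'.2 = ∑ j, b j * (w.2 j - w'.2 j) := by
      simp only [dot, ← Finset.sum_sub_distrib, mul_sub]
    rw [h4]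
    exact Finset.sum_eq_single k (fun j _ hj => h3 j hj) (fun h => absurd (Finset.mem_univ k) h)
  have h5 : |b k| * |w.2 k - w'.2 k| ≤ |b k| * (4 * |b k|) := by
    rw [← abs_mul, ← hdiff]
    have h6 := abs_sub (dot b w.2) (dot b w'.2)
    linarith only [h6, e2, e1, hdb]
  have h7 := le_of_mul_le_mul_left h5 hbpos
  exact (le_abs_self _).trans (h7.trans hb8)

/-- the number of reduced pairs with `A ≤ |l1| ≤ 2 A`, `|l2| ≤ B`. -/
theorem card_red : ∃ C : ℝ, 0 < C ∧ ∀ (A B : ℝ), 1 ≤ B → 0 < A →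
    ∀ S : Finset ((Fin 4 → ℤ) × (Fin 4 → ℤ)),
    (∀ l ∈ S, Red l.1 l.2 ∧ A ^ 2 ≤ dot l.1 l.1 ∧ (dot l.1 l.1 : ℝ) ≤ 4 * A ^ 2 ∧
      (dot l.2 l.2 : ℝ) ≤ B ^ 2) →
    (S.card : ℝ) ≤ C * A ^ 5 * B ^ 3 := by
  classical
  refine ⟨10 ^ 6, by norm_num, ?_⟩
  intro A B hB hA S hS
  rcases S.eq_empty_or_nonempty with rfl | ⟨w0, hw0⟩
  · simp only [Finset.card_empty, Nat.cast_zero]; positivity
  have hA2 : 1 / 2 ≤ A := by
    obtain ⟨h1, -, h2, -⟩ := hS w0 hw0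
    have h3 := dot_pos h1.1
    have h4 : (1 : ℝ) ≤ dot w0.1 w0.1 := by exact_mod_cast h3
    nlinarith
  have hbox : ∀ (n N : ℕ), (Fintype.piFinset (fun _ : Fin n => Finset.Icc (-(N : ℤ)) N)).card =
      (2 * N + 1) ^ n := by
    intro n N
    rw [Fintype.card_piFinset]
    simp only [Int.card_Icc, Finset.prod_const, Finset.card_univ, Fintype.card_fin]
    congr 1
    omega
  have h1 : S.card ≤ ((⌊8 * A⌋₊ + 1) * (2 * ⌊B⌋₊ + 1) ^ 3) *
      (Fintype.piFinset (fun _ : Fin 4 => Finset.Icc (-(⌊2 * A⌋₊ : ℤ)) ⌊2 * A⌋₊)).card := by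
    apply Finset.card_le_mul_card_image_of_maps_to (f := Prod.fst)
    · intro w hw
      rw [Fintype.mem_piFinset]
      obtain ⟨-, -, h, -⟩ := hS w hw
      exact coord_le w.1 (2 * A) (by positivity) (by rw [mul_pow]; linarith only [h])
    · intro b _
      obtain ⟨k, -, hk⟩ := Finset.exists_max_image (Finset.univ : Finset (Fin 4)) (fun i => |b i|)
        ⟨0, Finset.mem_univ 0⟩
      replace hk : ∀ i, |b i| ≤ |b k| := fun i => hk i (Finset.mem_univ i)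
      rw [← hbox 3]
      apply Finset.card_le_mul_card_image_of_maps_to
        (f := fun w : (Fin 4 → ℤ) × (Fin 4 → ℤ) => fun i : Fin 3 => w.2 (k.succAbove i))
      · intro w hw
        rw [Finset.mem_filter] at hw
        rw [Fintype.mem_piFinset]
        intro i
        exact coord_le w.2 B (by linarith only [hB]) (hS w hw.1).2.2.2 _
      · intro v _
        rcases Finset.eq_empty_or_nonempty {a ∈ {a ∈ S | a.1 = b} |
            (fun i : Fin 3 => a.2 (k.succAbove i)) = v} with he | ⟨w1, hw1⟩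
        · rw [he]; simp
        · refine fib_le A hA b k hk ?_ v _ ?_
          · rw [Finset.mem_filter, Finset.mem_filter] at hw1
            rw [← hw1.1.2]
            exact (hS w1 hw1.1.1).2.2.1
          · intro w hw
            rw [Finset.mem_filter, Finset.mem_filter] at hw
            refine ⟨hw.1.2, ?_, hw.2⟩
            rw [← hw.1.2]
            exact (hS w hw.1.1).1
  rw [hbox 4] at h1
  have h2 : (⌊8 * A⌋₊ : ℝ) ≤ 8 * A := Nat.floor_le (by positivity)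
  have h3 : (⌊2 * A⌋₊ : ℝ) ≤ 2 * A := Nat.floor_le (by positivity)
  have h4 : (⌊B⌋₊ : ℝ) ≤ B := Nat.floor_le (by linarith only [hB])
  have h5 : (S.card : ℝ) ≤ (((⌊8 * A⌋₊ : ℝ) + 1) * (2 * (⌊B⌋₊ : ℝ) + 1) ^ 3) *
      (2 * (⌊2 * A⌋₊ : ℝ) + 1) ^ 4 := by exact_mod_cast h1
  calc (S.card : ℝ) ≤ _ := h5
    _ ≤ ((10 * A) * (3 * B) ^ 3) * (6 * A) ^ 4 := by
        gcongr <;> linarith
    _ ≤ _ := by
        have : 0 ≤ A ^ 5 * B ^ 3 := by positivity
        linarith only [this]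

end Vale.Agent.P018.Q
end

section

/-! # P018, quartics: coordinates in the relation step. -/

namespace Vale.Agent.P018.Q

open Polynomial NumberField Finset

section

variable {R : Type*} [CommRing R]

/-- coordinates modulo `G`. -/
theorem rc_ell (G : ℤ[X]) (hG : G.Monic) (hGd : G.natDegree = 4) (θ : R) (hθ : aeval θ G = 0)
    (P : ℤ[X]) : K.ell θ (fun i : Fin 4 => (P %ₘ G).coeff i) = aeval θ P := by
  have h1 : aeval θ P = aeval θ (P %ₘ G) := by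
    conv_lhs => rw [← modByMonic_add_div P G]
    rw [map_add, map_mul, hθ, zero_mul, add_zero]
  have h2 : (P %ₘ G).natDegree < 4 := by
    rw [← hGd]
    exact natDegree_modByMonic_lt _ hG (by
      rintro rfl
      simp at hGd)
  rw [h1, aeval_eq_sum_range' h2, Finset.sum_range]
  unfold K.ell
  refine Finset.sum_congr rfl fun i _ => ?_
  rw [zsmul_eq_mul]

/-- the polynomial with the value `ell θ l`. -/
noncomputable def rcP (l : Fin 4 → ℤ) : ℤ[X] := ∑ j : Fin 4, C (l j) * X ^ (j : ℕ)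

theorem rc_P (θ : R) (l : Fin 4 → ℤ) : aeval θ (rcP l) = K.ell θ l := by
  unfold rcP K.ell
  rw [map_sum]
  refine Finset.sum_congr rfl fun j _ => ?_
  simp

theorem rc_ell_sum {ι : Type*} (s : Finset ι) (θ : R) (f : ι → ℤ) (v : ι → Fin 4 → ℤ) :
    K.ell θ (fun i => ∑ x ∈ s, f x * v x i) = ∑ x ∈ s, (f x : R) * K.ell θ (v x) := by
  unfold K.ell
  simp_rw [Finset.mul_sum, Int.cast_sum, Finset.sum_mul]
  rw [Finset.sum_comm]
  refine Finset.sum_congr rfl fun x _ => Finset.sum_congr rfl fun j _ => ?_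
  push_cast
  ring

end

/-- the inverse of the Vandermonde matrix. -/
theorem rc_vander {L : Type*} [Field L] [NumberField L] (θ : Fin 4 → 𝓞 L)
    (hθ : Function.Injective θ) : ∃ K0 : ℝ, 1 ≤ K0 ∧
      (∀ (φ : L →+* ℂ) (j : Fin 4), ‖φ (θ j : 𝓞 L)‖ ≤ K0) ∧
      ∀ (v : Fin 4 → ℤ) (B : ℝ), (∀ (φ : L →+* ℂ) (j : Fin 4),
        ‖φ (K.ell (θ j) v : 𝓞 L)‖ ≤ B) → ∀ i, 2 * |(v i : ℝ)| ≤ K0 * B := by
  classical
  obtain ⟨φ₀⟩ : Nonempty (L →+* ℂ) := inferInstance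
  set x : Fin 4 → ℂ := fun j => φ₀ (θ j : 𝓞 L) with hx
  set M : Matrix (Fin 4) (Fin 4) ℂ := Matrix.vandermonde x with hM
  have hinj : Function.Injective x := fun i j h => hθ (RingOfIntegers.ext (φ₀.injective h))
  have hdet : IsUnit M.det := isUnit_iff_ne_zero.2 (Matrix.det_vandermonde_ne_zero_iff.2 hinj)
  set S : ℝ := ∑ i, ∑ j, ‖M⁻¹ i j‖ with hS
  set T : ℝ := ∑ φ : L →+* ℂ, ∑ j, ‖φ (θ j : 𝓞 L)‖ with hT
  have hS0 : 0 ≤ S := Finset.sum_nonneg fun i _ => Finset.sum_nonneg fun j _ => norm_nonneg _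
  have hT0 : 0 ≤ T := Finset.sum_nonneg fun i _ => Finset.sum_nonneg fun j _ => norm_nonneg _
  refine ⟨1 + T + 2 * S, by linarith only [hT0, hS0], fun φ j => ?_, fun v B hv i => ?_⟩
  · have h1 : ‖φ (θ j : 𝓞 L)‖ ≤ ∑ j, ‖φ (θ j : 𝓞 L)‖ :=
      Finset.single_le_sum (f := fun j => ‖φ (θ j : 𝓞 L)‖) (fun _ _ => norm_nonneg _)
        (Finset.mem_univ j)
    have h2 : ∑ j, ‖φ (θ j : 𝓞 L)‖ ≤ T :=
      Finset.single_le_sum (f := fun φ : L →+* ℂ => ∑ j, ‖φ (θ j : 𝓞 L)‖)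
        (fun _ _ => Finset.sum_nonneg fun _ _ => norm_nonneg _) (Finset.mem_univ φ)
    linarith only [h2, h1, hS0]
  · have hB : 0 ≤ B := (norm_nonneg _).trans (hv φ₀ 0)
    have h1 : M.mulVec (fun i => ((v i : ℤ) : ℂ)) = fun j => φ₀ (K.ell (θ j) v : 𝓞 L) := by
      funext j
      have e0 : φ₀ (K.ell (θ j) v : 𝓞 L) = (φ₀.comp (algebraMap (𝓞 L) L)) (K.ell (θ j) v) := rfl
      rw [Matrix.mulVec, dotProduct, e0]
      unfold K.ell
      rw [map_sum]
      refine Finset.sum_congr rfl fun k _ => ?_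
      rw [hM, Matrix.vandermonde_apply, map_mul, map_pow, map_intCast, mul_comm]
      rfl
    have h2 : (fun i => ((v i : ℤ) : ℂ)) = M⁻¹.mulVec fun j => φ₀ (K.ell (θ j) v : 𝓞 L) := by
      rw [← h1, Matrix.mulVec_mulVec, Matrix.nonsing_inv_mul _ hdet, Matrix.one_mulVec]
    have h3 : ((v i : ℤ) : ℂ) = ∑ j, M⁻¹ i j * φ₀ (K.ell (θ j) v : 𝓞 L) := congrFun h2 i
    have h4 : |(v i : ℝ)| ≤ S * B := by
      have h5 : |(v i : ℝ)| = ‖((v i : ℤ) : ℂ)‖ := by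
        rw [Complex.norm_intCast]
      rw [h5, h3]
      refine (norm_sum_le _ _).trans ?_
      have h6 : ∑ j, ‖M⁻¹ i j‖ ≤ S :=
        Finset.single_le_sum (f := fun i => ∑ j, ‖M⁻¹ i j‖)
          (fun _ _ => Finset.sum_nonneg fun _ _ => norm_nonneg _) (Finset.mem_univ i)
      calc ∑ j, ‖M⁻¹ i j * φ₀ (K.ell (θ j) v : 𝓞 L)‖ ≤ ∑ j, ‖M⁻¹ i j‖ * B := by
            refine Finset.sum_le_sum fun j _ => ?_
            rw [norm_mul]
            exact mul_le_mul_of_nonneg_left (hv φ₀ j) (norm_nonneg _)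
        _ = (∑ j, ‖M⁻¹ i j‖) * B := by rw [Finset.sum_mul]
        _ ≤ S * B := mul_le_mul_of_nonneg_right h6 hB
    linarith only [hB, h4, mul_nonneg hT0 hB]

end Vale.Agent.P018.Q
end

section

/-! # P018, quartics: the expansions of the relation step. -/

namespace Vale.Agent.P018.Q

open Finset

section

variable {R : Type*} [CommRing R]

/-- the binomial theorem with a fixed range. -/
theorem re_add_pow (x y : R) {a N : ℕ} (h : a ≤ N) :
    (x + y) ^ a = ∑ α ∈ range (N + 1), x ^ α * y ^ (a - α) * (a.choose α : R) := by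
  rw [add_pow]
  refine Finset.sum_subset (Finset.range_mono (by omega)) fun α _ hα => ?_
  rw [Finset.mem_range, not_lt] at hα
  rw [Nat.choose_eq_zero_of_lt (by omega), Nat.cast_zero, mul_zero]

/-- the terms of the expansion at the conjugate `θ`. -/
theorem re_term {Nd D a b : ℕ} (ha : a ≤ Nd) (hb : b ≤ D) (n θ lam1 lam2 s t : R) :
    lam2 ^ D * (n ^ a * s ^ b * t ^ (D - b)) =
      ∑ α ∈ range (Nd + 1), ∑ β ∈ range (D + 1),
        (n - θ) ^ α * (lam1 * s + lam2 * t) ^ β * s ^ (D - β) *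
          (((a.choose α : ℕ) : R) * θ ^ (a - α) * lam2 ^ b * (((D - b).choose β : ℕ) : R) *
            (-lam1) ^ (D - b - β)) := by
  have h1 : n ^ a = ∑ α ∈ range (Nd + 1), (n - θ) ^ α * θ ^ (a - α) * (a.choose α : R) := by
    rw [← re_add_pow (n - θ) θ ha, sub_add_cancel]
  have h2 : (lam2 * t) ^ (D - b) = ∑ β ∈ range (D + 1),
      (lam1 * s + lam2 * t) ^ β * (-(lam1 * s)) ^ (D - b - β) * ((D - b).choose β : R) := by
    rw [← re_add_pow (lam1 * s + lam2 * t) (-(lam1 * s)) (show D - b ≤ D by omega)]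
    congr 1
    ring
  have h3 : lam2 ^ D * (n ^ a * s ^ b * t ^ (D - b)) =
      n ^ a * (lam2 ^ b * s ^ b * (lam2 * t) ^ (D - b)) := by
    have h4 : lam2 ^ D = lam2 ^ b * lam2 ^ (D - b) := by
      rw [← pow_add]
      congr 1
      omega
    rw [h4, mul_pow]
    ring
  rw [h3, h2, h1, Finset.sum_mul]
  refine Finset.sum_congr rfl fun α _ => ?_
  rw [Finset.mul_sum, Finset.mul_sum]
  refine Finset.sum_congr rfl fun β _ => ?_
  by_cases hβ : β ≤ D - b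
  · have h5 : s ^ (D - β) = s ^ b * s ^ (D - b - β) := by
      rw [← pow_add]
      congr 1
      omega
    rw [h5, neg_pow (lam1 * s), neg_pow lam1, mul_pow]
    ring
  · rw [Nat.choose_eq_zero_of_lt (show D - b < β by omega)]
    simp

/-- the expansion of the value at the conjugate `θ`. -/
theorem re_val (Nd D : ℕ) (f : ℕ → ℕ → R) (n θ lam1 lam2 s t : R) :
    lam2 ^ D * ∑ a ∈ range (Nd + 1), n ^ a * ∑ b ∈ range (D + 1), f a b * s ^ b * t ^ (D - b) =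
      ∑ α ∈ range (Nd + 1), ∑ β ∈ range (D + 1),
        (n - θ) ^ α * (lam1 * s + lam2 * t) ^ β * s ^ (D - β) *
          ∑ a ∈ range (Nd + 1), ∑ b ∈ range (D + 1), f a b *
            (((a.choose α : ℕ) : R) * θ ^ (a - α) * lam2 ^ b * (((D - b).choose β : ℕ) : R) *
              (-lam1) ^ (D - b - β)) := by
  have h1 : lam2 ^ D * ∑ a ∈ range (Nd + 1), n ^ a * ∑ b ∈ range (D + 1),
      f a b * s ^ b * t ^ (D - b) =
      ∑ a ∈ range (Nd + 1), ∑ b ∈ range (D + 1),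
        f a b * (lam2 ^ D * (n ^ a * s ^ b * t ^ (D - b))) := by
    rw [Finset.mul_sum]
    refine Finset.sum_congr rfl fun a _ => ?_
    rw [Finset.mul_sum, Finset.mul_sum]
    refine Finset.sum_congr rfl fun b _ => ?_
    ring
  rw [h1]
  have h2 : ∀ a ∈ range (Nd + 1), ∀ b ∈ range (D + 1),
      f a b * (lam2 ^ D * (n ^ a * s ^ b * t ^ (D - b))) =
      ∑ α ∈ range (Nd + 1), ∑ β ∈ range (D + 1),
        (n - θ) ^ α * (lam1 * s + lam2 * t) ^ β * s ^ (D - β) * (f a b *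
          (((a.choose α : ℕ) : R) * θ ^ (a - α) * lam2 ^ b * (((D - b).choose β : ℕ) : R) *
            (-lam1) ^ (D - b - β))) := by
    intro a ha b hb
    rw [re_term (Nat.lt_succ_iff.1 (Finset.mem_range.1 ha)) (Nat.lt_succ_iff.1 (Finset.mem_range.1 hb))
      n θ lam1 lam2 s t, Finset.mul_sum]
    refine Finset.sum_congr rfl fun α _ => ?_
    rw [Finset.mul_sum]
    refine Finset.sum_congr rfl fun β _ => ?_
    ring
  rw [Finset.sum_congr rfl fun a ha => Finset.sum_congr rfl fun b hb => h2 a ha b hb]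
  -- exchange the sums
  rw [Finset.sum_congr rfl fun a _ => Finset.sum_comm]
  rw [Finset.sum_comm]
  refine Finset.sum_congr rfl fun α _ => ?_
  rw [Finset.sum_congr rfl fun a _ => Finset.sum_comm]
  rw [Finset.sum_comm]
  refine Finset.sum_congr rfl fun β _ => ?_
  rw [Finset.mul_sum]
  refine Finset.sum_congr rfl fun a _ => ?_
  rw [Finset.mul_sum]

/-- the divisibility by `π ^ m`. -/
theorem re_dvd (Nd D m : ℕ) (f : ℕ → ℕ → R) (n θ lam1 lam2 s t c γ : R)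
    (hc : c * (n - θ) = (lam1 * s + lam2 * t) ^ 2 * γ)
    (h0 : ∀ α ∈ range (Nd + 1), ∀ β ∈ range (D + 1), 2 * α + β < m →
      ∑ a ∈ range (Nd + 1), ∑ b ∈ range (D + 1), f a b *
        (((a.choose α : ℕ) : R) * θ ^ (a - α) * lam2 ^ b * (((D - b).choose β : ℕ) : R) *
          (-lam1) ^ (D - b - β)) = 0) :
    (lam1 * s + lam2 * t) ^ m ∣ c ^ Nd * lam2 ^ D *
      ∑ a ∈ range (Nd + 1), n ^ a * ∑ b ∈ range (D + 1), f a b * s ^ b * t ^ (D - b) := by
  rw [mul_assoc, re_val, Finset.mul_sum]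
  refine Finset.dvd_sum fun α hα => ?_
  rw [Finset.mul_sum]
  refine Finset.dvd_sum fun β hβ => ?_
  by_cases h : 2 * α + β < m
  · rw [h0 α hα β hβ h, mul_zero, mul_zero]
    exact dvd_zero _
  · have h1 : c ^ Nd = c ^ (Nd - α) * c ^ α := by
      rw [← pow_add]
      congr 1
      rw [Finset.mem_range] at hα
      omega
    have h2 : c ^ α * (n - θ) ^ α = (lam1 * s + lam2 * t) ^ (2 * α) * γ ^ α := by
      rw [← mul_pow, hc, mul_pow, ← pow_mul]
    have h3 : (lam1 * s + lam2 * t) ^ m ∣ (lam1 * s + lam2 * t) ^ (2 * α + β) :=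
      pow_dvd_pow _ (by omega)
    refine h3.trans ?_
    rw [h1]
    refine ⟨c ^ (Nd - α) * γ ^ α * s ^ (D - β) *
      ∑ a ∈ range (Nd + 1), ∑ b ∈ range (D + 1), f a b *
        (((a.choose α : ℕ) : R) * θ ^ (a - α) * lam2 ^ b * (((D - b).choose β : ℕ) : R) *
          (-lam1) ^ (D - b - β)), ?_⟩
    rw [pow_add]
    linear_combination (c ^ (Nd - α) * (lam1 * s + lam2 * t) ^ β * s ^ (D - β) *
      ∑ a ∈ range (Nd + 1), ∑ b ∈ range (D + 1), f a b *
        (((a.choose α : ℕ) : R) * θ ^ (a - α) * lam2 ^ b * (((D - b).choose β : ℕ) : R) *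
          (-lam1) ^ (D - b - β))) * h2

/-- the expansion at a residue class. -/
theorem re_shift (D : ℕ) (f : ℕ → R) (σ x t : R) :
    ∑ b ∈ range (D + 1), f b * (σ * t + x) ^ b * t ^ (D - b) =
      ∑ r ∈ range (D + 1), x ^ r * t ^ (D - r) *
        ∑ b ∈ range (D + 1), f b * (((b.choose r : ℕ) : R) * σ ^ (b - r)) := by
  have h1 : ∀ b ∈ range (D + 1), f b * (σ * t + x) ^ b * t ^ (D - b) =
      ∑ r ∈ range (D + 1), x ^ r * t ^ (D - r) * (f b * (((b.choose r : ℕ) : R) * σ ^ (b - r))) := by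
    intro b hb
    rw [add_comm (σ * t) x, re_add_pow x (σ * t) (show b ≤ D by simpa [Nat.lt_succ_iff] using hb),
      Finset.mul_sum, Finset.sum_mul]
    refine Finset.sum_congr rfl fun r _ => ?_
    by_cases hr : r ≤ b
    · have h2 : t ^ (D - r) = t ^ (b - r) * t ^ (D - b) := by
        rw [← pow_add]
        congr 1
        rw [Finset.mem_range] at hb
        omega
      rw [h2, mul_pow]
      ring
    · rw [Nat.choose_eq_zero_of_lt (by omega)]
      simp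
  rw [Finset.sum_congr rfl h1, Finset.sum_comm]
  refine Finset.sum_congr rfl fun r _ => ?_
  rw [Finset.mul_sum]

end

/-- the divisibility by `q ^ ν`. -/
theorem re_dvd_q (D ν : ℕ) (q : ℤ) (f : ℕ → ℤ) (σ s t : ℤ) (hq : q ∣ s - σ * t)
    (h : ∀ r < ν, q ^ (ν - r) ∣ ∑ b ∈ range (D + 1), f b * (((b.choose r : ℕ) : ℤ) * σ ^ (b - r))) :
    q ^ ν ∣ ∑ b ∈ range (D + 1), f b * s ^ b * t ^ (D - b) := by
  have h1 : s = σ * t + (s - σ * t) := by ring
  rw [h1, re_shift]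
  refine Finset.dvd_sum fun r _ => ?_
  by_cases hr : r < ν
  · have h2 : q ^ ν = q ^ r * q ^ (ν - r) := by
      rw [← pow_add]
      congr 1
      omega
    rw [h2]
    refine mul_dvd_mul (Dvd.dvd.mul_right ?_ _) (h r hr)
    exact pow_dvd_pow_of_dvd (by simpa using hq) r
  · refine Dvd.dvd.mul_right (Dvd.dvd.mul_right ?_ _) _
    exact (pow_dvd_pow q (by omega)).trans (pow_dvd_pow_of_dvd (by simpa using hq) r)

end Vale.Agent.P018.Q
end

section

/-! # P018, quartics: the pigeonhole principle of the relation step. -/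

namespace Vale.Agent.P018.Q

open Finset

/-- integer vectors in a box with prescribed linear data. -/
theorem rel_pigeon {ι κ τ : Type} [Fintype ι] [Fintype κ] [Fintype τ] (w : ι → ℕ)
    (U : ι → κ → ℤ) (B : κ → ℝ) (R : ι → τ → ℤ) (M : τ → ℕ) (hM : ∀ t, 0 < M t)
    (hU : ∀ f : ι → ℤ, (∀ i, 0 ≤ f i ∧ f i ≤ w i) → ∀ k,
      |((∑ i, f i * U i k : ℤ) : ℝ)| ≤ B k)
    (hcard : (∏ k, (2 * B k + 1)) * ∏ t, (M t : ℝ) < ∏ i, ((w i : ℝ) + 1)) :
    ∃ f : ι → ℤ, f ≠ 0 ∧ (∀ i, |f i| ≤ w i) ∧ (∀ k, ∑ i, f i * U i k = 0) ∧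
      ∀ t, (M t : ℤ) ∣ ∑ i, f i * R i t := by
  classical
  have hB : ∀ k, 0 ≤ B k := by
    intro k
    have h := hU 0 (fun i => ⟨le_rfl, by simp⟩) k
    exact (abs_nonneg _).trans h
  set S : Finset (ι → ℤ) := Fintype.piFinset fun i => Finset.Icc (0 : ℤ) (w i) with hS
  set T : Finset ((κ → ℤ) × (τ → ℤ)) := (Fintype.piFinset fun k =>
    Finset.Icc (-⌊B k⌋) ⌊B k⌋) ×ˢ (Fintype.piFinset fun t => Finset.Ico (0 : ℤ) (M t)) with hT
  have hScard : (S.card : ℝ) = ∏ i, ((w i : ℝ) + 1) := by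
    rw [hS, Fintype.card_piFinset]
    push_cast
    refine Finset.prod_congr rfl fun i _ => ?_
    rw [Int.card_Icc]
    have h : ((w i : ℤ) + 1 - 0).toNat = w i + 1 := by omega
    rw [h]
    push_cast
    ring
  have hTcard : (T.card : ℝ) ≤ (∏ k, (2 * B k + 1)) * ∏ t, (M t : ℝ) := by
    rw [hT, Finset.card_product, Fintype.card_piFinset, Fintype.card_piFinset]
    push_cast
    have h1 : ∏ t, ((Finset.Ico (0 : ℤ) (M t)).card : ℝ) = ∏ t, (M t : ℝ) := by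
      refine Finset.prod_congr rfl fun t _ => ?_
      rw [Int.card_Ico]
      simp
    rw [h1]
    refine mul_le_mul_of_nonneg_right ?_ (Finset.prod_nonneg fun t _ => Nat.cast_nonneg _)
    refine Finset.prod_le_prod (fun k _ => Nat.cast_nonneg _) fun k _ => ?_
    rw [Int.card_Icc]
    have h2 : (0 : ℤ) ≤ ⌊B k⌋ := Int.floor_nonneg.2 (hB k)
    have h3 : ((⌊B k⌋ + 1 - -⌊B k⌋).toNat : ℤ) = 2 * ⌊B k⌋ + 1 := by
      rw [Int.toNat_of_nonneg (by omega)]
      ring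
    have h4 : ((⌊B k⌋ + 1 - -⌊B k⌋).toNat : ℝ) = 2 * (⌊B k⌋ : ℝ) + 1 := by exact_mod_cast h3
    rw [h4]
    have h5 := Int.floor_le (B k)
    linarith only [h5]
  have hlt : T.card < S.card := by
    have h : (T.card : ℝ) < S.card := by
      rw [hScard]
      exact hTcard.trans_lt hcard
    exact_mod_cast h
  have hmaps : ∀ f ∈ S, ((fun k => ∑ i, f i * U i k, fun t => (∑ i, f i * R i t) % (M t : ℤ)) :
      (κ → ℤ) × (τ → ℤ)) ∈ T := by
    intro f hf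
    rw [hS, Fintype.mem_piFinset] at hf
    rw [hT, Finset.mem_product, Fintype.mem_piFinset, Fintype.mem_piFinset]
    refine ⟨fun k => ?_, fun t => ?_⟩
    · have h1 := hU f (fun i => Finset.mem_Icc.1 (hf i)) k
      rw [abs_le] at h1
      rw [Finset.mem_Icc]
      have h2 : (∑ i, f i * U i k) ≤ ⌊B k⌋ := Int.le_floor.2 h1.2
      have h3 : -(∑ i, f i * U i k) ≤ ⌊B k⌋ := Int.le_floor.2 (by push_cast at h1 ⊢; linarith only [h1.1])
      exact ⟨by linarith, h2⟩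
    · rw [Finset.mem_Ico]
      have h1 : (0 : ℤ) < M t := by exact_mod_cast hM t
      exact ⟨Int.emod_nonneg _ h1.ne', Int.emod_lt_of_pos _ h1⟩
  obtain ⟨f, hf, f', hf', hne, heq⟩ := Finset.exists_ne_map_eq_of_card_lt_of_maps_to hlt hmaps
  rw [hS, Fintype.mem_piFinset] at hf hf'
  rw [Prod.mk.injEq] at heq
  refine ⟨f - f', sub_ne_zero.2 hne, fun i => ?_, fun k => ?_, fun t => ?_⟩
  · have h1 := Finset.mem_Icc.1 (hf i)
    have h2 := Finset.mem_Icc.1 (hf' i)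
    rw [Pi.sub_apply, abs_le]
    constructor <;> linarith [h1.1, h1.2, h2.1, h2.2]
  · have h1 := congrFun heq.1 k
    simp only [Pi.sub_apply, sub_mul, Finset.sum_sub_distrib]
    linarith
  · have h1 := congrFun heq.2 t
    simp only [Pi.sub_apply, sub_mul, Finset.sum_sub_distrib]
    exact Int.ModEq.dvd (show (∑ i, f' i * R i t) ≡ (∑ i, f i * R i t) [ZMOD (M t : ℤ)] from h1.symm)

end Vale.Agent.P018.Q
end

section

/-! # P018, quartics: the pigeonhole principle of the relation step, in the form with ranges. -/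

namespace Vale.Agent.P018.Q

open Finset

theorem rp_sum (n m : ℕ) (F : ℕ → ℕ → ℤ) :
    ∑ x : Fin n × Fin m, F x.1 x.2 = ∑ a ∈ range n, ∑ b ∈ range m, F a b := by
  rw [Fintype.sum_prod_type, Finset.sum_range]
  exact Finset.sum_congr rfl fun a _ => by rw [Finset.sum_range]

theorem rp_prod (n m : ℕ) (F : ℕ → ℕ → ℝ) :
    ∏ x : Fin n × Fin m, F x.1 x.2 = ∏ a ∈ range n, ∏ b ∈ range m, F a b := by
  rw [Fintype.prod_prod_type, Finset.prod_range]
  exact Finset.prod_congr rfl fun a _ => by rw [Finset.prod_range]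

theorem rp_gauss (ν : ℕ) : ∑ r ∈ range ν, (ν - r) = ν * (ν + 1) / 2 := by
  have h1 : ∑ r ∈ range ν, (ν - r) = ∑ r ∈ range ν, (ν - 1 - r + 1) := by
    refine Finset.sum_congr rfl fun r hr => ?_
    rw [Finset.mem_range] at hr
    omega
  rw [h1, Finset.sum_range_reflect (fun j => j + 1) ν]
  have h2 : ∑ j ∈ range ν, (j + 1) = ∑ j ∈ range (ν + 1), j := by
    rw [Finset.sum_range_succ' (fun j => j) ν]
    simp
  rw [h2, Finset.sum_range_id, Nat.add_sub_cancel, Nat.mul_comm]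

/-- the pigeonhole principle. -/
theorem rel_pigeon' (Nd D m ν q : ℕ) (hq : 0 < q) (W Bd : ℕ → ℕ → ℝ) (K0 : ℝ)
    (hW : ∀ a b, 0 ≤ W a b) (U : ℕ → ℕ → ℕ → ℕ → Fin 4 → ℤ) (R : ℕ → ℕ → ℤ)
    (hU : ∀ g : ℕ → ℕ → ℤ, (∀ a b, 0 ≤ g a b ∧ (g a b : ℝ) ≤ W a b) → ∀ α ≤ Nd, ∀ β ≤ D,
      2 * α + β < m → ∀ i, 2 * |((∑ a ∈ range (Nd + 1), ∑ b ∈ range (D + 1),
        g a b * U a b α β i : ℤ) : ℝ)| ≤ K0 * Bd α β)
    (hcard : (∏ α ∈ range (Nd + 1), ∏ β ∈ (range (D + 1)).filter (fun β => 2 * α + β < m),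
        (K0 * Bd α β + 1) ^ 4) * (q : ℝ) ^ ((Nd + 1) * (ν * (ν + 1) / 2)) <
        ∏ a ∈ range (Nd + 1), ∏ b ∈ range (D + 1), ((⌊W a b⌋₊ : ℝ) + 1)) :
    ∃ g : ℕ → ℕ → ℤ, (∃ a ≤ Nd, ∃ b ≤ D, g a b ≠ 0) ∧ (∀ a b, |(g a b : ℝ)| ≤ W a b) ∧
      (∀ a b, ¬ (a ≤ Nd ∧ b ≤ D) → g a b = 0) ∧
      (∀ α ≤ Nd, ∀ β ≤ D, 2 * α + β < m → ∀ i,
        ∑ a ∈ range (Nd + 1), ∑ b ∈ range (D + 1), g a b * U a b α β i = 0) ∧
      ∀ a ≤ Nd, ∀ r < ν, (q : ℤ) ^ (ν - r) ∣ ∑ b ∈ range (D + 1), g a b * R b r := by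
  classical
  -- extension of a function on the box
  have hext : ∀ f : Fin (Nd + 1) × Fin (D + 1) → ℤ, ∃ g : ℕ → ℕ → ℤ,
      (∀ x, f x = g x.1 x.2) ∧ ∀ a b, ¬ (a ≤ Nd ∧ b ≤ D) → g a b = 0 := by
    intro f
    refine ⟨fun a b => if h : a < Nd + 1 ∧ b < D + 1 then f (⟨a, h.1⟩, ⟨b, h.2⟩) else 0,
      fun x => ?_, fun a b h => ?_⟩
    · beta_reduce
      rw [dif_pos (show (x.1 : ℕ) < Nd + 1 ∧ (x.2 : ℕ) < D + 1 from ⟨x.1.2, x.2.2⟩)]
    · exact dif_neg fun h' => h ⟨by omega, by omega⟩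
  obtain ⟨f, hf0, hfw, hfU, hfR⟩ := rel_pigeon (ι := Fin (Nd + 1) × Fin (D + 1))
    (κ := {x : Fin (Nd + 1) × Fin (D + 1) // 2 * (x.1 : ℕ) + x.2 < m} × Fin 4)
    (τ := Fin (Nd + 1) × Fin ν) (fun x => ⌊W x.1 x.2⌋₊)
    (fun x k => U x.1 x.2 k.1.1.1 k.1.1.2 k.2) (fun k => K0 * Bd k.1.1.1 k.1.1.2 / 2)
    (fun x t => if x.1 = t.1 then R x.2 t.2 else 0) (fun t => q ^ (ν - (t.2 : ℕ)))
    (fun t => pow_pos hq _) (by
      intro f hf k
      obtain ⟨g, hg, hg0⟩ := hext f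
      have h1 : ∑ x, f x * U x.1 x.2 k.1.1.1 k.1.1.2 k.2 =
          ∑ a ∈ range (Nd + 1), ∑ b ∈ range (D + 1), g a b * U a b k.1.1.1 k.1.1.2 k.2 := by
        rw [← rp_sum (Nd + 1) (D + 1) fun a b => g a b * U a b k.1.1.1 k.1.1.2 k.2]
        exact Finset.sum_congr rfl fun x _ => by rw [hg]
      rw [h1]
      have h2 := hU g (fun a b => ?_) k.1.1.1 (by omega) k.1.1.2 (by omega) k.1.2 k.2
      · linarith only [h2]
      · by_cases h : a ≤ Nd ∧ b ≤ D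
        · have h3 := hf (⟨a, by omega⟩, ⟨b, by omega⟩)
          rw [hg] at h3
          refine ⟨h3.1, ?_⟩
          have h4 : ((g a b : ℤ) : ℝ) ≤ ((⌊W a b⌋₊ : ℕ) : ℝ) := by exact_mod_cast h3.2
          exact h4.trans (Nat.floor_le (hW a b))
        · rw [hg0 a b h]
          exact ⟨le_rfl, by simpa using hW a b⟩) (by
      have e1 : ∏ k : {x : Fin (Nd + 1) × Fin (D + 1) // 2 * (x.1 : ℕ) + x.2 < m} × Fin 4,
          (2 * (K0 * Bd k.1.1.1 k.1.1.2 / 2) + 1) =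
          ∏ α ∈ range (Nd + 1), ∏ β ∈ (range (D + 1)).filter (fun β => 2 * α + β < m),
            (K0 * Bd α β + 1) ^ 4 := by
        rw [Fintype.prod_prod_type]
        have e2 : ∀ x : {x : Fin (Nd + 1) × Fin (D + 1) // 2 * (x.1 : ℕ) + x.2 < m},
            ∏ _y : Fin 4, (2 * (K0 * Bd x.1.1 x.1.2 / 2) + 1) =
            (K0 * Bd x.1.1 x.1.2 + 1) ^ 4 := by
          intro x
          rw [Finset.prod_const, Finset.card_univ, Fintype.card_fin]
          congr 1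
          ring
        rw [Finset.prod_congr rfl fun x _ => e2 x]
        rw [← Finset.prod_subtype (univ.filter
          fun x : Fin (Nd + 1) × Fin (D + 1) => 2 * (x.1 : ℕ) + x.2 < m) (fun x => by simp)
          (fun x => (K0 * Bd x.1 x.2 + 1) ^ 4)]
        rw [Finset.prod_filter, rp_prod (Nd + 1) (D + 1) fun a b =>
          if 2 * a + b < m then (K0 * Bd a b + 1) ^ 4 else 1]
        exact Finset.prod_congr rfl fun a _ => by rw [Finset.prod_filter]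
      have e3 : ∏ t : Fin (Nd + 1) × Fin ν, ((q ^ (ν - (t.2 : ℕ)) : ℕ) : ℝ) =
          (q : ℝ) ^ ((Nd + 1) * (ν * (ν + 1) / 2)) := by
        rw [rp_prod (Nd + 1) ν fun _ r => ((q ^ (ν - r) : ℕ) : ℝ)]
        rw [Finset.prod_const, Finset.card_range, Nat.mul_comm, pow_mul]
        congr 1
        push_cast
        rw [Finset.prod_pow_eq_pow_sum, rp_gauss]
      rw [e1, e3, rp_prod (Nd + 1) (D + 1) fun a b => ((⌊W a b⌋₊ : ℝ) + 1)]
      exact hcard)
  obtain ⟨g, hg, hg0⟩ := hext f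
  refine ⟨g, ?_, fun a b => ?_, hg0, fun α hα β hβ h i => ?_, fun a ha r hr => ?_⟩
  · obtain ⟨x, hx⟩ := Function.ne_iff.1 hf0
    rw [hg] at hx
    exact ⟨x.1, by omega, x.2, by omega, hx⟩
  · by_cases h : a ≤ Nd ∧ b ≤ D
    · have h3 := hfw (⟨a, by omega⟩, ⟨b, by omega⟩)
      rw [hg] at h3
      have h4 : |((g a b : ℤ) : ℝ)| ≤ ((⌊W a b⌋₊ : ℕ) : ℝ) := by exact_mod_cast h3
      exact h4.trans (Nat.floor_le (hW a b))
    · rw [hg0 a b h]
      simpa using hW a b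
  · have h1 := hfU (⟨(⟨α, by omega⟩, ⟨β, by omega⟩), h⟩, i)
    rw [← h1, ← rp_sum (Nd + 1) (D + 1) fun a b => g a b * U a b α β i]
    exact Finset.sum_congr rfl fun x _ => by rw [hg]
  · have h1 := hfR (⟨a, by omega⟩, ⟨r, hr⟩)
    have h2 : ∑ x : Fin (Nd + 1) × Fin (D + 1),
        f x * (if x.1 = (⟨a, by omega⟩ : Fin (Nd + 1)) then R x.2 r else 0) =
        ∑ b ∈ range (D + 1), g a b * R b r := by
      rw [Fintype.sum_prod_type, Finset.sum_range]
      rw [Finset.sum_eq_single (⟨a, by omega⟩ : Fin (Nd + 1))]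
      · refine Finset.sum_congr rfl fun b _ => ?_
        rw [if_pos rfl, hg]
      · intro a' _ ha'
        refine Finset.sum_eq_zero fun b _ => ?_
        rw [if_neg ha', mul_zero]
      · intro h
        exact absurd (Finset.mem_univ _) h
    rw [← h2]
    exact_mod_cast h1

end Vale.Agent.P018.Q
end

section

/-! # P018, quartics: the relation step of family (A), by the pigeonhole principle. -/

namespace Vale.Agent.P018.Q

open Polynomial NumberField Finset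

/-- the value of `F(n; s, t)`, homogeneous of degree `D` in `(s, t)`. -/
noncomputable def val {R : Type*} [CommRing R] (Nd D : ℕ) (F : ℤ[X][X]) (N s t : R) : R :=
  ∑ a ∈ Finset.range (Nd + 1), N ^ a * hom D (F.coeff a) s t

section

variable {R : Type*} [CommRing R]

theorem rs_ell_sum (n k : ℕ) (θ : R) (f : ℕ → ℕ → ℤ) (v : ℕ → ℕ → Fin 4 → ℤ) :
    K.ell θ (fun i => ∑ a ∈ range n, ∑ b ∈ range k, f a b * v a b i) =
      ∑ a ∈ range n, ∑ b ∈ range k, (f a b : R) * K.ell θ (v a b) := by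
  have h1 := rc_ell_sum (range n ×ˢ range k) θ (fun x => f x.1 x.2) (fun x => v x.1 x.2)
  rw [Finset.sum_product' (range n) (range k) fun a b => (f a b : R) * K.ell θ (v a b)] at h1
  rw [← h1]
  congr 1
  funext i
  rw [Finset.sum_product' (range n) (range k) fun a b => f a b * v a b i]

theorem rs_ell_add (θ : R) (s t : ℤ) (l1 l2 : Fin 4 → ℤ) :
    K.ell θ (s • l1 + t • l2) = K.ell θ l1 * s + K.ell θ l2 * t := by
  unfold K.ell
  rw [Finset.sum_mul, Finset.sum_mul, ← Finset.sum_add_distrib]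
  refine Finset.sum_congr rfl fun j _ => ?_
  simp only [Pi.add_apply, Pi.smul_apply, smul_eq_mul]
  push_cast
  ring

theorem rs_ell_zero (θ : R) (v : Fin 4 → ℤ) (hv : ∀ i, v i = 0) : K.ell θ v = 0 := by
  unfold K.ell
  refine Finset.sum_eq_zero fun j _ => ?_
  rw [hv, Int.cast_zero, zero_mul]

end

/-- the polynomial whose value is the coefficient of the expansion. -/
noncomputable def rsP (D : ℕ) (l1 l2 : Fin 4 → ℤ) (a b α β : ℕ) : ℤ[X] :=
  C ((a.choose α : ℕ) : ℤ) * X ^ (a - α) * rcP l2 ^ b * C (((D - b).choose β : ℕ) : ℤ) *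
    (-rcP l1) ^ (D - b - β)

theorem rs_P {R : Type*} [CommRing R] (D : ℕ) (l1 l2 : Fin 4 → ℤ) (a b α β : ℕ) (θ : R) :
    aeval θ (rsP D l1 l2 a b α β) = ((a.choose α : ℕ) : R) * θ ^ (a - α) * K.ell θ l2 ^ b *
      (((D - b).choose β : ℕ) : R) * (-K.ell θ l1) ^ (D - b - β) := by
  unfold rsP
  simp only [map_mul, map_pow, map_neg, aeval_C, aeval_X, rc_P]
  simp

/-- the polynomial with given coefficients. -/
noncomputable def rsF (Nd D : ℕ) (g : ℕ → ℕ → ℤ) : ℤ[X][X] :=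
  ∑ a ∈ range (Nd + 1), monomial a (∑ b ∈ range (D + 1), monomial b (g a b))

theorem rs_coeff (Nd D : ℕ) (g : ℕ → ℕ → ℤ) (hg : ∀ a b, ¬ (a ≤ Nd ∧ b ≤ D) → g a b = 0)
    (a b : ℕ) : ((rsF Nd D g).coeff a).coeff b = g a b := by
  unfold rsF
  rw [finsetSum_coeff]
  simp_rw [coeff_monomial]
  by_cases ha : a ∈ range (Nd + 1)
  · rw [Finset.sum_ite_eq' (range (Nd + 1)) a, if_pos ha, finsetSum_coeff]
    simp_rw [coeff_monomial]
    by_cases hb : b ∈ range (D + 1)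
    · rw [Finset.sum_ite_eq' (range (D + 1)) b, if_pos hb]
    · rw [Finset.sum_ite_eq' (range (D + 1)) b, if_neg hb]
      rw [Finset.mem_range] at hb
      exact (hg a b (by omega)).symm
  · rw [Finset.sum_ite_eq' (range (Nd + 1)) a, if_neg ha, coeff_zero]
    rw [Finset.mem_range] at ha
    exact (hg a b (by omega)).symm

theorem rs_val (Nd D : ℕ) (g : ℕ → ℕ → ℤ) (hg : ∀ a b, ¬ (a ≤ Nd ∧ b ≤ D) → g a b = 0)
    (N s t : ℤ) : val Nd D (rsF Nd D g) N s t =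
      ∑ a ∈ range (Nd + 1), N ^ a * ∑ b ∈ range (D + 1), g a b * s ^ b * t ^ (D - b) := by
  unfold val hom
  refine Finset.sum_congr rfl fun a _ => ?_
  congr 1
  refine Finset.sum_congr rfl fun b _ => ?_
  rw [rs_coeff Nd D g hg]
  rfl

/-- for every residue class `s = σ0 t mod q` there is `F ≠ 0` vanishing at all points. -/
theorem relation_step {L : Type} [Field L] [NumberField L] (G : ℤ[X]) (hG : G.Monic)
    (hGd : G.natDegree = 4) (hGi : Irreducible (G.map (Int.castRingHom ℚ))) (θ : Fin 4 → 𝓞 L)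
    (hθ : Function.Injective θ) (hGθ : G.map (algebraMap ℤ (𝓞 L)) = ∏ i, (X - C (θ i))) :
    ∃ (K0 : ℝ) (Δ : ℤ), 1 ≤ K0 ∧ Δ ≠ 0 ∧ ∀ (l1 l2 : Fin 4 → ℤ) (m D Nd ν q : ℕ) (σ0 : ℤ)
      (E1 E2 : ℝ) (W Bd : ℕ → ℕ → ℝ) (N2 : ℤ), 1 ≤ m → 2 ≤ q → 0 ≤ E1 → 0 ≤ E2 →
      (∀ (φ : L →+* ℂ) (j : Fin 4), ‖φ (K.ell (θ j) l1 : 𝓞 L)‖ ≤ E1) →
      (∀ (φ : L →+* ℂ) (j : Fin 4), ‖φ (K.ell (θ j) l2 : 𝓞 L)‖ ≤ E2) →
      N2 ≠ 0 → ∏ j, K.ell (θ j) l2 = (N2 : 𝓞 L) →
      (∀ a b, 0 ≤ W a b) →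
      (∀ α β, 2 * α + β < m → α ≤ Nd → β ≤ D →
        ∑ a ∈ range (Nd + 1), ∑ b ∈ range (D + 1), W a b * (a.choose α : ℝ) *
          ((D - b).choose β : ℝ) * K0 ^ (a - α) * E2 ^ b * E1 ^ (D - b - β) ≤ Bd α β) →
      ((∏ α ∈ range (Nd + 1), ∏ β ∈ (range (D + 1)).filter (fun β => 2 * α + β < m),
        (K0 * Bd α β + 1) ^ 4) * (q : ℝ) ^ ((Nd + 1) * (ν * (ν + 1) / 2)) <
        ∏ a ∈ range (Nd + 1), ∏ b ∈ range (D + 1), ((⌊W a b⌋₊ : ℝ) + 1)) →
      ∃ F : ℤ[X][X], F ≠ 0 ∧ BiDeg Nd D F ∧ (∀ a b, |((F.coeff a).coeff b : ℝ)| ≤ W a b) ∧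
        ∀ (N c c' s t : ℤ) (p : ℕ) (z : Fin 4 → ℤ), p.Prime → ¬ (p ∣ q) →
          c ≠ 0 → |c| < p → |c'| < p → c' ≠ 0 → |N2| < p → |Δ| < p →
          (∀ i, (c : 𝓞 L) * ((N : 𝓞 L) - θ i) =
            K.ell (θ i) (s • l1 + t • l2) ^ 2 * K.ell (θ i) z) →
          ∏ i, K.ell (θ i) (s • l1 + t • l2) = (((p : ℤ) * c' : ℤ) : 𝓞 L) →
          IsCoprime t (q : ℤ) → (q : ℤ) ∣ s - σ0 * t →
          (∑ a ∈ range (Nd + 1), ∑ b ∈ range (D + 1),
            W a b * |(N : ℝ)| ^ a * |(s : ℝ)| ^ b * |(t : ℝ)| ^ (D - b)) < (p : ℝ) ^ m * q ^ ν →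
          val Nd D F N s t = 0 := by
  classical
  obtain ⟨K0, hK1, hKθ, hK⟩ := rc_vander θ hθ
  obtain ⟨Δ, hΔ0, hΔ⟩ := rel_div θ hθ
  refine ⟨K0, Δ, hK1, hΔ0, ?_⟩
  intro l1 l2 m D Nd ν q σ0 E1 E2 W Bd N2 hm hq hE1 hE2 hl1 hl2 hN2 hlam hW hBd hcard
  have hroot : ∀ j, aeval (θ j) G = 0 := by
    intro j
    rw [aeval_def, ← eval_map, hGθ, eval_prod]
    exact Finset.prod_eq_zero (Finset.mem_univ j) (by simp)
  set U : ℕ → ℕ → ℕ → ℕ → Fin 4 → ℤ := fun a b α β i => (rsP D l1 l2 a b α β %ₘ G).coeff i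
    with hU
  have hUval : ∀ j a b α β, K.ell (θ j) (U a b α β) = ((a.choose α : ℕ) : 𝓞 L) *
      θ j ^ (a - α) * K.ell (θ j) l2 ^ b * (((D - b).choose β : ℕ) : 𝓞 L) *
      (-K.ell (θ j) l1) ^ (D - b - β) := by
    intro j a b α β
    rw [← rs_P D l1 l2 a b α β (θ j), ← rc_ell G hG hGd (θ j) (hroot j)]
  obtain ⟨g, ⟨a₀, ha₀, b₀, hb₀, hg₀⟩, hgW, hg0, hgU, hgR⟩ :=
    rel_pigeon' Nd D m ν q (by omega) W Bd K0 hW U
      (fun b r => ((b.choose r : ℕ) : ℤ) * σ0 ^ (b - r)) (by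
        intro g hg α hα β hβ h i
        refine hK (fun i => ∑ a ∈ range (Nd + 1), ∑ b ∈ range (D + 1), g a b * U a b α β i)
          (Bd α β) (fun φ j => ?_) i
        rw [rs_ell_sum (Nd + 1) (D + 1) (θ j) g fun a b => U a b α β]
        refine le_trans ?_ (hBd α β h hα hβ)
        have e1 : φ ((∑ a ∈ range (Nd + 1), ∑ b ∈ range (D + 1),
            ((g a b : ℤ) : 𝓞 L) * K.ell (θ j) (U a b α β) : 𝓞 L) : L) =
            ∑ a ∈ range (Nd + 1), ∑ b ∈ range (D + 1), ((g a b : ℤ) : ℂ) *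
              φ ((K.ell (θ j) (U a b α β) : 𝓞 L) : L) := by
          change (φ.comp (algebraMap (𝓞 L) L)) _ = _
          rw [map_sum]
          refine Finset.sum_congr rfl fun a _ => ?_
          rw [map_sum]
          refine Finset.sum_congr rfl fun b _ => ?_
          rw [map_mul, map_intCast]
          rfl
        rw [e1]
        refine (norm_sum_le _ _).trans (Finset.sum_le_sum fun a _ => ?_)
        refine (norm_sum_le _ _).trans (Finset.sum_le_sum fun b _ => ?_)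
        rw [norm_mul, hUval]
        have e2 : φ (((((a.choose α : ℕ) : 𝓞 L) * θ j ^ (a - α) * K.ell (θ j) l2 ^ b *
            (((D - b).choose β : ℕ) : 𝓞 L) * (-K.ell (θ j) l1) ^ (D - b - β) : 𝓞 L)) : L) =
            ((a.choose α : ℕ) : ℂ) * φ (θ j : 𝓞 L) ^ (a - α) * φ (K.ell (θ j) l2 : 𝓞 L) ^ b *
            (((D - b).choose β : ℕ) : ℂ) * (-φ (K.ell (θ j) l1 : 𝓞 L)) ^ (D - b - β) := by
          change (φ.comp (algebraMap (𝓞 L) L)) _ = _
          simp only [map_mul, map_pow, map_neg, map_natCast]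
          rfl
        rw [e2]
        simp only [norm_mul, norm_pow, norm_neg, Complex.norm_natCast, Complex.norm_intCast]
        have e3 : |((g a b : ℤ) : ℝ)| ≤ W a b := by
          rw [abs_of_nonneg (by exact_mod_cast (hg a b).1)]
          exact (hg a b).2
        have e4 : ‖φ (θ j : 𝓞 L)‖ ^ (a - α) ≤ K0 ^ (a - α) :=
          pow_le_pow_left₀ (norm_nonneg _) (hKθ φ j) _
        have e5 : ‖φ (K.ell (θ j) l2 : 𝓞 L)‖ ^ b ≤ E2 ^ b :=
          pow_le_pow_left₀ (norm_nonneg _) (hl2 φ j) _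
        have e6 : ‖φ (K.ell (θ j) l1 : 𝓞 L)‖ ^ (D - b - β) ≤ E1 ^ (D - b - β) :=
          pow_le_pow_left₀ (norm_nonneg _) (hl1 φ j) _
        have hK0 : 0 ≤ K0 := by linarith only [hK1]
        have hWab := hW a b
        calc |((g a b : ℤ) : ℝ)| * ((a.choose α : ℝ) * ‖φ (θ j : 𝓞 L)‖ ^ (a - α) *
              ‖φ (K.ell (θ j) l2 : 𝓞 L)‖ ^ b * ((D - b).choose β : ℝ) *
              ‖φ (K.ell (θ j) l1 : 𝓞 L)‖ ^ (D - b - β))
            ≤ W a b * ((a.choose α : ℝ) * K0 ^ (a - α) * E2 ^ b * ((D - b).choose β : ℝ) *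
              E1 ^ (D - b - β)) := by gcongr
          _ = W a b * (a.choose α : ℝ) * ((D - b).choose β : ℝ) * K0 ^ (a - α) * E2 ^ b *
              E1 ^ (D - b - β) := by ring) hcard
  refine ⟨rsF Nd D g, ?_, ⟨?_, ?_⟩, ?_, ?_⟩
  · intro h
    apply hg₀
    rw [← rs_coeff Nd D g hg0, h, coeff_zero, coeff_zero]
  · rw [natDegree_le_iff_coeff_eq_zero]
    intro a ha
    ext b
    rw [rs_coeff Nd D g hg0, coeff_zero]
    exact hg0 a b (by omega)
  · intro a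
    rw [natDegree_le_iff_coeff_eq_zero]
    intro b hb
    rw [rs_coeff Nd D g hg0]
    exact hg0 a b (by omega)
  · intro a b
    rw [rs_coeff Nd D g hg0]
    exact hgW a b
  intro N c c' s t p z hp hpq hc hcp hcp' hc' hN2p hΔp heq hprod htq hst hsize
  rw [rs_val Nd D g hg0]
  set x : ℤ := ∑ a ∈ range (Nd + 1), N ^ a * ∑ b ∈ range (D + 1), g a b * s ^ b * t ^ (D - b)
    with hx
  -- divisibility by the power of `p`
  have h1 : (p : ℤ) ^ m ∣ x := by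
    refine hΔ (fun j => K.ell (θ j) (s • l1 + t • l2)) (fun j => K.ell (θ j) z)
      (fun j => K.ell (θ j) l2) N c c' N2 x p m Nd D hp hc hcp hN2 hN2p hΔp heq hprod hlam
      fun j => ?_
    have h2 := re_dvd Nd D m (fun a b => ((g a b : ℤ) : 𝓞 L)) (N : 𝓞 L) (θ j)
      (K.ell (θ j) l1) (K.ell (θ j) l2) (s : 𝓞 L) (t : 𝓞 L) (c : 𝓞 L) (K.ell (θ j) z) (by
        rw [heq j, rs_ell_add]) (by
        intro α hα β hβ h
        rw [Finset.mem_range] at hα hβ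
        rw [← rs_ell_zero (θ j) (fun i => ∑ a ∈ range (Nd + 1), ∑ b ∈ range (D + 1),
          g a b * U a b α β i) (hgU α (by omega) β (by omega) h)]
        rw [rs_ell_sum (Nd + 1) (D + 1) (θ j) g fun a b => U a b α β]
        refine Finset.sum_congr rfl fun a _ => Finset.sum_congr rfl fun b _ => ?_
        rw [hUval])
    rw [← rs_ell_add] at h2
    have h3 : (x : 𝓞 L) = ∑ a ∈ range (Nd + 1), (N : 𝓞 L) ^ a * ∑ b ∈ range (D + 1),
        ((g a b : ℤ) : 𝓞 L) * (s : 𝓞 L) ^ b * (t : 𝓞 L) ^ (D - b) := by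
      rw [hx]
      push_cast
      rfl
    rw [h3]
    exact h2
  -- divisibility by the power of `q`
  have h2 : (q : ℤ) ^ ν ∣ x := by
    refine Finset.dvd_sum fun a ha => Dvd.dvd.mul_left ?_ _
    rw [Finset.mem_range] at ha
    exact re_dvd_q D ν q (g a) σ0 s t hst fun r hr => hgR a (by omega) r hr
  have h3 : IsCoprime ((p : ℤ) ^ m) ((q : ℤ) ^ ν) := by
    apply IsCoprime.pow
    rw [Prime.coprime_iff_not_dvd (Nat.prime_iff_prime_int.1 hp)]
    intro h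
    exact hpq (by exact_mod_cast h)
  have h4 : (p : ℤ) ^ m * (q : ℤ) ^ ν ∣ x := h3.mul_dvd h1 h2
  refine Int.eq_zero_of_abs_lt_dvd h4 ?_
  have h5 : ((|x| : ℤ) : ℝ) ≤ ∑ a ∈ range (Nd + 1), ∑ b ∈ range (D + 1),
      W a b * |(N : ℝ)| ^ a * |(s : ℝ)| ^ b * |(t : ℝ)| ^ (D - b) := by
    rw [hx]
    push_cast
    refine (Finset.abs_sum_le_sum_abs _ _).trans (Finset.sum_le_sum fun a _ => ?_)
    rw [abs_mul, abs_pow]
    refine (mul_le_mul_of_nonneg_left (Finset.abs_sum_le_sum_abs _ _) (by (clear * -; positivity))).trans ?_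
    rw [Finset.mul_sum]
    refine Finset.sum_le_sum fun b _ => ?_
    rw [abs_mul, abs_mul, abs_pow, abs_pow]
    have e1 := hgW a b
    calc |(N : ℝ)| ^ a * (|(g a b : ℝ)| * |(s : ℝ)| ^ b * |(t : ℝ)| ^ (D - b))
        ≤ |(N : ℝ)| ^ a * (W a b * |(s : ℝ)| ^ b * |(t : ℝ)| ^ (D - b)) := by gcongr
      _ = W a b * |(N : ℝ)| ^ a * |(s : ℝ)| ^ b * |(t : ℝ)| ^ (D - b) := by ring
  have h6 := h5.trans_lt hsize
  exact_mod_cast h6

end Vale.Agent.P018.Q
end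

section

/-! # P018, quartics, family (A): the relation step at given exponents. -/

namespace Vale.Agent.P018.Q

open Polynomial NumberField Finset

variable {L : Type} [Field L] [NumberField L]

theorem rq_conj (θ : Fin 4 → 𝓞 L) (Ka : ℝ) (hKa : 1 ≤ Ka)
    (hell : ∀ (l : Fin 4 → ℤ) (φ : L →+* ℂ) (j : Fin 4),
      ‖φ (K.ell (θ j) l : 𝓞 L)‖ ^ 2 ≤ Ka * dot l l) (l : Fin 4 → ℤ) (L' : ℝ) (hL' : 0 ≤ L')
    (hsq : L' ^ 2 = dot l l) (φ : L →+* ℂ) (j : Fin 4) :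
    ‖φ (K.ell (θ j) l : 𝓞 L)‖ ≤ Ka * L' := by
  have h1 := hell l φ j
  rw [← hsq] at h1
  refine abs_le_of_sq_le_sq' ?_ (by positivity) |>.2
  rw [mul_pow]
  exact h1.trans (mul_le_mul_of_nonneg_right (le_self_pow₀ hKa (by norm_num)) (sq_nonneg _))

theorem rq_ne {X u : ℝ} {l : Fin 4 → ℤ} (hX : 0 < X) (h : X ^ u ≤ dot l l) : l ≠ 0 := by
  rintro rfl
  have h1 : dot (0 : Fin 4 → ℤ) 0 = 0 := by simp [dot]
  rw [h1] at h
  have h2 := Real.rpow_pos_of_pos hX u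
  push_cast at h
  linarith

/-- for every class `s = σ0 t mod q`, `q` of size `X^β`, the points lie on `F(N; s, t) = 0`. -/
theorem rel_class {G : ℤ[X]} {θ : Fin 4 → 𝓞 L} (hF : Fld G θ) (C : ℕ) (w m1 m2 β : ℝ)
    (hw : 0 < w) (hm1 : 0 ≤ m1) (hm2 : 0 ≤ m2) (hm : m2 < w) (hβ : 0 < β)
    (hrel : NumRel w m1 m2 β) :
    ∃ ε : ℝ, 0 < ε ∧ ∃ (Nd D C0 : ℕ) (K : ℝ), 0 < K ∧ ∀ (H : ℕ) (X T : ℝ) (l1 l2 : Fin 4 → ℤ)
      (q : ℕ) (σ0 : ℤ), K ≤ X → X ≤ H → X ≤ T ^ 4 → X ^ (w - ε) ≤ T → T ≤ X ^ (w + ε) →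
      X ^ (2 * (m1 - ε)) ≤ dot l1 l1 → (dot l1 l1 : ℝ) ≤ X ^ (2 * (m1 + ε)) →
      X ^ (2 * (m2 - ε)) ≤ dot l2 l2 → (dot l2 l2 : ℝ) ≤ X ^ (2 * (m2 + ε)) →
      X ^ (β - ε) ≤ q → (q : ℝ) ≤ X ^ (β + ε) → (∀ p : ℕ, p.Prime → T ^ 4 ≤ p → ¬ p ∣ q) →
      ∃ F : ℤ[X][X], F ≠ 0 ∧ BiDeg Nd D F ∧ (∀ a b, |(F.coeff a).coeff b| ≤ (H : ℤ) ^ C0) ∧
        ∀ (N : ℤ) (p : ℕ) (c : ℤ) (z : Fin 4 → ℤ) (s t : ℤ), Pt θ C X T l1 l2 N p c z s t →
          IsCoprime t (q : ℤ) → (q : ℤ) ∣ s - σ0 * t → val Nd D F N s t = 0 := by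
  obtain ⟨M, D, Nd, ν, ω, δ, hM, hδ, hωm, hω1, hN2⟩ := hrel
  obtain ⟨K0, Δ, hK0, hΔ0, hstep⟩ := relation_step G hF.monic hF.deg hF.irr θ hF.inj hF.split
  obtain ⟨Ka, hKa, hell⟩ := ell_bound θ
  obtain ⟨Kb, hKb, hnorm⟩ := norm_int hF
  obtain ⟨ε, η, hε, hη, hDε, hsmall, hsz, hεm, hεβ⟩ := rq_eps M D Nd ν w m2 β δ hm hβ hδ
  obtain ⟨Cst, hCst⟩ : ∃ Cst : ℝ,
    Cst = (((Nd : ℝ) + 1) * ((D : ℝ) + 1) * (2 ^ Nd * 2 ^ D * K0 ^ Nd * Ka ^ D)) := ⟨_, rfl⟩
  have hCst0 : 0 ≤ Cst := by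
    rw [hCst]
    (clear * - hK0 hKa; positivity)
  obtain ⟨Kx, hK1, hK⟩ := rq_large (K0 * Cst + 1)
    (((Nd : ℝ) + 1) * (D + 1) * ((C : ℝ) + 1) ^ (Nd + D)) Kb C |(Δ : ℝ)| (η / 2) (δ / 2)
    (2 * (w - m2)) (β / 2) (by positivity) (by positivity) (by linarith only [hε, hεm]) (by positivity)
  refine ⟨ε, hε, Nd, D, ⌈∑ a ∈ range (Nd + 1), |ω a| + D * (m1 + ε) + D * (m2 + ε)⌉₊, Kx,
    by linarith only [hK1], ?_⟩
  have hceil := Nat.le_ceil (∑ a ∈ range (Nd + 1), |ω a| + D * (m1 + ε) + D * (m2 + ε))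
  generalize ⌈∑ a ∈ range (Nd + 1), |ω a| + D * (m1 + ε) + D * (m2 + ε)⌉₊ = C0 at hceil ⊢
  intro H X T l1 l2 q σ0 hKX hXH hXT hT1 hT2 ha1 hb1 ha2 hb2 hq1 hq2 hpq
  obtain ⟨g1, g2, g3, g4, g5, g6⟩ := hK X hKX
  have hX1 : 1 < X := by linarith only [hKX, hK1]
  have hX0 : 0 < X := by linarith only [hX1]
  have hd1 : (0 : ℝ) ≤ dot l1 l1 := by exact_mod_cast dot_nonneg l1
  have hd2 : (0 : ℝ) ≤ dot l2 l2 := by exact_mod_cast dot_nonneg l2
  obtain ⟨L1, hL1⟩ : ∃ L1 : ℝ, L1 = Real.sqrt (dot l1 l1) := ⟨_, rfl⟩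
  obtain ⟨L2, hL2⟩ : ∃ L2 : ℝ, L2 = Real.sqrt (dot l2 l2) := ⟨_, rfl⟩
  have hL10 : 0 ≤ L1 := hL1 ▸ Real.sqrt_nonneg _
  have hL20 : 0 ≤ L2 := hL2 ▸ Real.sqrt_nonneg _
  have hL1sq : L1 ^ 2 = dot l1 l1 := hL1 ▸ Real.sq_sqrt hd1
  have hL2sq : L2 ^ 2 = dot l2 l2 := hL2 ▸ Real.sq_sqrt hd2
  have hL1u : L1 ≤ X ^ (m1 + ε) := hL1 ▸ rq_sqrt_le hX0 hb1
  have hL2u : L2 ≤ X ^ (m2 + ε) := hL2 ▸ rq_sqrt_le hX0 hb2
  have hL1l : X ^ (m1 - ε) ≤ L1 := hL1 ▸ rq_le_sqrt hX0 ha1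
  have hL2l : X ^ (m2 - ε) ≤ L2 := hL2 ▸ rq_le_sqrt hX0 ha2
  -- the norm of `l2`
  obtain ⟨N2, hN20, hN2p, hN2b⟩ := hnorm l2 (rq_ne hX0 ha2)
  have hN2T : |(N2 : ℝ)| < T ^ 4 :=
    rq_N2 w m2 ε X T Kb (dot l2 l2) _ hX1 hT1 (by linarith only [hKb]) hd2 hb2 hN2b g3 hεm
  -- the parameters
  have hK00 : 0 ≤ K0 := by linarith only [hK0]
  have hKa0 : 0 ≤ Ka := by linarith only [hKa]
  have hW0 : ∀ a b, 0 ≤ X ^ ω a * L1 ^ b * L2 ^ (D - b) := by
    intro a b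
    have := Real.rpow_pos_of_pos hX0 (ω a)
    (clear * - hX1 hL10 hL20; positivity)
  have hBd0 : ∀ α b' : ℕ, 0 ≤ ∑ a ∈ range (Nd + 1), ∑ b ∈ range (D + 1),
      (X ^ ω a * L1 ^ b * L2 ^ (D - b)) * (a.choose α : ℝ) * ((D - b).choose b' : ℝ) *
      K0 ^ (a - α) * (Ka * L2) ^ b * (Ka * L1) ^ (D - b - b') := by
    intro α b'
    refine Finset.sum_nonneg fun a _ => Finset.sum_nonneg fun b _ => ?_
    have := hW0 a b
    (clear * - hX1 hL10 hL20 hK0 hKa; positivity)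
  have hBd : ∀ α ≤ Nd, ∀ b' ≤ D, K0 * (∑ a ∈ range (Nd + 1), ∑ b ∈ range (D + 1),
      (X ^ ω a * L1 ^ b * L2 ^ (D - b)) * (a.choose α : ℝ) * ((D - b).choose b' : ℝ) *
      K0 ^ (a - α) * (Ka * L2) ^ b * (Ka * L1) ^ (D - b - b')) + 1 ≤
      X ^ (max 0 (ω α + D * (m1 + m2) - b' * m1) + η) := by
    intro α hα b' hb'
    refine rq_box _ D ε η X K0 Cst _ hX1 hK0 hCst0 hη hDε ?_ g1
    rw [hCst]
    exact rq_bd Nd D ω X K0 Ka L1 L2 m1 m2 ε hX1.le hK0 hKa hL10 hL20 hL1u hL2u hε.le hωm α b' hb'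
  have hq2' : 2 ≤ q := by
    have h1 : X ^ (β / 2) ≤ X ^ (β - ε) :=
      Real.rpow_le_rpow_of_exponent_le hX1.le (by linarith only [hεβ])
    have h2 : (2 : ℝ) ≤ q := g6.trans (h1.trans hq1)
    exact_mod_cast h2
  have hpig := rq_pig M D Nd ν q ω m1 m2 β ε η δ X K0
    (fun a b => X ^ ω a * L1 ^ b * L2 ^ (D - b))
    (fun α b' => ∑ a ∈ range (Nd + 1), ∑ b ∈ range (D + 1),
      (X ^ ω a * L1 ^ b * L2 ^ (D - b)) * (a.choose α : ℝ) * ((D - b).choose b' : ℝ) *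
      K0 ^ (a - α) * (Ka * L2) ^ b * (Ka * L1) ^ (D - b - b')) hX1 hη.le
    (fun α b => add_nonneg (mul_nonneg hK00 (hBd0 α b)) zero_le_one) hBd
    (fun a _ b hb => rq_Wl D a b (ω a) m1 m2 ε X L1 L2 hX0 hb hL1l hL2l) hq2 hN2 hsmall
  obtain ⟨F, hF0, hFd, hFc, hFv⟩ := hstep l1 l2 M D Nd ν q σ0 (Ka * L1) (Ka * L2)
    (fun a b => X ^ ω a * L1 ^ b * L2 ^ (D - b)) _ N2 hM
    hq2' (mul_nonneg hKa0 hL10) (mul_nonneg hKa0 hL20)
    (rq_conj θ Ka hKa hell l1 L1 hL10 hL1sq) (rq_conj θ Ka hKa hell l2 L2 hL20 hL2sq)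
    hN20 hN2p hW0 (fun α b _ _ _ => le_refl _) hpig
  refine ⟨F, hF0, hFd, ?_, ?_⟩
  · intro a b
    by_cases ha : a ≤ Nd
    · by_cases hb : b ≤ D
      · have h3 : |ω a| ≤ ∑ a ∈ range (Nd + 1), |ω a| :=
          Finset.single_le_sum (f := fun a => |ω a|) (fun _ _ => abs_nonneg _)
            (Finset.mem_range.2 (by omega))
        have h1 := (hFc a b).trans (rq_Wu D b C0 (ω a) _ m1 m2 ε X H L1 L2 hX1 hXH hb hL10 hL20
          hL1u hL2u (by linarith only [hε, hm1]) (by linarith only [hε, hm2]) h3 hceil)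
        exact_mod_cast h1
      · rw [coeff_eq_zero_of_natDegree_lt ((hFd.2 a).trans_lt (by omega))]
        simp
    · rw [coeff_eq_zero_of_natDegree_lt (hFd.1.trans_lt (by omega))]
      simp
  · intro N p c z s t hpt htq hst
    obtain ⟨hdat, hs, ht⟩ := hpt
    obtain ⟨c', hc'0, hc'C, hprod⟩ := hdat.nrm
    have hXp : X ≤ p := hXT.trans hdat.lo
    have hCp : (C : ℝ) < p := by linarith only [hXp, g4]
    have hCp' : (C : ℤ) < p := by exact_mod_cast hCp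
    refine hFv N c c' s t p z hdat.prime (hpq p hdat.prime hdat.lo) hdat.c0
      (hdat.cC.trans_lt hCp') (hc'C.trans_lt hCp') hc'0 ?_ ?_ hdat.eqn hprod htq hst ?_
    · have h1 := hN2T.trans_le hdat.lo
      exact_mod_cast h1
    · have h1 : |(Δ : ℝ)| < p := by linarith only [hXp, g5]
      exact_mod_cast h1
    · refine rq_size M D Nd ν q p C ω w β ε δ X T L1 L2 N s t hX1 hT1 hT2 hdat.lo hq1 hL10
        hL20 hdat.hN ?_ ?_ hω1 hsz g2
      · rw [hL1sq]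
        exact hs
      · rw [hL2sq]
        exact ht

end Vale.Agent.P018.Q
end

section

/-! # P018, quartics: substitution of the kappa model in a relation `F(n; s, t) = 0`. -/

namespace Vale.Agent.P018.Q

open Polynomial NumberField Finset

/-- `∑ f_a(σ) (B 0 + κ B 1)^a (A 0 + κ A 1)^(Nd - a)`, as a polynomial in `κ` (outer) and `σ`. -/
noncomputable def subK (A B : Fin 2 → ℤ[X]) (Nd : ℕ) (F : ℤ[X][X]) : ℤ[X][X] :=
  ∑ a ∈ range (Nd + 1), C (F.coeff a) * (C (B 0) + C (B 1) * X) ^ a *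
    (C (A 0) + C (A 1) * X) ^ (Nd - a)

theorem subK_ne_zero_aux {K : Type*} [Field K] [CharZero K] (f : ℤ[X] →+* K)
    (hf : Function.Injective f) (A B : Fin 2 → ℤ[X]) (hdet : A 0 * B 1 - A 1 * B 0 ≠ 0) (Nd : ℕ)
    (F : ℤ[X][X]) (hF : F ≠ 0) (hd : F.natDegree ≤ Nd) : subK A B Nd F ≠ 0 := by
  intro h0
  set δ : ℤ[X] := A 0 * B 1 - A 1 * B 0 with hδ
  have hf0 : f δ ≠ 0 := fun h => hdet (hf (by rw [h, map_zero]))
  -- the values of the linear forms at the natural numbers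
  obtain ⟨U, hU⟩ : ∃ U : ℕ → K, ∀ n, U n = f (B 0) + f (B 1) * n := ⟨_, fun _ => rfl⟩
  obtain ⟨V, hV⟩ : ∃ V : ℕ → K, ∀ n, V n = f (A 0) + f (A 1) * n := ⟨_, fun _ => rfl⟩
  have hUV : ∀ m n : ℕ, U m * V n - U n * V m = f δ * ((m : K) - n) := by
    intro m n
    rw [hU, hU, hV, hV, hδ, map_sub, map_mul, map_mul]
    ring
  have hsum : ∀ n : ℕ, ∑ a ∈ range (Nd + 1), f (F.coeff a) * U n ^ a * V n ^ (Nd - a) = 0 := by
    intro n
    have h1 : (subK A B Nd F).eval₂ f (n : K) = 0 := by rw [h0, eval₂_zero]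
    unfold subK at h1
    rw [eval₂_finsetSum] at h1
    rw [← h1]
    refine Finset.sum_congr rfl fun a _ => ?_
    simp only [eval₂_mul, eval₂_pow, eval₂_add, eval₂_C, eval₂_X, hU, hV]
  have hmn : ∀ m n : ℕ, f δ * ((m : K) - n) = 0 → m = n := by
    intro m n h
    exact_mod_cast sub_eq_zero.1 ((mul_eq_zero.1 h).resolve_left hf0)
  have hroot : ∀ n : ℕ, V n ≠ 0 → (F.map f).IsRoot (U n / V n) := by
    intro n hn
    have h1 := hsum n
    have h2 : ∑ a ∈ range (Nd + 1), f (F.coeff a) * U n ^ a * V n ^ (Nd - a) =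
        V n ^ Nd * (F.map f).eval (U n / V n) := by
      rw [eval_eq_sum_range' (n := Nd + 1) (lt_of_le_of_lt natDegree_map_le (by omega)),
        Finset.mul_sum]
      refine Finset.sum_congr rfl fun a ha => ?_
      have ha' : a ≤ Nd := Nat.lt_succ_iff.1 (Finset.mem_range.1 ha)
      have h3 : V n ^ Nd = V n ^ (Nd - a) * V n ^ a := by
        rw [← pow_add, Nat.sub_add_cancel ha']
      have h4 : V n ^ a * (U n / V n) ^ a = U n ^ a := by
        rw [← mul_pow, mul_div_cancel₀ _ hn]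
      rw [coeff_map, h3, ← h4]
      ring
    rw [h2] at h1
    exact (mul_eq_zero.1 h1).resolve_left (pow_ne_zero _ hn)
  have hinj : Set.InjOn (fun n : ℕ => U n / V n) {n | V n ≠ 0} := by
    intro m hm n hn h
    have hm' : V m ≠ 0 := hm
    have hn' : V n ≠ 0 := hn
    have h' : U m / V m = U n / V n := h
    rw [div_eq_div_iff hm' hn'] at h'
    refine hmn m n ?_
    rw [← hUV, h', sub_self]
  have hinf : {n : ℕ | V n ≠ 0}.Infinite := by
    have hfin : {n : ℕ | V n = 0}.Finite := by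
      refine Set.Subsingleton.finite fun m hm n hn => ?_
      have hm' : V m = 0 := hm
      have hn' : V n = 0 := hn
      refine hmn m n ?_
      rw [← hUV, hm', hn', mul_zero, mul_zero, sub_zero]
    exact hfin.infinite_compl
  have h5 : (F.map f) = 0 := by
    refine Polynomial.eq_zero_of_infinite_isRoot _ ((hinf.image hinj).mono ?_)
    rintro _ ⟨n, hn, rfl⟩
    exact hroot n hn
  exact hF ((Polynomial.map_eq_zero_iff hf).1 h5)

theorem subK_ne_zero (A B : Fin 2 → ℤ[X]) (hdet : A 0 * B 1 - A 1 * B 0 ≠ 0) (Nd : ℕ)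
    (F : ℤ[X][X]) (hF : F ≠ 0) (hd : F.natDegree ≤ Nd) : subK A B Nd F ≠ 0 :=
  subK_ne_zero_aux (algebraMap ℤ[X] (FractionRing ℤ[X])) (IsFractionRing.injective _ _) A B hdet
    Nd F hF hd

theorem subK_biDeg (A B : Fin 2 → ℤ[X]) (Nd D : ℕ) (F : ℤ[X][X]) (hF : BiDeg Nd D F)
    (hA : ∀ i, (A i).natDegree ≤ 5) (hB : ∀ i, (B i).natDegree ≤ 5) :
    BiDeg Nd (D + 5 * Nd) (subK A B Nd F) := by
  unfold subK
  refine BiDeg.sum _ fun a ha => ?_
  have ha' : a ≤ Nd := Nat.lt_succ_iff.1 (Finset.mem_range.1 ha)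
  have h1 := ((BiDeg.C_le (hF.2 a)).mul ((BiDeg.lin (hB 0) (hB 1)).pow a)).mul
    ((BiDeg.lin (hA 0) (hA 1)).pow (Nd - a))
  refine h1.mono ?_ ?_
  · omega
  · omega

/-- bounded bidegree and bounded coefficients. -/
def Ht (H : ℕ) (j m c : ℕ) (P : ℤ[X][X]) : Prop :=
  BiDeg j m P ∧ ∀ i k, |(P.coeff i).coeff k| ≤ (H : ℤ) ^ c

theorem Ht.mono {H j m c j' m' c' : ℕ} {P : ℤ[X][X]} (hH : 1 ≤ H) (h : Ht H j m c P)
    (h1 : j ≤ j') (h2 : m ≤ m') (h3 : c ≤ c') : Ht H j' m' c' P :=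
  ⟨h.1.mono h1 h2, fun i k => (h.2 i k).trans (pow_le_pow_right₀ (by exact_mod_cast hH) h3)⟩

theorem Ht.mul {H j m c j' m' c' : ℕ} {P Q : ℤ[X][X]} (hH : 2 ≤ H) (h : Ht H j m c P)
    (h' : Ht H j' m' c' Q) : Ht H (j + j') (m + m') (c + c' + (j + m)) (P * Q) := by
  refine ⟨h.1.mul h'.1, fun i k => ?_⟩
  have hH0 : (0 : ℤ) ≤ H := by positivity
  have hH1 : (2 : ℤ) ≤ H := by exact_mod_cast hH
  have e : ((P * Q).coeff i).coeff k = ∑ x ∈ range (j + 1), ∑ y ∈ range (m + 1),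
      (P.coeff x).coeff y * (if x ≤ i ∧ y ≤ k then (Q.coeff (i - x)).coeff (k - y) else 0) := by
    rw [Polynomial.coeff_mul, Finset.Nat.sum_antidiagonal_eq_sum_range_succ_mk, finsetSum_coeff]
    have h1 : ∀ x, ((P.coeff x) * (Q.coeff (i - x))).coeff k = ∑ y ∈ range (m + 1),
        (P.coeff x).coeff y * (if y ≤ k then (Q.coeff (i - x)).coeff (k - y) else 0) := by
      intro x
      rw [Polynomial.coeff_mul, Finset.Nat.sum_antidiagonal_eq_sum_range_succ_mk]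
      have h2 : ∀ n, ∑ y ∈ range n, (P.coeff x).coeff y *
          (if y ≤ k then (Q.coeff (i - x)).coeff (k - y) else 0) = ∑ y ∈ range n,
          if y ≤ k then (P.coeff x).coeff y * (Q.coeff (i - x)).coeff (k - y) else 0 := by
        intro n
        exact Finset.sum_congr rfl fun y _ => by split_ifs <;> simp
      rcases le_total (k + 1) (m + 1) with hk | hk
      · rw [← Finset.sum_subset (Finset.range_mono hk)]
        · refine Finset.sum_congr rfl fun y hy => ?_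
          rw [if_pos (Nat.lt_succ_iff.1 (Finset.mem_range.1 hy))]
        · intro y _ hy
          rw [if_neg (by rw [Finset.mem_range] at hy; omega), mul_zero]
      · rw [← Finset.sum_subset (Finset.range_mono hk)]
        · refine Finset.sum_congr rfl fun y hy => ?_
          rw [if_pos]
          rw [Finset.mem_range] at hy
          omega
        · intro y _ hy
          rw [Finset.mem_range] at hy
          rw [coeff_eq_zero_of_natDegree_lt (lt_of_le_of_lt (h.1.2 x) (by omega)), zero_mul]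
    simp only [h1]
    rcases le_total (i + 1) (j + 1) with hk | hk
    · rw [← Finset.sum_subset (Finset.range_mono hk)]
      · refine Finset.sum_congr rfl fun x hx => Finset.sum_congr rfl fun y _ => ?_
        have hx' : x ≤ i := Nat.lt_succ_iff.1 (Finset.mem_range.1 hx)
        simp [hx']
      · intro x _ hx
        refine Finset.sum_eq_zero fun y _ => ?_
        rw [if_neg (by rw [Finset.mem_range] at hx; omega), mul_zero]
    · rw [← Finset.sum_subset (Finset.range_mono hk)]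
      · refine Finset.sum_congr rfl fun x hx => Finset.sum_congr rfl fun y _ => ?_
        have hx' : x ≤ i := by
          rw [Finset.mem_range] at hx
          omega
        simp [hx']
      · intro x _ hx
        rw [Finset.mem_range] at hx
        refine Finset.sum_eq_zero fun y _ => ?_
        rw [coeff_eq_zero_of_natDegree_lt (lt_of_le_of_lt h.1.1 (by omega)), coeff_zero, zero_mul]
  rw [e]
  refine (Finset.abs_sum_le_sum_abs _ _).trans ?_
  have h3 : ∀ x ∈ range (j + 1), |∑ y ∈ range (m + 1),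
      (P.coeff x).coeff y * (if x ≤ i ∧ y ≤ k then (Q.coeff (i - x)).coeff (k - y) else 0)| ≤
      (m + 1 : ℕ) * ((H : ℤ) ^ c * (H : ℤ) ^ c') := by
    intro x _
    refine (Finset.abs_sum_le_sum_abs _ _).trans ?_
    have h4 : ∀ y ∈ range (m + 1), |(P.coeff x).coeff y *
        (if x ≤ i ∧ y ≤ k then (Q.coeff (i - x)).coeff (k - y) else 0)| ≤
        (H : ℤ) ^ c * (H : ℤ) ^ c' := by
      intro y _
      rw [abs_mul]
      refine mul_le_mul (h.2 x y) ?_ (abs_nonneg _) (by positivity)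
      split_ifs
      · exact h'.2 _ _
      · rw [abs_zero]
        positivity
    refine (Finset.sum_le_card_nsmul _ _ _ h4).trans (le_of_eq ?_)
    rw [card_range, nsmul_eq_mul]
  refine (Finset.sum_le_card_nsmul _ _ _ h3).trans ?_
  rw [card_range, nsmul_eq_mul]
  have h5 : ((j + 1 : ℕ) : ℤ) ≤ (H : ℤ) ^ j := by
    have : j + 1 ≤ 2 ^ j := Nat.lt_two_pow_self
    calc ((j + 1 : ℕ) : ℤ) ≤ ((2 ^ j : ℕ) : ℤ) := by exact_mod_cast this
      _ = (2 : ℤ) ^ j := by push_cast; rfl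
      _ ≤ (H : ℤ) ^ j := pow_le_pow_left₀ (by norm_num) hH1 j
  have h6 : ((m + 1 : ℕ) : ℤ) ≤ (H : ℤ) ^ m := by
    have : m + 1 ≤ 2 ^ m := Nat.lt_two_pow_self
    calc ((m + 1 : ℕ) : ℤ) ≤ ((2 ^ m : ℕ) : ℤ) := by exact_mod_cast this
      _ = (2 : ℤ) ^ m := by push_cast; rfl
      _ ≤ (H : ℤ) ^ m := pow_le_pow_left₀ (by norm_num) hH1 m
  calc ((j + 1 : ℕ) : ℤ) * ((m + 1 : ℕ) * ((H : ℤ) ^ c * (H : ℤ) ^ c')) ≤
      (H : ℤ) ^ j * ((H : ℤ) ^ m * ((H : ℤ) ^ c * (H : ℤ) ^ c')) :=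
        mul_le_mul h5 (mul_le_mul_of_nonneg_right h6 (by positivity)) (by positivity)
          (by positivity)
    _ = (H : ℤ) ^ (c + c' + (j + m)) := by
        rw [pow_add, pow_add, pow_add]
        ring

theorem Ht.lin {H m c : ℕ} {P Q : ℤ[X]} (hP : P.natDegree ≤ m) (hQ : Q.natDegree ≤ m)
    (h : ∀ k, |P.coeff k| ≤ (H : ℤ) ^ c) (h' : ∀ k, |Q.coeff k| ≤ (H : ℤ) ^ c) :
    Ht H 1 m c (C P + C Q * X) := by
  refine ⟨BiDeg.lin hP hQ, fun i k => ?_⟩
  have hH0 : (0 : ℤ) ≤ (H : ℤ) ^ c := by positivity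
  match i with
  | 0 => simpa using h k
  | 1 => simpa [coeff_C] using h' k
  | (i + 2) => simpa [coeff_C, coeff_X] using hH0

theorem Ht.pow {H m c : ℕ} {P : ℤ[X][X]} (hH : 2 ≤ H) (h : Ht H 1 m c P) (n : ℕ) :
    Ht H n (n * m) (n * (c + (1 + m))) (P ^ n) := by
  induction n with
  | zero =>
    refine ⟨?_, fun i k => ?_⟩
    · rw [pow_zero, Nat.zero_mul]
      exact BiDeg.one
    rw [pow_zero, coeff_one]
    split_ifs
    · rw [coeff_one]
      split_ifs <;> simp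
    · simp
  | succ n ih =>
    rw [pow_succ']
    have h1 := h.mul hH ih
    refine h1.mono (by omega) (by omega) (le_of_eq (by ring)) (le_of_eq (by ring))

theorem subK_height (Nd D C0 : ℕ) : ∃ C1 : ℕ, ∀ (H : ℕ) (A B : Fin 2 → ℤ[X]) (F : ℤ[X][X]),
    2 ≤ H → BiDeg Nd D F → (∀ i, (A i).natDegree ≤ 5) → (∀ i, (B i).natDegree ≤ 5) →
    (∀ i k, |(A i).coeff k| ≤ (H : ℤ) ^ C0) → (∀ i k, |(B i).coeff k| ≤ (H : ℤ) ^ C0) →
    (∀ a b, |(F.coeff a).coeff b| ≤ (H : ℤ) ^ C0) →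
    ∀ i j, |((subK A B Nd F).coeff i).coeff j| ≤ (H : ℤ) ^ C1 := by
  set C2 : ℕ := C0 + Nd * (C0 + (1 + 5)) + (0 + D) + Nd * (C0 + (1 + 5)) + (Nd + (D + Nd * 5))
    with hC2
  refine ⟨Nd + C2, ?_⟩
  intro H A B F hH hF hA hB hA' hB' hF' i j
  have hH0 : (0 : ℤ) ≤ H := by positivity
  have hH1 : (2 : ℤ) ≤ H := by exact_mod_cast hH
  have key : ∀ a ∈ range (Nd + 1), |((C (F.coeff a) * (C (B 0) + C (B 1) * X) ^ a *
    (C (A 0) + C (A 1) * X) ^ (Nd - a)).coeff i).coeff j| ≤ (H : ℤ) ^ C2 := by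
    intro a ha
    have ha' : a ≤ Nd := Nat.lt_succ_iff.1 (Finset.mem_range.1 ha)
    have h1 : Ht H 0 D C0 (C (F.coeff a)) := by
      refine ⟨BiDeg.C_le (hF.2 a), fun i k => ?_⟩
      rw [coeff_C]
      split_ifs
      · exact hF' a k
      · rw [coeff_zero, abs_zero]
        positivity
    have h2 := (Ht.lin (hB 0) (hB 1) (hB' 0) (hB' 1)).pow hH a
    have h3 := (Ht.lin (hA 0) (hA 1) (hA' 0) (hA' 1)).pow hH (Nd - a)
    have h4 := ((h1.mul hH h2).mul hH h3).2 i j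
    refine h4.trans (pow_le_pow_right₀ (by linarith only [hH1]) ?_)
    have h5 : a * (C0 + (1 + 5)) ≤ Nd * (C0 + (1 + 5)) := Nat.mul_le_mul_right _ ha'
    have h6 : (Nd - a) * (C0 + (1 + 5)) ≤ Nd * (C0 + (1 + 5)) :=
      Nat.mul_le_mul_right _ (Nat.sub_le _ _)
    have h7 : a * 5 ≤ Nd * 5 := Nat.mul_le_mul_right _ ha'
    omega
  unfold subK
  rw [finsetSum_coeff, finsetSum_coeff]
  refine (Finset.abs_sum_le_sum_abs _ _).trans ?_
  refine (Finset.sum_le_card_nsmul _ _ _ key).trans ?_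
  rw [card_range, nsmul_eq_mul]
  have h5 : ((Nd + 1 : ℕ) : ℤ) ≤ (H : ℤ) ^ Nd := by
    have : Nd + 1 ≤ 2 ^ Nd := Nat.lt_two_pow_self
    calc ((Nd + 1 : ℕ) : ℤ) ≤ ((2 ^ Nd : ℕ) : ℤ) := by exact_mod_cast this
      _ = (2 : ℤ) ^ Nd := by push_cast; rfl
      _ ≤ (H : ℤ) ^ Nd := pow_le_pow_left₀ (by norm_num) hH1 Nd
  calc ((Nd + 1 : ℕ) : ℤ) * (H : ℤ) ^ C2 ≤ (H : ℤ) ^ Nd * (H : ℤ) ^ C2 :=
        mul_le_mul_of_nonneg_right h5 (pow_nonneg hH0 _)
    _ = (H : ℤ) ^ (Nd + C2) := (pow_add _ _ _).symm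

theorem subK_ev (A B : Fin 2 → ℤ[X]) (Z : Fin 2 → Fin 4 → ℤ[X]) (Nd D : ℕ) (F : ℤ[X][X])
    (hF : BiDeg Nd D F) {N c s t kn kd : ℤ} {z : Fin 4 → ℤ} (hP : KP A B Z N c s t kn kd z)
    (hv : val Nd D F N s t = 0) :
    ev ((subK A B Nd F).map (mapRingHom (Int.castRingHom ℚ))) ((kn : ℚ) / kd) ((s : ℚ) / t) = 0 := by
  have ht : (t : ℚ) ≠ 0 := by exact_mod_cast hP.t0
  have hk : (kd : ℚ) ≠ 0 := by exact_mod_cast hP.k0
  set σ : ℚ := (s : ℚ) / t with hσ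
  set κ : ℚ := (kn : ℚ) / kd with hκ
  have hs : (s : ℚ) = σ * t := by rw [hσ]; field_simp
  set U : ℚ := aeval σ (B 0) + aeval σ (B 1) * κ with hU
  set V : ℚ := aeval σ (A 0) + aeval σ (A 1) * κ with hV
  have hVU : V * (N : ℚ) = U := by
    have h1 := hP.eqN
    have h2 : (kd : ℚ) * V = kd * aeval σ (A 0) + kn * aeval σ (A 1) := by
      rw [hV, hκ]
      field_simp
    have h3 : (kd : ℚ) * U = kd * aeval σ (B 0) + kn * aeval σ (B 1) := by
      rw [hU, hκ]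
      field_simp
    rw [← h2, ← h3, mul_assoc] at h1
    exact mul_left_cancel₀ hk h1
  have hsum : ∑ a ∈ range (Nd + 1), (N : ℚ) ^ a * aeval σ (F.coeff a) = 0 := by
    have h1 : (Int.castRingHom ℚ) (val Nd D F N s t) = 0 := by rw [hv, map_zero]
    unfold val at h1
    rw [map_sum] at h1
    have h2 : ∀ a, (Int.castRingHom ℚ) (N ^ a * hom D (F.coeff a) s t) =
        (t : ℚ) ^ D * ((N : ℚ) ^ a * aeval σ (F.coeff a)) := by
      intro a
      rw [map_mul, map_pow, cehom_map]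
      simp only [eq_intCast]
      rw [hs, cehom_mul D (hF.2 a)]
      ring
    simp only [h2] at h1
    rw [← Finset.mul_sum] at h1
    exact (mul_eq_zero.1 h1).resolve_left (pow_ne_zero _ ht)
  rw [← evr_rat]
  have h3 : evr (subK A B Nd F) σ κ = ∑ a ∈ range (Nd + 1), aeval σ (F.coeff a) * U ^ a *
      V ^ (Nd - a) := by
    unfold subK
    have h4 : ∀ (S : Finset ℕ) (P : ℕ → ℤ[X][X]), evr (∑ a ∈ S, P a) σ κ =
        ∑ a ∈ S, evr (P a) σ κ := by
      intro S P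
      unfold evr
      rw [eval₂_finsetSum]
    rw [h4]
    refine Finset.sum_congr rfl fun a _ => ?_
    simp only [evr_mul, evr_pow, evr_add, evr_C, evr_X, hU, hV]
  rw [h3]
  have h5 : ∑ a ∈ range (Nd + 1), aeval σ (F.coeff a) * U ^ a * V ^ (Nd - a) =
      V ^ Nd * ∑ a ∈ range (Nd + 1), (N : ℚ) ^ a * aeval σ (F.coeff a) := by
    rw [Finset.mul_sum]
    refine Finset.sum_congr rfl fun a ha => ?_
    have ha' : a ≤ Nd := Nat.lt_succ_iff.1 (Finset.mem_range.1 ha)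
    rw [← hVU, mul_pow]
    have h6 : V ^ Nd = V ^ a * V ^ (Nd - a) := by rw [← pow_add, Nat.add_sub_cancel' ha']
    rw [h6]
    ring
  rw [h5, hsum, mul_zero]

end Vale.Agent.P018.Q
end

section

/-! # P018, quartics, family (A): compactness in the exponents of the reduced pairs. -/

namespace Vale.Agent.P018.Q

open Polynomial NumberField Finset

variable {L : Type} [Field L] [NumberField L]

/-- the bound for the solutions whose exponents are in `s`. -/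
def PairsOn (θ : Fin 4 → 𝓞 L) (C : ℕ) (w : ℝ) (s : Set (ℝ × ℝ)) : Prop :=
  ∃ ε : ℝ, 0 < ε ∧ ∃ k K : ℝ, 0 < k ∧ 1 < K ∧ ∀ (X T : ℝ) (S : Finset ℤ),
    K ≤ X → X ≤ T ^ 4 → X ^ (w - ε) ≤ T → T ≤ X ^ (w + ε) →
    (∀ N ∈ S, ∃ (l1 l2 : Fin 4 → ℤ) (p : ℕ) (c : ℤ) (z : Fin 4 → ℤ) (u t : ℤ), Red l1 l2 ∧
      (dot l1 l1 : ℝ) * dot l2 l2 ≤ C * T ^ (4 / 3 : ℝ) ∧ Pt θ C X T l1 l2 N p c z u t ∧
      (Real.log (dot l1 l1) / (2 * Real.log X), Real.log (dot l2 l2) / (2 * Real.log X)) ∈ s) →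
    (S.card : ℝ) ≤ k * X ^ (1 - ε)

/-- the exponents of a number. -/
theorem exp_of_log (X d m ε : ℝ) (hX : 1 < X) (hd : 0 < d)
    (h : Real.log d / (2 * Real.log X) ∈ Set.Ioo (m - ε) (m + ε)) :
    X ^ (2 * (m - ε)) ≤ d ∧ d ≤ X ^ (2 * (m + ε)) := by
  have hl : 0 < Real.log X := Real.log_pos hX
  have hX0 : 0 < X := by linarith
  have h1 := (lt_div_iff₀ (by positivity)).1 h.1
  have h2 := (div_lt_iff₀ (by positivity)).1 h.2
  constructor
  · rw [← Real.log_le_log_iff (by positivity) hd, Real.log_rpow hX0]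
    linarith
  · rw [← Real.log_le_log_iff hd (by positivity), Real.log_rpow hX0]
    linarith

theorem pairsOn_empty (θ : Fin 4 → 𝓞 L) (C : ℕ) (w : ℝ) : PairsOn θ C w ∅ := by
  refine ⟨1, one_pos, 1, 2, one_pos, by norm_num, fun X T S h1 _ _ _ h => ?_⟩
  have h2 : S = ∅ := by
    rw [Finset.eq_empty_iff_forall_notMem]
    intro N hN
    obtain ⟨_, _, _, _, _, _, _, _, _, _, h'⟩ := h N hN
    exact absurd h' (Set.notMem_empty _)
  rw [h2, card_empty, Nat.cast_zero]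
  have hX0 : 0 < X := by linarith
  positivity

theorem pairsOn_mono (θ : Fin 4 → 𝓞 L) (C : ℕ) (w : ℝ) {s t : Set (ℝ × ℝ)} (hst : s ⊆ t)
    (ht : PairsOn θ C w t) : PairsOn θ C w s := by
  obtain ⟨ε, hε, k, K, hk, hK, h⟩ := ht
  refine ⟨ε, hε, k, K, hk, hK, fun X T S h1 h2 h3 h4 h5 => h X T S h1 h2 h3 h4 fun N hN => ?_⟩
  obtain ⟨l1, l2, p, c, z, u, t', a1, a2, a3, a4⟩ := h5 N hN
  exact ⟨l1, l2, p, c, z, u, t', a1, a2, a3, hst a4⟩

theorem pairsOn_union (θ : Fin 4 → 𝓞 L) (C : ℕ) (w : ℝ) {s t : Set (ℝ × ℝ)}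
    (hs : PairsOn θ C w s) (ht : PairsOn θ C w t) : PairsOn θ C w (s ∪ t) := by
  classical
  obtain ⟨ε1, hε1, k1, K1, hk1, hK1, h1⟩ := hs
  obtain ⟨ε2, hε2, k2, K2, hk2, hK2, h2⟩ := ht
  refine ⟨min ε1 ε2, lt_min hε1 hε2, k1 + k2, max K1 K2, by positivity, lt_max_of_lt_left hK1,
    fun X T S hX hXT hT1 hT2 hS => ?_⟩
  have hX1 : K1 ≤ X := (le_max_left _ _).trans hX
  have hX2 : K2 ≤ X := (le_max_right _ _).trans hX
  have hX0 : 1 ≤ X := by linarith
  have m1 := min_le_left ε1 ε2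
  have m2 := min_le_right ε1 ε2
  obtain ⟨P, hP⟩ : ∃ P : ℤ → Prop, P = fun N => ∃ (l1 l2 : Fin 4 → ℤ) (p : ℕ) (c : ℤ)
      (z : Fin 4 → ℤ) (u t : ℤ), Red l1 l2 ∧
      (dot l1 l1 : ℝ) * dot l2 l2 ≤ C * T ^ (4 / 3 : ℝ) ∧ Pt θ C X T l1 l2 N p c z u t ∧
      (Real.log (dot l1 l1) / (2 * Real.log X), Real.log (dot l2 l2) / (2 * Real.log X)) ∈ s :=
    ⟨_, rfl⟩
  have e1 := h1 X T (S.filter P) hX1 hXT
    ((Real.rpow_le_rpow_of_exponent_le hX0 (by linarith only [m1])).trans hT1)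
    (hT2.trans (Real.rpow_le_rpow_of_exponent_le hX0 (by linarith))) (by
      intro N hN
      have := (mem_filter.1 hN).2
      rw [hP] at this
      exact this)
  have e2 := h2 X T (S.filter fun N => ¬ P N) hX2 hXT
    ((Real.rpow_le_rpow_of_exponent_le hX0 (by linarith)).trans hT1)
    (hT2.trans (Real.rpow_le_rpow_of_exponent_le hX0 (by linarith))) (by
      intro N hN
      obtain ⟨hN1, hN2⟩ := mem_filter.1 hN
      obtain ⟨l1, l2, p, c, z, u, t', a1, a2, a3, a4⟩ := hS N hN1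
      refine ⟨l1, l2, p, c, z, u, t', a1, a2, a3, ?_⟩
      rcases a4 with a4 | a4
      · exfalso
        apply hN2
        rw [hP]
        exact ⟨l1, l2, p, c, z, u, t', a1, a2, a3, a4⟩
      · exact a4)
  have e3 : (S.card : ℝ) = ((S.filter P).card : ℝ) + ((S.filter fun N => ¬ P N).card : ℝ) := by
    rw [← Nat.cast_add, card_filter_add_card_filter_not]
  rw [e3, add_mul]
  refine add_le_add (e1.trans ?_) (e2.trans ?_)
  · exact mul_le_mul_of_nonneg_left (Real.rpow_le_rpow_of_exponent_le hX0 (by linarith only [m1])) hk1.le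
  · exact mul_le_mul_of_nonneg_left (Real.rpow_le_rpow_of_exponent_le hX0 (by linarith)) hk2.le

/-- from the local statement to the global one. -/
theorem all_of_local (θ : Fin 4 → 𝓞 L) (C : ℕ) (w : ℝ) (hw' : w ≤ 0.349)
    (hloc : ∀ m1 m2 : ℝ, 0 ≤ m1 → 0 ≤ m2 →
    ∃ ε : ℝ, 0 < ε ∧ ∃ K : ℝ, 0 < K ∧ ∀ (X T : ℝ) (S : Finset ℤ),
      K ≤ X → X ≤ T ^ 4 → X ^ (w - ε) ≤ T → T ≤ X ^ (w + ε) →
      (∀ N ∈ S, ∃ (l1 l2 : Fin 4 → ℤ) (p : ℕ) (c : ℤ) (z : Fin 4 → ℤ) (s t : ℤ), Red l1 l2 ∧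
        (dot l1 l1 : ℝ) * dot l2 l2 ≤ C * T ^ (4 / 3 : ℝ) ∧ Pt θ C X T l1 l2 N p c z s t ∧
        X ^ (2 * (m1 - ε)) ≤ dot l1 l1 ∧ (dot l1 l1 : ℝ) ≤ X ^ (2 * (m1 + ε)) ∧
        X ^ (2 * (m2 - ε)) ≤ dot l2 l2 ∧ (dot l2 l2 : ℝ) ≤ X ^ (2 * (m2 + ε))) →
      (S.card : ℝ) ≤ X ^ (1 - ε)) :
    ∃ ε : ℝ, 0 < ε ∧ ∃ K : ℝ, 0 < K ∧ ∀ (X T : ℝ) (S : Finset ℤ),
      K ≤ X → X ≤ T ^ 4 → X ^ (w - ε) ≤ T → T ≤ X ^ (w + ε) →
      (∀ N ∈ S, ∃ (l1 l2 : Fin 4 → ℤ) (p : ℕ) (c : ℤ) (z : Fin 4 → ℤ) (s t : ℤ), Red l1 l2 ∧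
        (dot l1 l1 : ℝ) * dot l2 l2 ≤ C * T ^ (4 / 3 : ℝ) ∧ Pt θ C X T l1 l2 N p c z s t) →
      (S.card : ℝ) ≤ X ^ (1 - ε) := by
  classical
  have hcomp : PairsOn θ C w (Set.Icc 0 1 ×ˢ Set.Icc 0 1) := by
    refine (isCompact_Icc.prod isCompact_Icc).induction_on (pairsOn_empty θ C w)
      (fun s t hst ht => pairsOn_mono θ C w hst ht) (fun s t hs ht => pairsOn_union θ C w hs ht) ?_
    intro m hm
    obtain ⟨ε, hε, K, hK, h⟩ := hloc m.1 m.2 hm.1.1 hm.2.1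
    refine ⟨Set.Ioo (m.1 - ε) (m.1 + ε) ×ˢ Set.Ioo (m.2 - ε) (m.2 + ε),
      mem_nhdsWithin_of_mem_nhds (prod_mem_nhds (Ioo_mem_nhds (by linarith only [hε]) (by linarith only [hε]))
        (Ioo_mem_nhds (by linarith) (by linarith))), ε, hε, 1, max K 2, one_pos,
      lt_max_of_lt_right (by norm_num), fun X T S hX hXT hT1 hT2 hS => ?_⟩
    have hXK : K ≤ X := (le_max_left _ _).trans hX
    have hX2 : 2 ≤ X := (le_max_right _ _).trans hX
    rw [one_mul]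
    refine h X T S hXK hXT hT1 hT2 fun N hN => ?_
    obtain ⟨l1, l2, p, c, z, u, t', a1, a2, a3, a4⟩ := hS N hN
    have p1 : (0 : ℝ) < dot l1 l1 := by exact_mod_cast dot_pos a1.1
    have p2 : (0 : ℝ) < dot l2 l2 := by
      have : dot l1 l1 ≤ dot l2 l2 := a1.2.1
      have : (dot l1 l1 : ℝ) ≤ dot l2 l2 := by exact_mod_cast this
      linarith only [this, p1]
    obtain ⟨q1, q2⟩ := exp_of_log X (dot l1 l1) m.1 ε (by linarith only [hX2]) p1 a4.1
    obtain ⟨q3, q4⟩ := exp_of_log X (dot l2 l2) m.2 ε (by linarith only [hX2]) p2 a4.2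
    exact ⟨l1, l2, p, c, z, u, t', a1, a2, a3, q1, q2, q3, q4⟩
  obtain ⟨ε, hε, k, K, hk, hK, h⟩ := hcomp
  refine ⟨min (ε / 2) (1 / 4), by positivity, max (max K (C + 2)) (k ^ (2 / ε)),
    lt_max_of_lt_left (lt_max_of_lt_left (by linarith only [hK])), fun X T S hX hXT hT1 hT2 hS => ?_⟩
  have hXK : K ≤ X := (le_max_left _ _).trans ((le_max_left _ _).trans hX)
  have hXC : (C : ℝ) + 2 ≤ X := (le_max_right _ _).trans ((le_max_left _ _).trans hX)
  have hXk : k ^ (2 / ε) ≤ X := (le_max_right _ _).trans hX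
  have hX1 : 1 < X := by linarith only [hXC]
  have hX0 : 0 < X := by linarith only [hX1]
  have m1 := min_le_left (ε / 2) (1 / 4 : ℝ)
  have m2 := min_le_right (ε / 2) (1 / 4 : ℝ)
  have hT0 : 0 < T := lt_of_lt_of_le (by positivity) hT1
  have hl : 0 < Real.log X := Real.log_pos hX1
  have hTX : T ^ (4 / 3 : ℝ) ≤ X := by
    calc T ^ (4 / 3 : ℝ) ≤ (X ^ (w + min (ε / 2) (1 / 4))) ^ (4 / 3 : ℝ) :=
          Real.rpow_le_rpow hT0.le hT2 (by norm_num)
      _ = X ^ ((w + min (ε / 2) (1 / 4)) * (4 / 3)) := by rw [← Real.rpow_mul hX0.le]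
      _ ≤ X ^ (1 : ℝ) := by
          apply Real.rpow_le_rpow_of_exponent_le hX1.le
          norm_num at hw'
          linarith only [m2, hw']
      _ = X := Real.rpow_one X
  have e1 := h X T S hXK hXT
    ((Real.rpow_le_rpow_of_exponent_le hX1.le (by linarith only [hε, m1])).trans hT1)
    (hT2.trans (Real.rpow_le_rpow_of_exponent_le hX1.le (by linarith only [m1, hε]))) (by
      intro N hN
      obtain ⟨l1, l2, p, c, z, u, t', a1, a2, a3⟩ := hS N hN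
      refine ⟨l1, l2, p, c, z, u, t', a1, a2, a3, ?_⟩
      have p1 : (1 : ℝ) ≤ dot l1 l1 := by exact_mod_cast dot_pos a1.1
      have p3 : (dot l1 l1 : ℝ) ≤ dot l2 l2 := by exact_mod_cast a1.2.1
      have p4 : (dot l2 l2 : ℝ) ≤ X ^ 2 := by
        have p5 : (dot l2 l2 : ℝ) ≤ dot l1 l1 * dot l2 l2 := by linarith only [mul_nonneg (mul_self_nonneg (1 : ℝ)) (sub_nonneg.2 p1), mul_nonneg (sub_nonneg.2 p1) (sub_nonneg.2 p1), mul_nonneg (sub_nonneg.2 p1) (sub_nonneg.2 p3)]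
        have p6 : (C : ℝ) * T ^ (4 / 3 : ℝ) ≤ X * X :=
          mul_le_mul (by linarith only [hXC]) hTX (by positivity) hX0.le
        linarith only [p6, p5, a2]
      have p7 : Real.log (dot l2 l2) ≤ 2 * Real.log X := by
        have := Real.log_le_log (by linarith only [p3, p1]) p4
        rw [Real.log_pow] at this
        exact_mod_cast this
      have p8 : Real.log (dot l1 l1) ≤ Real.log (dot l2 l2) := Real.log_le_log (by linarith only [p1]) p3
      have p9 : 0 ≤ Real.log (dot l1 l1) := Real.log_nonneg p1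
      refine ⟨⟨?_, ?_⟩, ?_, ?_⟩
      · exact div_nonneg p9 (by positivity)
      · rw [div_le_one (by positivity)]
        linarith only [p8, p7]
      · exact div_nonneg (p9.trans p8) (by positivity)
      · rw [div_le_one (by positivity)]
        exact p7)
  refine e1.trans ?_
  have e2 : k ≤ X ^ (ε / 2) := by
    calc k = (k ^ (2 / ε)) ^ (ε / 2) := by
          rw [← Real.rpow_mul hk.le]
          have : 2 / ε * (ε / 2) = 1 := by field_simp
          rw [this, Real.rpow_one]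
      _ ≤ X ^ (ε / 2) := Real.rpow_le_rpow (by positivity) hXk (by positivity)
  calc k * X ^ (1 - ε) ≤ X ^ (ε / 2) * X ^ (1 - ε) :=
        mul_le_mul_of_nonneg_right e2 (by positivity)
    _ = X ^ (ε / 2 + (1 - ε)) := by rw [← Real.rpow_add hX0]
    _ ≤ X ^ (1 - min (ε / 2) (1 / 4)) := Real.rpow_le_rpow_of_exponent_le hX1.le (by linarith only [m1])

end Vale.Agent.P018.Q
end

section

/-! # Bezout over `ℂ`, and curves through many rational points. -/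

namespace Vale.Agent.P018.QB

open Polynomial NumberField Vale.Agent.P018.Q

theorem evB_eq (n w : ℂ) (Φ : ℂ[X][X]) : evB n w Φ = evK Φ n w := by
  unfold evB evK
  rw [eval_map]
  congr 1

/-- Bezout (see `Q/Bezout2.lean` for the same over `ℚ`: copy the proof). -/
theorem bezC (D : ℕ) : ∃ C : ℕ, ∀ q G : ℂ[X][X], Irreducible q → ¬ q ∣ G → BiDeg D D q →
    BiDeg D D G → ∀ S : Finset (ℂ × ℂ), (∀ z ∈ S, evB z.1 z.2 q = 0 ∧ evB z.1 z.2 G = 0) →
    S.card ≤ C := by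
  classical
  obtain ⟨C, hC⟩ := bezK ℂ D D
  refine ⟨C, fun q G hq hdvd h1 h2 S hS => hC q G hq hdvd h1 h2 S fun z hz => ?_⟩
  rw [← evB_eq, ← evB_eq]
  exact hS z hz

/-- small integer solutions of a degenerate linear system. -/
theorem bz_kernel {β S : Type} [Fintype β] (r : S → β → ℤ) (A : ℕ) (hA : 1 ≤ A)
    (hr : ∀ s b, |r s b| ≤ A) (x : β → ℂ) (hx : x ≠ 0)
    (hx0 : ∀ s, ∑ b, (r s b : ℂ) * x b = 0) :
    ∃ t : β → ℤ, t ≠ 0 ∧ (∀ s, ∑ b, r s b * t b = 0) ∧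
      ∀ b, |t b| ≤ (((2 * Fintype.card β * A) ^ Fintype.card β : ℕ) : ℤ) := by
  classical
  set n := Fintype.card β with hn
  obtain ⟨b₀, hb₀⟩ := Function.ne_iff.1 hx
  have hn1 : 1 ≤ n := Fintype.card_pos_iff.2 ⟨b₀⟩
  obtain ⟨κ, a, -, hspan, hli⟩ := exists_linearIndependent' (K := ℂ)
    (fun (s : S) (b : β) => (r s b : ℂ))
  have hfin : Finite κ := hli.finite
  have := Fintype.ofFinite κ
  -- the linear form
  let ξ : (β → ℂ) →ₗ[ℂ] ℂ := ∑ b, x b • LinearMap.proj b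
  have hξ : ∀ w : β → ℂ, ξ w = ∑ b, w b * x b := by
    intro w
    simp only [ξ, LinearMap.sum_apply, LinearMap.smul_apply, LinearMap.proj_apply, smul_eq_mul]
    exact Finset.sum_congr rfl fun b _ => mul_comm _ _
  have hlt : Fintype.card κ < n := by
    have h1 := finrank_span_eq_card hli
    rw [← h1, hspan]
    have h2 : Submodule.span ℂ (Set.range fun (s : S) (b : β) => (r s b : ℂ)) ≤
        LinearMap.ker ξ := by
      rw [Submodule.span_le]
      rintro _ ⟨s, rfl⟩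
      rw [SetLike.mem_coe, LinearMap.mem_ker, hξ]
      exact hx0 s
    have h3 : LinearMap.ker ξ ≠ ⊤ := by
      intro h
      apply hb₀
      have h4 : ξ (Pi.single b₀ 1) = 0 := by
        rw [← LinearMap.mem_ker, h]
        exact Submodule.mem_top
      rw [hξ, Finset.sum_eq_single b₀] at h4
      · simpa using h4
      · intro b _ hb
        rw [Pi.single_eq_of_ne hb, zero_mul]
      · intro h
        exact absurd (Finset.mem_univ _) h
    refine (Submodule.finrank_mono h2).trans_lt ?_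
    refine (Submodule.finrank_lt (lt_top_iff_ne_top.2 h3).ne).trans_le ?_
    rw [Module.finrank_fintype_fun_eq_card]
  -- pigeonhole
  set W : ℕ := (2 * n * A) ^ n with hW
  have hnA : 1 ≤ 2 * n * A := by
    have : 1 ≤ n * A := Nat.mul_pos hn1 hA
    nlinarith
  obtain ⟨t, ht0, htW, htk, -⟩ := rel_pigeon (ι := β) (κ := κ) (τ := Empty) (fun _ => W)
    (fun b k => r (a k) b) (fun _ => (n : ℝ) * A * W) (fun _ t => t.elim) (fun t => t.elim)
    (fun t => t.elim) (by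
      intro f hf k
      have h1 : |∑ b, f b * r (a k) b| ≤ ∑ b : β, (W : ℤ) * A := by
        refine (Finset.abs_sum_le_sum_abs _ _).trans (Finset.sum_le_sum fun b _ => ?_)
        rw [abs_mul, abs_of_nonneg (hf b).1]
        exact mul_le_mul (hf b).2 (hr _ _) (abs_nonneg _) (by (clear * - hn1 hA; positivity))
      rw [Finset.sum_const, Finset.card_univ, ← hn, nsmul_eq_mul] at h1
      have h2 : |((∑ b, f b * r (a k) b : ℤ) : ℝ)| ≤ (((n : ℤ) * ((W : ℤ) * A) : ℤ) : ℝ) := by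
        rw [← Int.cast_abs]
        exact_mod_cast h1
      refine h2.trans (le_of_eq ?_)
      push_cast
      ring) (by
      rw [Finset.prod_const, Finset.prod_const, Finset.card_univ, Finset.card_univ, ← hn]
      simp only [Finset.univ_eq_empty, Finset.prod_empty, mul_one]
      have h1 : (2 * ((n : ℝ) * A * W) + 1) ≤ ((2 * n * A : ℕ) : ℝ) * ((W : ℝ) + 1) := by
        have h2 : (1 : ℝ) ≤ ((2 * n * A : ℕ) : ℝ) := by exact_mod_cast hnA
        push_cast at h2 ⊢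
        linarith only [h2]
      have hW1 : (1 : ℝ) ≤ (W : ℝ) + 1 := by
        have : (0 : ℝ) ≤ W := Nat.cast_nonneg _
        linarith only [this]
      calc (2 * ((n : ℝ) * A * W) + 1) ^ Fintype.card κ
          ≤ (((2 * n * A : ℕ) : ℝ) * ((W : ℝ) + 1)) ^ Fintype.card κ :=
            pow_le_pow_left₀ (by positivity) h1 _
        _ = ((2 * n * A : ℕ) : ℝ) ^ Fintype.card κ * ((W : ℝ) + 1) ^ Fintype.card κ := by
            rw [mul_pow]
        _ ≤ (W : ℝ) * ((W : ℝ) + 1) ^ Fintype.card κ := by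
            refine mul_le_mul_of_nonneg_right ?_ (by positivity)
            rw [hW]
            push_cast
            exact pow_le_pow_right₀ (by exact_mod_cast hnA) hlt.le
        _ < ((W : ℝ) + 1) * ((W : ℝ) + 1) ^ Fintype.card κ := by
            refine mul_lt_mul_of_pos_right (by linarith only []) (by positivity)
        _ = ((W : ℝ) + 1) ^ (Fintype.card κ + 1) := by rw [pow_succ, mul_comm]
        _ ≤ ((W : ℝ) + 1) ^ n := pow_le_pow_right₀ hW1 hlt)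
  refine ⟨t, ht0, fun s => ?_, htW⟩
  -- all equations
  let η : (β → ℂ) →ₗ[ℂ] ℂ := ∑ b, (t b : ℂ) • LinearMap.proj b
  have hη : ∀ w : β → ℂ, η w = ∑ b, w b * t b := by
    intro w
    simp only [η, LinearMap.sum_apply, LinearMap.smul_apply, LinearMap.proj_apply, smul_eq_mul]
    exact Finset.sum_congr rfl fun b _ => mul_comm _ _
  have h1 : Submodule.span ℂ (Set.range ((fun (s : S) (b : β) => (r s b : ℂ)) ∘ a)) ≤
      LinearMap.ker η := by
    rw [Submodule.span_le]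
    rintro _ ⟨k, rfl⟩
    rw [SetLike.mem_coe, LinearMap.mem_ker, hη]
    have h2 := htk k
    have h3 : ((∑ b, t b * r (a k) b : ℤ) : ℂ) = 0 := by rw [h2]; simp
    push_cast at h3
    rw [← h3]
    exact Finset.sum_congr rfl fun b _ => mul_comm _ _
  rw [hspan] at h1
  have h2 := h1 (Submodule.subset_span ⟨s, rfl⟩)
  rw [LinearMap.mem_ker, hη] at h2
  have h3 : ((∑ b, r s b * t b : ℤ) : ℂ) = 0 := by
    push_cast
    exact h2
  exact_mod_cast h3

/-- the polynomial with given coefficients. -/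
noncomputable def bzP {R : Type*} [CommRing R] (d1 d2 : ℕ) (x : Fin (d1 + 1) × Fin (d2 + 1) → R) :
    R[X][X] := ∑ z, monomial (z.1 : ℕ) (monomial (z.2 : ℕ) (x z))

theorem bz_coeff {R : Type*} [CommRing R] (d1 d2 : ℕ) (x : Fin (d1 + 1) × Fin (d2 + 1) → R)
    (z : Fin (d1 + 1) × Fin (d2 + 1)) : ((bzP d1 d2 x).coeff z.1).coeff z.2 = x z := by
  classical
  unfold bzP
  rw [finsetSum_coeff, finsetSum_coeff, Finset.sum_eq_single z]
  · simp
  · intro y _ hy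
    rw [coeff_monomial]
    split_ifs with h1
    · rw [coeff_monomial, if_neg]
      intro h2
      exact hy (Prod.ext (Fin.ext h1) (Fin.ext h2))
    · simp
  · intro h
    exact absurd (Finset.mem_univ _) h

theorem bz_bideg {R : Type*} [CommRing R] (d1 d2 : ℕ) (x : Fin (d1 + 1) × Fin (d2 + 1) → R) :
    BiDeg d1 d2 (bzP d1 d2 x) := by
  classical
  constructor
  · refine natDegree_sum_le_of_forall_le _ _ fun z _ => ?_
    exact (natDegree_monomial_le _).trans (by omega)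
  · intro i
    unfold bzP
    rw [finsetSum_coeff]
    refine natDegree_sum_le_of_forall_le _ _ fun z _ => ?_
    rw [coeff_monomial]
    split_ifs
    · exact (natDegree_monomial_le _).trans (by omega)
    · simp

theorem bz_eq {R : Type*} [CommRing R] {d1 d2 : ℕ} {P : R[X][X]} (h : BiDeg d1 d2 P) :
    P = bzP d1 d2 fun z => (P.coeff z.1).coeff z.2 := by
  ext i j
  by_cases hi : i < d1 + 1
  · by_cases hj : j < d2 + 1
    · have := bz_coeff d1 d2 (fun z => (P.coeff z.1).coeff z.2) (⟨i, hi⟩, ⟨j, hj⟩)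
      exact this.symm
    · rw [coeff_eq_zero_of_natDegree_lt (lt_of_le_of_lt (h.2 i) (by omega)),
        coeff_eq_zero_of_natDegree_lt (lt_of_le_of_lt ((bz_bideg d1 d2 _).2 i) (by omega))]
  · rw [coeff_eq_zero_of_natDegree_lt (lt_of_le_of_lt h.1 (by omega)),
      coeff_eq_zero_of_natDegree_lt (lt_of_le_of_lt (bz_bideg d1 d2 _).1 (by omega))]

/-- the value in terms of the linear forms. -/
theorem bz_val (d1 d2 : ℕ) (x : Fin (d1 + 1) × Fin (d2 + 1) → ℂ) (N u1 u2 : ℤ) (hu : u1 ≠ 0) :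
    (u1 : ℂ) ^ d2 * evB (N : ℂ) ((u2 : ℂ) / u1) (bzP d1 d2 x) =
      ∑ z, ((N ^ (z.1 : ℕ) * u2 ^ (z.2 : ℕ) * u1 ^ (d2 - (z.2 : ℕ)) : ℤ) : ℂ) * x z := by
  rw [evB_eq]
  unfold evK bzP
  rw [Polynomial.map_sum, eval_finsetSum, Finset.mul_sum]
  refine Finset.sum_congr rfl fun z _ => ?_
  rw [map_monomial, eval_monomial, coe_evalRingHom, eval_monomial]
  have hu' : (u1 : ℂ) ≠ 0 := by exact_mod_cast hu
  have h1 : (u1 : ℂ) ^ d2 = (u1 : ℂ) ^ (z.2 : ℕ) * (u1 : ℂ) ^ (d2 - (z.2 : ℕ)) := by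
    rw [← pow_add]
    congr 1
    omega
  rw [h1, div_pow]
  push_cast
  field_simp

/-- an irreducible complex curve with many rational points of height `≤ H` is defined by
an integer polynomial of bounded height (take the linear system of all polynomials of bidegree
`≤` that of `Φ` through the points: by Bezout its solution space is `ℂ Φ`, and it has integer
coefficients after clearing the denominators). -/
theorem rational_of_points (D : ℕ) :
    ∃ K : ℕ, ∀ (H : ℕ), 2 ≤ H → ∀ (Φ : ℂ[X][X]), Irreducible Φ → BiDeg D D Φ →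
      ∀ (S : Finset ℤ) (u1 u2 : ℤ → ℤ),
      (∀ N ∈ S, |N| ≤ H ∧ |u1 N| ≤ H ∧ |u2 N| ≤ H ∧ u1 N ≠ 0 ∧
        evB (N : ℂ) ((u2 N : ℂ) / u1 N) Φ = 0) → K < S.card →
      ∃ (Ψ : ℤ[X][X]) (a : ℂ), a ≠ 0 ∧ toC Ψ = C (C a) * Φ ∧
        (∀ i j, |(Ψ.coeff i).coeff j| ≤ (H : ℤ) ^ K) := by
  classical
  obtain ⟨C₀, hC₀⟩ := bezC D
  set n0 : ℕ := (D + 1) * (D + 1) with hn0
  refine ⟨C₀ + (1 + n0 + 2 * D) * n0, fun H hH Φ hΦ hbd S u1 u2 hS hK => ?_⟩
  have hΦ0 : Φ ≠ 0 := hΦ.ne_zero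
  -- the exact bidegree
  obtain ⟨d2, i0, hd2, hi0, hi0'⟩ : ∃ d2 i0 : ℕ, (∀ i, (Φ.coeff i).natDegree ≤ d2) ∧
      Φ.coeff i0 ≠ 0 ∧ (Φ.coeff i0).natDegree = d2 := by
    obtain ⟨i0, hi0, hmax⟩ := Finset.exists_max_image Φ.support
      (fun i => (Φ.coeff i).natDegree) (by rwa [Finset.nonempty_iff_ne_empty, Ne, support_eq_empty])
    refine ⟨(Φ.coeff i0).natDegree, i0, fun i => ?_, mem_support_iff.1 hi0, rfl⟩
    by_cases hi : i ∈ Φ.support
    · exact hmax i hi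
    · rw [notMem_support_iff.1 hi]
      simp
  set d1 := Φ.natDegree with hd1
  have hd1D : d1 ≤ D := hbd.1
  have hd2D : d2 ≤ D := hi0' ▸ hbd.2 i0
  have hb : BiDeg d1 d2 Φ := ⟨le_rfl, hd2⟩
  set x : Fin (d1 + 1) × Fin (d2 + 1) → ℂ := fun z => (Φ.coeff z.1).coeff z.2 with hx
  have hΦx : Φ = bzP d1 d2 x := bz_eq hb
  have hx0 : x ≠ 0 := by
    intro h
    apply hΦ0
    rw [hΦx, h]
    unfold bzP
    simp
  have hH0 : (0 : ℤ) ≤ H := by positivity
  have hH1 : (1 : ℤ) ≤ H := by exact_mod_cast (by omega : 1 ≤ H)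
  obtain ⟨t, ht0, htr, htb⟩ := bz_kernel (β := Fin (d1 + 1) × Fin (d2 + 1)) (S := S)
    (fun N z => (N : ℤ) ^ (z.1 : ℕ) * u2 N ^ (z.2 : ℕ) * u1 N ^ (d2 - (z.2 : ℕ)))
    (H ^ (2 * D)) (Nat.one_le_pow _ _ (by omega)) (by
      intro N z
      obtain ⟨h1, h2, h3, -, -⟩ := hS N N.2
      rw [abs_mul, abs_mul, abs_pow, abs_pow, abs_pow]
      push_cast
      calc |(N : ℤ)| ^ (z.1 : ℕ) * |u2 N| ^ (z.2 : ℕ) * |u1 N| ^ (d2 - (z.2 : ℕ))
          ≤ (H : ℤ) ^ (z.1 : ℕ) * (H : ℤ) ^ (z.2 : ℕ) * (H : ℤ) ^ (d2 - (z.2 : ℕ)) := by gcongr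
        _ = (H : ℤ) ^ ((z.1 : ℕ) + z.2 + (d2 - (z.2 : ℕ))) := by rw [pow_add, pow_add]
        _ ≤ (H : ℤ) ^ (2 * D) := pow_le_pow_right₀ hH1 (by omega)) x hx0 (by
      intro N
      obtain ⟨-, -, -, h4, h5⟩ := hS N N.2
      have h6 := bz_val d1 d2 x (N : ℤ) (u1 N) (u2 N) h4
      rw [← hΦx, h5, mul_zero] at h6
      exact h6.symm)
  have htoC : toC (bzP d1 d2 t) = bzP d1 d2 fun z => (t z : ℂ) := by
    unfold toC bzP
    rw [Polynomial.map_sum]
    refine Finset.sum_congr rfl fun z _ => ?_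
    simp
  set G : ℂ[X][X] := bzP d1 d2 fun z => (t z : ℂ) with hG
  have hGb : BiDeg d1 d2 G := bz_bideg _ _ _
  have hG0 : G ≠ 0 := by
    intro h
    apply ht0
    funext z
    have h1 := bz_coeff d1 d2 (fun z => (t z : ℂ)) z
    rw [← hG, h, coeff_zero, coeff_zero] at h1
    exact_mod_cast h1.symm
  -- divisibility
  have hdvd : Φ ∣ G := by
    by_contra hcon
    have h1 := hC₀ Φ G hΦ hcon hbd ⟨hGb.1.trans hd1D, fun i => (hGb.2 i).trans hd2D⟩
      (S.image fun N : ℤ => ((N : ℂ), (u2 N : ℂ) / u1 N)) (by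
        intro z hz
        obtain ⟨N, hN, rfl⟩ := Finset.mem_image.1 hz
        obtain ⟨-, -, -, h4, h5⟩ := hS N hN
        refine ⟨h5, ?_⟩
        have h6 := bz_val d1 d2 (fun z => (t z : ℂ)) N (u1 N) (u2 N) h4
        have h7 := htr ⟨N, hN⟩
        have h8 : ∑ z : Fin (d1 + 1) × Fin (d2 + 1),
            ((N ^ (z.1 : ℕ) * u2 N ^ (z.2 : ℕ) * u1 N ^ (d2 - (z.2 : ℕ)) : ℤ) : ℂ) * (t z : ℂ) =
            0 := by
          rw [← Int.cast_zero (R := ℂ), ← h7]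
          push_cast
          rfl
        rw [h8] at h6
        have hu' : (u1 N : ℂ) ^ d2 ≠ 0 := pow_ne_zero _ (by exact_mod_cast h4)
        exact (mul_eq_zero.1 h6).resolve_left hu')
    rw [Finset.card_image_of_injective _ (by
      intro N M h
      simpa using congrArg Prod.fst h)] at h1
    omega
  obtain ⟨h, hh⟩ := hdvd
  have hh0 : h ≠ 0 := by
    rintro rfl
    exact hG0 (by rw [hh, mul_zero])
  have hdeg : h.natDegree = 0 := by
    have h1 := hGb.1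
    rw [hh, natDegree_mul hΦ0 hh0] at h1
    omega
  obtain ⟨h', rfl⟩ : ∃ h', h = C h' := ⟨_, eq_C_of_natDegree_eq_zero hdeg⟩
  have hh'0 : h' ≠ 0 := by
    rintro rfl
    exact hh0 (map_zero C)
  have hdeg' : h'.natDegree = 0 := by
    have h1 := hGb.2 i0
    rw [hh, coeff_mul_C, natDegree_mul hi0 hh'0] at h1
    omega
  obtain ⟨a, rfl⟩ : ∃ a, h' = C a := ⟨_, eq_C_of_natDegree_eq_zero hdeg'⟩
  have ha0 : a ≠ 0 := by
    rintro rfl
    exact hh'0 (map_zero C)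
  refine ⟨bzP d1 d2 t, a, ha0, by rw [htoC, hh, mul_comm], fun i j => ?_⟩
  have hK0 : (0 : ℤ) ≤ (H : ℤ) ^ (C₀ + (1 + n0 + 2 * D) * n0) := by positivity
  by_cases hi : i < d1 + 1
  · by_cases hj : j < d2 + 1
    · have h1 := bz_coeff d1 d2 t (⟨i, hi⟩, ⟨j, hj⟩)
      rw [show ((bzP d1 d2 t).coeff i).coeff j = t (⟨i, hi⟩, ⟨j, hj⟩) from h1]
      refine (htb _).trans ?_
      have hn : Fintype.card (Fin (d1 + 1) × Fin (d2 + 1)) ≤ n0 := by
        rw [Fintype.card_prod, Fintype.card_fin, Fintype.card_fin, hn0]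
        exact Nat.mul_le_mul (by omega) (by omega)
      have h2 : (2 * Fintype.card (Fin (d1 + 1) × Fin (d2 + 1)) * H ^ (2 * D)) ^
          Fintype.card (Fin (d1 + 1) × Fin (d2 + 1)) ≤ H ^ (C₀ + (1 + n0 + 2 * D) * n0) := by
        have h3 : 2 * Fintype.card (Fin (d1 + 1) × Fin (d2 + 1)) * H ^ (2 * D) ≤
            H ^ (1 + n0 + 2 * D) := by
          rw [pow_add, pow_add, pow_one]
          refine Nat.mul_le_mul (Nat.mul_le_mul hH ?_) le_rfl
          exact hn.trans ((Nat.lt_two_pow_self).le.trans (Nat.pow_le_pow_left hH _))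
        calc (2 * Fintype.card (Fin (d1 + 1) × Fin (d2 + 1)) * H ^ (2 * D)) ^
              Fintype.card (Fin (d1 + 1) × Fin (d2 + 1))
            ≤ (H ^ (1 + n0 + 2 * D)) ^ Fintype.card (Fin (d1 + 1) × Fin (d2 + 1)) :=
              Nat.pow_le_pow_left h3 _
          _ ≤ (H ^ (1 + n0 + 2 * D)) ^ n0 :=
              Nat.pow_le_pow_right (Nat.pos_of_ne_zero (pow_ne_zero _ (by omega))) hn
          _ = H ^ ((1 + n0 + 2 * D) * n0) := by rw [← pow_mul]
          _ ≤ H ^ (C₀ + (1 + n0 + 2 * D) * n0) := Nat.pow_le_pow_right (by omega) (by omega)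
      exact_mod_cast h2
    · rw [coeff_eq_zero_of_natDegree_lt (lt_of_le_of_lt ((bz_bideg d1 d2 t).2 i) (by omega))]
      simp
  · rw [coeff_eq_zero_of_natDegree_lt (lt_of_le_of_lt (bz_bideg d1 d2 t).1 (by omega))]
    simp

end Vale.Agent.P018.QB
end
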