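import Mathlib
import Vale.Agent.P018.Bdl.B10
import Vale.Agent.P018.Bdl.B9
import Vale.Agent.P018.Bdl.B7
import Vale.Agent.P018.Bdl.B14
import Vale.Agent.P018.Bdl.B2
import Vale.Agent.P018.Bdl.B11

set_option linter.all false

section

/-! # P018, quartics: the three families of estimates (statements as definitions). -/

namespace Vale.Agent.P018.Q

open Polynomial

/-- the local estimate near the exponent `a`. -/
def Near (f : ℤ[X]) (a : ℝ) : Prop := ∃ ε : ℝ, 0 < ε ∧ K.FinP f 2 (Set.Ioo (a - ε) (a + ε))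

end Vale.Agent.P018.Q
end

section

/-! # P018, quartics: the dyadic decomposition common to the families. -/

namespace Vale.Agent.P018.Q

open Polynomial NumberField Finset

/-- the data are monotone in `X` and `C`. -/
theorem fam_mono {L : Type} [Field L] [NumberField L] {θ : Fin 4 → 𝓞 L} {C C' : ℕ} {X X' T : ℝ}
    {N : ℤ} {p : ℕ} {c : ℤ} {y z : Fin 4 → ℤ} (h : Dat θ C X T N p c y z) (hC : C ≤ C')
    (hX0 : 0 ≤ X) (hX : X ≤ X') (hT : 0 ≤ T) : Dat θ C' X' T N p c y z := by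
  have hCr : (C : ℝ) ≤ C' := by exact_mod_cast hC
  have hCz : (C : ℤ) ≤ C' := by exact_mod_cast hC
  have hC0 : (0 : ℝ) ≤ C := Nat.cast_nonneg C
  have h1 : (C : ℝ) * X ≤ C' * X' := mul_le_mul hCr hX hX0 (hC0.trans hCr)
  refine ⟨h.prime, h.lo, h.hi, h.c0, h.cC.trans hCz, ?_, h.eqn, h.hN.trans h1, ?_, ?_⟩
  · obtain ⟨c', h2, h3, h4⟩ := h.nrm
    exact ⟨c', h2, h3.trans hCz, h4⟩
  · intro j
    exact (h.hy j).trans (mul_le_mul_of_nonneg_right hCr hT)
  · intro j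
    exact (h.hz j).trans (div_le_div_of_nonneg_right h1 (by positivity))

/-- `z ≠ 0`. -/
theorem fam_z_ne {L : Type} [Field L] [NumberField L] {θ : Fin 4 → 𝓞 L}
    (hθ : Function.Injective θ) {C : ℕ} {X T : ℝ}
    {N : ℤ} {p : ℕ} {c : ℤ} {y z : Fin 4 → ℤ} (h : Dat θ C X T N p c y z) : z ≠ 0 := by
  rintro rfl
  have h0 : ∀ i, θ i = (N : 𝓞 L) := by
    intro i
    have h1 := h.eqn i
    have h2 : K.ell (θ i) (0 : Fin 4 → ℤ) = 0 := by
      unfold K.ell
      simp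
    rw [h2, mul_zero] at h1
    rcases mul_eq_zero.1 h1 with h3 | h3
    · exact absurd (Int.cast_eq_zero.1 h3) h.c0
    · exact (sub_eq_zero.1 h3).symm
  have h1 : (0 : Fin 4) = 1 := hθ ((h0 0).trans (h0 1).symm)
  exact absurd h1 (by decide)

/-- sizes of a vector with bounded coordinates. -/
theorem fam_dot_le (z : Fin 4 → ℤ) (B : ℝ) (h : ∀ j, |(z j : ℝ)| ≤ B) :
    (dot z z : ℝ) ≤ 4 * B ^ 2 := by
  have h1 : ∀ j, (z j : ℝ) * z j ≤ B ^ 2 := by
    intro j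
    have h2 := h j
    have h3 : |(z j : ℝ)| ^ 2 ≤ B ^ 2 := pow_le_pow_left₀ (abs_nonneg _) h2 2
    rw [sq_abs] at h3
    linarith
  have h4 := h1 0
  have h5 := h1 1
  have h6 := h1 2
  have h7 := h1 3
  rw [dot4]
  push_cast
  linarith only [h7, h6, h5, h4]

/-- number of dyadic scales. -/
theorem fam_log_scales (ε : ℝ) (hε : 0 < ε) : ∃ K : ℝ, 0 < K ∧ ∀ X : ℕ, 1 ≤ X →
    ((Nat.log 2 X + 1 : ℕ) : ℝ) ≤ K * (X : ℝ) ^ ε := by
  have hl2 : 0 < Real.log 2 := Real.log_pos (by norm_num)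
  refine ⟨1 / ε / Real.log 2 + 1, by positivity, fun X hX => ?_⟩
  have hXr : (1 : ℝ) ≤ X := by exact_mod_cast hX
  have h1 : ((2 : ℝ)) ^ (Nat.log 2 X) ≤ X := by
    exact_mod_cast Nat.pow_log_le_self 2 (by omega : X ≠ 0)
  have h2 : (Nat.log 2 X : ℝ) * Real.log 2 ≤ Real.log X := by
    rw [← Real.log_pow]
    exact Real.log_le_log (by positivity) h1
  have h3 : Real.log X ≤ (X : ℝ) ^ ε / ε := Real.log_le_rpow_div (by linarith only [hXr]) hε
  have h4 : 1 ≤ (X : ℝ) ^ ε := Real.one_le_rpow hXr hε.le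
  have h5 : (Nat.log 2 X : ℝ) ≤ (X : ℝ) ^ ε / ε / Real.log 2 := by
    rw [le_div_iff₀ hl2]
    exact h2.trans h3
  push_cast
  calc (Nat.log 2 X : ℝ) + 1 ≤ (X : ℝ) ^ ε / ε / Real.log 2 + (X : ℝ) ^ ε := by linarith only [h5, h4]
    _ = (1 / ε / Real.log 2 + 1) * (X : ℝ) ^ ε := by ring

/-- the class of `n`. -/
theorem fam_exists_scale (X n : ℕ) (h1 : 1 ≤ n) (h2 : n ≤ X) : ∃ k ∈ range (Nat.log 2 X + 1),
    (n : ℝ) ≤ X / 2 ^ k ∧ (X : ℝ) / 2 ^ k < 2 * n := by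
  refine ⟨Nat.log 2 (X / n), ?_, ?_, ?_⟩
  · rw [mem_range]
    have := Nat.log_mono_right (b := 2) (Nat.div_le_self X n)
    omega
  · have h3 : X / n ≠ 0 := by
      have := Nat.div_pos h2 (by omega : 0 < n)
      omega
    have h4 := Nat.pow_log_le_self 2 h3
    have h5 : 2 ^ Nat.log 2 (X / n) * n ≤ X := (Nat.le_div_iff_mul_le (by omega)).1 h4
    rw [le_div_iff₀ (by positivity)]
    have h6 : ((2 ^ Nat.log 2 (X / n) * n : ℕ) : ℝ) ≤ X := by exact_mod_cast h5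
    push_cast at h6
    linarith only [h6]
  · have h4 : X / n < 2 ^ (Nat.log 2 (X / n) + 1) :=
      Nat.lt_pow_succ_log_self (by norm_num) _
    have h5 : X < 2 ^ (Nat.log 2 (X / n) + 1) * n := (Nat.div_lt_iff_lt_mul (by omega)).1 h4
    rw [div_lt_iff₀ (by positivity)]
    have h6 : (X : ℝ) < ((2 ^ (Nat.log 2 (X / n) + 1) * n : ℕ) : ℝ) := by exact_mod_cast h5
    push_cast at h6
    rw [pow_succ] at h6
    linarith only [h6]

/-- From a bound for the classes `X ≤ C |N|` to the local estimate. -/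
theorem near_of_class (f : ℤ[X]) (hirr : Irreducible (f.map (Int.castRingHom ℚ)))
    (hd : f.natDegree = 4) (a : ℝ) (ha : 0 < a) {L : Type} [Field L] [NumberField L]
    (θ : Fin 4 → 𝓞 L) (a0 : ℤ) (C1 : ℕ) (ha0 : a0 ≠ 0)
    (hdat : ∀ X P : ℕ, C1 ≤ X → X ≤ P → ∀ w ∈ pairs f 2 X P, ∃ (c : ℤ) (y z : Fin 4 → ℤ),
      Dat θ C1 X ((P : ℝ) ^ (1 / 4 : ℝ)) (a0 * w.1) w.2 c y z)
    (ε : ℝ) (hε : 0 < ε) (K : ℝ)
    (hcl : ∀ (X T : ℝ) (S : Finset ℤ), K ≤ X → 1 ≤ X → 1 ≤ T → X ≤ T ^ 4 →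
      X ^ (a / 4 - ε) ≤ T → T ≤ X ^ (a / 4 + ε) →
      (∀ N ∈ S, ∃ (p : ℕ) (c : ℤ) (y z : Fin 4 → ℤ), X ≤ 2 * |(N : ℝ)| ∧
        Dat θ C1 X T N p c y z) → (S.card : ℝ) ≤ X ^ (1 - ε)) :
    Near f a := by
  classical
  obtain ⟨X1, hX1⟩ := pairs_le f hirr hd a0 ha0
  obtain ⟨K3, hK3, hlog⟩ := fam_log_scales (min ε 1 / 2) (by positivity)
  obtain ⟨w, hw⟩ : ∃ w : ℝ, w = a / 4 := ⟨_, rfl⟩
  rw [← hw] at hcl
  have hw0 : 0 < w := by rw [hw]; linarith only [ha]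
  obtain ⟨η0, hη0⟩ : ∃ η0 : ℝ, η0 = (ε / 2) / (w + ε) := ⟨_, rfl⟩
  have hη0p : 0 < η0 := by rw [hη0]; (clear * - hε hw0; positivity)
  have hη0e : (1 - η0) * (w + ε) = w + ε / 2 := by
    rw [hη0]
    field_simp
    ring
  have hη01 : 0 < 1 - η0 := by
    by_contra hcon
    have h1 : (1 - η0) * (w + ε) ≤ 0 := mul_nonpos_of_nonpos_of_nonneg (by linarith only [hcon]) (by linarith only [hw0, hε])
    linarith only [h1, hη0e, hw0, hε]
  have hev : ∀ᶠ X : ℕ in Filter.atTop, max K C1 ≤ (X : ℝ) ^ (1 - η0) :=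
    ((tendsto_rpow_atTop hη01).comp tendsto_natCast_atTop_atTop).eventually_ge_atTop _
  obtain ⟨X2, hX2⟩ := Filter.eventually_atTop.1 hev
  refine ⟨2 * ε, by linarith only [hε], min η0 (min ε 1 / 2), 4 * (1 + K3),
    lt_min hη0p (by positivity), by positivity, max (max X1 X2) 2, ?_⟩
  intro X P hX hXP hmem
  have h1 : X1 ≤ X := le_trans (le_trans (le_max_left _ _) (le_max_left _ _)) hX
  have h2 : X2 ≤ X := le_trans (le_trans (le_max_right _ _) (le_max_left _ _)) hX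
  have h3 : 2 ≤ X := le_trans (le_max_right _ _) hX
  have hXr : (1 : ℝ) < X := by exact_mod_cast (show 1 < X by omega)
  have hPr : (1 : ℝ) ≤ P := by exact_mod_cast (show 1 ≤ P by omega)
  have hXPr : (X : ℝ) ≤ P := by exact_mod_cast hXP
  have hl : 0 < Real.log X := Real.log_pos hXr
  have hbig := hX2 X h2
  have hbK : K ≤ (X : ℝ) ^ (1 - η0) := le_trans (le_max_left _ _) hbig
  have hbC : (C1 : ℝ) ≤ (X : ℝ) ^ (1 - η0) := le_trans (le_max_right _ _) hbig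
  obtain ⟨T, hT⟩ : ∃ T : ℝ, T = (P : ℝ) ^ (1 / 4 : ℝ) := ⟨_, rfl⟩
  have hT1 : 1 ≤ T := by
    rw [hT]
    exact Real.one_le_rpow hPr (by norm_num)
  have hT4 : T ^ 4 = P := by
    rw [hT, ← Real.rpow_natCast, ← Real.rpow_mul (by linarith only [hXPr, hXr, hη01, hη0p])]
    norm_num
  have hTlog : T = (X : ℝ) ^ (Real.log P / Real.log X / 4) := by
    rw [hT, Real.rpow_def_of_pos (by linarith only [hXPr, hXr, hη01, hη0p]), Real.rpow_def_of_pos (by linarith only [hXr, hη01, hη0p])]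
    congr 1
    field_simp
  have hTlo : (X : ℝ) ^ (w - ε / 2) ≤ T := by
    rw [hTlog]
    apply Real.rpow_le_rpow_of_exponent_le hXr.le
    have := hmem.1
    rw [hw]
    linarith only [this]
  have hThi : T ≤ (X : ℝ) ^ (w + ε / 2) := by
    rw [hTlog]
    apply Real.rpow_le_rpow_of_exponent_le hXr.le
    have := hmem.2
    rw [hw]
    linarith only [this]
  -- the decomposition
  obtain ⟨I0, hI0⟩ : ∃ I0 : Finset ℤ, I0 = ((Icc 1 X).filter
    (fun n : ℕ => (n : ℝ) ≤ (X : ℝ) ^ (1 - η0))).image (fun n : ℕ => a0 * (n : ℤ)) := ⟨_, rfl⟩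
  obtain ⟨I, hI⟩ : ∃ I : ℕ → Finset ℤ, ∀ k, I k = ((pairs f 2 X P).filter
    (fun v => (X : ℝ) ^ (1 - η0) < v.1 ∧ (v.1 : ℝ) ≤ X / 2 ^ k ∧
      (X : ℝ) / 2 ^ k < 2 * v.1)).image (fun v => a0 * (v.1 : ℤ)) := ⟨_, fun _ => rfl⟩
  have hcov : (pairs f 2 X P).image (fun v => a0 * (v.1 : ℤ)) ⊆
      I0 ∪ (range (Nat.log 2 X + 1)).biUnion I := by
    intro N hN
    obtain ⟨v, hv, rfl⟩ := mem_image.1 hN
    have hv' := hv
    rw [pairs, mem_filter, mem_product, mem_Icc, mem_Ioc] at hv'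
    obtain ⟨⟨⟨hv1, hv2⟩, -, -⟩, -⟩ := hv'
    rw [mem_union]
    by_cases hs : (v.1 : ℝ) ≤ (X : ℝ) ^ (1 - η0)
    · left
      rw [hI0]
      exact mem_image.2 ⟨v.1, mem_filter.2 ⟨mem_Icc.2 ⟨hv1, hv2⟩, hs⟩, rfl⟩
    · right
      obtain ⟨k, hk, hk1, hk2⟩ := fam_exists_scale X v.1 hv1 hv2
      rw [mem_biUnion]
      refine ⟨k, hk, ?_⟩
      rw [hI]
      exact mem_image.2 ⟨v, mem_filter.2 ⟨hv, not_le.1 hs, hk1, hk2⟩, rfl⟩
  have hc0 : (I0.card : ℝ) ≤ (X : ℝ) ^ (1 - η0) := by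
    have e1 : I0.card ≤ ⌊(X : ℝ) ^ (1 - η0)⌋₊ := by
      rw [hI0]
      refine card_image_le.trans ?_
      have e2 : (Icc 1 X).filter (fun n : ℕ => (n : ℝ) ≤ (X : ℝ) ^ (1 - η0)) ⊆
          Icc 1 ⌊(X : ℝ) ^ (1 - η0)⌋₊ := by
        intro n hn
        rw [mem_filter, mem_Icc] at hn
        exact mem_Icc.2 ⟨hn.1.1, Nat.le_floor hn.2⟩
      exact (card_le_card e2).trans (by simp)
    exact (Nat.cast_le.2 e1).trans (Nat.floor_le (by (clear * - h3; positivity)))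
  have hck : ∀ k, ((I k).card : ℝ) ≤ (X : ℝ) ^ (1 - min ε 1) := by
    intro k
    rcases (I k).eq_empty_or_nonempty with he | ⟨N0, hN0⟩
    · rw [he]
      simp only [card_empty, Nat.cast_zero]
      (clear * - h3; positivity)
    obtain ⟨Y, hY⟩ : ∃ Y : ℝ, Y = (X : ℝ) / 2 ^ k := ⟨_, rfl⟩
    have hYX : Y ≤ X := by
      rw [hY]
      exact div_le_self (by linarith only [hXr, hη01, hη0p]) (one_le_pow₀ (by norm_num))
    have hYlow : (X : ℝ) ^ (1 - η0) ≤ Y := by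
      rw [hI] at hN0
      obtain ⟨v, hv, -⟩ := mem_image.1 hN0
      rw [mem_filter] at hv
      rw [hY]
      exact hv.2.1.le.trans hv.2.2.1
    have hY1 : 1 ≤ Y := le_trans (Real.one_le_rpow hXr.le hη01.le) hYlow
    have hlow : Y ^ (w - ε) ≤ T := by
      have e1 : Y ^ (w - ε) ≤ Y ^ (w - ε / 2) :=
        Real.rpow_le_rpow_of_exponent_le hY1 (by linarith only [hε])
      rcases le_or_gt 0 (w - ε / 2) with h0 | h0
      · exact e1.trans ((Real.rpow_le_rpow (by linarith only [hY1, hη01, hη0p]) hYX h0).trans hTlo)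
      · exact e1.trans ((Real.rpow_le_one_of_one_le_of_nonpos hY1 h0.le).trans hT1)
    have hhi : T ≤ Y ^ (w + ε) := by
      refine hThi.trans ?_
      rw [← hη0e, Real.rpow_mul (by linarith only [hXr, hη01, hη0p])]
      exact Real.rpow_le_rpow (by positivity) hYlow (by linarith only [hw0, hε])
    have e0 := hcl Y T (I k) (hbK.trans hYlow) hY1 hT1 (by rw [hT4]; linarith only [hYX, hXPr]) hlow hhi ?_
    · have e2 : Y ^ (1 - ε) ≤ Y ^ (1 - min ε 1) :=
        Real.rpow_le_rpow_of_exponent_le hY1 (by linarith only [min_le_left ε 1])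
      exact e0.trans (e2.trans (Real.rpow_le_rpow (by linarith only [hY1, hη01, hη0p]) hYX
        (by linarith only [min_le_right ε 1])))
    intro N hN
    rw [hI] at hN
    obtain ⟨v, hv, rfl⟩ := mem_image.1 hN
    rw [mem_filter, ← hY] at hv
    obtain ⟨hvp, hv1, hv2, hv3⟩ := hv
    rw [pairs, mem_filter, mem_product, mem_Icc, mem_Ioc] at hvp
    have hvC : C1 ≤ v.1 := by
      have : (C1 : ℝ) ≤ v.1 := hbC.trans hv1.le
      exact_mod_cast this
    have hvP : v.1 ≤ P := hvp.1.1.2.trans hXP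
    obtain ⟨c, y, z, hD⟩ := hdat v.1 P hvC hvP v (by
      rw [pairs, mem_filter, mem_product, mem_Icc, mem_Ioc]
      exact ⟨⟨⟨hvp.1.1.1, le_rfl⟩, hvp.1.2⟩, hvp.2⟩)
    rw [← hT] at hD
    refine ⟨v.2, c, y, z, ?_, fam_mono hD le_rfl (by (clear * -; positivity)) hv2 (by linarith only [hT1, hη01, hη0p])⟩
    have e3 : (1 : ℝ) ≤ |(a0 : ℝ)| := by exact_mod_cast Int.one_le_abs ha0
    have e4 : (0 : ℝ) ≤ (v.1 : ℝ) := by (clear * -; positivity)
    push_cast
    rw [abs_mul, abs_of_nonneg e4]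
    (by_contra nlg; linarith only [nlg, mul_nonneg (sub_nonneg.2 e3) (sub_nonneg.2 e4), mul_pos (sub_pos.2 hη01) (sub_pos.2 hv3), mul_pos (sub_pos.2 hη0p) (sub_pos.2 hv3), mul_pos (sub_pos.2 (not_le.1 nlg)) (sub_pos.2 hη01), mul_pos (sub_pos.2 (not_le.1 nlg)) (sub_pos.2 hη0p)])
  have hcard : ((pairs f 2 X P).card : ℝ) ≤
      4 * ((X : ℝ) ^ (1 - η0) + (Nat.log 2 X + 1 : ℕ) * (X : ℝ) ^ (1 - min ε 1)) := by
    have e1 : ((pairs f 2 X P).card : ℝ) ≤
        4 * (((pairs f 2 X P).image (fun v => a0 * (v.1 : ℤ))).card : ℝ) := by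
      exact_mod_cast hX1 X P h1 hXP
    have e2 : (((pairs f 2 X P).image (fun v => a0 * (v.1 : ℤ))).card : ℝ) ≤
        (I0.card : ℝ) + ∑ k ∈ range (Nat.log 2 X + 1), ((I k).card : ℝ) := by
      have e3 := (card_le_card hcov).trans ((card_union_le _ _).trans
        (Nat.add_le_add_left card_biUnion_le _))
      exact_mod_cast e3
    have e4 : ∑ k ∈ range (Nat.log 2 X + 1), ((I k).card : ℝ) ≤
        (Nat.log 2 X + 1 : ℕ) * (X : ℝ) ^ (1 - min ε 1) := by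
      refine (sum_le_sum fun k _ => hck k).trans ?_
      rw [sum_const, card_range, nsmul_eq_mul]
    linarith only [e4, e2, e1, hc0]
  refine hcard.trans ?_
  have e5 : (X : ℝ) ^ (1 - η0) ≤ (X : ℝ) ^ (1 - min η0 (min ε 1 / 2)) :=
    Real.rpow_le_rpow_of_exponent_le hXr.le (by linarith only [min_le_left η0 (min ε 1 / 2)])
  have e6 : ((Nat.log 2 X + 1 : ℕ) : ℝ) * (X : ℝ) ^ (1 - min ε 1) ≤
      K3 * (X : ℝ) ^ (1 - min η0 (min ε 1 / 2)) := by
    calc ((Nat.log 2 X + 1 : ℕ) : ℝ) * (X : ℝ) ^ (1 - min ε 1)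
        ≤ (K3 * (X : ℝ) ^ (min ε 1 / 2)) * (X : ℝ) ^ (1 - min ε 1) :=
          mul_le_mul_of_nonneg_right (hlog X (by omega)) (by positivity)
      _ = K3 * (X : ℝ) ^ (1 - min ε 1 / 2) := by
          rw [mul_assoc, ← Real.rpow_add (by linarith only [hXr, hη01, hη0p])]
          congr 2
          ring
      _ ≤ _ := mul_le_mul_of_nonneg_left (Real.rpow_le_rpow_of_exponent_le hXr.le
          (by linarith only [min_le_right η0 (min ε 1 / 2)])) hK3.le
  calc 4 * ((X : ℝ) ^ (1 - η0) + (Nat.log 2 X + 1 : ℕ) * (X : ℝ) ^ (1 - min ε 1))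
      ≤ 4 * ((X : ℝ) ^ (1 - min η0 (min ε 1 / 2)) +
          K3 * (X : ℝ) ^ (1 - min η0 (min ε 1 / 2))) := by linarith only [e6, e5]
    _ = _ := by ring

end Vale.Agent.P018.Q
end

section

namespace Vale.Agent.P018.Q

open Polynomial NumberField Finset

section basic

variable {L : Type} [Field L] [NumberField L] {θ : Fin 4 → 𝓞 L} {C : ℕ} {X T : ℝ}
  {N N' : ℤ} {p p' : ℕ} {c : ℤ} {y y' z : Fin 4 → ℤ}

theorem famg_y_ne (hd : Dat θ C X T N p c y z) : ∃ i, y i ≠ 0 := by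
  by_contra h
  push Not at h
  obtain ⟨c', hc'0, -, hc'⟩ := hd.nrm
  have h1 : ∀ i, K.ell (θ i) y = 0 := by
    intro i
    unfold K.ell
    exact sum_eq_zero fun j _ => by rw [h j]; simp
  have h2 : (((p : ℤ) * c' : ℤ) : 𝓞 L) = 0 := by
    rw [← hc']
    exact prod_eq_zero (mem_univ 0) (h1 0)
  have h3 : (p : ℤ) * c' = 0 := by exact_mod_cast h2
  rcases mul_eq_zero.1 h3 with h4 | h4
  · exact hd.prime.ne_zero (by exact_mod_cast h4)
  · exact hc'0 h4

/-- proportional vectors `y` give the same `N`. -/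
theorem famg_parallel (hinj : Function.Injective θ) (hd : Dat θ C X T N p c y z)
    (hd' : Dat θ C X T N' p' c y' z) (hpar : ∀ i k, y i * y' k = y k * y' i) : N = N' := by
  obtain ⟨i, hi⟩ := famg_y_ne hd
  have h1 : ∀ j, (y i : 𝓞 L) * K.ell (θ j) y' = (y' i : 𝓞 L) * K.ell (θ j) y := by
    intro j
    unfold K.ell
    rw [mul_sum, mul_sum]
    refine sum_congr rfl fun k _ => ?_
    have h2 : (y i : 𝓞 L) * (y' k : 𝓞 L) = (y k : 𝓞 L) * (y' i : 𝓞 L) := by
      exact_mod_cast hpar i k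
    linear_combination (θ j) ^ (k : ℕ) * h2
  have hc : (c : 𝓞 L) ≠ 0 := by exact_mod_cast hd.c0
  have h3 : ∀ j, (y i : 𝓞 L) ^ 2 * ((N' : 𝓞 L) - θ j) =
      (y' i : 𝓞 L) ^ 2 * ((N : 𝓞 L) - θ j) := by
    intro j
    apply mul_left_cancel₀ hc
    have e1 := hd.eqn j
    have e2 := hd'.eqn j
    have e3 := h1 j
    calc (c : 𝓞 L) * ((y i : 𝓞 L) ^ 2 * ((N' : 𝓞 L) - θ j))
        = (y i : 𝓞 L) ^ 2 * (c * ((N' : 𝓞 L) - θ j)) := by ring
      _ = ((y i : 𝓞 L) * K.ell (θ j) y') ^ 2 * K.ell (θ j) z := by rw [e2]; ring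
      _ = ((y' i : 𝓞 L) * K.ell (θ j) y) ^ 2 * K.ell (θ j) z := by rw [e3]
      _ = (y' i : 𝓞 L) ^ 2 * (c * ((N : 𝓞 L) - θ j)) := by rw [e1]; ring
      _ = _ := by ring
  have h01 : θ 0 - θ 1 ≠ 0 := by
    rw [sub_ne_zero]
    exact fun h => absurd (hinj h) (by decide)
  have h4 : (y i : 𝓞 L) ^ 2 = (y' i : 𝓞 L) ^ 2 := by
    apply mul_right_cancel₀ h01
    linear_combination (h3 1) - (h3 0)
  have hyi : (y i : 𝓞 L) ^ 2 ≠ 0 := pow_ne_zero 2 (by exact_mod_cast hi)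
  have h5 : (N' : 𝓞 L) - θ 0 = (N : 𝓞 L) - θ 0 := by
    apply mul_left_cancel₀ hyi
    rw [h3 0, h4]
  have h6 : (N' : 𝓞 L) = (N : 𝓞 L) := by linear_combination h5
  exact_mod_cast h6.symm

omit [NumberField L] in
/-- inversion of the Vandermonde matrix. -/
theorem famg_interp (θ : Fin 4 → 𝓞 L) (hinj : Function.Injective θ) (u : Fin 4 → ℤ)
    (k : Fin 4) :
    (∏ l, dval θ l) * (u k : 𝓞 L) = ∑ i, K.ell (θ i) u * (ipol θ i).coeff k := by
  have h1 : hpol θ (fun i => K.ell (θ i) u) =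
      Polynomial.C (∏ l, dval θ l) * (K.smPoly u).map (algebraMap ℤ (𝓞 L)) := by
    apply Polynomial.eq_of_degrees_lt_of_eval_index_eq (v := θ) (univ : Finset (Fin 4))
      hinj.injOn
    · rw [card_univ, Fintype.card_fin]
      refine lt_of_le_of_lt degree_le_natDegree ?_
      have := hpol_degree θ (fun i => K.ell (θ i) u)
      exact_mod_cast (by omega : (hpol θ (fun i => K.ell (θ i) u)).natDegree < 4)
    · rw [card_univ, Fintype.card_fin]
      refine lt_of_le_of_lt (degree_mul_le _ _) ?_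
      refine lt_of_le_of_lt (add_le_add degree_C_le degree_map_le) ?_
      rw [zero_add]
      exact K.sm_degree u
    · intro i _
      rw [hpol_eval, eval_mul, eval_C, K.sm_eval]
  have h2 := congrArg (fun q => q.coeff (k : ℕ)) h1
  simp only [hpol, finsetSum_coeff, coeff_C_mul, coeff_map, K.sm_coeff] at h2
  rw [h2]
  simp

omit [NumberField L] in
/-- the inverse matrix is bounded. -/
theorem famg_inv (θ : Fin 4 → 𝓞 L) (hinj : Function.Injective θ) (ψ : 𝓞 L →+* ℂ)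
    (hψ : Function.Injective ψ) :
    ∃ K2 : ℝ, 0 < K2 ∧ ∀ (u v : Fin 4 → ℤ) (α β M : ℝ),
      (∀ j, ‖(α : ℂ) * ψ (K.ell (θ j) u) - (β : ℂ) * ψ (K.ell (θ j) v)‖ ≤ M) →
      ∀ k, |α * u k - β * v k| ≤ K2 * M := by
  have hD : ψ (∏ l, dval θ l) ≠ 0 := by
    rw [map_ne_zero_iff ψ hψ]
    refine prod_ne_zero_iff.2 fun k _ => prod_ne_zero_iff.2 fun j hj => ?_
    rw [sub_ne_zero]
    exact fun h => (mem_erase.1 hj).1 (hinj h).symm
  have hD' : 0 < ‖ψ (∏ l, dval θ l)‖ := norm_pos_iff.2 hD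
  have hS : 0 ≤ ∑ i, ∑ k : Fin 4, ‖ψ ((ipol θ i).coeff k)‖ :=
    sum_nonneg fun _ _ => sum_nonneg fun _ _ => norm_nonneg _
  refine ⟨(1 + ∑ i, ∑ k : Fin 4, ‖ψ ((ipol θ i).coeff k)‖) / ‖ψ (∏ l, dval θ l)‖,
    by (clear * - hD; positivity), ?_⟩
  intro u v α β M hM k
  have hM0 : 0 ≤ M := (norm_nonneg _).trans (hM 0)
  have e1 := congrArg ψ (famg_interp θ hinj u k)
  have e2 := congrArg ψ (famg_interp θ hinj v k)
  simp only [map_mul, map_sum, map_intCast] at e1 e2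
  have e3 : ψ (∏ l, dval θ l) * ((α * u k - β * v k : ℝ) : ℂ) =
      ∑ i, ((α : ℂ) * ψ (K.ell (θ i) u) - (β : ℂ) * ψ (K.ell (θ i) v)) *
        ψ ((ipol θ i).coeff k) := by
    have e4 : ∑ i, ((α : ℂ) * ψ (K.ell (θ i) u) - (β : ℂ) * ψ (K.ell (θ i) v)) *
        ψ ((ipol θ i).coeff k) =
        (α : ℂ) * (∑ i, ψ (K.ell (θ i) u) * ψ ((ipol θ i).coeff k)) -
        (β : ℂ) * (∑ i, ψ (K.ell (θ i) v) * ψ ((ipol θ i).coeff k)) := by
      rw [mul_sum, mul_sum, ← sum_sub_distrib]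
      exact sum_congr rfl fun i _ => by ring
    rw [e4, ← e1, ← e2]
    push_cast
    ring
  have e5 : ‖ψ (∏ l, dval θ l)‖ * |α * u k - β * v k| ≤
      (1 + ∑ i, ∑ k : Fin 4, ‖ψ ((ipol θ i).coeff k)‖) * M := by
    have e6 : ‖ψ (∏ l, dval θ l)‖ * |α * u k - β * v k| =
        ‖ψ (∏ l, dval θ l) * ((α * u k - β * v k : ℝ) : ℂ)‖ := by
      rw [norm_mul, Complex.norm_real, Real.norm_eq_abs]
    rw [e6, e3]
    refine (norm_sum_le _ _).trans ?_
    have e7 : ∀ i ∈ (univ : Finset (Fin 4)),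
        ‖((α : ℂ) * ψ (K.ell (θ i) u) - (β : ℂ) * ψ (K.ell (θ i) v)) *
          ψ ((ipol θ i).coeff k)‖ ≤ M * ∑ k : Fin 4, ‖ψ ((ipol θ i).coeff k)‖ := by
      intro i _
      rw [norm_mul]
      exact mul_le_mul (hM i) (single_le_sum (f := fun k : Fin 4 => ‖ψ ((ipol θ i).coeff k)‖)
        (fun _ _ => norm_nonneg _) (mem_univ k)) (norm_nonneg _) hM0
    refine (sum_le_sum e7).trans ?_
    rw [← mul_sum]
    linarith only [hM0]
  rw [div_mul_eq_mul_div, le_div_iff₀ hD']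
  linarith [e5, mul_comm (‖ψ (∏ l, dval θ l)‖) (|α * u k - β * v k|)]

end basic

/-- square roots of close numbers. -/
theorem famg_sqrt {Q Q' τ : ℂ} {n n' : ℝ} (hn : 0 < n) (hn' : 0 < n')
    (h : Q ^ 2 = n - τ) (h' : Q' ^ 2 = n' - τ) (hτ : ‖τ‖ ≤ n / 2) (hτ' : ‖τ‖ ≤ n' / 2)
    (hs : 0 ≤ Q.re ↔ 0 ≤ Q'.re) :
    n / 2 ≤ ‖Q‖ ^ 2 ∧
      ‖(Real.sqrt n : ℂ) * Q' - (Real.sqrt n' : ℂ) * Q‖ * (Real.sqrt n * Real.sqrt n') ≤
        ‖τ‖ * |n' - n| := by
  have key : ∀ (R : ℂ) (m : ℝ), R ^ 2 = m - τ → ‖τ‖ ≤ m / 2 → m / 2 ≤ R.re ^ 2 := by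
    intro R m h1 h2
    have h3 := congrArg Complex.re h1
    have h4 : τ.re ≤ ‖τ‖ := Complex.re_le_norm τ
    simp only [sq, Complex.mul_re, Complex.sub_re, Complex.ofReal_re] at h3
    linarith only [mul_self_nonneg R.im, h3, h4, h2]
  have k1 := key Q n h hτ
  have k2 := key Q' n' h' hτ'
  have hsn : Real.sqrt n ^ 2 = n := Real.sq_sqrt hn.le
  have hsn' : Real.sqrt n' ^ 2 = n' := Real.sq_sqrt hn'.le
  have sp : 0 < Real.sqrt n := Real.sqrt_pos.2 hn
  have sp' : 0 < Real.sqrt n' := Real.sqrt_pos.2 hn'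
  constructor
  · have h5 : Q.re ^ 2 ≤ ‖Q‖ ^ 2 := by
      rw [← sq_abs]
      exact pow_le_pow_left₀ (abs_nonneg _) (Complex.abs_re_le_norm Q) 2
    linarith only [h5, k1]
  · -- the sum is large
    have h6 : Real.sqrt n * Real.sqrt n' ≤
        ‖(Real.sqrt n : ℂ) * Q' + (Real.sqrt n' : ℂ) * Q‖ := by
      have h7 : |Real.sqrt n * Q'.re + Real.sqrt n' * Q.re| ≤
          ‖(Real.sqrt n : ℂ) * Q' + (Real.sqrt n' : ℂ) * Q‖ := by
        refine le_trans (le_of_eq ?_) (Complex.abs_re_le_norm _)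
        simp
      refine le_trans ?_ h7
      rw [← abs_of_pos (mul_pos sp sp'), ← sq_le_sq]
      have h8 : 0 ≤ Q'.re * Q.re := by
        by_cases h9 : 0 ≤ Q.re
        · exact mul_nonneg (hs.1 h9) h9
        · have h10 : ¬ 0 ≤ Q'.re := fun h => h9 (hs.2 h)
          push Not at h9 h10
          exact (mul_pos_of_neg_of_neg h10 h9).le
      have h11 : (Real.sqrt n * Real.sqrt n') ^ 2 = n * n' := by rw [mul_pow, hsn, hsn']
      have h12 : (Real.sqrt n * Q'.re + Real.sqrt n' * Q.re) ^ 2 =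
          n * Q'.re ^ 2 + n' * Q.re ^ 2 +
            2 * (Real.sqrt n * Real.sqrt n') * (Q'.re * Q.re) := by
        rw [← hsn, ← hsn']
        rw [hsn, hsn']
        ring_nf
        rw [hsn, hsn']
        ring
      rw [h11, h12]
      have h13 : 0 ≤ 2 * (Real.sqrt n * Real.sqrt n') * (Q'.re * Q.re) := by (clear * - hn hn' h8; positivity)
      linarith only [mul_nonneg (le_of_lt (sub_pos.2 hn')) (sub_nonneg.2 k1), mul_nonneg (le_of_lt (sub_pos.2 hn)) (sub_nonneg.2 k2), h13]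
    have h14 : ((Real.sqrt n : ℂ) * Q' - (Real.sqrt n' : ℂ) * Q) *
        ((Real.sqrt n : ℂ) * Q' + (Real.sqrt n' : ℂ) * Q) = τ * ((n' - n : ℝ) : ℂ) := by
      have e1 : (Real.sqrt n : ℂ) ^ 2 = n := by exact_mod_cast hsn
      have e2 : (Real.sqrt n' : ℂ) ^ 2 = n' := by exact_mod_cast hsn'
      calc _ = (Real.sqrt n : ℂ) ^ 2 * Q' ^ 2 - (Real.sqrt n' : ℂ) ^ 2 * Q ^ 2 := by ring
        _ = n * (n' - τ) - n' * (n - τ) := by rw [e1, e2, h, h']
        _ = _ := by push_cast; ring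
    have h15 := congrArg (fun x => ‖x‖) h14
    simp only [norm_mul, Complex.norm_real, Real.norm_eq_abs] at h15
    calc _ ≤ ‖(Real.sqrt n : ℂ) * Q' - (Real.sqrt n' : ℂ) * Q‖ *
          ‖(Real.sqrt n : ℂ) * Q' + (Real.sqrt n' : ℂ) * Q‖ :=
          mul_le_mul_of_nonneg_left h6 (norm_nonneg _)
      _ = _ := h15


section count

variable {L : Type} [Field L] [NumberField L]

omit [NumberField L] in
/-- the size of the minors. -/
theorem famg_minor (θ : Fin 4 → 𝓞 L) (ψ : 𝓞 L →+* ℂ) (K2 : ℝ)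
    (hinv : ∀ (u v : Fin 4 → ℤ) (α β M : ℝ),
      (∀ j, ‖(α : ℂ) * ψ (K.ell (θ j) u) - (β : ℂ) * ψ (K.ell (θ j) v)‖ ≤ M) →
      ∀ k, |α * u k - β * v k| ≤ K2 * M)
    (a0 c : ℤ) (ha0 : a0 ≠ 0) (hc : c ≠ 0) (y y' z : Fin 4 → ℤ) (n n' : ℕ) (Y tm A B : ℝ)
    (hY : 0 < Y) (hn : Y ≤ n) (hn' : Y ≤ n') (htm : ∀ j, ‖ψ (θ j) / a0‖ ≤ tm)
    (htY : 2 * tm ≤ Y) (hA : ∀ k, |(y k : ℝ)| ≤ A) (hB0 : 0 ≤ B)
    (hB : ∀ j, ‖ψ (K.ell (θ j) y)‖ ≤ B)
    (g : Fin 4 → ℂ) (hg : ∀ j, g j ^ 2 = ψ (K.ell (θ j) z) / (c * a0))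
    (e1 : ∀ j, (c : 𝓞 L) * (((a0 * n : ℤ) : 𝓞 L) - θ j) = K.ell (θ j) y ^ 2 * K.ell (θ j) z)
    (e2 : ∀ j, (c : 𝓞 L) * (((a0 * n' : ℤ) : 𝓞 L) - θ j) = K.ell (θ j) y' ^ 2 * K.ell (θ j) z)
    (hs : ∀ j, 0 ≤ (ψ (K.ell (θ j) y) * g j).re ↔ 0 ≤ (ψ (K.ell (θ j) y') * g j).re)
    (i k : Fin 4) :
    |((y i * y' k - y k * y' i : ℤ) : ℝ)| * Y ^ 2 ≤ 4 * A * K2 * B * tm * |(n' : ℝ) - n| := by
  have hn0 : (0 : ℝ) < n := hY.trans_le hn
  have hn0' : (0 : ℝ) < n' := hY.trans_le hn'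
  have hsn : Real.sqrt n ^ 2 = n := Real.sq_sqrt hn0.le
  have hsn' : Real.sqrt n' ^ 2 = n' := Real.sq_sqrt hn0'.le
  have sp : 0 < Real.sqrt n := Real.sqrt_pos.2 hn0
  have sp' : 0 < Real.sqrt n' := Real.sqrt_pos.2 hn0'
  have htm0 : 0 ≤ tm := (norm_nonneg _).trans (htm 0)
  have hA0 : 0 ≤ A := (abs_nonneg _).trans (hA 0)
  have hQ : ∀ (y : Fin 4 → ℤ) (n : ℕ),
      (∀ j, (c : 𝓞 L) * (((a0 * n : ℤ) : 𝓞 L) - θ j) = K.ell (θ j) y ^ 2 * K.ell (θ j) z) →
      ∀ j, (ψ (K.ell (θ j) y) * g j) ^ 2 = ((n : ℝ) : ℂ) - ψ (θ j) / a0 := by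
    intro y n h j
    have h1 := congrArg ψ (h j)
    simp only [map_mul, map_sub, map_pow, map_intCast] at h1
    have ha0' : (a0 : ℂ) ≠ 0 := by exact_mod_cast ha0
    have hc' : (c : ℂ) ≠ 0 := by exact_mod_cast hc
    rw [mul_pow, hg]
    push_cast at h1 ⊢
    field_simp
    linear_combination -h1
  have hD : ∀ j, ‖((Real.sqrt n : ℝ) : ℂ) * ψ (K.ell (θ j) y') -
      ((Real.sqrt n' : ℝ) : ℂ) * ψ (K.ell (θ j) y)‖ ≤
      2 * B * tm * |(n' : ℝ) - n| / (n * Real.sqrt n') := by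
    intro j
    obtain ⟨h1, h2⟩ := famg_sqrt hn0 hn0' (hQ y n e1 j) (hQ y' n' e2 j)
      (by linarith [htm j]) (by linarith only [htm j, htY, hn']) (hs j)
    rw [le_div_iff₀ (by (clear * - hn0 hn0'; positivity))]
    have h3 : ((Real.sqrt n : ℝ) : ℂ) * (ψ (K.ell (θ j) y') * g j) -
        ((Real.sqrt n' : ℝ) : ℂ) * (ψ (K.ell (θ j) y) * g j) =
        (((Real.sqrt n : ℝ) : ℂ) * ψ (K.ell (θ j) y') -
          ((Real.sqrt n' : ℝ) : ℂ) * ψ (K.ell (θ j) y)) * g j := by ring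
    rw [h3, norm_mul] at h2
    rw [norm_mul] at h1
    obtain ⟨E, hE⟩ : ∃ E, E = ‖((Real.sqrt n : ℝ) : ℂ) * ψ (K.ell (θ j) y') -
          ((Real.sqrt n' : ℝ) : ℂ) * ψ (K.ell (θ j) y)‖ := ⟨_, rfl⟩
    have hE0 : 0 ≤ E := by rw [hE]; exact norm_nonneg _
    rw [← hE] at h2 ⊢
    have h4 : Real.sqrt n ≤ 2 * B * ‖g j‖ := by
      apply abs_le_of_sq_le_sq' _ (by (clear * - hB0; positivity)) |>.2
      have h5 : (‖ψ (K.ell (θ j) y)‖ * ‖g j‖) ^ 2 ≤ (B * ‖g j‖) ^ 2 :=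
        pow_le_pow_left₀ (by (clear * -; positivity)) (mul_le_mul_of_nonneg_right (hB j) (norm_nonneg _)) 2
      rw [hsn]
      linarith only [h5, h1, hn0]
    calc E * (n * Real.sqrt n') = E * Real.sqrt n * Real.sqrt n' * Real.sqrt n := by
          rw [← hsn]
          rw [Real.sqrt_sq (Real.sqrt_nonneg _)]
          ring
      _ ≤ E * Real.sqrt n * Real.sqrt n' * (2 * B * ‖g j‖) :=
          mul_le_mul_of_nonneg_left h4 (by (clear * - hE0 hn0 hn0'; positivity))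
      _ = 2 * B * (E * ‖g j‖ * (Real.sqrt n * Real.sqrt n')) := by ring
      _ ≤ 2 * B * (‖ψ (θ j) / a0‖ * |(n' : ℝ) - n|) :=
          mul_le_mul_of_nonneg_left h2 (by (clear * - hB0; positivity))
      _ ≤ 2 * B * (tm * |(n' : ℝ) - n|) :=
          mul_le_mul_of_nonneg_left (mul_le_mul_of_nonneg_right (htm j) (abs_nonneg _))
            (by (clear * - hB0; positivity))
      _ = _ := by ring
  obtain ⟨M, hM⟩ : ∃ M, M = 2 * B * tm * |(n' : ℝ) - n| / (n * Real.sqrt n') := ⟨_, rfl⟩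
  rw [← hM] at hD
  have hM1 : M * (n * Real.sqrt n') = 2 * B * tm * |(n' : ℝ) - n| := by
    rw [hM]
    field_simp
  have hM0 : 0 ≤ M := by rw [hM]; (clear * - hB0 htm0 hn0 hn0'; positivity)
  have h6 := hinv y' y _ _ M hD
  have h7 : Real.sqrt n * |((y i * y' k - y k * y' i : ℤ) : ℝ)| ≤ 2 * A * (K2 * M) := by
    have h8 : Real.sqrt n * |((y i * y' k - y k * y' i : ℤ) : ℝ)| =
        |(y i : ℝ) * (Real.sqrt n * y' k - Real.sqrt n' * y k) -
          (y k : ℝ) * (Real.sqrt n * y' i - Real.sqrt n' * y i)| := by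
      rw [← abs_of_pos sp, ← abs_mul, abs_of_pos sp]
      congr 1
      push_cast
      ring
    rw [h8]
    refine (abs_sub _ _).trans ?_
    rw [abs_mul, abs_mul]
    have h9 := mul_le_mul (hA i) (h6 k) (abs_nonneg _) hA0
    have h10 := mul_le_mul (hA k) (h6 i) (abs_nonneg _) hA0
    linarith only [h10, h9]
  have h11 : Y ^ 2 ≤ Real.sqrt n * (n * Real.sqrt n') := by
    have h12 : Real.sqrt Y ≤ Real.sqrt n := Real.sqrt_le_sqrt hn
    have h13 : Real.sqrt Y ≤ Real.sqrt n' := Real.sqrt_le_sqrt hn'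
    have h14 : Real.sqrt Y ^ 2 = Y := Real.sq_sqrt hY.le
    calc Y ^ 2 = Real.sqrt Y * (Y * Real.sqrt Y) := by nlinarith
      _ ≤ _ := by
        apply mul_le_mul h12 _ (by positivity) (by (clear * - hn0; positivity))
        exact mul_le_mul hn h13 (by positivity) (by (clear * - hn0; positivity))
  calc |((y i * y' k - y k * y' i : ℤ) : ℝ)| * Y ^ 2
      ≤ |((y i * y' k - y k * y' i : ℤ) : ℝ)| * (Real.sqrt n * (n * Real.sqrt n')) :=
        mul_le_mul_of_nonneg_left h11 (abs_nonneg _)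
    _ = Real.sqrt n * |((y i * y' k - y k * y' i : ℤ) : ℝ)| * (n * Real.sqrt n') := by ring
    _ ≤ 2 * A * (K2 * M) * (n * Real.sqrt n') :=
        mul_le_mul_of_nonneg_right h7 (by (clear * - hn0 hn0'; positivity))
    _ = 2 * A * K2 * (M * (n * Real.sqrt n')) := by ring
    _ = _ := by rw [hM1]; ring

/-- the number of `n` in a set with data. -/
theorem famg_count (θ : Fin 4 → 𝓞 L) (hinj : Function.Injective θ) (a0 : ℤ) (ha0 : a0 ≠ 0)
    (C : ℕ) : ∃ K5 : ℝ, 0 < K5 ∧ ∀ (X T Y : ℝ) (W : Finset ℕ), 1 ≤ X → 1 ≤ T → K5 ≤ Y →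
      (∀ n ∈ W, Y ≤ n ∧ (n : ℝ) ≤ X ∧
        ∃ (p : ℕ) (c : ℤ) (y z : Fin 4 → ℤ), Dat θ C X T (a0 * n) p c y z) →
      (W.card : ℝ) ≤ (2 * C + 1) * ((2 * (C * X / T ^ 2) + 1) ^ 4 *
        (16 * (K5 * X * T ^ 2 / Y ^ 2 + 1))) := by
  classical
  obtain ⟨σ⟩ : Nonempty (L →+* ℂ) := inferInstance
  have hψi : Function.Injective (σ.comp (algebraMap (𝓞 L) L)) := by
    rw [RingHom.coe_comp]
    exact σ.injective.comp RingOfIntegers.coe_injective
  generalize σ.comp (algebraMap (𝓞 L) L) = ψ at hψi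
  obtain ⟨K2, hK2, hinv⟩ := famg_inv θ hinj ψ hψi
  have hg : ∀ (c : ℤ) (z : Fin 4 → ℤ) (j : Fin 4),
      ∃ g : ℂ, g ^ 2 = ψ (K.ell (θ j) z) / (c * a0) := fun c z j =>
    IsAlgClosed.exists_pow_nat_eq _ (by norm_num)
  choose g hg using hg
  obtain ⟨tm, htm⟩ : ∃ tm : ℝ, tm = ∑ j, ‖ψ (θ j) / a0‖ := ⟨_, rfl⟩
  have htm1 : ∀ j, ‖ψ (θ j) / a0‖ ≤ tm := by
    intro j
    rw [htm]
    exact single_le_sum (f := fun j => ‖ψ (θ j) / a0‖) (fun _ _ => norm_nonneg _) (mem_univ j)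
  have htm0 : 0 ≤ tm := (norm_nonneg _).trans (htm1 0)
  obtain ⟨B0, hB0⟩ : ∃ B0 : ℝ, B0 = ∑ j, ∑ k : Fin 4, ‖ψ (θ j)‖ ^ (k : ℕ) := ⟨_, rfl⟩
  have hB1 : ∀ j, ∑ k : Fin 4, ‖ψ (θ j)‖ ^ (k : ℕ) ≤ B0 := by
    intro j
    rw [hB0]
    exact single_le_sum (f := fun j => ∑ k : Fin 4, ‖ψ (θ j)‖ ^ (k : ℕ))
      (fun _ _ => sum_nonneg fun _ _ => by (clear * -; positivity)) (mem_univ j)
  have hB00 : 0 ≤ B0 := (sum_nonneg fun _ _ => by positivity).trans (hB1 0)
  obtain ⟨K4, hK4⟩ : ∃ K4 : ℝ, K4 = 4 * C * K2 * (C * B0) * tm + 1 := ⟨_, rfl⟩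
  have hK40 : 0 < K4 := by rw [hK4]; (clear * - hK2 hB00 htm0; positivity)
  refine ⟨K4 + 2 * tm, by (clear * - hK40 htm0; positivity), ?_⟩
  intro X T Y W hX hT hY hW
  have hT0 : 0 < T := by linarith only [hT]
  have hY0 : 0 < Y := by linarith only [hY, hK40, htm0]
  have hYn : ∀ n ∈ W, Y ≤ n := fun n hn => (hW n hn).1
  have hnX : ∀ n ∈ W, (n : ℝ) ≤ X := fun n hn => (hW n hn).2.1
  have hWd : ∀ n ∈ W, ∃ (p : ℕ) (c : ℤ) (y z : Fin 4 → ℤ), Dat θ C X T (a0 * n) p c y z :=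
    fun n hn => (hW n hn).2.2
  choose! p c y z hdat using hWd
  obtain ⟨Δ, hΔ⟩ : ∃ Δ : ℝ, Δ = Y ^ 2 / (K4 * T ^ 2) := ⟨_, rfl⟩
  have hΔ0 : 0 < Δ := by rw [hΔ]; (clear * - hY0 hK40 hT; positivity)
  have hC0 : (0 : ℝ) ≤ C := Nat.cast_nonneg C
  have hZ0 : 0 ≤ C * X / T ^ 2 := by (clear * - hX hT; positivity)
  -- the injection
  have hcard : W.card ≤ ((Icc (-(C : ℤ)) C) ×ˢ ((Fintype.piFinset
      (fun _ : Fin 4 => Icc (-(⌊C * X / T ^ 2⌋₊ : ℤ)) ⌊C * X / T ^ 2⌋₊)) ×ˢ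
        ((univ : Finset (Fin 4 → Bool)) ×ˢ range (⌊X / Δ⌋₊ + 1)))).card := by
    refine card_le_card_of_injOn (fun n => (c n, z n,
      (fun j => decide (0 ≤ (ψ (K.ell (θ j) (y n)) * g (c n) (z n) j).re)),
      ⌊(n : ℝ) / Δ⌋₊)) ?_ ?_
    · intro n hn
      have hd := hdat n hn
      rw [mem_coe, mem_product, mem_product, mem_product]
      refine ⟨?_, ?_, mem_univ _, ?_⟩
      · rw [mem_Icc]
        exact abs_le.1 hd.cC
      · rw [Fintype.mem_piFinset]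
        intro k
        rw [mem_Icc, ← abs_le]
        have h1 := hd.hz k
        have h2 : ((z n k).natAbs : ℝ) ≤ C * X / T ^ 2 := by
          rw [Nat.cast_natAbs]
          push_cast
          exact h1
        have h3 := Nat.le_floor h2
        rw [Int.abs_eq_natAbs]
        exact_mod_cast h3
      · rw [mem_range, Nat.lt_succ_iff]
        exact Nat.floor_le_floor (div_le_div_of_nonneg_right (hnX n hn) hΔ0.le)
    · intro n hn n' hn' heq
      simp only [Prod.mk.injEq] at heq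
      obtain ⟨hc, hz, hs, hf⟩ := heq
      have hd := hdat n hn
      have hd' := hdat n' hn'
      rw [← hc, ← hz] at hd' hs
      have hs' : ∀ j, 0 ≤ (ψ (K.ell (θ j) (y n)) * g (c n) (z n) j).re ↔
          0 ≤ (ψ (K.ell (θ j) (y n')) * g (c n) (z n) j).re := fun j =>
        decide_eq_decide.1 (congrFun hs j)
      have hdist : |(n' : ℝ) - n| < Δ := by
        have h1 : |(n' : ℝ) / Δ - n / Δ| < 1 := by
          have h2 := Nat.floor_le (show 0 ≤ (n : ℝ) / Δ by (clear * - hΔ0; positivity))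
          have h3 := Nat.lt_floor_add_one ((n : ℝ) / Δ)
          have h4 := Nat.floor_le (show 0 ≤ (n' : ℝ) / Δ by (clear * - hΔ0; positivity))
          have h5 := Nat.lt_floor_add_one ((n' : ℝ) / Δ)
          rw [hf] at h2 h3
          rw [abs_lt]
          constructor <;> linarith
        rw [← sub_div, abs_div, abs_of_pos hΔ0, div_lt_one hΔ0] at h1
        exact h1
      have hpar : ∀ i k, y n i * y n' k = y n k * y n' i := by
        intro i k
        have h1 := famg_minor θ ψ K2 hinv a0 (c n) ha0 hd.c0 (y n) (y n') (z n) n n' Y tm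
          (C * T) (C * T * B0) hY0 (hYn n hn) (hYn n' hn') htm1 (by linarith only [hY, hK40]) hd.hy
          (by (clear * - hT hB00; positivity)) (fun j => (data_upper ψ (θ j) (y n) (C * T) hd.hy).trans
            (mul_le_mul_of_nonneg_left (hB1 j) (by (clear * - hT; positivity))))
          (g (c n) (z n)) (hg (c n) (z n)) hd.eqn hd'.eqn hs' i k
        have h2 : 4 * (C * T) * K2 * (C * T * B0) * tm * |(n' : ℝ) - n| ≤
            K4 * T ^ 2 * |(n' : ℝ) - n| := by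
          refine mul_le_mul_of_nonneg_right ?_ (abs_nonneg _)
          rw [hK4]
          linarith only [sq_nonneg T]
        have h3 : K4 * T ^ 2 * |(n' : ℝ) - n| < Y ^ 2 := by
          rw [hΔ, lt_div_iff₀ (by (clear * - hK40 hT; positivity))] at hdist
          linarith only [hdist]
        have h4 : |((y n i * y n' k - y n k * y n' i : ℤ) : ℝ)| < 1 := by
          by_contra h5
          push Not at h5
          linarith only [mul_nonneg (sub_nonneg.2 h5) (sq_nonneg Y), h3, h2, h1]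
        have h5 : |y n i * y n' k - y n k * y n' i| < 1 := by exact_mod_cast h4
        have h6 := Int.abs_lt_one_iff.1 h5
        linarith
      have h1 := famg_parallel hinj hd hd' hpar
      have h2 := mul_left_cancel₀ ha0 h1
      exact_mod_cast h2
  have h1 : (W.card : ℝ) ≤ (((Icc (-(C : ℤ)) C) ×ˢ ((Fintype.piFinset
      (fun _ : Fin 4 => Icc (-(⌊C * X / T ^ 2⌋₊ : ℤ)) ⌊C * X / T ^ 2⌋₊)) ×ˢ
        ((univ : Finset (Fin 4 → Bool)) ×ˢ range (⌊X / Δ⌋₊ + 1)))).card : ℝ) := by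
    exact_mod_cast hcard
  refine h1.trans ?_
  rw [card_product, card_product, card_product, Fintype.card_piFinset, prod_const, card_univ,
    card_univ, card_range, Fintype.card_fin, Int.card_Icc, Int.card_Icc]
  have h2 : (Fintype.card (Fin 4 → Bool) : ℝ) = 16 := by
    simp
    try norm_num
  have h3 : (((C : ℤ) + 1 - -(C : ℤ)).toNat : ℝ) = 2 * C + 1 := by
    have : ((C : ℤ) + 1 - -(C : ℤ)).toNat = 2 * C + 1 := by omega
    rw [this]
    push_cast
    ring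
  have h4 : ((((⌊C * X / T ^ 2⌋₊ : ℕ) : ℤ) + 1 - -((⌊C * X / T ^ 2⌋₊ : ℕ) : ℤ)).toNat : ℝ) ≤
      2 * (C * X / T ^ 2) + 1 := by
    have h5 : (((⌊C * X / T ^ 2⌋₊ : ℕ) : ℤ) + 1 - -((⌊C * X / T ^ 2⌋₊ : ℕ) : ℤ)).toNat =
      2 * ⌊C * X / T ^ 2⌋₊ + 1 := by omega
    rw [h5]
    push_cast
    have := Nat.floor_le hZ0
    linarith only [this]
  have h5 : ((⌊X / Δ⌋₊ : ℕ) : ℝ) ≤ (K4 + 2 * tm) * X * T ^ 2 / Y ^ 2 := by
    refine (Nat.floor_le (by (clear * - hX hΔ0; positivity))).trans ?_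
    rw [hΔ, div_div_eq_mul_div]
    apply div_le_div_of_nonneg_right _ (by positivity)
    have h6 : 0 ≤ X * T ^ 2 := by positivity
    linarith only [mul_nonneg (sub_nonneg.2 htm0) (sub_nonneg.2 h6)]
  push_cast
  rw [h3]
  refine mul_le_mul_of_nonneg_left ?_ (by (clear * -; positivity))
  refine mul_le_mul (pow_le_pow_left₀ (by (clear * -; positivity)) h4 4) ?_ (by (clear * -; positivity)) (by (clear * - hX hT; positivity))
  rw [h2]
  linarith only [h5]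

end count

/-- few `γ`: every `γ` belongs to `O(1)` values of `n`. -/
theorem famG (f : ℤ[X]) (hirr : Irreducible (f.map (Int.castRingHom ℚ))) (hd : f.natDegree = 4)
    (a : ℝ) (h1 : 1.505 ≤ a) (h2 : a ≤ 2) : Near f a := by
  classical
  obtain ⟨L, _, _, θ, G, a0, C, ha0, -, -, -, hθi, -, hdat⟩ := exists_dat f hirr hd
  obtain ⟨X1, hX1⟩ := pairs_le f hirr hd a0 ha0
  obtain ⟨K5, hK5, hcount⟩ := famg_count θ hθi a0 ha0 C
  have hC0 : (0 : ℝ) ≤ C := Nat.cast_nonneg C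
  refine ⟨1 / 1000, by norm_num, 1 / 1000,
    4 * (1 + (2 * C + 1) * ((2 * C + 1) ^ 4 * (16 * (K5 + 1)))), by norm_num, by (clear * - hK5; positivity),
    C + X1 + 2 + ⌈(K5 + 1) ^ 2⌉₊, ?_⟩
  intro X P hX hXP hlog
  have hXC : C ≤ X := by omega
  have hXX1 : X1 ≤ X := by omega
  have hX2 : 2 ≤ X := by omega
  have hXK : (K5 + 1) ^ 2 ≤ X := by
    have e1 : ⌈(K5 + 1) ^ 2⌉₊ ≤ X := by omega
    exact Nat.ceil_le.1 e1
  have hXr : (2 : ℝ) ≤ X := by exact_mod_cast hX2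
  have hX0 : (0 : ℝ) < X := by linarith only [hXr]
  have hXr1 : (1 : ℝ) ≤ X := by linarith only [hXr]
  have hP0 : (0 : ℝ) < P := by exact_mod_cast (by omega : 0 < P)
  have hP1 : (1 : ℝ) ≤ P := by exact_mod_cast (by omega : 1 ≤ P)
  have hlX : 0 < Real.log X := Real.log_pos (by linarith only [hXr])
  obtain ⟨hl1, hl2⟩ := hlog
  rw [lt_div_iff₀ hlX] at hl1
  rw [div_lt_iff₀ hlX] at hl2
  obtain ⟨T, hT⟩ : ∃ T : ℝ, T = (P : ℝ) ^ (1 / 4 : ℝ) := ⟨_, rfl⟩
  have hT1 : 1 ≤ T := by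
    rw [hT]
    exact Real.one_le_rpow hP1 (by norm_num)
  have hT2 : T ^ 2 = (P : ℝ) ^ (1 / 2 : ℝ) := by
    rw [hT, ← Real.rpow_natCast, ← Real.rpow_mul hP0.le]
    norm_num
  have hTlo : (X : ℝ) ^ (0.752 : ℝ) ≤ T ^ 2 := by
    rw [hT2, ← Real.log_le_log_iff (by (clear * - hX2; positivity)) (by positivity), Real.log_rpow hX0,
      Real.log_rpow hP0]
    (by_contra nlg; linarith only [nlg, mul_nonneg (sub_nonneg.2 h1) (le_of_lt (sub_pos.2 hl2)), mul_nonneg (sub_nonneg.2 h1) (le_of_lt (sub_pos.2 hl1)), mul_nonneg (le_of_lt (sub_pos.2 (not_le.1 nlg))) (sub_nonneg.2 h2), mul_nonneg (le_of_lt (sub_pos.2 (not_le.1 nlg))) (sub_nonneg.2 h1), hl1])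
  have hThi : T ^ 2 ≤ (X : ℝ) ^ (1.0005 : ℝ) := by
    rw [hT2, ← Real.log_le_log_iff (by positivity) (by positivity), Real.log_rpow hX0,
      Real.log_rpow hP0]
    (by_contra nlg; linarith only [nlg, mul_nonneg (sub_nonneg.2 h2) (le_of_lt (sub_pos.2 hl2)), mul_nonneg (sub_nonneg.2 h2) (le_of_lt (sub_pos.2 hl1)), mul_nonneg (le_of_lt (sub_pos.2 (not_le.1 nlg))) (sub_nonneg.2 h2), mul_nonneg (le_of_lt (sub_pos.2 (not_le.1 nlg))) (sub_nonneg.2 h1), hl2])
  obtain ⟨Y, hY⟩ : ∃ Y : ℝ, Y = (X : ℝ) ^ (1 - 1 / 1000 : ℝ) := ⟨_, rfl⟩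
  have hY0 : 0 < Y := by rw [hY]; positivity
  have hYK : K5 ≤ Y := by
    have e1 : ((K5 + 1) ^ 2) ^ (1 / 2 : ℝ) ≤ (X : ℝ) ^ (1 / 2 : ℝ) :=
      Real.rpow_le_rpow (by positivity) hXK (by norm_num)
    have e2 : ((K5 + 1) ^ 2) ^ (1 / 2 : ℝ) = K5 + 1 := by
      rw [← Real.sqrt_eq_rpow, Real.sqrt_sq (by positivity)]
    have e3 : (X : ℝ) ^ (1 / 2 : ℝ) ≤ Y := by
      rw [hY]
      exact Real.rpow_le_rpow_of_exponent_le hXr1 (by norm_num)
    linarith only [e3, e2, e1]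
  -- the values of `n`
  obtain ⟨W, hW⟩ : ∃ W : Finset ℕ, W = (pairs f 2 X P).image (fun w => w.1) := ⟨_, rfl⟩
  have hWX : ∀ n ∈ W, 1 ≤ n ∧ n ≤ X := by
    intro n hn
    rw [hW] at hn
    obtain ⟨w, hw, rfl⟩ := mem_image.1 hn
    rw [pairs, mem_filter, mem_product, mem_Icc] at hw
    exact hw.1.1
  have hc1 : ((pairs f 2 X P).image (fun w => a0 * (w.1 : ℤ))).card ≤ W.card := by
    have e1 : (pairs f 2 X P).image (fun w => a0 * (w.1 : ℤ)) =
        W.image (fun n : ℕ => a0 * (n : ℤ)) := by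
      rw [hW, image_image]
      rfl
    rw [e1]
    exact card_image_le
  have hc2 : W.card = (W.filter (fun n : ℕ => (n : ℝ) < Y)).card +
      (W.filter (fun n : ℕ => ¬ (n : ℝ) < Y)).card := (card_filter_add_card_filter_not _).symm
  have hc3 : ((W.filter (fun n : ℕ => (n : ℝ) < Y)).card : ℝ) ≤ Y := by
    have e1 : (W.filter (fun n : ℕ => (n : ℝ) < Y)).card ≤ ⌊Y⌋₊ := by
      refine (card_le_card (t := Icc 1 ⌊Y⌋₊) ?_).trans (by simp)
      intro n hn
      rw [mem_filter] at hn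
      rw [mem_Icc]
      exact ⟨(hWX n hn.1).1, Nat.le_floor hn.2.le⟩
    exact le_trans (by exact_mod_cast e1) (Nat.floor_le hY0.le)
  have hc4 : ((W.filter (fun n : ℕ => ¬ (n : ℝ) < Y)).card : ℝ) ≤
      (2 * C + 1) * ((2 * (C * X / T ^ 2) + 1) ^ 4 *
        (16 * (K5 * X * T ^ 2 / Y ^ 2 + 1))) := by
    refine hcount X T Y _ hXr1 hT1 hYK ?_
    intro n hn
    rw [mem_filter] at hn
    obtain ⟨hn1, hn2⟩ := hn
    refine ⟨not_lt.1 hn2, by exact_mod_cast (hWX n hn1).2, ?_⟩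
    rw [hW] at hn1
    obtain ⟨w, hw, rfl⟩ := mem_image.1 hn1
    obtain ⟨c, y, z, h⟩ := hdat X P hXC hXP w hw
    rw [← hT] at h
    exact ⟨w.2, c, y, z, h⟩
  -- the powers of `X`
  have hp1 : 2 * (C * X / T ^ 2) + 1 ≤ (2 * C + 1) * (X : ℝ) ^ (0.248 : ℝ) := by
    have e1 : (X : ℝ) / T ^ 2 ≤ (X : ℝ) ^ (0.248 : ℝ) := by
      rw [div_le_iff₀ (by positivity)]
      calc (X : ℝ) = (X : ℝ) ^ (0.248 : ℝ) * (X : ℝ) ^ (0.752 : ℝ) := by
            rw [← Real.rpow_add hX0]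
            norm_num
        _ ≤ _ := mul_le_mul_of_nonneg_left hTlo (by positivity)
    have e2 : (1 : ℝ) ≤ (X : ℝ) ^ (0.248 : ℝ) := Real.one_le_rpow hXr1 (by norm_num)
    have e3 : C * (X : ℝ) / T ^ 2 = C * (X / T ^ 2) := by ring
    rw [e3]
    nlinarith
  have hp2 : K5 * X * T ^ 2 / Y ^ 2 + 1 ≤ (K5 + 1) * (X : ℝ) ^ (0.0025 : ℝ) := by
    have e1 : (X : ℝ) * T ^ 2 / Y ^ 2 ≤ (X : ℝ) ^ (0.0025 : ℝ) := by
      rw [div_le_iff₀ (by positivity)]
      have e4 : (X : ℝ) ^ (0.0025 : ℝ) * Y ^ 2 = X * (X : ℝ) ^ (1.0005 : ℝ) := by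
        rw [hY, ← Real.rpow_natCast, ← Real.rpow_mul hX0.le, ← Real.rpow_add hX0]
        nth_rewrite 2 [← Real.rpow_one (X : ℝ)]
        rw [← Real.rpow_add hX0]
        norm_num
      rw [e4]
      exact mul_le_mul_of_nonneg_left hThi hX0.le
    have e2 : (1 : ℝ) ≤ (X : ℝ) ^ (0.0025 : ℝ) := Real.one_le_rpow hXr1 (by norm_num)
    have e3 : K5 * X * T ^ 2 / Y ^ 2 = K5 * (X * T ^ 2 / Y ^ 2) := by ring
    rw [e3]
    linarith only [mul_nonneg (le_of_lt (sub_pos.2 hK5)) (sub_nonneg.2 e1), mul_nonneg (sub_nonneg.2 h2) (sub_nonneg.2 e2), mul_nonneg (sub_nonneg.2 h1) (sub_nonneg.2 e2)]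
  have hp3 : (2 * C + 1) * ((2 * (C * X / T ^ 2) + 1) ^ 4 *
        (16 * (K5 * X * T ^ 2 / Y ^ 2 + 1))) ≤
      (2 * C + 1) * ((2 * C + 1) ^ 4 * (16 * (K5 + 1))) * Y := by
    have e1 : (2 * (C * X / T ^ 2) + 1) ^ 4 ≤ ((2 * C + 1) * (X : ℝ) ^ (0.248 : ℝ)) ^ 4 :=
      pow_le_pow_left₀ (by (clear * - hX2 hT1; positivity)) hp1 4
    have e2 : (2 * (C * X / T ^ 2) + 1) ^ 4 * (16 * (K5 * X * T ^ 2 / Y ^ 2 + 1)) ≤
        ((2 * C + 1) * (X : ℝ) ^ (0.248 : ℝ)) ^ 4 * (16 * ((K5 + 1) * (X : ℝ) ^ (0.0025 : ℝ))) :=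
      mul_le_mul e1 (mul_le_mul_of_nonneg_left hp2 (by norm_num)) (by positivity)
        (by positivity)
    have e3 : ((X : ℝ) ^ (0.248 : ℝ)) ^ 4 * (X : ℝ) ^ (0.0025 : ℝ) ≤ Y := by
      rw [← Real.rpow_natCast, ← Real.rpow_mul hX0.le, ← Real.rpow_add hX0, hY]
      exact Real.rpow_le_rpow_of_exponent_le hXr1 (by norm_num)
    calc (2 * C + 1) * ((2 * (C * X / T ^ 2) + 1) ^ 4 * (16 * (K5 * X * T ^ 2 / Y ^ 2 + 1)))
        ≤ (2 * C + 1) * (((2 * C + 1) * (X : ℝ) ^ (0.248 : ℝ)) ^ 4 *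
            (16 * ((K5 + 1) * (X : ℝ) ^ (0.0025 : ℝ)))) :=
          mul_le_mul_of_nonneg_left e2 (by positivity)
      _ = (2 * C + 1) * ((2 * C + 1) ^ 4 * (16 * (K5 + 1))) *
            (((X : ℝ) ^ (0.248 : ℝ)) ^ 4 * (X : ℝ) ^ (0.0025 : ℝ)) := by ring
      _ ≤ _ := mul_le_mul_of_nonneg_left e3 (by (clear * - hK5; positivity))
  have hfin := hX1 X P hXX1 hXP
  have hfin' : ((pairs f 2 X P).card : ℝ) ≤ 4 * W.card := by
    exact_mod_cast hfin.trans (Nat.mul_le_mul_left 4 hc1)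
  have hc2' : (W.card : ℝ) = ((W.filter (fun n : ℕ => (n : ℝ) < Y)).card : ℝ) +
      ((W.filter (fun n : ℕ => ¬ (n : ℝ) < Y)).card : ℝ) := by exact_mod_cast hc2
  rw [← hY]
  calc ((pairs f 2 X P).card : ℝ) ≤ 4 * W.card := hfin'
    _ ≤ 4 * (Y + (2 * C + 1) * ((2 * C + 1) ^ 4 * (16 * (K5 + 1))) * Y) := by
        rw [hc2']
        linarith only [hp3, hc4, hc3]
    _ = _ := by ring

end Vale.Agent.P018.Q
end

section

/-! # P018, (B), relation step: the entries of the matrices in a cell. -/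

namespace Vale.Agent.P018.QB

open Polynomial NumberField Vale.Agent.P018.Q

/-- the hypotheses on the points of a cell. -/
structure Cell {L : Type} [Field L] [NumberField L] (θ : Fin 4 → 𝓞 L) (C : ℕ) (X T U ρ : ℝ)
    (c : ℤ) (g1 g2 : Fin 4 → ℤ) (w0 : ℝ) (S : Finset ℤ) (p : ℤ → ℕ) (y : ℤ → Fin 4 → ℤ)
    (u1 u2 : ℤ → ℤ) : Prop where
  ns : NonSpec θ g1 g2
  hU : (X / T ^ 2) ^ 2 ≤ C * U ^ 2 * dot g2 g2
  dat : ∀ N ∈ S, BDat θ C X T U c g1 g2 N (p N) (y N) (u1 N) (u2 N)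
  cell : ∀ N ∈ S, ∀ (φ : L →+* ℂ) (j : Fin 4),
    |(u2 N : ℝ) / u1 N - w0| * ‖cf θ φ g2 j‖ ≤ ρ * ‖cf θ φ g1 j + w0 * cf θ φ g2 j‖

/-- linearity. -/
theorem ent_ell {R : Type*} [CommRing R] (t : R) (a b : ℤ) (g1 g2 : Fin 4 → ℤ) :
    K.ell t (fun j => a * g1 j + b * g2 j) = (a : R) * el t g1 + (b : R) * el t g2 := by
  unfold el K.ell
  rw [Finset.mul_sum, Finset.mul_sum, ← Finset.sum_add_distrib]
  refine Finset.sum_congr rfl fun j _ => ?_
  push_cast
  ring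

/-- the sizes of the conjugates. -/
theorem ent_sizes {L : Type} [Field L] [NumberField L] (θ : Fin 4 → 𝓞 L)
    (hinj : Function.Injective θ) (C : ℕ) : ∃ A : ℝ, 1 ≤ A ∧
    (∀ (φ : L →+* ℂ) (j : Fin 4), ‖φ (θ j : L)‖ ≤ A) ∧
    (∀ (φ : L →+* ℂ) (g : Fin 4 → ℤ) (M : ℝ), 0 ≤ M → (∀ j, ‖cf θ φ g j‖ ≤ M) →
      (dot g g : ℝ) ≤ (A * M) ^ 2) ∧
    ∀ (X T : ℝ) (N : ℤ) (p : ℕ) (c : ℤ) (y z : Fin 4 → ℤ), 1 ≤ T → A ≤ X →
      Dat θ C X T N p c y z → X ≤ C * |(N : ℝ)| → ∀ (φ : L →+* ℂ) (j : Fin 4),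
        N ≠ 0 ∧ ‖(N : ℂ)⁻¹‖ ≤ A / X ∧ ‖φ ((K.ell (θ j) y : 𝓞 L) : L)‖ ≤ A * T ∧
          φ ((K.ell (θ j) z : 𝓞 L) : L) ≠ 0 ∧
          ‖φ ((K.ell (θ j) z : 𝓞 L) : L)‖ ≤ A * (X / T ^ 2) := by
  classical
  obtain ⟨K1, hK10, hK1⟩ := dat_lower θ C
  have hinv : ∀ φ : L →+* ℂ, ∃ K2 : ℝ, 0 < K2 ∧ ∀ (u v : Fin 4 → ℤ) (α β M : ℝ),
      (∀ j, ‖(α : ℂ) * (φ.comp (algebraMap (𝓞 L) L)) (K.ell (θ j) u) -
        (β : ℂ) * (φ.comp (algebraMap (𝓞 L) L)) (K.ell (θ j) v)‖ ≤ M) →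
      ∀ k, |α * u k - β * v k| ≤ K2 * M := fun φ =>
    famg_inv θ hinj (φ.comp (algebraMap (𝓞 L) L))
      (φ.injective.comp RingOfIntegers.coe_injective)
  choose K2 hK20 hK2 using hinv
  obtain ⟨A0, hA0⟩ : ∃ A0 : ℝ, A0 = 1 + ∑ φ : L →+* ℂ, ∑ j, ‖φ (θ j : L)‖ := ⟨_, rfl⟩
  have hA01 : 1 ≤ A0 := by
    have : 0 ≤ ∑ φ : L →+* ℂ, ∑ j, ‖φ (θ j : L)‖ :=
      Finset.sum_nonneg fun _ _ => Finset.sum_nonneg fun _ _ => norm_nonneg _
    linarith
  have hθ : ∀ (φ : L →+* ℂ) (j : Fin 4), ‖φ (θ j : L)‖ ≤ A0 := by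
    intro φ j
    have h1 : ‖φ (θ j : L)‖ ≤ ∑ j, ‖φ (θ j : L)‖ :=
      Finset.single_le_sum (f := fun j => ‖φ (θ j : L)‖) (fun _ _ => norm_nonneg _)
        (Finset.mem_univ j)
    have h2 : ∑ j, ‖φ (θ j : L)‖ ≤ ∑ φ : L →+* ℂ, ∑ j, ‖φ (θ j : L)‖ :=
      Finset.single_le_sum (f := fun φ : L →+* ℂ => ∑ j, ‖φ (θ j : L)‖)
        (fun _ _ => Finset.sum_nonneg fun _ _ => norm_nonneg _) (Finset.mem_univ φ)
    linarith
  have hK2s : ∀ φ, K2 φ ≤ ∑ φ, K2 φ := fun φ =>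
    Finset.single_le_sum (fun φ _ => (hK20 φ).le) (Finset.mem_univ φ)
  have hK2n : 0 ≤ ∑ φ, K2 φ := Finset.sum_nonneg fun φ _ => (hK20 φ).le
  obtain ⟨A, hA⟩ : ∃ A : ℝ, A = (C + 1) * (A0 + 1) + K1⁻¹ + C * (C + 1) / K1 ^ 2 +
    2 * ∑ φ, K2 φ := ⟨_, rfl⟩
  have hC0 : (0 : ℝ) ≤ C := Nat.cast_nonneg C
  have p1 : 0 < K1⁻¹ := by positivity
  have p2 : 0 ≤ C * (C + 1) / K1 ^ 2 := by (clear * - hK10; positivity)
  have p3 : A0 + 1 ≤ (C + 1) * (A0 + 1) := by linarith only [mul_nonneg (sub_nonneg.2 hA01) (sub_nonneg.2 hC0), mul_nonneg (mul_self_nonneg (1 : ℝ)) (sub_nonneg.2 hC0)]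
  have hAA0 : A0 + 1 ≤ A := by linarith only [p3, p2, p1, hA, hK2n]
  have hAC : (C + 1) * (A0 + 1) ≤ A := by linarith
  refine ⟨A, by linarith, fun φ j => (hθ φ j).trans (by linarith only [p3, p2, p1, hA, hK2n]), ?_, ?_⟩
  · intro φ g M hM0 hM
    have h1 : ∀ k, |(g k : ℝ)| ≤ (∑ φ, K2 φ) * M := by
      intro k
      have h2 := hK2 φ g 0 1 0 M (by
        intro j
        have h3 : ((1 : ℝ) : ℂ) * (φ.comp (algebraMap (𝓞 L) L)) (K.ell (θ j) g) -
            ((0 : ℝ) : ℂ) * (φ.comp (algebraMap (𝓞 L) L)) (K.ell (θ j) (0 : Fin 4 → ℤ)) = cf θ φ g j := by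
          rw [Complex.ofReal_one, Complex.ofReal_zero, one_mul, zero_mul, sub_zero]
          rfl
        rw [h3]
        exact hM j) k
      have h4 : |(1 : ℝ) * g k - 0 * ((0 : Fin 4 → ℤ) k : ℝ)| = |(g k : ℝ)| := by
        congr 1
        ring
      rw [h4] at h2
      exact h2.trans (mul_le_mul_of_nonneg_right (hK2s φ) hM0)
    have h5 : (dot g g : ℝ) ≤ ∑ _k : Fin 4, ((∑ φ, K2 φ) * M) ^ 2 := by
      unfold dot
      push_cast
      refine Finset.sum_le_sum fun k _ => ?_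
      rw [← pow_two, ← sq_abs]
      exact pow_le_pow_left₀ (abs_nonneg _) (h1 k) 2
    refine h5.trans ?_
    rw [Finset.sum_const, Finset.card_univ, Fintype.card_fin, nsmul_eq_mul]
    have h6 : 2 * ((∑ φ, K2 φ) * M) ≤ A * M := by
      have : 2 * ∑ φ, K2 φ ≤ A := by
        have : 0 ≤ (C + 1) * (A0 + 1) := by positivity
        linarith
      linarith only [mul_nonneg (sub_nonneg.2 hM0) (sub_nonneg.2 this)]
    have h7 : 0 ≤ (∑ φ, K2 φ) * M := by positivity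
    have h8 := pow_le_pow_left₀ (by positivity) h6 2
    push_cast
    linarith only [h8]
  · intro X T N p c y z hT hX hd hlow φ j
    have hX0 : 0 < X := by linarith
    have hAp : 0 < A := by linarith only [p3, p2, p1, hA, hK2n, hA01]
    have hT0 : 0 < T := by linarith
    have hc1 : (1 : ℝ) ≤ |(c : ℝ)| := by exact_mod_cast Int.one_le_abs hd.c0
    have hcC : |(c : ℝ)| ≤ C := by exact_mod_cast hd.cC
    have hC1 : (1 : ℝ) ≤ C := hc1.trans hcC
    have hN1 : X / C ≤ |(N : ℝ)| := by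
      rw [div_le_iff₀ (by linarith)]
      linarith
    have hNA : A0 + 1 ≤ |(N : ℝ)| := by
      refine le_trans ?_ hN1
      rw [le_div_iff₀ (by linarith only [hC1])]
      linarith only [hX, p2, p1, hA, hK2n, hA01]
    have hN0 : (N : ℝ) ≠ 0 := by
      intro h
      rw [h, abs_zero] at hNA
      linarith only [hNA, hA01]
    have hNz : N ≠ 0 := by exact_mod_cast hN0
    obtain ⟨hp1, hp2⟩ := hK1 X T N p c y z hT hd φ j
    have hpi : φ ((K.ell (θ j) y : 𝓞 L) : L) ≠ 0 := by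
      intro h
      rw [h, norm_zero] at hp1
      have : 0 < K1 * T := by positivity
      linarith only [this, hp1]
    have heq : (c : ℂ) * ((N : ℂ) - φ (θ j : L)) =
        φ ((K.ell (θ j) y : 𝓞 L) : L) ^ 2 * φ ((K.ell (θ j) z : 𝓞 L) : L) := by
      have := congrArg (fun x : 𝓞 L => φ (x : L)) (hd.eqn j)
      simpa using this
    have hsub : 1 ≤ ‖(N : ℂ) - φ (θ j : L)‖ := by
      have h1 := norm_sub_norm_le (N : ℂ) (φ (θ j : L))
      rw [Complex.norm_intCast] at h1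
      have h2 := hθ φ j
      linarith
    have hsub2 : ‖(N : ℂ) - φ (θ j : L)‖ ≤ (C + 1) * X := by
      have h1 := norm_sub_le (N : ℂ) (φ (θ j : L))
      rw [Complex.norm_intCast] at h1
      have h2 := hθ φ j
      have h3 := hd.hN
      linarith
    refine ⟨hNz, ?_, ?_, ?_, ?_⟩
    · rw [norm_inv, Complex.norm_intCast]
      rw [inv_le_comm₀ (by positivity) (by positivity), inv_div]
      refine le_trans ?_ hN1
      refine div_le_div_of_nonneg_left hX0.le (by linarith only [hC1]) ?_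
      (by_contra nlg; linarith [mul_nonneg (sub_nonneg.2 hX) (sub_nonneg.2 hC1), mul_nonneg (sub_nonneg.2 hAC) (le_of_lt (sub_pos.2 hAp)), mul_nonneg (sub_nonneg.2 hAC) (sub_nonneg.2 hX), mul_nonneg (sub_nonneg.2 hAA0) (sub_nonneg.2 hC1), mul_nonneg (sub_nonneg.2 hA01) (sub_nonneg.2 hsub2), mul_nonneg (sub_nonneg.2 hA01) (sub_nonneg.2 hsub), mul_pos (sub_pos.2 (not_le.1 nlg)) (sub_pos.2 hX0), mul_nonneg (mul_self_nonneg (1 : ℝ)) (sub_nonneg.2 hC1), mul_nonneg (mul_self_nonneg (1 : ℝ)) (le_of_lt (sub_pos.2 hX0))])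
    · refine hp2.trans ?_
      refine mul_le_mul_of_nonneg_right ?_ hT0.le
      linarith only [p3, p2, hA, hK2n, hA01]
    · intro h
      rw [h, mul_zero] at heq
      rcases mul_eq_zero.1 heq with h1 | h1
      · exact hd.c0 (by exact_mod_cast h1)
      · rw [h1, norm_zero] at hsub
        linarith only [hsub]
    · have h1 := congrArg norm heq
      rw [norm_mul, norm_mul, norm_pow, Complex.norm_intCast] at h1
      have h2 : |(c : ℝ)| * ‖(N : ℂ) - φ (θ j : L)‖ ≤ C * ((C + 1) * X) :=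
        mul_le_mul hcC hsub2 (norm_nonneg _) (by linarith only [hC1])
      have h3 : (K1 * T) ^ 2 ≤ ‖φ ((K.ell (θ j) y : 𝓞 L) : L)‖ ^ 2 :=
        pow_le_pow_left₀ (by positivity) hp1 2
      have h4 : (K1 * T) ^ 2 * ‖φ ((K.ell (θ j) z : 𝓞 L) : L)‖ ≤ C * ((C + 1) * X) := by
        refine le_trans ?_ h2
        rw [h1]
        exact mul_le_mul_of_nonneg_right h3 (norm_nonneg _)
      have h5 : ‖φ ((K.ell (θ j) z : 𝓞 L) : L)‖ ≤ C * ((C + 1) * X) / (K1 * T) ^ 2 := by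
        rw [le_div_iff₀ (by positivity)]
        linarith only [h4]
      refine h5.trans ?_
      have h6 : C * ((C + 1) * X) / (K1 * T) ^ 2 = (C * (C + 1) / K1 ^ 2) * (X / T ^ 2) := by
        field_simp
      rw [h6]
      refine mul_le_mul_of_nonneg_right ?_ (by (clear * - hX0 hT; positivity))
      linarith only [p3, p1, hA, hK2n, hA01]

/-- the entries in a cell, for one embedding `φ` and one sign class.
Proof.  Put `α_j = φ θ_j`, `d_j = cf g1 j + w0 cf g2 j` (`≠ 0`, otherwise `z_j = 0`),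
`a_j = cf g2 j / d_j`, `a_* = max |a_j| > 0`, `w_N = u2/u1 - w0`, `ω = a_* w_N` (`|ω| ≤ ρ`),
`b_j = a_j / a_*`, `v = 1/N`.  Then `z_j = u1 d_j (1 + b_j ω)` and
`π_j^2 = (c N/u1) d_j^(-1) (1 - α_j v) (1 + b_j ω)^(-1)`, so
`π_j = s_j r_N h_j sq(-α_j v) isq(b_j ω)` with `r_N^2 = c N/u1`, `h_j^2 = 1/d_j`, `s_j = ±1`
(the sign class of `N`).  The entry is
`u1^i (w0 + ω/a_*)^(a2) r_N^(2m) ∏ (s_j h_j)^(e_j) ∏ sq(-α_j v)^(e_j) ∏ isq(b_j ω)^(e_j)`.
Let `U1 = max |u1|`, `R1 = max |r_N|` over the class; `R1 |h_j| ≤ K T`, `U1 ≤ U`, `U1 |w0| ≤ K U`,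
`U1/a_* ≤ K U` (because `|u1|/a_* = min_j |u1 d_j|/|cf g2 j| ≤ 2 min_j |z_j|/|cf g2 j|
≤ K (X/T^2)/|g2|` and `hU`).  Row factor `(u1/U1)^i (r_N/R1)^(2m)`; `entry_expand` with
`x0 = U1 w0/U`, `x1 = U1/(a_* U)` and the factor `U1^(a1) U^(a2) R1^(2m) ∏ (s_j h_j)^(e_j)`,
which is `≤ K U^i T^(2m)`. -/
theorem entries {L : Type} [Field L] [NumberField L] (θ : Fin 4 → 𝓞 L) (G : ℤ[X])
    (hG : Root4 θ G) (C i m R : ℕ) :
    ∃ K : ℝ, 1 ≤ K ∧ ∀ (X T U ρ : ℝ), 1 ≤ T → K ≤ X → 0 < ρ → ρ ≤ 1 / 2 → 1 ≤ U →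
      ∀ (c : ℤ) (g1 g2 : Fin 4 → ℤ) (w0 : ℝ) (S : Finset ℤ) (p : ℤ → ℕ)
        (y : ℤ → Fin 4 → ℤ) (u1 u2 : ℤ → ℤ), Cell θ C X T U ρ c g1 g2 w0 S p y u1 u2 →
      ∀ φ : L →+* ℂ, ∃ (sg : ℤ → Fin 4 → ℤˣ), ∀ s : Fin 4 → ℤˣ,
        ∃ (co : Ix → ℕ → ℕ → ℂ) (rr v ω : ℤ → ℂ),
          (∀ x ∈ mons i (2 * m), ∀ τ k, ‖co x τ k‖ ≤ K * (U ^ i * T ^ (2 * m))) ∧
          ∀ N ∈ S, sg N = s → ‖rr N‖ ≤ 1 ∧ ‖v N‖ ≤ K / X ∧ ‖ω N‖ ≤ ρ ∧
            ∀ x ∈ mons i (2 * m),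
              ∃ er : ℂ, ‖er‖ ≤ K * (U ^ i * T ^ (2 * m)) * (‖v N‖ ^ R + ‖ω N‖ ^ R) ∧
              φ ((fv ((u1 N : ℤ) : 𝓞 L) ((u2 N : ℤ) : 𝓞 L) (pv θ (y N)) x : 𝓞 L) : L) =
                rr N * (∑ τ ∈ Finset.range R, ∑ k ∈ Finset.range R,
                  co x τ k * v N ^ τ * ω N ^ k + er) := by
  classical
  obtain ⟨A, hA1, hAθ, hAd, hAs⟩ := ent_sizes θ hG.inj C
  have hC0 : (0 : ℝ) ≤ C := Nat.cast_nonneg C
  obtain ⟨A', hA'⟩ : ∃ A' : ℝ, A' = (C + 1) * A := ⟨_, rfl⟩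
  have hAA' : A ≤ A' := by rw [hA']; nlinarith
  have hA'1 : 1 ≤ A' := hA1.trans hAA'
  obtain ⟨Kc, hKc, hcore⟩ := ent_core R i m A' hA'1
  have hp : 0 ≤ 4 * A' ^ 2 * A := by positivity
  refine ⟨Kc + 4 * A' ^ 2 * A + A, by linarith only [hp, hKc, hA1], ?_⟩
  intro X T U ρ hT hX hρ hρ2 hU c g1 g2 w0 S p y u1 u2 hcell φ
  have hX0 : 0 < X := by linarith only [hρ2, hρ, hX, hp, hKc, hA1]
  have hT0 : 0 < T := by linarith
  have hU0 : 0 < U := by linarith
  have hUT : 0 ≤ U ^ i * T ^ (2 * m) := by positivity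
  rcases S.eq_empty_or_nonempty with hSe | ⟨N0, hN0⟩
  · refine ⟨fun _ _ => 1, fun s => ⟨fun _ _ _ => 0, fun _ => 0, fun _ => 0, fun _ => 0, ?_, ?_⟩⟩
    · intro x _ τ k
      rw [norm_zero]
      exact mul_nonneg (by linarith) hUT
    · intro N hN
      rw [hSe] at hN
      exact absurd hN (Finset.notMem_empty _)
  obtain ⟨j0, -, hj0⟩ := Finset.exists_max_image (Finset.univ : Finset (Fin 4))
    (fun j => ‖cf θ φ g2 j‖) Finset.univ_nonempty
  have hB : X / T ^ 2 ≤ A' * U * ‖cf θ φ g2 j0‖ := by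
    have h1 := hAd φ g2 ‖cf θ φ g2 j0‖ (norm_nonneg _) fun j => hj0 j (Finset.mem_univ j)
    have h2 : (X / T ^ 2) ^ 2 ≤ (A' * U * ‖cf θ φ g2 j0‖) ^ 2 := by
      calc (X / T ^ 2) ^ 2 ≤ C * U ^ 2 * dot g2 g2 := hcell.hU
        _ ≤ C * U ^ 2 * (A * ‖cf θ φ g2 j0‖) ^ 2 :=
            mul_le_mul_of_nonneg_left h1 (by (clear * - hU; positivity))
        _ ≤ (C + 1) ^ 2 * U ^ 2 * (A * ‖cf θ φ g2 j0‖) ^ 2 := by
            refine mul_le_mul_of_nonneg_right ?_ (by positivity)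
            refine mul_le_mul_of_nonneg_right ?_ (by positivity)
            nlinarith
        _ = (A' * U * ‖cf θ φ g2 j0‖) ^ 2 := by rw [hA']; ring
    exact (pow_le_pow_iff_left₀ (by positivity) (by positivity) (by norm_num)).1 h2
  have hc0 : (c : ℂ) ≠ 0 := by
    have := (hcell.dat N0 hN0).dat.c0
    exact_mod_cast this
  obtain ⟨sg, hsg⟩ := hcore T U ρ hT hρ hρ2 hU (fun j => φ (θ j : L)) (cf θ φ g1) (cf θ φ g2)
    (c : ℂ) w0 (X / T ^ 2) S u1 u2 (fun N j => φ ((pv θ (y N) j : 𝓞 L) : L)) j0 hc0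
    (fun j => (hAθ φ j).trans hAA') (by positivity) hB (by
      intro N hN
      have hb := hcell.dat N hN
      have hz : ∀ j, φ ((K.ell (θ j) (fun j => u1 N * g1 j + u2 N * g2 j) : 𝓞 L) : L) =
          (u1 N : ℂ) * cf θ φ g1 j + u2 N * cf θ φ g2 j := by
        intro j
        rw [ent_ell]
        simp [cf]
      have hs := fun j => hAs X T N (p N) c (y N) _ hT (by linarith) hb.dat hb.lowN φ j
      refine ⟨(hs 0).1, hb.u10, hb.hu1, hb.hu2, ?_, fun j => ?_⟩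
      · refine (hs 0).2.1.trans ?_
        rw [div_le_div_iff₀ hX0 (by positivity)]
        linarith
      · obtain ⟨-, -, s1, s2, s3⟩ := hs j
        rw [hz] at s2 s3
        refine ⟨s1.trans (mul_le_mul_of_nonneg_right hAA' hT0.le), s2,
          s3.trans (mul_le_mul_of_nonneg_right hAA' (by positivity)), ?_, hcell.cell N hN φ j⟩
        have := congrArg (fun x : 𝓞 L => φ (x : L)) (hb.dat.eqn j)
        simp only [map_mul, map_sub, map_pow, map_intCast] at this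
        rw [hz] at this
        simpa [pv] using this)
  refine ⟨sg, fun s => ?_⟩
  obtain ⟨co, rr, ω, h1, h2⟩ := hsg s
  have hK0 : Kc * (U ^ i * T ^ (2 * m)) ≤ (Kc + 4 * A' ^ 2 * A + A) * (U ^ i * T ^ (2 * m)) :=
    mul_le_mul_of_nonneg_right (by linarith) hUT
  refine ⟨co, rr, fun N => (N : ℂ)⁻¹, ω, fun x hx τ k => (h1 x hx τ k).trans hK0, ?_⟩
  intro N hN hs
  obtain ⟨h3, h4, h5⟩ := h2 N hN hs
  have hb := hcell.dat N hN
  refine ⟨h3, ?_, h4, fun x hx => ?_⟩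
  · refine (hAs X T N (p N) c (y N) _ hT (by linarith) hb.dat hb.lowN φ 0).2.1.trans ?_
    exact div_le_div_of_nonneg_right (by linarith) hX0.le
  · obtain ⟨er, h6, h7⟩ := h5 x hx
    refine ⟨er, h6.trans (mul_le_mul_of_nonneg_right hK0 (by (clear * -; positivity))), ?_⟩
    rw [← h7]
    simp [fv, map_prod]

end Vale.Agent.P018.QB
end

section

/-! # P018, (B): number of independent functions on the surface.

Proof.  Write `x_j = π_j^2 = c (n - α_j)/γ_j(w)`, `γ_j = g1_j + w g2_j`, `F = ℂ(n,w) ⊂ Ω`.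
(1) Kummer: for `ε ∈ {0,1}^4`, `ε ≠ 0`, `∏ x_j^{ε_j}` is not a square in `F` (as a polynomial in `n`
it is squarefree of positive degree), hence the 16 products `π^ε` are linearly independent over `F`
(`kummer_indep`).  So the dimension is the sum over the 8 even classes `|ε| = 0 (1), 2 (6), 4 (1)`,
of the dimension of the span of `w^a x^f`, `a ≤ i`, `|f| = m' = m - |ε|/2`.
(2) That dimension is at least `(m'+1)(m'+i+1)`: the functions `w^a x_0^b x_1^(m'-b)` (`a ≤ i`) and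
`x_j^c x_0^b x_1^(m'-b-c)` (`j = 2,3`, `c ≥ 1`, `b + c ≤ m'`) are independent: look at the poles at
`γ_2 = 0`, then at `γ_3 = 0`, (there `(n-α_0)^b (n-α_1)^(m'-b-c)`, `b ≤ m'-c`, are independent
polynomials in `n`), then multiply by `(γ_0 γ_1)^m'` and use the independence of
`(n-α_0)^b (n-α_1)^(m'-b)`. -/

namespace Vale.Agent.P018.QB.Surf

open Polynomial Module

theorem core {Ω : Type*} [Field Ω] [Algebra ℂ Ω] {n w : Ω} (hφ : Function.Injective (phi n w))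
    {α g1 g2 : Fin 4 → ℂ} {c : ℂ} (hα : Function.Injective α) (hc : c ≠ 0)
    {pi : Fin 4 → Ω}
    (hne : ∀ j, (aeval w (gam g1 g2 j) : Ω) ≠ 0)
    (hpi : ∀ j, pi j ^ 2 * aeval w (gam g1 g2 j) = algebraMap ℂ Ω c * (n - algebraMap ℂ Ω (α j)))
    (M i D : ℕ) (hD : D ≤ finrank ℂ (W α g1 g2 M i)) (S : Submodule ℂ Ω) [FiniteDimensional ℂ S]
    (hS : ∀ (T : Finset (Fin 3)) (a : ℕ) (f : Fin 4 → ℕ), a ≤ i → ∑ j, f j = M →
      w ^ a * ((∏ j, pi j ^ eT T j) * ∏ j, pi j ^ (2 * f j)) ∈ S) :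
    8 * D ≤ finrank ℂ S := by
  classical
  have hg : ∀ j, gam g1 g2 j ≠ 0 := fun j h0 => hne j (by rw [h0, map_zero])
  obtain ⟨b, hb⟩ := exists_linearIndependent_of_le_finrank hD
  have hb' : LinearIndependent ℂ ((W α g1 g2 M i).subtype ∘ b) :=
    hb.map_injOn (W α g1 g2 M i).subtype (Subtype.val_injective.injOn)
  have hind := indep hφ hα hc hg hpi _ hb'
  have hprod : (∏ j, aeval w (gam g1 g2 j) : Ω) ≠ 0 := Finset.prod_ne_zero_iff.mpr fun j _ => hne j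
  have hκ0 : algebraMap ℂ Ω c / ∏ j, aeval w (gam g1 g2 j) ≠ 0 :=
    div_ne_zero (by simpa using hc) hprod
  have hmem : ∀ x : Finset (Fin 3) × Fin D,
      (algebraMap ℂ Ω c / ∏ j, aeval w (gam g1 g2 j)) ^ M *
        ((∏ j, pi j ^ eT x.1 j) * phi n w (b x.2)) ∈ S := fun x =>
    mem_aux hne hpi M i S _ (hS x.1) _ (b x.2).2
  generalize algebraMap ℂ Ω c / ∏ j, aeval w (gam g1 g2 j) = κ at hκ0 hmem
  have hinj : Function.Injective (LinearMap.mulLeft ℂ (κ ^ M)) := fun x y hxy =>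
    mul_left_cancel₀ (pow_ne_zero _ hκ0) hxy
  have hind2 := hind.map_injOn (LinearMap.mulLeft ℂ (κ ^ M)) hinj.injOn
  have hind3 : LinearIndependent ℂ fun x : Finset (Fin 3) × Fin D => (⟨_, hmem x⟩ : S) :=
    LinearIndependent.of_comp S.subtype hind2
  have h9 := hind3.fintype_card_le_finrank
  rw [Fintype.card_prod, Fintype.card_finset, Fintype.card_fin, Fintype.card_fin] at h9
  have h10 : (2 : ℕ) ^ 3 = 8 := by norm_num
  rw [h10] at h9
  exact h9

end Vale.Agent.P018.QB.Surf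

namespace Vale.Agent.P018.QB

open Polynomial NumberField Vale.Agent.P018.Q

theorem surf_rank (α g1 g2 : Fin 4 → ℂ) (c : ℂ) (h : Lat α g1 g2 c) (Ω : Type) [Field Ω]
    [Algebra ℂ Ω] (n w : Ω) (pi : Fin 4 → Ω) (hM : Mdl α g1 g2 c Ω n w pi)
    (hgen : ∀ F, evB n w F = 0 → F = 0) (i m : ℕ) (hm : 2 ≤ m) :
    8 * (m - 1) * (m - 1 + i) ≤ Module.finrank ℂ (spn w pi (mons i (2 * m) : Set Ix)) := by
  obtain ⟨M, rfl⟩ : ∃ M, m = M + 2 := ⟨m - 2, by omega⟩
  have hgam : ∀ j, aeval w (Surf.gam g1 g2 j) = algebraMap ℂ Ω (g1 j) + w * algebraMap ℂ Ω (g2 j) := by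
    intro j
    rw [Surf.gam, map_add, map_mul, aeval_C, aeval_C, aeval_X, mul_comm]
  have hφ : Function.Injective (Surf.phi n w) := by
    rw [injective_iff_map_eq_zero]
    exact hgen
  have : FiniteDimensional ℂ (spn w pi (mons i (2 * (M + 2)) : Set Ix)) :=
    FiniteDimensional.span_of_finite ℂ ((Finset.finite_toSet _).image _)
  have h1 := Surf.core hφ h.inj h.c0 (pi := pi) (fun j => by rw [hgam]; exact hM.ne j)
    (fun j => by rw [hgam]; exact hM.eq j) M i _ (Surf.finrank_W h.inj h.ns M i)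
    (spn w pi (mons i (2 * (M + 2)) : Set Ix)) ?_
  · have h2 : M + 2 - 1 = M + 1 := rfl
    rw [h2, mul_assoc]
    exact h1
  · intro T a f ha hf
    refine Submodule.subset_span ⟨((i - a, a), fun j => Surf.eT T j + 2 * f j), ?_, ?_⟩
    · simp only [mons, Finset.coe_product, Set.mem_prod, Finset.mem_coe,
        Finset.HasAntidiagonal.mem_antidiagonal, Finset.mem_piAntidiag]
      refine ⟨by omega, ?_, by simp⟩
      rw [Finset.sum_add_distrib, Surf.eT_sum, ← Finset.mul_sum, hf]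
      ring
    · simp only [fv, one_pow, one_mul, pow_add, Finset.prod_mul_distrib]

end Vale.Agent.P018.QB
end

section

/-! # P018, quartics, family (B): a non square on curves of degree two in `n`. -/

namespace Vale.Agent.P018.Q.NonSq

open Polynomial

variable {k : Type*} [Field k]

/-- if the product of two values is a square in the field of fractions, it is a square -/
lemma isSquare_of_frac {p : k[X]} {z : FractionRing k[X]}
    (hz : algebraMap k[X] (FractionRing k[X]) p = z ^ 2) : ∃ y : k[X], p = y ^ 2 := by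
  have hint : IsIntegral k[X] z := by
    refine ⟨X ^ 2 - C p, ?_, ?_⟩
    · exact monic_X_pow_sub_C p two_ne_zero
    · simp [hz]
  obtain ⟨y, hy⟩ := IsIntegrallyClosed.isIntegral_iff.1 hint
  refine ⟨y, ?_⟩
  apply IsFractionRing.injective k[X] (FractionRing k[X])
  rw [hz, ← hy, map_pow]

/-- the value of the product of the conjugates is in the base field -/
lemma conj_prod {F Ω : Type*} [Field F] [Field Ω] [Algebra F Ω] (a b c : F)
    (n1 n2 : Ω)
    (h1 : n1 + n2 = algebraMap F Ω (-b / a)) (h2 : n1 * n2 = algebraMap F Ω (c / a))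
    (f : F[X]) : ∃ y : F, aeval n1 f * aeval n2 f = algebraMap F Ω y := by
  have hb : algebraMap F Ω (b / a) = -(n1 + n2) := by
    rw [h1, ← map_neg]; congr 1; ring
  have e1 : aeval n1 (X ^ 2 + C (b / a) * X + C (c / a) : F[X]) = 0 := by
    simp only [map_add, map_mul, map_pow, aeval_X, aeval_C]
    rw [hb, ← h2]; ring
  have e2 : aeval n2 (X ^ 2 + C (b / a) * X + C (c / a) : F[X]) = 0 := by
    simp only [map_add, map_mul, map_pow, aeval_X, aeval_C]
    rw [hb, ← h2]; ring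
  set q : F[X] := X ^ 2 + C (b / a) * X + C (c / a) with hq
  have hqm : q.Monic := by
    rw [hq]; monicity!
  have hqd : q.natDegree = 2 := by
    rw [hq]; compute_degree!
  obtain ⟨x, y, hxy⟩ : ∃ x y : F, f %ₘ q = C x * X + C y := by
    refine ⟨(f %ₘ q).coeff 1, (f %ₘ q).coeff 0, ?_⟩
    apply Polynomial.eq_X_add_C_of_natDegree_le_one
    have := natDegree_modByMonic_lt f hqm (by
      intro h; rw [h, natDegree_one] at hqd; omega)
    omega
  have hf : ∀ n : Ω, aeval n q = 0 → aeval n f = algebraMap F Ω x * n + algebraMap F Ω y := by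
    intro n hn
    conv_lhs => rw [← modByMonic_add_div f q, hxy]
    simp [hn]
  refine ⟨x ^ 2 * (c / a) + x * y * (-b / a) + y ^ 2, ?_⟩
  rw [hf n1 e1, hf n2 e2]
  simp only [map_add, map_mul, map_pow]
  rw [← h1, ← h2]
  ring

/-- divisibility by an irreducible polynomial of positive degree, read off at a root -/
lemma dvd_of_root {g f : k[X][X]} (hg : Irreducible g) (hd : g.natDegree ≠ 0) {Ω : Type*}
    [Field Ω] [Algebra (FractionRing k[X]) Ω] (n : Ω)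
    (hn : aeval n (g.map (algebraMap k[X] (FractionRing k[X]))) = 0)
    (hf : aeval n (f.map (algebraMap k[X] (FractionRing k[X]))) = 0) : g ∣ f := by
  have hp : g.IsPrimitive := hg.isPrimitive hd
  have hgi : Irreducible (g.map (algebraMap k[X] (FractionRing k[X]))) :=
    hp.irreducible_iff_irreducible_map_fraction_map.1 hg
  by_contra hcon
  have hnd : ¬ g.map (algebraMap k[X] (FractionRing k[X])) ∣
      f.map (algebraMap k[X] (FractionRing k[X])) := fun h =>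
    hcon ((hp.dvd_iff_fraction_map_dvd_fraction_map (FractionRing k[X])).2 h)
  have hcop : IsCoprime (g.map (algebraMap k[X] (FractionRing k[X])))
      (f.map (algebraMap k[X] (FractionRing k[X]))) :=
    (hgi.coprime_iff_not_dvd).2 hnd
  obtain ⟨u, v, huv⟩ := hcop
  have := congrArg (aeval n) huv
  simp [hn, hf] at this

/-- the norm argument in a quadratic extension -/
lemma norm_arg {F Ω : Type*} [Field F] [Field Ω] [Algebra F Ω] (G f h : F[X]) (a b c s t W : F)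
    (ha0 : a ≠ 0) (hGe : G = C a * X ^ 2 + C b * X + C c) (n1 : Ω) (hn1 : aeval n1 G = 0)
    (hW : W ≠ 0) (hh : ∀ n : Ω, aeval n G = 0 → aeval n h ≠ 0)
    (hdv : G ∣ f ^ 2 - (X - C s) * (X - C t) * C W * h ^ 2) :
    ∃ z : F, G.eval s * G.eval t = z ^ 2 := by
  obtain ⟨n2, hn2⟩ : ∃ n2 : Ω, n2 = algebraMap F Ω (-b / a) - n1 := ⟨_, rfl⟩
  have h1 : n1 + n2 = algebraMap F Ω (-b / a) := by rw [hn2]; ring
  have ha' : algebraMap F Ω a ≠ 0 := by
    rw [Ne, map_eq_zero]; exact ha0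
  have hn1' : algebraMap F Ω a * n1 ^ 2 + algebraMap F Ω b * n1 + algebraMap F Ω c = 0 := by
    have := hn1
    rw [hGe] at this
    simpa using this
  have h2 : n1 * n2 = algebraMap F Ω (c / a) := by
    rw [hn2, map_div₀, map_div₀, map_neg]
    field_simp
    linear_combination -hn1'
  have hn2' : aeval n2 G = 0 := by
    rw [hGe]
    simp only [map_add, map_mul, map_pow, aeval_X, aeval_C]
    have e1 : n2 = - algebraMap F Ω b / algebraMap F Ω a - n1 := by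
      rw [hn2, map_div₀, map_neg]
    rw [e1]
    field_simp
    linear_combination (algebraMap F Ω a) * hn1'
  -- factorisation of the values
  have hval : ∀ t : F, (algebraMap F Ω t - n1) * (algebraMap F Ω t - n2) *
      algebraMap F Ω a = algebraMap F Ω (G.eval t) := by
    intro t
    rw [hGe]
    simp only [eval_add, eval_mul, eval_C, eval_pow, eval_X, map_add, map_mul, map_pow]
    have e2 : (algebraMap F Ω t - n1) * (algebraMap F Ω t - n2) =
      algebraMap F Ω t ^ 2 - (n1 + n2) * algebraMap F Ω t + n1 * n2 := by ring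
    rw [e2, h1, h2, map_div₀, map_div₀, map_neg]
    field_simp
    ring
  obtain ⟨q, hq⟩ := hdv
  have hrel : ∀ n : Ω, aeval n G = 0 →
      (aeval n f) ^ 2 = (n - algebraMap F Ω s) * (n - algebraMap F Ω t) *
        algebraMap F Ω W * (aeval n h) ^ 2 := by
    intro n hn
    have e1 := congrArg (fun p => aeval n p) hq
    simp only [map_sub, map_mul, map_pow, aeval_X, aeval_C, hn, zero_mul] at e1
    linear_combination e1
  obtain ⟨y1, hy1⟩ := conj_prod a b c n1 n2 h1 h2 f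
  obtain ⟨y2, hy2⟩ := conj_prod a b c n1 n2 h1 h2 h
  have hh1 : aeval n1 h ≠ 0 := hh n1 hn1
  have hh2 : aeval n2 h ≠ 0 := hh n2 hn2'
  have hy20 : y2 ≠ 0 := by
    intro h0
    rw [h0, map_zero] at hy2
    exact (mul_ne_zero hh1 hh2) hy2
  have hmain : algebraMap F Ω (a * y1) ^ 2 =
      algebraMap F Ω (G.eval s * G.eval t) * algebraMap F Ω (W * y2) ^ 2 := by
    have r1 := hrel n1 hn1
    have r2 := hrel n2 hn2'
    have hs := hval s
    have ht := hval t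
    rw [map_mul, map_mul, map_mul, ← hs, ← ht, ← hy1, ← hy2]
    linear_combination (algebraMap F Ω a) ^ 2 * (aeval n2 f) ^ 2 * r1 +
      (algebraMap F Ω a) ^ 2 * (n1 - algebraMap F Ω s) * (n1 - algebraMap F Ω t) *
        algebraMap F Ω W * (aeval n1 h) ^ 2 * r2
  refine ⟨a * y1 / (W * y2), ?_⟩
  have e1 : (a * y1) ^ 2 = (G.eval s * G.eval t) * (W * y2) ^ 2 := by
    apply (algebraMap F Ω).injective
    rw [map_mul (algebraMap F Ω) (G.eval s * G.eval t), map_pow, map_pow]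
    exact hmain
  rw [div_pow, e1]
  field_simp

/-- the norm argument: the product of two values of a quadratic polynomial is a square -/
lemma values_square {g : k[X][X]} (hg : Irreducible g) (hd : g.natDegree = 2) (s t : k)
    {W : k[X]} (hW : W ≠ 0) {f h : k[X][X]} (hh : ¬ g ∣ h)
    (hdv : g ∣ f ^ 2 - (X - C (C s)) * (X - C (C t)) * C W * h ^ 2) :
    ∃ y : k[X], g.eval (C s) * g.eval (C t) = y ^ 2 := by
  classical
  have hφi : Function.Injective (algebraMap k[X] (FractionRing k[X])) :=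
    IsFractionRing.injective k[X] (FractionRing k[X])
  have hGd : (g.map (algebraMap k[X] (FractionRing k[X]))).natDegree = 2 := by
    rw [natDegree_map_eq_of_injective hφi, hd]
  have hG0 : g.map (algebraMap k[X] (FractionRing k[X])) ≠ 0 := by
    intro h; rw [h, natDegree_zero] at hGd; omega
  obtain ⟨n1, hn1⟩ := IsAlgClosed.exists_aeval_eq_zero (AlgebraicClosure (FractionRing k[X]))
    (g.map (algebraMap k[X] (FractionRing k[X]))) (by
      rw [Polynomial.degree_eq_natDegree hG0, hGd]; norm_num)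
  obtain ⟨z, hz⟩ := norm_arg (g.map (algebraMap k[X] (FractionRing k[X])))
    (f.map (algebraMap k[X] (FractionRing k[X]))) (h.map (algebraMap k[X] (FractionRing k[X])))
    ((g.map (algebraMap k[X] (FractionRing k[X]))).coeff 2)
    ((g.map (algebraMap k[X] (FractionRing k[X]))).coeff 1)
    ((g.map (algebraMap k[X] (FractionRing k[X]))).coeff 0)
    (algebraMap k[X] (FractionRing k[X]) (C s)) (algebraMap k[X] (FractionRing k[X]) (C t))
    (algebraMap k[X] (FractionRing k[X]) W)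
    (by
      have : (g.map (algebraMap k[X] (FractionRing k[X]))).leadingCoeff =
        (g.map (algebraMap k[X] (FractionRing k[X]))).coeff 2 := by rw [leadingCoeff, hGd]
      rw [← this]; exact leadingCoeff_ne_zero.2 hG0)
    (by
      have := (g.map (algebraMap k[X] (FractionRing k[X]))).as_sum_range_C_mul_X_pow
      rw [hGd] at this
      conv_lhs => rw [this]
      simp only [Finset.sum_range_succ, Finset.sum_range_zero]
      ring)
    n1 hn1
    (by rw [Ne, map_eq_zero_iff _ hφi]; exact hW)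
    (fun n hn h0 => hh (dvd_of_root hg (by omega) n hn h0))
    (by
      have := Polynomial.map_dvd (algebraMap k[X] (FractionRing k[X])) hdv
      simpa only [Polynomial.map_sub, Polynomial.map_mul, Polynomial.map_pow, Polynomial.map_X,
        Polynomial.map_C] using this)
  rw [eval_map, eval_map, eval₂_hom, eval₂_hom, ← map_mul] at hz
  exact isSquare_of_frac hz


open Classical in
/-- a polynomial of odd degree has an irreducible factor of odd multiplicity -/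
lemma exists_odd_count {G : k[X]} (hG : Odd G.natDegree) :
    ∃ r : k[X], Irreducible r ∧ Odd ((UniqueFactorizationMonoid.normalizedFactors G).count r) := by
  have hG0 : G ≠ 0 := by
    intro h; rw [h] at hG; simp at hG
  by_contra hcon
  push Not at hcon
  have h1 : G.natDegree =
      ((UniqueFactorizationMonoid.normalizedFactors G).map natDegree).sum := by
    have ha := UniqueFactorizationMonoid.prod_normalizedFactors hG0
    have h2 : (UniqueFactorizationMonoid.normalizedFactors G).prod.natDegree = G.natDegree :=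
      natDegree_eq_of_degree_eq (degree_eq_degree_of_associated ha)
    rw [← h2, natDegree_multiset_prod]
    exact UniqueFactorizationMonoid.zero_notMem_normalizedFactors G
  have h3 : Even G.natDegree := by
    rw [h1, Finset.sum_multiset_map_count]
    refine Finset.even_sum _ fun r hr => ?_
    have hr' : r ∈ UniqueFactorizationMonoid.normalizedFactors G := Multiset.mem_toFinset.1 hr
    have hirr := UniqueFactorizationMonoid.irreducible_of_normalized_factor r hr'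
    have := hcon r hirr
    rw [Nat.not_odd_iff_even] at this
    rw [smul_eq_mul]
    exact this.mul_right _
  exact (Nat.not_even_iff_odd.2 hG) h3

/-- the abstract form of the theorem -/
theorem main {θ : Fin 4 → k} (hθ : Function.Injective θ) {w : Fin 4 → k[X]}
    (hw : ∀ j, w j ≠ 0) {g : k[X][X]} (hg : Irreducible g) (hd : g.natDegree = 2) {D : ℕ}
    (hD : Odd D) (hD1 : ∀ a, (g.coeff a).natDegree ≤ D) (hD2 : ∃ a, (g.coeff a).natDegree = D)
    (hsq : ∀ i j, i ≠ j → ∃ f h : k[X][X], ¬ g ∣ h ∧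
      g ∣ f ^ 2 - (X - C (C (θ i))) * (X - C (C (θ j))) * C (w i * w j) * h ^ 2) : False := by
  classical
  have hval : ∀ i j, i ≠ j → ∃ y : k[X], g.eval (C (θ i)) * g.eval (C (θ j)) = y ^ 2 := by
    intro i j hij
    obtain ⟨f, h, hh, hdv⟩ := hsq i j hij
    exact values_square hg hd (θ i) (θ j) (mul_ne_zero (hw i) (hw j)) hh hdv
  -- the coefficients of the value
  have hev : ∀ t : k, g.eval (C t) = g.coeff 0 + g.coeff 1 * C t + g.coeff 2 * C t ^ 2 := by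
    intro t
    rw [eval_eq_sum_range, hd]
    simp [Finset.sum_range_succ]
  have hco : ∀ t : k, (g.eval (C t)).coeff D =
      (g.coeff 0).coeff D + (g.coeff 1).coeff D * t + (g.coeff 2).coeff D * t ^ 2 := by
    intro t
    rw [hev, ← C_pow, coeff_add, coeff_add, coeff_mul_C, coeff_mul_C]
  have hdeg : ∀ t : k, (g.eval (C t)).natDegree ≤ D := by
    intro t
    rw [hev, ← C_pow]
    refine (natDegree_add_le _ _).trans (max_le ((natDegree_add_le _ _).trans (max_le (hD1 0) ?_)) ?_)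
    · exact (natDegree_mul_C_le _ _).trans (hD1 1)
    · exact (natDegree_mul_C_le _ _).trans (hD1 2)
  -- the polynomial of the top coefficients
  set q : k[X] := C ((g.coeff 0).coeff D) + C ((g.coeff 1).coeff D) * X +
    C ((g.coeff 2).coeff D) * X ^ 2 with hq
  have hq0 : q ≠ 0 := by
    obtain ⟨a, ha⟩ := hD2
    have hDpos : 0 < D := hD.pos
    have hga : g.coeff a ≠ 0 := by
      intro h0; rw [h0, natDegree_zero] at ha; omega
    have hlc : (g.coeff a).coeff D ≠ 0 := by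
      rw [← ha]; exact leadingCoeff_ne_zero.2 hga
    have ha2 : a ≤ 2 := by
      rw [← hd]; exact le_natDegree_of_ne_zero hga
    intro h0
    apply hlc
    have := congrArg (fun p => p.coeff a) h0
    simp only [hq, coeff_add, coeff_C_mul, coeff_X_pow, coeff_zero, coeff_C, coeff_X] at this
    interval_cases a <;> simpa using this
  have hqd : q.natDegree ≤ 2 := by
    rw [hq]; compute_degree
  have hqe : ∀ t, q.eval t = (g.eval (C t)).coeff D := by
    intro t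
    rw [hco, hq]
    simp
  obtain ⟨j, hj⟩ : ∃ j, q.eval (θ j) ≠ 0 := by
    by_contra hcon
    push Not at hcon
    apply hq0
    apply Polynomial.eq_zero_of_natDegree_lt_card_of_eval_eq_zero q hθ hcon
    rw [Fintype.card_fin]; omega
  rw [hqe] at hj
  have hjd : (g.eval (C (θ j))).natDegree = D :=
    le_antisymm (hdeg _) (le_natDegree_of_ne_zero hj)
  have hj0 : g.eval (C (θ j)) ≠ 0 := by
    intro h0; rw [h0, coeff_zero] at hj; exact hj rfl
  obtain ⟨r, hr, hrc⟩ := exists_odd_count (G := g.eval (C (θ j))) (by rw [hjd]; exact hD)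
  have hrj : r ∈ UniqueFactorizationMonoid.normalizedFactors (g.eval (C (θ j))) :=
    Multiset.count_pos.1 hrc.pos
  have hrdvd : ∀ i, r ∣ g.eval (C (θ i)) := by
    intro i
    by_cases hij : i = j
    · rw [hij]; exact UniqueFactorizationMonoid.dvd_of_mem_normalizedFactors hrj
    by_cases hi0 : g.eval (C (θ i)) = 0
    · rw [hi0]; exact dvd_zero _
    obtain ⟨y, hy⟩ := hval i j hij
    have hc := congrArg (fun p => (UniqueFactorizationMonoid.normalizedFactors p).count r) hy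
    beta_reduce at hc
    rw [UniqueFactorizationMonoid.normalizedFactors_mul hi0 hj0,
      UniqueFactorizationMonoid.normalizedFactors_pow, Multiset.count_add,
      Multiset.count_nsmul] at hc
    have hpos : 0 < (UniqueFactorizationMonoid.normalizedFactors (g.eval (C (θ i)))).count r := by
      rcases hrc with ⟨m, hm⟩
      omega
    exact UniqueFactorizationMonoid.dvd_of_mem_normalizedFactors (Multiset.count_pos.1 hpos)
  -- reduction modulo `r`
  have hrC : C r ∣ g := by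
    have : Fact (Irreducible r) := ⟨hr⟩
    have hmap : g.map (AdjoinRoot.mk r) = 0 := by
      have hinj : Function.Injective fun i => AdjoinRoot.mk r (C (θ i)) := by
        intro i i' hii
        apply hθ
        have : Function.Injective (AdjoinRoot.of r) := (AdjoinRoot.of r).injective
        exact this hii
      apply Polynomial.eq_zero_of_natDegree_lt_card_of_eval_eq_zero
        (g.map (AdjoinRoot.mk r)) hinj
      · intro i
        rw [eval_map, eval₂_hom, AdjoinRoot.mk_eq_zero]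
        exact hrdvd i
      · rw [Fintype.card_fin]
        have := natDegree_map_le (f := AdjoinRoot.mk r) (p := g)
        omega
    rw [C_dvd_iff_dvd_coeff]
    intro a
    rw [← AdjoinRoot.mk_eq_zero, ← coeff_map, hmap, coeff_zero]
  obtain ⟨s, hs⟩ := hrC
  rcases hg.isUnit_or_isUnit hs with h1 | h1
  · exact hr.not_isUnit (isUnit_C.1 h1)
  · have h2 : s.natDegree = 0 := natDegree_eq_zero_of_isUnit h1
    have h3 : g.natDegree = 0 := by
      rw [hs, natDegree_C_mul hr.ne_zero, h2]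
    omega

/-- the coefficients of `swap g` -/
lemma coeff_swap' (p : k[X][X]) (m r : ℕ) :
    ((Bivariate.swap p).coeff r).coeff m = (p.coeff m).coeff r := by
  induction p using Polynomial.induction_on' with
  | add p q hp hq => simp [hp, hq]
  | monomial n a =>
    induction a using Polynomial.induction_on' with
    | add p q hp hq => simp only [map_add, coeff_add, hp, hq]
    | monomial l x =>
      rw [Bivariate.swap_monomial_monomial]
      simp only [coeff_monomial]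
      split_ifs <;> simp_all [coeff_monomial]

end Vale.Agent.P018.Q.NonSq

namespace Vale.Agent.P018.Q

open Polynomial

variable {k : Type*} [Field k]

/-- on a curve of degree `2` in `n` and odd degree in `ξ` some `x_i x_j` is not a square. -/
theorem exists_nsq_two [CharZero k] {θ : Fin 4 → k} {ϖ : Fin 4 → k[X]} (hc : Conf θ ϖ)
    {g : k[X][X]} (hg : Irreducible g) (hE : g.natDegree = 2) (hD : Odd (dIn g)) :
    ∃ i j, i ≠ j ∧ NSq θ ϖ g i j := by
  by_contra hcon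
  push Not at hcon
  have hw : ∀ j, ϖ j ≠ 0 := by
    intro j h0
    have := hc.deg j
    rw [h0, natDegree_zero] at this
    omega
  refine NonSq.main hc.inj hw hg hE (D := dIn g) hD ?_ ?_ ?_
  · intro a
    by_cases ha : g.coeff a = 0
    · rw [ha, natDegree_zero]; exact Nat.zero_le _
    · apply le_natDegree_of_ne_zero
      intro h0
      have h1 := NonSq.coeff_swap' g a (g.coeff a).natDegree
      rw [h0, coeff_zero] at h1
      exact (leadingCoeff_ne_zero.2 ha) h1.symm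
  · have hg0 : Bivariate.swap g ≠ 0 := by
      rw [Ne, map_eq_zero_iff _ (Bivariate.swap (R := k)).injective]
      exact hg.ne_zero
    have hl : (Bivariate.swap g).coeff (dIn g) ≠ 0 := leadingCoeff_ne_zero.2 hg0
    obtain ⟨a, ha⟩ : ∃ a, ((Bivariate.swap g).coeff (dIn g)).coeff a ≠ 0 := by
      by_contra h
      push Not at h
      exact hl (Polynomial.ext fun a => by rw [h a, coeff_zero])
    refine ⟨a, le_antisymm ?_ ?_⟩
    · by_cases ha' : g.coeff a = 0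
      · rw [ha', natDegree_zero]; exact Nat.zero_le _
      · apply le_natDegree_of_ne_zero
        intro h0
        have h1 := NonSq.coeff_swap' g a (g.coeff a).natDegree
        rw [h0, coeff_zero] at h1
        exact (leadingCoeff_ne_zero.2 ha') h1.symm
    · apply le_natDegree_of_ne_zero
      rwa [← NonSq.coeff_swap']
  · intro i j hij
    have := hcon i j hij
    unfold NSq at this
    push Not at this
    obtain ⟨f, h, h1, h2⟩ := this
    exact ⟨f, h, h2, h1⟩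

end Vale.Agent.P018.Q
end
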