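import Mathlib
import Vale.Agent.P018.Bdl.B11
import Vale.Agent.P018.Bdl.B4
import Vale.Agent.P018.Bdl.B8
import Vale.Agent.P018.Bdl.B13
import Vale.Agent.P018.Bdl.B14
import Vale.Agent.P018.Bdl.B9
import Vale.Agent.P018.Bdl.B2
import Vale.Agent.P018.Bdl.B7
import Vale.Agent.P018.Bdl.B5

set_option linter.all false

section

/-! # P018, quartics: the points on rational curves of the kappa model. -/

namespace Vale.Agent.P018.Q

open Polynomial NumberField Finset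

variable {L : Type} [Field L] [NumberField L]

/-- two points with the same `σ = s / t` are equal. -/
theorem pt_unique {G : ℤ[X]} {θ : Fin 4 → 𝓞 L} (hF : Fld G θ) (C : ℕ) :
    ∃ K : ℝ, ∀ (X T : ℝ) (l1 l2 : Fin 4 → ℤ) (N N' : ℤ) (p p' : ℕ) (c c' : ℤ) (z z' : Fin 4 → ℤ)
      (s t s' t' : ℤ), K ≤ X → X ≤ T ^ 4 → Pt θ C X T l1 l2 N p c z s t →
      Pt θ C X T l1 l2 N' p' c' z' s' t' → s * t' = s' * t → N = N' := by
  exact pt_unique' hF C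

/-- points with `A(σ) N = B(σ)`. -/
theorem gap_sigma {G : ℤ[X]} {θ : Fin 4 → 𝓞 L} (hF : Fld G θ) (D C : ℕ) (ε : ℝ) (hε : 0 < ε) :
    ∃ K : ℝ, 0 < K ∧ ∀ (H : ℕ) (X T : ℝ) (l1 l2 : Fin 4 → ℤ) (A B Λ : ℤ[X]) (S : Finset ℤ),
      2 ≤ H → 1 ≤ X → X ≤ T ^ 4 → (H : ℝ) ≤ T ^ 4 → T ≤ H → X ≤ H →
      (∀ a b : ℤ, a • l1 + b • l2 = 0 → a = 0 ∧ b = 0) →
      Λ.map (algebraMap ℤ (𝓞 L)) = ∏ j, piPoly θ l1 l2 j →
      A.natDegree ≤ D → B.natDegree ≤ D →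
      (∀ i, |A.coeff i| ≤ (H : ℤ) ^ C) → (∀ i, |B.coeff i| ≤ (H : ℤ) ^ C) →
      (∀ i, |Λ.coeff i| ≤ (H : ℤ) ^ C) →
      (∀ N ∈ S, ∃ (p : ℕ) (c : ℤ) (z : Fin 4 → ℤ) (s t : ℤ), Pt θ C X T l1 l2 N p c z s t ∧
        t ≠ 0 ∧ aeval ((s : ℚ) / t) A ≠ 0 ∧
        aeval ((s : ℚ) / t) A * (N : ℚ) = aeval ((s : ℚ) / t) B) →
      (S.card : ℝ) ≤ K * (H : ℝ) ^ ε := by
  exact gap_sigma' hF D C ε hε

/-- points on a curve of degree `≤ 1` in `κ`. -/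
theorem gap_one {G : ℤ[X]} {θ : Fin 4 → 𝓞 L} (hF : Fld G θ) (D C : ℕ) (ε : ℝ) (hε : 0 < ε) :
    ∃ K : ℝ, 0 < K ∧ ∀ (H : ℕ) (X T : ℝ) (l1 l2 : Fin 4 → ℤ) (d : Fin 2 → ℕ)
      (A B : Fin 2 → ℤ[X]) (Z : Fin 2 → Fin 4 → ℤ[X]) (Λ : ℤ[X]) (e : ℤ) (g : ℤ[X][X])
      (S : Finset ℤ),
      2 ≤ H → 1 ≤ X → X ≤ T ^ 4 → (H : ℝ) ≤ T ^ 4 → T ≤ H → X ≤ H →
      (∀ a b : ℤ, a • l1 + b • l2 = 0 → a = 0 ∧ b = 0) → KData θ l1 l2 d A B Z Λ e →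
      (∀ i k, |(A i).coeff k| ≤ (H : ℤ) ^ C) → (∀ i k, |(B i).coeff k| ≤ (H : ℤ) ^ C) →
      (∀ k, |Λ.coeff k| ≤ (H : ℤ) ^ C) →
      Irreducible (g.map (mapRingHom (Int.castRingHom ℚ))) → BiDeg D D g → g.natDegree ≤ 1 →
      (∀ i j, |(g.coeff i).coeff j| ≤ (H : ℤ) ^ C) →
      (∀ N ∈ S, ∃ (p : ℕ) (c : ℤ) (z : Fin 4 → ℤ) (s t kn kd : ℤ),
        Pt θ C X T l1 l2 N p c z s t ∧ KP A B Z N c s t kn kd z ∧
        ev (g.map (mapRingHom (Int.castRingHom ℚ))) ((kn : ℚ) / kd) ((s : ℚ) / t) = 0) →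
      (S.card : ℝ) ≤ K * (H : ℝ) ^ ε := by
  exact gap_one' hF D C ε hε

/-- points on a curve of degree `≤ 1` in `σ` and of degree `≥ 2` in `κ`, type `(4, 4)`. -/
theorem gap_kappa {G : ℤ[X]} {θ : Fin 4 → 𝓞 L} (hF : Fld G θ) (D C : ℕ) (ε : ℝ) (hε : 0 < ε) :
    ∃ K : ℝ, 0 < K ∧ ∀ (H : ℕ) (X T : ℝ) (l1 l2 : Fin 4 → ℤ) (d : Fin 2 → ℕ)
      (A B : Fin 2 → ℤ[X]) (Z : Fin 2 → Fin 4 → ℤ[X]) (Λ : ℤ[X]) (e : ℤ) (g : ℤ[X][X])
      (S : Finset ℤ),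
      2 ≤ H → 1 ≤ X → X ≤ T ^ 4 → (H : ℝ) ≤ T ^ 4 → T ≤ H → X ≤ H →
      (∀ a b : ℤ, a • l1 + b • l2 = 0 → a = 0 ∧ b = 0) → KData θ l1 l2 d A B Z Λ e → d 0 = 4 →
      (∀ i k, |(A i).coeff k| ≤ (H : ℤ) ^ C) → (∀ i k, |(B i).coeff k| ≤ (H : ℤ) ^ C) →
      (∀ k, |Λ.coeff k| ≤ (H : ℤ) ^ C) →
      Irreducible (g.map (mapRingHom (Int.castRingHom ℚ))) → BiDeg D 1 g → 2 ≤ g.natDegree →
      (∀ i j, |(g.coeff i).coeff j| ≤ (H : ℤ) ^ C) →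
      (∀ N ∈ S, ∃ (p : ℕ) (c : ℤ) (z : Fin 4 → ℤ) (s t kn kd : ℤ),
        Pt θ C X T l1 l2 N p c z s t ∧ KP A B Z N c s t kn kd z ∧
        |kn| ≤ (H : ℤ) ^ C ∧ |kd| ≤ (H : ℤ) ^ C ∧
        ev (g.map (mapRingHom (Int.castRingHom ℚ))) ((kn : ℚ) / kd) ((s : ℚ) / t) = 0) →
      (S.card : ℝ) ≤ K * (H : ℝ) ^ ε := by
  exact GapKappa.gap_kappa' hF D C ε hε

end Vale.Agent.P018.Q
end

section

/-! # P018, quartics, family (A): tools for the count on all curves. -/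

namespace Vale.Agent.P018.Q

open Polynomial NumberField Finset

section pt

variable {L : Type} [Field L] [NumberField L]

/-- change of the constants of a point. -/
theorem pc816_pt {θ : Fin 4 → 𝓞 L} {C C' : ℕ} {X X' T : ℝ} {l1 l2 : Fin 4 → ℤ} {N : ℤ} {p : ℕ}
    {c : ℤ} {z : Fin 4 → ℤ} {s t : ℤ} (h : Pt θ C X T l1 l2 N p c z s t) (hT : 0 ≤ T)
    (hX : X ≤ 2 * X') (hX' : 0 ≤ X') (hC : 2 * C ≤ C') : Pt θ C' X' T l1 l2 N p c z s t := by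
  have hC0 : C ≤ C' := by omega
  have hC1 : (C : ℝ) ≤ C' := by exact_mod_cast hC0
  have hC2 : (2 * C : ℝ) ≤ C' := by exact_mod_cast hC
  have hC3 : (C : ℤ) ≤ C' := by exact_mod_cast hC0
  have hCX : (C : ℝ) * X ≤ C' * X' := by
    calc (C : ℝ) * X ≤ C * (2 * X') := mul_le_mul_of_nonneg_left hX (Nat.cast_nonneg _)
      _ = (2 * C) * X' := by ring
      _ ≤ C' * X' := mul_le_mul_of_nonneg_right hC2 hX'
  obtain ⟨hd, h1, h2⟩ := h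
  obtain ⟨c', hc1, hc2, hc3⟩ := hd.nrm
  have hTT : (C : ℝ) * T ^ 2 ≤ C' * T ^ 2 := mul_le_mul_of_nonneg_right hC1 (by positivity)
  exact ⟨⟨hd.prime, hd.lo, hd.hi, hd.c0, hd.cC.trans hC3, ⟨c', hc1, hc2.trans hC3, hc3⟩, hd.eqn,
    hd.hN.trans hCX, fun j => (hd.hy j).trans (mul_le_mul_of_nonneg_right hC1 hT),
    fun j => (hd.hz j).trans (div_le_div_of_nonneg_right hCX (by positivity))⟩,
    h1.trans hTT, h2.trans hTT⟩

end pt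

/-- `N` is determined by the point of the kappa model. -/
theorem pc816_inj {A B : Fin 2 → ℤ[X]} {Z : Fin 2 → Fin 4 → ℤ[X]} {N c s t kn kd : ℤ}
    {z : Fin 4 → ℤ} {N' c' s' t' kn' kd' : ℤ} {z' : Fin 4 → ℤ}
    (h : KP A B Z N c s t kn kd z) (h' : KP A B Z N' c' s' t' kn' kd' z')
    (h1 : (kn : ℚ) / kd = (kn' : ℚ) / kd') (h2 : (s : ℚ) / t = (s' : ℚ) / t') : N = N' := by
  have e1 := h.eqN
  have e2 := h'.eqN
  have d1 := h.den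
  have d2 := h'.den
  rw [← h2] at e2 d2
  have k1 : (kd : ℚ) ≠ 0 := by exact_mod_cast h.k0
  have k2 : (kd' : ℚ) ≠ 0 := by exact_mod_cast h'.k0
  set σ : ℚ := (s : ℚ) / t
  set κ : ℚ := (kn : ℚ) / kd with hκ
  have q1 : (kn : ℚ) = κ * kd := by rw [hκ]; field_simp
  have q2 : (kn' : ℚ) = κ * kd' := by rw [h1]; field_simp
  rw [q1] at e1 d1
  rw [q2] at e2 d2
  set a : ℚ := aeval σ (A 0) + κ * aeval σ (A 1) with ha
  set b : ℚ := aeval σ (B 0) + κ * aeval σ (B 1) with hb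
  have e3 : (kd : ℚ) * (a * N) = kd * b := by
    rw [ha, hb]; linear_combination e1
  have e4 : (kd' : ℚ) * (a * N') = kd' * b := by
    rw [ha, hb]; linear_combination e2
  have e5 := mul_left_cancel₀ k1 e3
  have e6 := mul_left_cancel₀ k2 e4
  have ha0 : a ≠ 0 := by
    intro h0
    apply d1
    have : (kd : ℚ) * aeval σ (A 0) + κ * kd * aeval σ (A 1) = kd * a := by rw [ha]; ring
    rw [this, h0, mul_zero]
  have e7 : (N : ℚ) = N' := mul_left_cancel₀ ha0 (e5.trans e6.symm)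
  exact_mod_cast e7

theorem pc816_deriv {Dg : ℕ} {g : ℤ[X][X]} (h : BiDeg Dg Dg g) : BiDeg Dg Dg (derivative g) := by
  refine ⟨(natDegree_derivative_le g).trans (by have := h.1; omega), fun i => ?_⟩
  rw [coeff_derivative]
  refine natDegree_mul_le.trans ?_
  have h1 : ((i : ℤ[X]) + 1).natDegree = 0 := by
    have : ((i : ℤ[X]) + 1) = ((i + 1 : ℕ) : ℤ[X]) := by push_cast; ring
    rw [this]
    exact natDegree_natCast _
  rw [h1, add_zero]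
  exact h.2 _

theorem pc816_map {Dg : ℕ} {g : ℤ[X][X]} (h : BiDeg Dg Dg g) :
    BiDeg Dg Dg (g.map (mapRingHom (Int.castRingHom ℚ))) := by
  refine ⟨natDegree_map_le.trans h.1, fun i => ?_⟩
  rw [coeff_map]
  exact natDegree_map_le.trans (h.2 i)

/-- the values over `ℚ`. -/
theorem pc816_rat {Dg : ℕ} {g : ℤ[X][X]} (h : BiDeg Dg Dg g) {kn kd s t : ℤ} (hkd : kd ≠ 0)
    (ht : t ≠ 0) : ((hom2 Dg g kn kd s t : ℤ) : ℚ) = (kd : ℚ) ^ Dg * (t : ℚ) ^ Dg *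
      ev (g.map (mapRingHom (Int.castRingHom ℚ))) ((kn : ℚ) / kd) ((s : ℚ) / t) := by
  have htQ : (t : ℚ) ≠ 0 := by exact_mod_cast ht
  have hkdQ : (kd : ℚ) ≠ 0 := by exact_mod_cast hkd
  have hsQ : (s : ℚ) = (s : ℚ) / t * t := by field_simp
  have hknQ : (kn : ℚ) = (kn : ℚ) / kd * kd := by field_simp
  have h2 := hom2_map (Int.castRingHom ℚ) Dg g kn kd s t
  simp only [eq_intCast] at h2
  rw [h2]
  conv_lhs => rw [hsQ, hknQ]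
  rw [hom2_mul Dg h, evr_rat]

/-- the values modulo a prime number. -/
theorem pc816_mod {Dg : ℕ} {g : ℤ[X][X]} (h : BiDeg Dg Dg g) {l : ℕ} {kn kd s t x0 : ℤ}
    {κ : ZMod l} (hs : (s : ZMod l) = x0 * t) (hk : (kn : ZMod l) = κ * kd) :
    ((hom2 Dg g kn kd s t : ℤ) : ZMod l) = (kd : ZMod l) ^ Dg * (t : ZMod l) ^ Dg *
      evr g (x0 : ZMod l) κ := by
  have h2 := hom2_map (Int.castRingHom (ZMod l)) Dg g kn kd s t
  simp only [eq_intCast] at h2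
  rw [h2, hs, hk, hom2_mul Dg h]

theorem pc816_evr {g : ℤ[X][X]} {l : ℕ} (x0 : ℤ) (κ : ZMod l) :
    evr g (x0 : ZMod l) κ =
      ((g.map (evalRingHom x0)).map (Int.castRingHom (ZMod l))).eval κ := by
  rw [eval_map, eval₂_map]
  unfold evr
  congr 1
  refine Polynomial.ringHom_ext (fun a => by simp) (by simp)

theorem pc816_cop (I : Finset ℕ) (hI : ∀ l ∈ I, l.Prime) (a : ℤ) (h : ∀ l ∈ I, ¬ (l : ℤ) ∣ a) :
    IsCoprime a ((∏ l ∈ I, l : ℕ) : ℤ) := by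
  push_cast
  refine IsCoprime.prod_right fun l hl => ?_
  exact ((Nat.prime_iff_prime_int.1 (hI l hl)).coprime_iff_not_dvd.2 (h l hl)).symm

theorem pc816_dvd (I : Finset ℕ) (hI : ∀ l ∈ I, l.Prime) (a : ℤ) (h : ∀ l ∈ I, (l : ℤ) ∣ a) :
    ((∏ l ∈ I, l : ℕ) : ℤ) ∣ a := by
  rw [Int.natCast_dvd]
  refine Finset.prod_primes_dvd _ (fun l hl => (hI l hl).prime) fun l hl => ?_
  exact Int.natCast_dvd.1 (h l hl)

/-- the singular points of the curve. -/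
theorem pc816_sing (Dg : ℕ) : ∃ Cb : ℕ, ∀ (A B : Fin 2 → ℤ[X]) (Z : Fin 2 → Fin 4 → ℤ[X])
    (g : ℤ[X][X]) (S : Finset ℤ) (c s t kn kd : ℤ → ℤ) (z : ℤ → Fin 4 → ℤ),
    Irreducible (g.map (mapRingHom (Int.castRingHom ℚ))) → BiDeg Dg Dg g → 2 ≤ g.natDegree →
    (∀ N ∈ S, KP A B Z N (c N) (s N) (t N) (kn N) (kd N) (z N) ∧
      ev (g.map (mapRingHom (Int.castRingHom ℚ))) ((kn N : ℚ) / kd N) ((s N : ℚ) / t N) = 0 ∧
      hom2 Dg (derivative g) (kn N) (kd N) (s N) (t N) = 0) → S.card ≤ Cb := by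
  classical
  obtain ⟨Cb, hCb⟩ := bezout2 Dg Dg
  refine ⟨Cb, fun A B Z g S c s t kn kd z hg hgd hg2 hS => ?_⟩
  obtain ⟨gQ, hgQ⟩ : ∃ gQ, gQ = g.map (mapRingHom (Int.castRingHom ℚ)) := ⟨_, rfl⟩
  have hinj : Function.Injective (mapRingHom (Int.castRingHom ℚ)) :=
    Polynomial.map_injective _ (RingHom.injective_int _)
  have hnd : gQ.natDegree = g.natDegree := by
    rw [hgQ]; exact natDegree_map_eq_of_injective hinj g
  have hder : derivative gQ = (derivative g).map (mapRingHom (Int.castRingHom ℚ)) := by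
    rw [hgQ, derivative_map]
  have hder0 : derivative gQ ≠ 0 := by
    intro h0
    have := natDegree_eq_zero_of_derivative_eq_zero h0
    omega
  have hnot : ¬ gQ ∣ derivative gQ := by
    intro hd
    have h1 := natDegree_le_of_dvd hd hder0
    have h2 := natDegree_derivative_lt (p := gQ) (by omega)
    omega
  have h1 : S.card = (S.image fun N => ((kn N : ℚ) / kd N, (s N : ℚ) / t N)).card := by
    rw [Finset.card_image_of_injOn]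
    intro N hN N' hN' h
    have h2 := Prod.mk.inj h
    exact pc816_inj (hS N hN).1 (hS N' hN').1 h2.1 h2.2
  rw [h1]
  refine hCb gQ (derivative gQ) (hgQ ▸ hg) hnot (hgQ ▸ pc816_map hgd)
    (hder ▸ pc816_map (pc816_deriv hgd)) _ fun q hq => ?_
  obtain ⟨N, hN, rfl⟩ := Finset.mem_image.1 hq
  obtain ⟨h2, h3, h4⟩ := hS N hN
  refine ⟨hgQ ▸ h3, ?_⟩
  have h5 := pc816_rat (pc816_deriv hgd) (kn := kn N) (s := s N) h2.k0 h2.t0
  rw [h4, Int.cast_zero, ← hder] at h5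
  have k1 : ((kd N : ℤ) : ℚ) ^ Dg ≠ 0 := pow_ne_zero _ (by exact_mod_cast h2.k0)
  have k2 : ((t N : ℤ) : ℚ) ^ Dg ≠ 0 := pow_ne_zero _ (by exact_mod_cast h2.t0)
  exact (mul_eq_zero.1 h5.symm).resolve_left (mul_ne_zero k1 k2)

/-- the class of the point modulo a prime number. -/
noncomputable def pc816_col (kn kd : ℤ) (l : ℕ) : ℕ := ((kn : ZMod l) * (kd : ZMod l)⁻¹).val

theorem pc816_unit {l : ℕ} (hl : l.Prime) {a : ℤ} (h : ¬ (l : ℤ) ∣ a) : (a : ZMod l) ≠ 0 := by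
  rw [Ne, ZMod.intCast_zmod_eq_zero_iff_dvd]
  exact h

/-- a bounded number of classes modulo a prime number. -/
theorem pc816_roots {Dg : ℕ} {g : ℤ[X][X]} (hgd : BiDeg Dg Dg g) {l : ℕ} (hl : l.Prime)
    (x0 : ℤ) (S : Finset ℤ) (s t kn kd : ℤ → ℤ)
    (hS : ∀ N ∈ S, ev (g.map (mapRingHom (Int.castRingHom ℚ))) ((kn N : ℚ) / kd N)
        ((s N : ℚ) / t N) = 0 ∧ (l : ℤ) ∣ s N - x0 * t N ∧ ¬ (l : ℤ) ∣ t N ∧ ¬ (l : ℤ) ∣ kd N ∧
      ¬ (l : ℤ) ∣ hom2 Dg (derivative g) (kn N) (kd N) (s N) (t N)) :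
    ∃ R : Finset ℕ, R.card ≤ Dg ∧ ∀ N ∈ S, pc816_col (kn N) (kd N) l ∈ R := by
  classical
  haveI := Fact.mk hl
  obtain ⟨P, hP⟩ : ∃ P : (ZMod l)[X],
    P = (g.map (evalRingHom x0)).map (Int.castRingHom (ZMod l)) := ⟨_, rfl⟩
  have key : ∀ N ∈ S, P.eval ((kn N : ZMod l) * (kd N : ZMod l)⁻¹) = 0 ∧
      P.derivative.eval ((kn N : ZMod l) * (kd N : ZMod l)⁻¹) ≠ 0 := by
    intro N hN
    obtain ⟨h1, h2, h3, h4, h5⟩ := hS N hN
    have ut := pc816_unit hl h3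
    have uk := pc816_unit hl h4
    have us : (s N : ZMod l) = x0 * t N := by
      have := (ZMod.intCast_zmod_eq_zero_iff_dvd _ _).2 h2
      push_cast at this
      linear_combination this
    have ukn : (kn N : ZMod l) = ((kn N : ZMod l) * (kd N : ZMod l)⁻¹) * kd N := by
      rw [mul_assoc, inv_mul_cancel₀ uk, mul_one]
    have t0 : t N ≠ 0 := fun h => h3 (h ▸ dvd_zero _)
    have k0 : kd N ≠ 0 := fun h => h4 (h ▸ dvd_zero _)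
    have e1 := pc816_rat hgd (kn := kn N) (s := s N) k0 t0
    rw [h1, mul_zero] at e1
    have e2 : hom2 Dg g (kn N) (kd N) (s N) (t N) = 0 := by exact_mod_cast e1
    have e3 := pc816_mod hgd us ukn
    have e4 := pc816_mod (pc816_deriv hgd) us ukn
    rw [e2, Int.cast_zero] at e3
    have hne : (kd N : ZMod l) ^ Dg * (t N : ZMod l) ^ Dg ≠ 0 :=
      mul_ne_zero (pow_ne_zero _ uk) (pow_ne_zero _ ut)
    refine ⟨?_, ?_⟩
    · rw [hP, ← pc816_evr]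
      exact (mul_eq_zero.1 e3.symm).resolve_left hne
    · rw [hP, derivative_map, derivative_map, ← pc816_evr]
      intro h0
      rw [h0, mul_zero] at e4
      exact pc816_unit hl h5 e4
  by_cases hS0 : S = ∅
  · exact ⟨∅, Nat.zero_le _, fun N hN => by rw [hS0] at hN; exact absurd hN (by simp)⟩
  · obtain ⟨N0, hN0⟩ := Finset.nonempty_iff_ne_empty.2 hS0
    have hP0 : P ≠ 0 := by
      intro h0
      have := (key N0 hN0).2
      rw [h0, derivative_zero, eval_zero] at this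
      exact this rfl
    refine ⟨P.roots.toFinset.image ZMod.val, ?_, fun N hN => ?_⟩
    · refine Finset.card_image_le.trans ((Multiset.toFinset_card_le _).trans
        ((card_roots' _).trans ?_))
      rw [hP]
      exact natDegree_map_le.trans (natDegree_map_le.trans hgd.1)
    · refine Finset.mem_image.2 ⟨_, ?_, rfl⟩
      rw [Multiset.mem_toFinset, mem_roots hP0]
      exact (key N hN).1

/-- two points of the same class modulo `l`. -/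
theorem pc816_same {l : ℕ} (hl : l.Prime) {kn kd kn' kd' : ℤ} (h : ¬ (l : ℤ) ∣ kd)
    (h' : ¬ (l : ℤ) ∣ kd') (e : pc816_col kn kd l = pc816_col kn' kd' l) :
    (l : ℤ) ∣ kn * kd' - kn' * kd := by
  haveI := Fact.mk hl
  have uk := pc816_unit hl h
  have uk' := pc816_unit hl h'
  have e1 : (kn : ZMod l) * (kd : ZMod l)⁻¹ = (kn' : ZMod l) * (kd' : ZMod l)⁻¹ :=
    ZMod.val_injective l e
  rw [← ZMod.intCast_zmod_eq_zero_iff_dvd]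
  push_cast
  have e2 : (kn : ZMod l) * kd' = kn' * kd := by
    calc (kn : ZMod l) * kd' = ((kn : ZMod l) * (kd : ZMod l)⁻¹) * kd * kd' := by
          rw [mul_assoc (kn : ZMod l), inv_mul_cancel₀ uk, mul_one]
      _ = ((kn' : ZMod l) * (kd' : ZMod l)⁻¹) * kd * kd' := by rw [e1]
      _ = kn' * ((kd' : ZMod l)⁻¹ * kd') * kd := by ring
      _ = kn' * kd := by rw [inv_mul_cancel₀ uk', mul_one]
  rw [e2, sub_self]

end Vale.Agent.P018.Q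
end

section

/-! # P018, quartics, family (A): the curve step at given exponents. -/

namespace Vale.Agent.P018.Q

open Polynomial NumberField Finset

variable {L : Type} [Field L] [NumberField L]

/-- the numerator of the partial derivative of `g` with respect to `κ`. -/
noncomputable def dnum (Dg : ℕ) (g : ℤ[X][X]) (kn kd s t : ℤ) : ℤ :=
  ∑ k ∈ range Dg, (k + 1 : ℤ) * hom Dg (g.coeff (k + 1)) s t * kn ^ k * kd ^ (Dg - k)

theorem pc816_dnum {Dg : ℕ} {g : ℤ[X][X]} (h : BiDeg Dg Dg g) (kn kd s t : ℤ) :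
    dnum Dg g kn kd s t = hom2 Dg (derivative g) kn kd s t := by
  unfold dnum hom2
  rw [Finset.sum_range_succ]
  have h0 : (derivative g).coeff Dg = 0 := by
    rw [coeff_derivative, coeff_eq_zero_of_natDegree_lt (by have := h.1; omega), zero_mul]
  have h1 : hom Dg (0 : ℤ[X]) s t = 0 := by simp [hom]
  rw [h0, h1, zero_mul, zero_mul, add_zero]
  refine Finset.sum_congr rfl fun k _ => ?_
  congr 2
  unfold hom
  rw [Finset.mul_sum]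
  refine Finset.sum_congr rfl fun j _ => ?_
  have h2 : ((derivative g).coeff k).coeff j = (g.coeff (k + 1)).coeff j * (k + 1) := by
    rw [coeff_derivative]
    have : ((k : ℤ[X]) + 1) = C ((k : ℤ) + 1) := by simp
    rw [this, coeff_mul_C]
  rw [h2]
  simp only [Int.cast_id]
  ring

/-- the good points of one class. -/
theorem pc816_class {G : ℤ[X]} {θ : Fin 4 → 𝓞 L} (hF : Fld G θ) (C Dg : ℕ) (w m1 β : ℝ)
    (hw : 0 < w) (hw' : w ≤ 1 / 2) (hm1 : 0 ≤ m1) (hm : m1 < w) (hβ : 0 < β)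
    (hcur : NumCurve w m1 β) :
    ∃ ε : ℝ, 0 < ε ∧ ∃ K : ℝ, 0 < K ∧ ∀ (X T : ℝ) (l1 l2 : Fin 4 → ℤ) (d : Fin 2 → ℕ)
      (A B : Fin 2 → ℤ[X]) (Z : Fin 2 → Fin 4 → ℤ[X]) (Λ : ℤ[X]) (e : ℤ) (g : ℤ[X][X])
      (I : Finset ℕ) (x0 : ℤ) (S : Finset ℤ),
      K ≤ X → X ≤ T ^ 4 → X ^ (w - ε) ≤ T → T ≤ X ^ (w + ε) →
      X ^ (2 * (m1 - ε)) ≤ dot l1 l1 → dot l1 l1 ≤ dot l2 l2 → l1 ≠ 0 → NonDeg θ l1 l2 →
      KData θ l1 l2 d A B Z Λ e →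
      Irreducible (g.map (mapRingHom (Int.castRingHom ℚ))) → BiDeg Dg Dg g → 2 ≤ g.natDegree →
      (d 0 = 4 → ∃ i, 2 ≤ (g.coeff i).natDegree) → (∀ ℓ ∈ I, ℓ.Prime) →
      X ^ (β - ε) ≤ ((∏ ℓ ∈ I, ℓ : ℕ) : ℝ) → ((∏ ℓ ∈ I, ℓ : ℕ) : ℝ) ≤ X ^ (β + ε) →
      ∀ (p : ℤ → ℕ) (c : ℤ → ℤ) (z : ℤ → Fin 4 → ℤ) (s t kn kd : ℤ → ℤ),
      (∀ N ∈ S, Pt θ C X T l1 l2 N (p N) (c N) (z N) (s N) (t N) ∧
        KP A B Z N (c N) (s N) (t N) (kn N) (kd N) (z N) ∧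
        ev (g.map (mapRingHom (Int.castRingHom ℚ))) ((kn N : ℚ) / kd N) ((s N : ℚ) / t N) = 0 ∧
        (((∏ ℓ ∈ I, ℓ : ℕ) : ℤ)) ∣ s N - x0 * t N ∧
        (∀ ℓ ∈ I, ¬ (ℓ : ℤ) ∣ t N ∧ ¬ (ℓ : ℤ) ∣ kd N ∧
          ¬ (ℓ : ℤ) ∣ kd N * hom 5 (A 0) (s N) (t N) + kn N * hom 5 (A 1) (s N) (t N)) ∧
        ∀ ℓ ∈ I, ¬ (ℓ : ℤ) ∣ hom2 Dg (derivative g) (kn N) (kd N) (s N) (t N)) →
      (∀ N ∈ S, ∀ N' ∈ S, ∀ ℓ ∈ I, pc816_col (kn N) (kd N) ℓ = pc816_col (kn N') (kd N') ℓ) →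
      (S.card : ℝ) ≤ K := by
  obtain ⟨ε, hε, K, hK, h3⟩ := curve_class hF C Dg w m1 β hw hw' hm1 hm hβ hcur
  refine ⟨ε, hε, K, hK, ?_⟩
  intro X T l1 l2 d A B Z Λ e g I x0 S hX hXT hT1 hT2 hl1 hl12 hl0 hND hKD hg hgd hg2 hg4 hI
    hq1 hq2 p c z s t kn kd hS hcol
  by_cases hS0 : S = ∅
  · rw [hS0, Finset.card_empty, Nat.cast_zero]; exact hK.le
  obtain ⟨N0, hN0⟩ := Finset.nonempty_iff_ne_empty.2 hS0
  obtain ⟨q, hq⟩ : ∃ q : ℕ, q = ∏ ℓ ∈ I, ℓ := ⟨_, rfl⟩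
  rw [← hq] at hq1 hq2
  obtain ⟨-, -, f3, f4, f5, f6⟩ := hS N0 hN0
  have hcop : ∀ a : ℤ, (∀ ℓ ∈ I, ¬ (ℓ : ℤ) ∣ a) → IsCoprime a (q : ℤ) := fun a ha => by
    rw [hq]; exact pc816_cop I hI a ha
  have hdvd : ∀ a : ℤ, (∀ ℓ ∈ I, (ℓ : ℤ) ∣ a) → (q : ℤ) ∣ a := fun a ha => by
    rw [hq]; exact pc816_dvd I hI a ha
  have hdq : ∀ ℓ ∈ I, (ℓ : ℤ) ∣ (q : ℤ) := fun ℓ hℓ => by
    rw [hq]; exact_mod_cast Finset.dvd_prod_of_mem (fun ℓ : ℕ => ℓ) hℓ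
  have hkd0 : IsCoprime (kd N0) (q : ℤ) := hcop _ fun ℓ hℓ => (f5 ℓ hℓ).2.1
  obtain ⟨y0, hy0⟩ := exists_quot (ν := 1) (kn N0) hkd0
  rw [pow_one] at hy0
  -- the derivative at the class
  have hv : IsCoprime (ev2 (derivative g) x0 y0) (q : ℤ) := by
    refine hcop _ fun ℓ hℓ hd => f6 ℓ hℓ ?_
    have hd' := (ZMod.intCast_zmod_eq_zero_iff_dvd _ _).2 hd
    rw [← evr_int] at hd'
    have hd2 := evr_map (Int.castRingHom (ZMod ℓ)) (derivative g) x0 y0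
    simp only [eq_intCast] at hd2
    rw [hd'] at hd2
    have us : (s N0 : ZMod ℓ) = x0 * t N0 := by
      have := (ZMod.intCast_zmod_eq_zero_iff_dvd _ _).2 ((hdq ℓ hℓ).trans (hq ▸ f4))
      push_cast at this
      linear_combination this
    have uk : (kn N0 : ZMod ℓ) = (y0 : ZMod ℓ) * kd N0 := by
      have := (ZMod.intCast_zmod_eq_zero_iff_dvd _ _).2 ((hdq ℓ hℓ).trans hy0)
      push_cast at this
      linear_combination this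
    have h5 := pc816_mod (pc816_deriv hgd) us uk
    rw [← hd2, mul_zero] at h5
    exact (ZMod.intCast_zmod_eq_zero_iff_dvd _ _).1 h5
  obtain ⟨v, b, hvb⟩ := hv
  refine h3 X T l1 l2 d A B Z Λ e g q x0 y0 v S hX hXT hT1 hT2 hl1 hl12 hl0 hND hKD hg hgd hg2
    hg4 hq1 hq2 ⟨b, by linear_combination -hvb⟩ fun N hN => ?_
  obtain ⟨k1, k2, k3, k4, k5, k6⟩ := hS N hN
  refine ⟨p N, c N, z N, s N, t N, kn N, kd N, k1, k2, k3, hcop _ fun ℓ hℓ => (k5 ℓ hℓ).1,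
    hcop _ fun ℓ hℓ => (k5 ℓ hℓ).2.1, hq ▸ k4, ?_, hcop _ fun ℓ hℓ => (k5 ℓ hℓ).2.2⟩
  have e1 : (q : ℤ) ∣ kn N * kd N0 - kn N0 * kd N := hdvd _ fun ℓ hℓ =>
    pc816_same (hI ℓ hℓ) (k5 ℓ hℓ).2.1 (f5 ℓ hℓ).2.1 (hcol N hN N0 hN0 ℓ hℓ)
  have e2 : (q : ℤ) ∣ kd N0 * (kn N - y0 * kd N) := by
    have : kd N0 * (kn N - y0 * kd N) = (kn N * kd N0 - kn N0 * kd N) +
        (kn N0 - y0 * kd N0) * kd N := by ring
    rw [this]
    exact dvd_add e1 (hy0.mul_right _)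
  exact hkd0.symm.dvd_of_dvd_mul_left e2

theorem pc816_num {X v : ℝ} (hX : 16 ≤ X) (h : v ≤ 3 / 4) : X ^ v ≤ X / 2 := by
  have hX0 : (0 : ℝ) < X := by linarith only [hX]
  have h5 : X ^ v ≤ X ^ (3 / 4 : ℝ) := Real.rpow_le_rpow_of_exponent_le (by linarith only [hX]) h
  have h6 : (2 : ℝ) ≤ X ^ (1 / 4 : ℝ) := by
    have h7 : (2 : ℝ) = (16 : ℝ) ^ (1 / 4 : ℝ) := by
      rw [show (16 : ℝ) = 2 ^ (4 : ℝ) by norm_num, ← Real.rpow_mul (by norm_num)]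
      norm_num
    rw [h7]
    exact Real.rpow_le_rpow (by norm_num) hX (by norm_num)
  have h8 : X ^ (3 / 4 : ℝ) * X ^ (1 / 4 : ℝ) = X := by
    rw [← Real.rpow_add hX0]; norm_num
  have h9 : 0 < X ^ (3 / 4 : ℝ) := Real.rpow_pos_of_pos hX0 _
  linarith only [mul_nonneg (sub_nonneg.2 h6) (le_of_lt (sub_pos.2 h9)), mul_eq_zero_of_left (sub_eq_zero.2 h8) (X - (0)), mul_eq_zero_of_left (sub_eq_zero.2 h8) (X - (16)), h5]

theorem pc816_sq {X : ℝ} {H F : ℕ} (hF : 16 ≤ F) (h1 : X < F + 1) (h2 : (H : ℝ) ≤ 2 * X) :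
    H ≤ F ^ 2 := by
  have h3 : (16 : ℝ) ≤ F := by exact_mod_cast hF
  have : (H : ℝ) ≤ ((F ^ 2 : ℕ) : ℝ) := by push_cast; nlinarith
  exact_mod_cast this

/-- all curves: the points which are good for the primes `ℓ i`. -/
theorem curve_count {G : ℤ[X]} {θ : Fin 4 → 𝓞 L} (hF : Fld G θ) (C Dg m C0 : ℕ) (w m1 β : ℝ)
    (hw : 0 < w) (hw' : w ≤ 1 / 2) (hm1 : 0 ≤ m1) (hm : m1 < w) (hβ : 0 < β)
    (hcur : NumCurve w m1 β) (η : ℝ) (hη : 0 < η) :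
    ∃ ε : ℝ, 0 < ε ∧ ∃ K : ℝ, 0 < K ∧ ∀ (H : ℕ) (X T : ℝ) (l1 l2 : Fin 4 → ℤ) (d : Fin 2 → ℕ)
      (A B : Fin 2 → ℤ[X]) (Z : Fin 2 → Fin 4 → ℤ[X]) (Λ : ℤ[X]) (e : ℤ) (g : ℤ[X][X])
      (I : Finset ℕ) (x0 : ℤ) (S : Finset ℤ),
      K ≤ X → X ≤ T ^ 4 → X ^ (w - ε) ≤ T → T ≤ X ^ (w + ε) → X ≤ H → (H : ℝ) ≤ 2 * X →
      X ^ (2 * (m1 - ε)) ≤ dot l1 l1 → dot l1 l1 ≤ dot l2 l2 →
      (∀ a b : ℤ, a • l1 + b • l2 = 0 → a = 0 ∧ b = 0) → NonDeg θ l1 l2 →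
      KData θ l1 l2 d A B Z Λ e →
      (∀ i k, |(A i).coeff k| ≤ (H : ℤ) ^ C0) → (∀ i k, |(B i).coeff k| ≤ (H : ℤ) ^ C0) →
      (∀ k, |Λ.coeff k| ≤ (H : ℤ) ^ C0) →
      Irreducible (g.map (mapRingHom (Int.castRingHom ℚ))) → BiDeg Dg Dg g →
      (∀ i j, |(g.coeff i).coeff j| ≤ (H : ℤ) ^ C0) →
      (∀ ℓ ∈ I, ℓ.Prime) → I.card = m →
      X ^ (β - ε) ≤ ((∏ ℓ ∈ I, ℓ : ℕ) : ℝ) → ((∏ ℓ ∈ I, ℓ : ℕ) : ℝ) ≤ X ^ (β + ε) →
      (∀ N ∈ S, ∃ (p : ℕ) (c : ℤ) (z : Fin 4 → ℤ) (s t kn kd : ℤ),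
        Pt θ C X T l1 l2 N p c z s t ∧ KP A B Z N c s t kn kd z ∧
        |kn| ≤ (H : ℤ) ^ C0 ∧ |kd| ≤ (H : ℤ) ^ C0 ∧
        ev (g.map (mapRingHom (Int.castRingHom ℚ))) ((kn : ℚ) / kd) ((s : ℚ) / t) = 0 ∧
        (((∏ ℓ ∈ I, ℓ : ℕ) : ℤ)) ∣ s - x0 * t ∧
        (∀ ℓ ∈ I, ¬ (ℓ : ℤ) ∣ t ∧ ¬ (ℓ : ℤ) ∣ kd ∧
          ¬ (ℓ : ℤ) ∣ kd * hom 5 (A 0) s t + kn * hom 5 (A 1) s t) ∧
        (dnum Dg g kn kd s t = 0 ∨ ∀ ℓ ∈ I, ¬ (ℓ : ℤ) ∣ dnum Dg g kn kd s t)) →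
      (S.card : ℝ) ≤ K * X ^ η := by
  classical
  obtain ⟨K1, hK1, h1⟩ := gap_one hF Dg (2 * C + 2 * C0) η hη
  obtain ⟨K2, hK2, h2⟩ := gap_kappa hF Dg (2 * C + 2 * C0) η hη
  obtain ⟨ε3, hε3, K3, hK3, h3⟩ := pc816_class hF C Dg w m1 β hw hw' hm1 hm hβ hcur
  obtain ⟨Cb, hCb⟩ := pc816_sing Dg
  obtain ⟨M, hM⟩ : ∃ M : ℕ, M = ⌈K3⌉₊ := ⟨_, rfl⟩
  have hM' : K3 ≤ M := hM ▸ Nat.le_ceil K3
  refine ⟨min ε3 (1 / 4), lt_min hε3 (by norm_num), K1 + K2 + Cb + (M * Dg ^ m : ℕ) + K3 + 16,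
    by (clear * - hK1 hK2 hK3; positivity), ?_⟩
  intro H X T l1 l2 d A B Z Λ e g I x0 S hX hXT hT1 hT2 hXH hHX hl1 hl12 hind hND hKD hAH hBH hΛH
    hg hgd hgH hI hIm hq1 hq2 hS
  have hCb0 : (0 : ℝ) ≤ Cb := Nat.cast_nonneg _
  have hM0 : (0 : ℝ) ≤ ((M * Dg ^ m : ℕ) : ℝ) := Nat.cast_nonneg _
  have hX16 : (16 : ℝ) ≤ X := by linarith only [hM0, hCb0, hX, hK3, hK2, hK1]
  have hX3 : K3 ≤ X := by linarith only [hM0, hCb0, hX, hK2, hK1, hm, hm1, hw']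
  have hX1 : (1 : ℝ) ≤ X := by linarith only [hM0, hCb0, hX, hK3, hK2, hK1, hm, hm1, hw']
  have hX0 : (0 : ℝ) < X := by linarith only [hM0, hCb0, hX, hK3, hK2, hK1, hm, hm1, hw']
  have hXη : (1 : ℝ) ≤ X ^ η := Real.one_le_rpow hX1 hη.le
  have hε1 : min ε3 (1 / 4) ≤ ε3 := min_le_left _ _
  have hε2 : min ε3 (1 / 4) ≤ 1 / 4 := min_le_right _ _
  have hε0 : 0 < min ε3 (1 / 4) := lt_min hε3 (by norm_num)
  have hT0 : 0 ≤ T := (Real.rpow_pos_of_pos hX0 _).le.trans hT1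
  have hl0 : l1 ≠ 0 := by
    intro h0
    have := (hind 1 0 (by rw [h0]; simp)).1
    exact absurd this one_ne_zero
  -- the height
  obtain ⟨F, hFdef⟩ : ∃ F : ℕ, F = ⌊X⌋₊ := ⟨_, rfl⟩
  have hF1 : (F : ℝ) ≤ X := hFdef ▸ Nat.floor_le hX0.le
  have hF2 : X < F + 1 := hFdef ▸ Nat.lt_floor_add_one X
  have hF16 : 16 ≤ F := by
    rw [hFdef]; exact Nat.le_floor (by exact_mod_cast hX16)
  have hF16' : (16 : ℝ) ≤ F := by exact_mod_cast hF16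
  have hXF : X ≤ 2 * (F : ℝ) := by linarith only [hε2, hε0, hF2, hF16']
  have hHF : H ≤ F ^ 2 := pc816_sq hF16 hF2 hHX
  have hpow : (H : ℤ) ^ C0 ≤ (F : ℤ) ^ (2 * C + 2 * C0) := by
    have h4 : H ^ C0 ≤ F ^ (2 * C + 2 * C0) := by
      calc H ^ C0 ≤ (F ^ 2) ^ C0 := Nat.pow_le_pow_left hHF _
        _ = F ^ (2 * C0) := by rw [← pow_mul]
        _ ≤ F ^ (2 * C + 2 * C0) := Nat.pow_le_pow_right (by omega) (by omega)
    exact_mod_cast h4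
  have hTF : T ≤ F := hT2.trans ((pc816_num hX16 (by linarith only [hw', hε2])).trans (by linarith only [hF16', hF2, hε0, hε2]))
  have hFη : (F : ℝ) ^ η ≤ X ^ η := Real.rpow_le_rpow (Nat.cast_nonneg _) hF1 hη.le
  have hfin : ∀ K' : ℝ, 0 ≤ K' → K' ≤ K1 + K2 + Cb + (M * Dg ^ m : ℕ) + K3 + 16 →
      K' * X ^ η ≤ (K1 + K2 + Cb + (M * Dg ^ m : ℕ) + K3 + 16) * X ^ η := fun K' _ h =>
    mul_le_mul_of_nonneg_right h (by (clear * - hX16; positivity))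
  by_cases hg1 : g.natDegree ≤ 1
  · refine (h1 F F T l1 l2 d A B Z Λ e g S (by omega) (by linarith only [hF16', hε0, hε2]) (hF1.trans hXT)
      (hF1.trans hXT) hTF le_rfl hind hKD (fun i k => (hAH i k).trans hpow)
      (fun i k => (hBH i k).trans hpow) (fun k => (hΛH k).trans hpow) hg hgd hg1
      (fun i j => (hgH i j).trans hpow) fun N hN => ?_).trans
      ((mul_le_mul_of_nonneg_left hFη hK1.le).trans (hfin K1 hK1.le (by linarith only [hε0, hε2, hM0, hCb0, hK3, hK2])))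
    obtain ⟨p, c, z, s, t, kn, kd, k1, k2, k3, k4, k5, -⟩ := hS N hN
    exact ⟨p, c, z, s, t, kn, kd, pc816_pt k1 hT0 hXF (Nat.cast_nonneg _) (by omega), k2, k5⟩
  by_cases hg2 : d 0 = 4 ∧ ∀ i, (g.coeff i).natDegree ≤ 1
  · refine (h2 F F T l1 l2 d A B Z Λ e g S (by omega) (by linarith only [hF16', hε0, hε2]) (hF1.trans hXT)
      (hF1.trans hXT) hTF le_rfl hind hKD hg2.1 (fun i k => (hAH i k).trans hpow)
      (fun i k => (hBH i k).trans hpow) (fun k => (hΛH k).trans hpow) hg ⟨hgd.1, hg2.2⟩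
      (by omega) (fun i j => (hgH i j).trans hpow) fun N hN => ?_).trans
      ((mul_le_mul_of_nonneg_left hFη hK2.le).trans (hfin K2 hK2.le (by linarith only [hK1, hK3, hCb0, hM0, hε2, hε0])))
    obtain ⟨p, c, z, s, t, kn, kd, k1, k2, k3, k4, k5, -⟩ := hS N hN
    exact ⟨p, c, z, s, t, kn, kd, pc816_pt k1 hT0 hXF (Nat.cast_nonneg _) (by omega), k2,
      k3.trans hpow, k4.trans hpow, k5⟩
  have hg4 : d 0 = 4 → ∃ i, 2 ≤ (g.coeff i).natDegree := by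
    intro hd
    by_contra hcon
    push Not at hcon
    exact hg2 ⟨hd, fun i => by have := hcon i; omega⟩
  choose! p c z s t kn kd hpt using hS
  have hgn : 2 ≤ g.natDegree := by omega
  -- the singular points
  have hSa : (S.filter fun N => dnum Dg g (kn N) (kd N) (s N) (t N) = 0).card ≤ Cb := by
    refine hCb A B Z g _ c s t kn kd z hg hgd hgn fun N hN => ?_
    obtain ⟨hN1, hN2⟩ := Finset.mem_filter.1 hN
    obtain ⟨k1, k2, k3, k4, k5, -⟩ := hpt N hN1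
    exact ⟨k2, k5, by rw [← pc816_dnum hgd]; exact hN2⟩
  -- the other points
  obtain ⟨Sb, hSb⟩ : ∃ Sb, Sb = S.filter fun N => ¬ dnum Dg g (kn N) (kd N) (s N) (t N) = 0 :=
    ⟨_, rfl⟩
  have hb : ∀ N ∈ Sb, N ∈ S ∧ ∀ ℓ ∈ I,
      ¬ (ℓ : ℤ) ∣ hom2 Dg (derivative g) (kn N) (kd N) (s N) (t N) := by
    intro N hN
    rw [hSb] at hN
    obtain ⟨hN1, hN2⟩ := Finset.mem_filter.1 hN
    refine ⟨hN1, fun ℓ hℓ => ?_⟩
    rw [← pc816_dnum hgd]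
    exact (hpt N hN1).2.2.2.2.2.2.2.resolve_left hN2 ℓ hℓ
  have hR : ∀ ℓ ∈ I, ∃ R : Finset ℕ, R.card ≤ Dg ∧ ∀ N ∈ Sb, pc816_col (kn N) (kd N) ℓ ∈ R := by
    intro ℓ hℓ
    refine pc816_roots hgd (hI ℓ hℓ) x0 Sb s t kn kd fun N hN => ?_
    obtain ⟨hN1, hN2⟩ := hb N hN
    obtain ⟨-, -, -, -, k5, k6, k7, -⟩ := hpt N hN1
    refine ⟨k5, ?_, (k7 ℓ hℓ).1, (k7 ℓ hℓ).2.1, hN2 ℓ hℓ⟩
    refine dvd_trans ?_ k6
    exact_mod_cast Finset.dvd_prod_of_mem (fun ℓ : ℕ => ℓ) hℓ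
  choose! R hR1 hR2 using hR
  have hSbc : Sb.card ≤ M * (I.pi R).card := by
    refine Finset.card_le_mul_card_image_of_maps_to
      (f := fun N => fun ℓ (_ : ℓ ∈ I) => pc816_col (kn N) (kd N) ℓ) (t := I.pi R) ?_ M ?_
    · intro N hN
      rw [Finset.mem_pi]
      exact fun ℓ hℓ => hR2 ℓ hℓ N hN
    · intro b _
      have h4 := h3 X T l1 l2 d A B Z Λ e g I x0
        (Sb.filter fun N => (fun ℓ (_ : ℓ ∈ I) => pc816_col (kn N) (kd N) ℓ) = b) hX3 hXT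
        ((Real.rpow_le_rpow_of_exponent_le hX1 (by linarith only [hε1])).trans hT1)
        (hT2.trans (Real.rpow_le_rpow_of_exponent_le hX1 (by linarith only [hε1])))
        ((Real.rpow_le_rpow_of_exponent_le hX1 (by linarith only [hε1])).trans hl1) hl12 hl0 hND hKD hg hgd
        hgn hg4 hI ((Real.rpow_le_rpow_of_exponent_le hX1 (by linarith only [hε1])).trans hq1)
        (hq2.trans (Real.rpow_le_rpow_of_exponent_le hX1 (by linarith only [hε1]))) p c z s t kn kd ?_ ?_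
      · exact_mod_cast h4.trans hM'
      · intro N hN
        obtain ⟨hN1, hN2⟩ := hb N (Finset.mem_filter.1 hN).1
        obtain ⟨k1, k2, k3, k4, k5, k6, k7, -⟩ := hpt N hN1
        exact ⟨k1, k2, k5, k6, k7, hN2⟩
      · intro N hN N' hN' ℓ hℓ
        have q1 := (Finset.mem_filter.1 hN).2
        have q2 := (Finset.mem_filter.1 hN').2
        have q3 := congrFun (congrFun (q1.trans q2.symm) ℓ) hℓ
        exact q3
  have hpi : (I.pi R).card ≤ Dg ^ m := by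
    rw [Finset.card_pi, ← hIm]
    exact Finset.prod_le_pow_card _ _ _ fun ℓ hℓ => hR1 ℓ hℓ
  have htot : S.card ≤ Cb + M * Dg ^ m := by
    have h4 := Finset.card_filter_add_card_filter_not (s := S)
      (fun N => dnum Dg g (kn N) (kd N) (s N) (t N) = 0)
    rw [← hSb] at h4
    have h5 : M * (I.pi R).card ≤ M * Dg ^ m := Nat.mul_le_mul_left _ hpi
    omega
  have htot' : (S.card : ℝ) ≤ Cb + ((M * Dg ^ m : ℕ) : ℝ) := by exact_mod_cast htot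
  calc (S.card : ℝ) ≤ (Cb + ((M * Dg ^ m : ℕ) : ℝ)) * 1 := by rw [mul_one]; exact htot'
    _ ≤ (Cb + ((M * Dg ^ m : ℕ) : ℝ)) * X ^ η :=
        mul_le_mul_of_nonneg_left hXη (by (clear * -; positivity))
    _ ≤ _ := hfin _ (by (clear * -; positivity)) (by linarith only [hK1, hK2, hK3, hε2, hε0])

end Vale.Agent.P018.Q
end

section

/-! # P018, quartics, family (A): auxiliary estimates for the count over one reduced pair. -/

namespace Vale.Agent.P018.Q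

open Polynomial NumberField Finset

variable {L : Type} [Field L] [NumberField L]

theorem pl_rpow (c a b : ℝ) (h : a < b) : ∀ᶠ X : ℝ in Filter.atTop, c * X ^ a < X ^ b := by
  have h1 : Filter.Tendsto (fun X : ℝ => X ^ (b - a)) Filter.atTop Filter.atTop :=
    tendsto_rpow_atTop (by linarith)
  filter_upwards [h1.eventually_gt_atTop c, Filter.eventually_gt_atTop 0] with X h2 h3
  have h4 : X ^ b = X ^ (b - a) * X ^ a := by
    rw [← Real.rpow_add h3]; congr 1; ring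
  rw [h4]
  exact mul_lt_mul_of_pos_right h2 (Real.rpow_pos_of_pos h3 a)

theorem pl_dot_nonneg (l : Fin 4 → ℤ) : 0 ≤ dot l l :=
  Finset.sum_nonneg fun _ _ => mul_self_nonneg _

theorem pl_sq_le_dot (l : Fin 4 → ℤ) (j : Fin 4) : l j * l j ≤ dot l l :=
  Finset.single_le_sum (f := fun i => l i * l i) (fun _ _ => mul_self_nonneg _) (Finset.mem_univ j)

theorem pl_dot_pos {l : Fin 4 → ℤ} (h : l ≠ 0) : 1 ≤ dot l l := by
  obtain ⟨j, hj⟩ := Function.ne_iff.1 h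
  have h1 := pl_sq_le_dot l j
  have h2 : 0 < l j * l j := mul_self_pos.2 hj
  omega

/-- changing `X` to `X / 2`. -/
theorem Pt.half {θ : Fin 4 → 𝓞 L} {C C' : ℕ} (hC : 2 * C ≤ C') {X T : ℝ} (hX : 0 ≤ X) (hT : 0 ≤ T)
    {l1 l2 : Fin 4 → ℤ} {N : ℤ} {p : ℕ} {c : ℤ} {z : Fin 4 → ℤ} {s t : ℤ}
    (h : Pt θ C X T l1 l2 N p c z s t) : Pt θ C' (X / 2) T l1 l2 N p c z s t := by
  have hC1 : (2 * C : ℝ) ≤ C' := by exact_mod_cast hC
  have hC2 : (C : ℝ) ≤ C' := by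
    have : (0 : ℝ) ≤ C := Nat.cast_nonneg _
    linarith only [this, hC1]
  have hC3 : (C : ℤ) ≤ C' := by exact_mod_cast (by omega : C ≤ C')
  have hT2 : 0 ≤ T ^ 2 := by positivity
  obtain ⟨hd, hs, ht⟩ := h
  refine ⟨⟨hd.prime, hd.lo, hd.hi, hd.c0, hd.cC.trans hC3, ?_, hd.eqn, ?_, ?_, ?_⟩, ?_, ?_⟩
  · obtain ⟨c', h1, h2, h3⟩ := hd.nrm
    exact ⟨c', h1, h2.trans hC3, h3⟩
  · refine hd.hN.trans ?_
    linarith only [mul_nonneg (sub_nonneg.2 hX) (sub_nonneg.2 hC1)]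
  · exact fun j => (hd.hy j).trans (mul_le_mul_of_nonneg_right hC2 hT)
  · intro j
    refine (hd.hz j).trans ?_
    rw [div_eq_mul_inv, div_eq_mul_inv]
    exact mul_le_mul_of_nonneg_right (by linarith only [mul_nonneg (sub_nonneg.2 hX) (sub_nonneg.2 hC1)]) (by (clear * -; positivity))
  · exact hs.trans (mul_le_mul_of_nonneg_right hC2 hT2)
  · exact ht.trans (mul_le_mul_of_nonneg_right hC2 hT2)

theorem pl_abs_le {u : ℤ} {C H : ℕ} {T dt : ℝ} (hdt : 1 ≤ dt) (h : (u : ℝ) ^ 2 * dt ≤ C * T ^ 2)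
    (hT : 0 ≤ T) (hTH : T ≤ H) (hCH : C ≤ H) (hH : 1 ≤ H) : |u| ≤ (H : ℤ) ^ 2 := by
  have h1 : (u : ℝ) ^ 2 ≤ ((H : ℝ) ^ 2) ^ 2 := by
    have h2 : (u : ℝ) ^ 2 ≤ (u : ℝ) ^ 2 * dt := le_mul_of_one_le_right (sq_nonneg _) hdt
    have h3 : (C : ℝ) * T ^ 2 ≤ H * (H : ℝ) ^ 2 := by
      have : (C : ℝ) ≤ H := by exact_mod_cast hCH
      gcongr
    have h4 : (1 : ℝ) ≤ H := by exact_mod_cast hH
    have h5 : (H : ℝ) * (H : ℝ) ^ 2 ≤ ((H : ℝ) ^ 2) ^ 2 := by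
      have : (0 : ℝ) ≤ (H : ℝ) ^ 3 := by positivity
      linarith only [mul_nonneg (sub_nonneg.2 h4) (sub_nonneg.2 this)]
    linarith only [h5, h3, h2, h]
  have h6 : |(u : ℝ)| ≤ (H : ℝ) ^ 2 := abs_le_of_sq_le_sq h1 (by positivity)
  exact_mod_cast h6

theorem pl_hom_le {D : ℕ} {A : ℤ[X]} {H C0 : ℕ} (hA : ∀ k, |A.coeff k| ≤ (H : ℤ) ^ C0) {s t : ℤ}
    (hs : |s| ≤ (H : ℤ) ^ 2) (ht : |t| ≤ (H : ℤ) ^ 2) :
    |hom D A s t| ≤ (D + 1) * (H : ℤ) ^ (C0 + 2 * D) := by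
  unfold hom
  refine (Finset.abs_sum_le_sum_abs _ _).trans ?_
  have h1 : ∀ i ∈ range (D + 1), |((A.coeff i : ℤ) : ℤ) * s ^ i * t ^ (D - i)| ≤
      (H : ℤ) ^ (C0 + 2 * D) := by
    intro i hi
    have hi' : i ≤ D := Nat.lt_succ_iff.1 (Finset.mem_range.1 hi)
    rw [abs_mul, abs_mul, abs_pow, abs_pow]
    calc |A.coeff i| * |s| ^ i * |t| ^ (D - i)
        ≤ (H : ℤ) ^ C0 * ((H : ℤ) ^ 2) ^ i * ((H : ℤ) ^ 2) ^ (D - i) := by
          gcongr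
          exact hA i
      _ = (H : ℤ) ^ (C0 + 2 * D) := by
          rw [← pow_mul, ← pow_mul, ← pow_add, ← pow_add]
          congr 1
          omega
  refine (Finset.sum_le_sum h1).trans ?_
  rw [Finset.sum_const, Finset.card_range, nsmul_eq_mul]
  push_cast
  exact le_refl _

theorem pl_hom_aeval {D : ℕ} {A : ℤ[X]} (h : A.natDegree ≤ D) {s t : ℤ} (ht : t ≠ 0) :
    ((hom D A s t : ℤ) : ℚ) = (t : ℚ) ^ D * aeval ((s : ℚ) / t) A := by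
  have ht' : (t : ℚ) ≠ 0 := by exact_mod_cast ht
  have h1 := cehom_mul (R := ℚ) D h ((s : ℚ) / t) (t : ℚ)
  rw [div_mul_cancel₀ _ ht'] at h1
  rw [← h1]
  have := cehom_map (Int.castRingHom ℚ) D A s t
  simpa using this

/-- the denominator of the kappa model is a nonzero integer. -/
theorem pl_den_ne {A B : Fin 2 → ℤ[X]} {Z : Fin 2 → Fin 4 → ℤ[X]} {N c s t kn kd : ℤ}
    {z : Fin 4 → ℤ} (hA : ∀ i, (A i).natDegree ≤ 5) (h : KP A B Z N c s t kn kd z) :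
    kd * hom 5 (A 0) s t + kn * hom 5 (A 1) s t ≠ 0 := by
  intro h0
  apply h.den
  have ht' : (t : ℚ) ≠ 0 := by exact_mod_cast h.t0
  have h1 : ((kd * hom 5 (A 0) s t + kn * hom 5 (A 1) s t : ℤ) : ℚ) = 0 := by
    rw [h0, Int.cast_zero]
  push_cast at h1
  rw [pl_hom_aeval (hA 0) h.t0, pl_hom_aeval (hA 1) h.t0] at h1
  have h2 : (t : ℚ) ^ 5 * (kd * aeval ((s : ℚ) / t) (A 0) + kn * aeval ((s : ℚ) / t) (A 1)) = 0 := by
    linear_combination h1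
  exact (mul_eq_zero.1 h2).resolve_left (pow_ne_zero _ ht')

theorem pl_bad_le {A : Fin 2 → ℤ[X]} {H C0 : ℕ} (hH : 2 ≤ H)
    (hA : ∀ i k, |(A i).coeff k| ≤ (H : ℤ) ^ C0)
    {s t kn kd : ℤ} (hs : |s| ≤ (H : ℤ) ^ 2) (ht : |t| ≤ (H : ℤ) ^ 2)
    (hkn : |kn| ≤ (H : ℤ) ^ C0) (hkd : |kd| ≤ (H : ℤ) ^ C0) :
    |t * kd * (kd * hom 5 (A 0) s t + kn * hom 5 (A 1) s t)| ≤ (H : ℤ) ^ (3 * C0 + 16) := by
  have hH' : (2 : ℤ) ≤ H := by exact_mod_cast hH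
  have h0 : (0 : ℤ) ≤ H := by linarith only [hH']
  have h1 := pl_hom_le (D := 5) (hA 0) hs ht
  have h2 := pl_hom_le (D := 5) (hA 1) hs ht
  have h12 : (12 : ℤ) ≤ (H : ℤ) ^ 4 := by
    calc (12 : ℤ) ≤ 2 ^ 4 := by norm_num
      _ ≤ (H : ℤ) ^ 4 := pow_le_pow_left₀ (by norm_num) hH' 4
  have h3 : |kd * hom 5 (A 0) s t + kn * hom 5 (A 1) s t| ≤ (H : ℤ) ^ (2 * C0 + 14) := by
    calc |kd * hom 5 (A 0) s t + kn * hom 5 (A 1) s t|
        ≤ |kd| * |hom 5 (A 0) s t| + |kn| * |hom 5 (A 1) s t| := by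
          rw [← abs_mul, ← abs_mul]; exact abs_add_le _ _
      _ ≤ (H : ℤ) ^ C0 * (((5 : ℕ) + 1) * (H : ℤ) ^ (C0 + 2 * 5)) +
          (H : ℤ) ^ C0 * (((5 : ℕ) + 1) * (H : ℤ) ^ (C0 + 2 * 5)) := by
          gcongr
      _ = 12 * ((H : ℤ) ^ C0 * (H : ℤ) ^ (C0 + 10)) := by push_cast; ring
      _ ≤ (H : ℤ) ^ 4 * ((H : ℤ) ^ C0 * (H : ℤ) ^ (C0 + 10)) := by gcongr
      _ = (H : ℤ) ^ (2 * C0 + 14) := by rw [← pow_add, ← pow_add]; congr 1; omega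
  rw [abs_mul, abs_mul]
  calc |t| * |kd| * |kd * hom 5 (A 0) s t + kn * hom 5 (A 1) s t|
      ≤ (H : ℤ) ^ 2 * (H : ℤ) ^ C0 * (H : ℤ) ^ (2 * C0 + 14) := by gcongr
    _ = (H : ℤ) ^ (3 * C0 + 16) := by rw [← pow_add, ← pow_add]; congr 1; omega

theorem pl_dnum_le {Dg H C0 : ℕ} (hH : 2 ≤ H) (hD : Dg + 1 ≤ H) {g : ℤ[X][X]}
    (hg : ∀ i j, |(g.coeff i).coeff j| ≤ (H : ℤ) ^ C0)
    {s t kn kd : ℤ} (hs : |s| ≤ (H : ℤ) ^ 2) (ht : |t| ≤ (H : ℤ) ^ 2)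
    (hkn : |kn| ≤ (H : ℤ) ^ C0) (hkd : |kd| ≤ (H : ℤ) ^ C0) :
    |dnum Dg g kn kd s t| ≤ (H : ℤ) ^ (C0 + 2 * Dg + C0 * Dg + 3) := by
  have hH' : (2 : ℤ) ≤ H := by exact_mod_cast hH
  have hD' : (Dg : ℤ) + 1 ≤ H := by exact_mod_cast hD
  have h0 : (0 : ℤ) ≤ H := by linarith only [hH']
  unfold dnum
  refine (Finset.abs_sum_le_sum_abs _ _).trans ?_
  have h1 : ∀ k ∈ range Dg, |(k + 1 : ℤ) * hom Dg (g.coeff (k + 1)) s t * kn ^ k * kd ^ (Dg - k)|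
      ≤ (H : ℤ) ^ (C0 + 2 * Dg + C0 * Dg + 2) := by
    intro k hk
    have hk' : k < Dg := Finset.mem_range.1 hk
    rw [abs_mul, abs_mul, abs_mul, abs_pow, abs_pow]
    have h2 : |(k + 1 : ℤ)| ≤ H := by
      rw [abs_of_nonneg (by (clear * -; positivity))]
      have : (k : ℤ) < Dg := by exact_mod_cast hk'
      linarith only [this, hD']
    have h3 := pl_hom_le (D := Dg) (hg (k + 1)) hs ht
    calc |(k + 1 : ℤ)| * |hom Dg (g.coeff (k + 1)) s t| * |kn| ^ k * |kd| ^ (Dg - k)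
        ≤ (H : ℤ) * (((Dg : ℤ) + 1) * (H : ℤ) ^ (C0 + 2 * Dg)) * ((H : ℤ) ^ C0) ^ k *
          ((H : ℤ) ^ C0) ^ (Dg - k) := by gcongr
      _ ≤ (H : ℤ) * (H * (H : ℤ) ^ (C0 + 2 * Dg)) * ((H : ℤ) ^ C0) ^ k *
          ((H : ℤ) ^ C0) ^ (Dg - k) := by gcongr
      _ = (H : ℤ) ^ (C0 + 2 * Dg + 2) * ((H : ℤ) ^ C0) ^ (k + (Dg - k)) := by
          rw [pow_add ((H : ℤ) ^ C0)]; ring
      _ = (H : ℤ) ^ (C0 + 2 * Dg + C0 * Dg + 2) := by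
          rw [Nat.add_sub_cancel' hk'.le, ← pow_mul, ← pow_add]; congr 1; omega
  refine (Finset.sum_le_sum h1).trans ?_
  rw [Finset.sum_const, Finset.card_range, nsmul_eq_mul, pow_succ _ (C0 + 2 * Dg + C0 * Dg + 2),
    mul_comm]
  refine mul_le_mul_of_nonneg_left (by linarith only [hD']) (by positivity)

end Vale.Agent.P018.Q
end

section

/-! # P018, quartics, family (A): the number of points over one reduced pair (assembly). -/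

namespace Vale.Agent.P018.Q

open Polynomial NumberField Finset

variable {L : Type} [Field L] [NumberField L]

/-- abbreviation for the statement of `exists_kp`. -/
def KpStmt (θ : Fin 4 → 𝓞 L) (C C0 C1 : ℕ) : Prop :=
    ∀ (H : ℕ) (X T : ℝ) (l1 l2 : Fin 4 → ℤ) (d : Fin 2 → ℕ)
      (A B : Fin 2 → ℤ[X]) (Z : Fin 2 → Fin 4 → ℤ[X]) (Λ : ℤ[X]) (e : ℤ)
      (N : ℤ) (p : ℕ) (c : ℤ) (z : Fin 4 → ℤ) (s t : ℤ),
      2 ≤ H → X ≤ H → T ≤ H → t ≠ 0 → l1 ≠ 0 → l2 ≠ 0 → KData θ l1 l2 d A B Z Λ e →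
      (∀ i k, |(A i).coeff k| ≤ (H : ℤ) ^ C0) → (∀ i k, |(B i).coeff k| ≤ (H : ℤ) ^ C0) →
      Pt θ C X T l1 l2 N p c z s t →
      (aeval ((s : ℚ) / t) (A 1) ≠ 0 ∧
        aeval ((s : ℚ) / t) (A 1) * (N : ℚ) = aeval ((s : ℚ) / t) (B 1)) ∨
      ∃ kn kd : ℤ, KP A B Z N c s t kn kd z ∧ |kn| ≤ (H : ℤ) ^ C1 ∧ |kd| ≤ (H : ℤ) ^ C1

/-- abbreviation for the statement of `class_curves`. -/
def ClStmt (θ : Fin 4 → 𝓞 L) (C C0 : ℕ) (w m1 m2 β ε : ℝ) (Dg C1 : ℕ) (K : ℝ) : Prop :=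
    ∀ (H : ℕ) (X T : ℝ) (l1 l2 : Fin 4 → ℤ)
      (d : Fin 2 → ℕ) (A B : Fin 2 → ℤ[X]) (Z : Fin 2 → Fin 4 → ℤ[X]) (Λ : ℤ[X]) (e : ℤ)
      (q : ℕ) (σ0 : ℤ), K ≤ X → X ≤ H → X ≤ T ^ 4 → X ^ (w - ε) ≤ T → T ≤ X ^ (w + ε) →
      X ^ (2 * (m1 - ε)) ≤ dot l1 l1 → (dot l1 l1 : ℝ) ≤ X ^ (2 * (m1 + ε)) →
      X ^ (2 * (m2 - ε)) ≤ dot l2 l2 → (dot l2 l2 : ℝ) ≤ X ^ (2 * (m2 + ε)) →
      KData θ l1 l2 d A B Z Λ e →
      (∀ i k, |(A i).coeff k| ≤ (H : ℤ) ^ C0) → (∀ i k, |(B i).coeff k| ≤ (H : ℤ) ^ C0) →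
      X ^ (β - ε) ≤ q → (q : ℝ) ≤ X ^ (β + ε) → (∀ p : ℕ, p.Prime → T ^ 4 ≤ p → ¬ p ∣ q) →
      ∃ Cv : Finset (ℤ[X][X]), Cv.card ≤ C1 ∧
        (∀ g ∈ Cv, Irreducible (g.map (mapRingHom (Int.castRingHom ℚ))) ∧ BiDeg Dg Dg g ∧
          (∀ i j, |(g.coeff i).coeff j| ≤ (H : ℤ) ^ C1)) ∧
        ∀ (N : ℤ) (p : ℕ) (c : ℤ) (z : Fin 4 → ℤ) (s t kn kd : ℤ),
          Pt θ C X T l1 l2 N p c z s t → KP A B Z N c s t kn kd z →
          IsCoprime t (q : ℤ) → (q : ℤ) ∣ s - σ0 * t →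
          ∃ g ∈ Cv, ev (g.map (mapRingHom (Int.castRingHom ℚ))) ((kn : ℚ) / kd) ((s : ℚ) / t) = 0

/-- a valid curve with normal form `γ`. -/
def IsCv (H Dg C1 : ℕ) (nf : ℤ[X][X] → ℤ[X][X]) (γ g : ℤ[X][X]) : Prop :=
  nf g = γ ∧ Irreducible (g.map (mapRingHom (Int.castRingHom ℚ))) ∧ BiDeg Dg Dg g ∧
    ∀ i j, |(g.coeff i).coeff j| ≤ (H : ℤ) ^ C1

/-- `N` is determined by the point `(κ, σ)`. -/
theorem kp_inj {A B : Fin 2 → ℤ[X]} {Z : Fin 2 → Fin 4 → ℤ[X]} {N c s t kn kd : ℤ}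
    {z : Fin 4 → ℤ} {N' c' s' t' kn' kd' : ℤ} {z' : Fin 4 → ℤ}
    (h : KP A B Z N c s t kn kd z) (h' : KP A B Z N' c' s' t' kn' kd' z')
    (e1 : (kn : ℚ) / kd = kn' / kd') (e2 : (s : ℚ) / t = s' / t') : N = N' := by
  have k1 : (kd : ℚ) ≠ 0 := by exact_mod_cast h.k0
  have k2 : (kd' : ℚ) ≠ 0 := by exact_mod_cast h'.k0
  have e := h.eqN
  have e' := h'.eqN
  have d := h.den
  rw [← e2] at e'
  obtain ⟨a0, ha0⟩ : ∃ a0, a0 = aeval ((s : ℚ) / t) (A 0) := ⟨_, rfl⟩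
  obtain ⟨a1, ha1⟩ : ∃ a1, a1 = aeval ((s : ℚ) / t) (A 1) := ⟨_, rfl⟩
  obtain ⟨b0, hb0⟩ : ∃ b0, b0 = aeval ((s : ℚ) / t) (B 0) := ⟨_, rfl⟩
  obtain ⟨b1, hb1⟩ : ∃ b1, b1 = aeval ((s : ℚ) / t) (B 1) := ⟨_, rfl⟩
  rw [← ha0, ← ha1, ← hb0, ← hb1] at e e'
  rw [← ha0, ← ha1] at d
  rw [div_eq_div_iff k1 k2] at e1
  have h1 : (kd * a0 + kn * a1) * kd' * ((N : ℚ) - N') = 0 := by
    linear_combination kd' * e - kd * e' - (a1 * N' - b1) * e1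
  have h2 : (N : ℚ) - N' = 0 := (mul_eq_zero.1 h1).resolve_left (mul_ne_zero d k2)
  have h3 : (N : ℚ) = N' := sub_eq_zero.1 h2
  exact_mod_cast h3

/-- abbreviation for the statement of `curve_count`. -/
def CcStmt (θ : Fin 4 → 𝓞 L) (C Dg m C0 : ℕ) (w m1 β η ε K : ℝ) : Prop :=
    ∀ (H : ℕ) (X T : ℝ) (l1 l2 : Fin 4 → ℤ) (d : Fin 2 → ℕ)
      (A B : Fin 2 → ℤ[X]) (Z : Fin 2 → Fin 4 → ℤ[X]) (Λ : ℤ[X]) (e : ℤ) (g : ℤ[X][X])
      (I : Finset ℕ) (x0 : ℤ) (S : Finset ℤ),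
      K ≤ X → X ≤ T ^ 4 → X ^ (w - ε) ≤ T → T ≤ X ^ (w + ε) → X ≤ H → (H : ℝ) ≤ 2 * X →
      X ^ (2 * (m1 - ε)) ≤ dot l1 l1 → dot l1 l1 ≤ dot l2 l2 →
      (∀ a b : ℤ, a • l1 + b • l2 = 0 → a = 0 ∧ b = 0) → NonDeg θ l1 l2 →
      KData θ l1 l2 d A B Z Λ e →
      (∀ i k, |(A i).coeff k| ≤ (H : ℤ) ^ C0) → (∀ i k, |(B i).coeff k| ≤ (H : ℤ) ^ C0) →
      (∀ k, |Λ.coeff k| ≤ (H : ℤ) ^ C0) →
      Irreducible (g.map (mapRingHom (Int.castRingHom ℚ))) → BiDeg Dg Dg g →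
      (∀ i j, |(g.coeff i).coeff j| ≤ (H : ℤ) ^ C0) →
      (∀ ℓ ∈ I, ℓ.Prime) → I.card = m →
      X ^ (β - ε) ≤ ((∏ ℓ ∈ I, ℓ : ℕ) : ℝ) → ((∏ ℓ ∈ I, ℓ : ℕ) : ℝ) ≤ X ^ (β + ε) →
      (∀ N ∈ S, ∃ (p : ℕ) (c : ℤ) (z : Fin 4 → ℤ) (s t kn kd : ℤ),
        Pt θ C X T l1 l2 N p c z s t ∧ KP A B Z N c s t kn kd z ∧
        |kn| ≤ (H : ℤ) ^ C0 ∧ |kd| ≤ (H : ℤ) ^ C0 ∧
        ev (g.map (mapRingHom (Int.castRingHom ℚ))) ((kn : ℚ) / kd) ((s : ℚ) / t) = 0 ∧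
        (((∏ ℓ ∈ I, ℓ : ℕ) : ℤ)) ∣ s - x0 * t ∧
        (∀ ℓ ∈ I, ¬ (ℓ : ℤ) ∣ t ∧ ¬ (ℓ : ℤ) ∣ kd ∧
          ¬ (ℓ : ℤ) ∣ kd * hom 5 (A 0) s t + kn * hom 5 (A 1) s t) ∧
        (dnum Dg g kn kd s t = 0 ∨ ∀ ℓ ∈ I, ¬ (ℓ : ℤ) ∣ dnum Dg g kn kd s t)) →
      (S.card : ℝ) ≤ K * X ^ η

/-- the count of the points of the kappa model. -/
theorem count_b {θ : Fin 4 → 𝓞 L} {C C0 C1 C2 Dg m r Bz : ℕ} {w m1 m2 β ε1 ε2 η K1 K2 : ℝ}
    (hcl : ClStmt θ C C0 w m1 m2 β ε1 Dg C1 K1) (hcc : CcStmt θ C Dg m C2 w m1 β η ε2 K2)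
    (hC0 : C0 ≤ C2) (hC1 : C1 ≤ C2)
    (hbez : ∀ g Ψ : ℚ[X][X], Irreducible g → ¬ g ∣ Ψ → BiDeg Dg Dg g → BiDeg Dg Dg Ψ →
      ∀ S : Finset (ℚ × ℚ), (∀ z ∈ S, ev g z.1 z.2 = 0 ∧ ev Ψ z.1 z.2 = 0) → S.card ≤ Bz)
    {H b : ℕ} {X T : ℝ} {l1 l2 : Fin 4 → ℤ} {d : Fin 2 → ℕ} {A B : Fin 2 → ℤ[X]}
    {Z : Fin 2 → Fin 4 → ℤ[X]} {Λ : ℤ[X]} {e : ℤ}
    (hK1 : K1 ≤ X) (hK2 : K2 ≤ X) (hXH : X ≤ H) (hHX : (H : ℝ) ≤ 2 * X) (hXT : X ≤ T ^ 4)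
    (hT0 : 0 ≤ T) (hTH : T ≤ H) (hH2 : 2 ≤ H) (hCH : C ≤ H) (hDH : Dg + 1 ≤ H)
    (hT1 : X ^ (w - ε1) ≤ T) (hT1' : T ≤ X ^ (w + ε1))
    (hT2 : X ^ (w - ε2) ≤ T) (hT2' : T ≤ X ^ (w + ε2))
    (ha1 : X ^ (2 * (m1 - ε1)) ≤ dot l1 l1) (ha2 : (dot l1 l1 : ℝ) ≤ X ^ (2 * (m1 + ε1)))
    (ha3 : X ^ (2 * (m2 - ε1)) ≤ dot l2 l2) (ha4 : (dot l2 l2 : ℝ) ≤ X ^ (2 * (m2 + ε1)))
    (ha5 : X ^ (2 * (m1 - ε2)) ≤ dot l1 l1) (hR : Red l1 l2) (hND : NonDeg θ l1 l2)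
    (hK : KData θ l1 l2 d A B Z Λ e)
    (hA : ∀ i k, |(A i).coeff k| ≤ (H : ℤ) ^ C0) (hB : ∀ i k, |(B i).coeff k| ≤ (H : ℤ) ^ C0)
    (hΛ : ∀ k, |Λ.coeff k| ≤ (H : ℤ) ^ C0)
    (hb1 : 1 ≤ b) (hlo1 : X ^ (β - ε1) ≤ (b : ℝ) ^ m)
    (hhi1 : ((2 ^ (m + 1 + 2 * r) * b : ℕ) : ℝ) ^ m ≤ X ^ (β + ε1))
    (hlo2 : X ^ (β - ε2) ≤ (b : ℝ) ^ m)
    (hhi2 : ((2 ^ (m + 1 + 2 * r) * b : ℕ) : ℝ) ^ m ≤ X ^ (β + ε2))
    (hbX : ((2 ^ (m + 1 + 2 * r) * b : ℕ) : ℝ) < X)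
    (hbad1 : H ^ (3 * C2 + 16) < b ^ (r + 1))
    (hbad2 : H ^ (C2 + 2 * Dg + C2 * Dg + 3) < b ^ (r + 1))
    (S : Finset ℤ) (hS : ∀ N ∈ S, ∃ (p : ℕ) (c : ℤ) (z : Fin 4 → ℤ) (s t kn kd : ℤ),
      Pt θ C X T l1 l2 N p c z s t ∧ KP A B Z N c s t kn kd z ∧
        |kn| ≤ (H : ℤ) ^ C2 ∧ |kd| ≤ (H : ℤ) ^ C2) :
    S.card ≤ 4 ^ (m + 1 + 2 * r) * ((2 ^ (m + 1 + 2 * r) * b) ^ (m + 1) * (C1 * C1 * Bz)) +
      2 ^ (m + 1 + 2 * r) * ((2 ^ (m + 1 + 2 * r) * b) ^ m * (C1 * ⌊K2 * X ^ η⌋₊)) := by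
  classical
  obtain ⟨M, hM⟩ : ∃ M, M = m + 1 + 2 * r := ⟨_, rfl⟩
  rw [← hM] at hhi1 hhi2 hbX ⊢
  obtain ⟨ℓ, hinj, hℓ⟩ := exists_primes_size M b hb1
  obtain ⟨nf, hnf⟩ := factor_normal
  have hH1 : (1 : ℤ) ≤ H := by exact_mod_cast (by omega : 1 ≤ H)
  have hℓp : ∀ i, (ℓ i).Prime := fun i => (hℓ i).1
  have hA2 : ∀ i k, |(A i).coeff k| ≤ (H : ℤ) ^ C2 := fun i k =>
    (hA i k).trans (pow_le_pow_right₀ hH1 hC0)
  have hB2 : ∀ i k, |(B i).coeff k| ≤ (H : ℤ) ^ C2 := fun i k =>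
    (hB i k).trans (pow_le_pow_right₀ hH1 hC0)
  have hΛ2 : ∀ k, |Λ.coeff k| ≤ (H : ℤ) ^ C2 := fun k =>
    (hΛ k).trans (pow_le_pow_right₀ hH1 hC0)
  have hdA : ∀ i, (A i).natDegree ≤ 5 := by
    have hd5 : ∀ i, d i ≤ 5 := by
      rw [Fin.forall_fin_two]
      rcases hK.dd with ⟨h2, h3⟩ | ⟨h2, h3⟩ <;> rw [h2, h3] <;> decide
    exact fun i => (hK.dA i).trans (hd5 i)
  have hl2 : l2 ≠ 0 := by
    rintro rfl
    have := hR.2.2.2 0 1 (by simp)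
    omega
  have hdl2 : (1 : ℝ) ≤ dot l2 l2 := by exact_mod_cast pl_dot_pos hl2
  have hdl1 : (1 : ℝ) ≤ dot l1 l1 := by exact_mod_cast pl_dot_pos hR.1
  -- sizes of `q_I`
  have hqlo : ∀ I : Finset (Fin M), I.card = m → (b : ℝ) ^ m ≤ ((∏ i ∈ I, ℓ i : ℕ) : ℝ) := by
    intro I hI
    have h1 : b ^ m ≤ ∏ i ∈ I, ℓ i := by
      rw [← hI, ← Finset.prod_const]
      exact Finset.prod_le_prod' fun i _ => (hℓ i).2.1.le
    exact_mod_cast h1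
  have hqhi : ∀ I : Finset (Fin M), I.card = m →
      ((∏ i ∈ I, ℓ i : ℕ) : ℝ) ≤ ((2 ^ M * b : ℕ) : ℝ) ^ m := by
    intro I hI
    have h1 : ∏ i ∈ I, ℓ i ≤ (2 ^ M * b) ^ m := by
      rw [← hI, ← Finset.prod_const]
      exact Finset.prod_le_prod' fun i _ => (hℓ i).2.2
    exact_mod_cast h1
  have hqp : ∀ (I : Finset (Fin M)) (p : ℕ), p.Prime → T ^ 4 ≤ p → ¬ p ∣ ∏ i ∈ I, ℓ i := by
    intro I p hp hTp hdvd
    obtain ⟨i, _, hi⟩ := (Nat.Prime.prime hp).exists_mem_finset_dvd hdvd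
    have h1 : p = ℓ i := (Nat.prime_dvd_prime_iff_eq hp (hℓp i)).1 hi
    have h2 : (p : ℝ) ≤ ((2 ^ M * b : ℕ) : ℝ) := by
      rw [h1]; exact_mod_cast (hℓ i).2.2
    linarith only [h2, hTp, hbX, hXT]
  -- the curves
  have hCv : ∀ (I : Finset (Fin M)) (c0 : ℤ), ∃ Cv : Finset (ℤ[X][X]), Cv.card ≤ C1 ∧
      (I.card = m → (∀ g ∈ Cv, Irreducible (g.map (mapRingHom (Int.castRingHom ℚ))) ∧
          BiDeg Dg Dg g ∧ (∀ i j, |(g.coeff i).coeff j| ≤ (H : ℤ) ^ C1)) ∧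
        ∀ (N : ℤ) (p : ℕ) (c : ℤ) (z : Fin 4 → ℤ) (s t kn kd : ℤ),
          Pt θ C X T l1 l2 N p c z s t → KP A B Z N c s t kn kd z →
          IsCoprime t ((∏ i ∈ I, ℓ i : ℕ) : ℤ) → ((∏ i ∈ I, ℓ i : ℕ) : ℤ) ∣ s - c0 * t →
          ∃ g ∈ Cv, ev (g.map (mapRingHom (Int.castRingHom ℚ))) ((kn : ℚ) / kd) ((s : ℚ) / t)
            = 0) := by
    intro I c0
    by_cases hI : I.card = m
    · obtain ⟨Cv, h1, h2, h3⟩ := hcl H X T l1 l2 d A B Z Λ e (∏ i ∈ I, ℓ i) c0 hK1 hXH hXT hT1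
        hT1' ha1 ha2 ha3 ha4 hK hA hB (hlo1.trans (hqlo I hI)) ((hqhi I hI).trans hhi1) (hqp I)
      exact ⟨Cv, h1, fun _ => ⟨h2, h3⟩⟩
    · exact ⟨∅, by simp, fun h => absurd h hI⟩
  choose CvZ hCv1 hCv2 using hCv
  choose! p c z s t kn kd hPt hKP hkn hkd using hS
  have hs2 : ∀ N ∈ S, |s N| ≤ (H : ℤ) ^ 2 := fun N hN =>
    pl_abs_le hdl1 (hPt N hN).hs hT0 hTH hCH (by omega)
  have ht2 : ∀ N ∈ S, |t N| ≤ (H : ℤ) ^ 2 := fun N hN =>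
    pl_abs_le hdl2 (hPt N hN).ht hT0 hTH hCH (by omega)
  obtain ⟨n1, hn1⟩ : ∃ n1 : ℤ → ℤ, ∀ N, n1 N = t N * kd N *
    (kd N * hom 5 (A 0) (s N) (t N) + kn N * hom 5 (A 1) (s N) (t N)) := ⟨_, fun _ => rfl⟩
  have hn10 : ∀ N ∈ S, n1 N ≠ 0 := fun N hN => by
    rw [hn1]
    exact mul_ne_zero (mul_ne_zero (hKP N hN).t0 (hKP N hN).k0) (pl_den_ne hdA (hKP N hN))
  have hn1l : ∀ N ∈ S, |n1 N| ≤ (H : ℤ) ^ (3 * C2 + 16) := fun N hN => by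
    rw [hn1]
    exact pl_bad_le hH2 hA2 (hs2 N hN) (ht2 N hN) (hkn N hN) (hkd N hN)
  obtain ⟨rep, hrep⟩ : ∃ rep : ℤ[X][X] → ℤ[X][X], ∀ γ g, IsCv H Dg C1 nf γ g →
      IsCv H Dg C1 nf γ (rep γ) := by
    refine ⟨fun γ => if h : ∃ g, IsCv H Dg C1 nf γ g then h.choose else 0, fun γ g hg => ?_⟩
    have h : ∃ g, IsCv H Dg C1 nf γ g := ⟨g, hg⟩
    simp only [dif_pos h]
    exact h.choose_spec
  obtain ⟨inc, hinc⟩ : ∃ inc : ℤ → ℤ[X][X] → Prop, ∀ N γ, inc N γ ↔ ∃ g, IsCv H Dg C1 nf γ g ∧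
    ev (g.map (mapRingHom (Int.castRingHom ℚ))) ((kn N : ℚ) / kd N) ((s N : ℚ) / t N) = 0 :=
    ⟨_, fun _ _ => Iff.rfl⟩
  have hrepev : ∀ N γ, inc N γ → IsCv H Dg C1 nf γ (rep γ) ∧
      ev ((rep γ).map (mapRingHom (Int.castRingHom ℚ))) ((kn N : ℚ) / kd N) ((s N : ℚ) / t N)
        = 0 := by
    intro N γ h
    obtain ⟨g, hg, hev⟩ := (hinc N γ).1 h
    have hr := hrep γ g hg
    refine ⟨hr, ?_⟩
    have has := (hnf g (rep γ) hg.2.1 hr.2.1).2 (hg.1.trans hr.1.symm)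
    exact ht_ev_of_dvd has.dvd hev
  obtain ⟨dn, hdn⟩ : ∃ dn : ℤ → ℤ[X][X] → ℤ, ∀ N γ, dn N γ =
    dnum Dg (rep γ) (kn N) (kd N) (s N) (t N) := ⟨_, fun _ _ => rfl⟩
  obtain ⟨bad, hbad⟩ : ∃ bad : ℤ → ℤ[X][X] → Finset (Fin M), ∀ N γ, bad N γ =
    if dn N γ = 0 then ∅ else Finset.univ.filter fun i => (ℓ i : ℤ) ∣ dn N γ :=
    ⟨_, fun _ _ => rfl⟩
  obtain ⟨good, hgood⟩ : ∃ good : ℤ → Finset (Fin M), ∀ N, good N =
    Finset.univ.filter fun i => ¬ (ℓ i : ℤ) ∣ n1 N := ⟨_, fun _ => rfl⟩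
  have hgt : ∀ N, ∀ I ⊆ good N, ∀ i ∈ I, ¬ (ℓ i : ℤ) ∣ t N := by
    intro N I hI i hi hd
    have h1 := hI hi
    rw [hgood, Finset.mem_filter, hn1] at h1
    exact h1.2 ((hd.mul_right _).mul_right _)
  refine swap_count M m r C1 Bz ((2 ^ M * b) ^ (m + 1)) ((2 ^ M * b) ^ m) ⌊K2 * X ^ η⌋₊ S good
    (fun I N => cls ℓ I (s N) (t N)) inc (fun I c0 => (CvZ I c0).image nf) bad
    ?_ ?_ ?_ ?_ ?_ ?_ ?_ ?_ ?_
  · -- good primes
    intro N hN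
    have h1 := few_bad_primes M (3 * C2 + 16) r H b (n1 N) ℓ hinj
      (fun i => ⟨(hℓ i).1, (hℓ i).2.1⟩) hH2 (hn10 N hN) (hn1l N hN) hbad1
    have h2 : (good N).card + (Finset.univ.filter fun i => (ℓ i : ℤ) ∣ n1 N).card = M := by
      rw [hgood, add_comm, Finset.card_filter_add_card_filter_not]
      simp
    omega
  · intro N hN γ hγ
    obtain ⟨⟨-, -, -, h4⟩, -⟩ := hrepev N γ hγ
    rw [hbad]
    split_ifs with h0
    · simp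
    · refine few_bad_primes M (C2 + 2 * Dg + C2 * Dg + 3) r H b (dn N γ) ℓ hinj
        (fun i => ⟨(hℓ i).1, (hℓ i).2.1⟩) hH2 h0 ?_ hbad2
      rw [hdn]
      exact pl_dnum_le hH2 hDH (fun i j => (h4 i j).trans (pow_le_pow_right₀ hH1 hC1))
        (hs2 N hN) (ht2 N hN) (hkn N hN) (hkd N hN)
  · intro I J P P' hIJ h
    exact cls_mono ℓ hIJ h
  · intro J hJ
    have := card_image_cls hℓp (2 ^ M * b) (fun i => (hℓ i).2.2) J S s t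
    rwa [hJ] at this
  · intro J hJ
    have := card_image_cls hℓp (2 ^ M * b) (fun i => (hℓ i).2.2) J S s t
    rwa [hJ] at this
  · intro I c0
    exact Finset.card_image_le.trans (hCv1 I c0)
  · intro N hN I hI hIm
    obtain ⟨h1, h2⟩ := hCv2 I (cls ℓ I (s N) (t N)) hIm
    obtain ⟨g, hg, hev⟩ := h2 N (p N) (c N) (z N) (s N) (t N) (kn N) (kd N) (hPt N hN) (hKP N hN)
      (cls_coprime hℓp (hgt N I hI)) (cls_dvd hinj hℓp (hgt N I hI))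
    obtain ⟨h3, h4, h5⟩ := h1 g hg
    exact ⟨nf g, Finset.mem_image_of_mem _ hg, (hinc _ _).2 ⟨g, ⟨rfl, h3, h4, h5⟩, hev⟩⟩
  · intro γ γ' hne S' hS' hS''
    rcases S'.eq_empty_or_nonempty with rfl | ⟨N0, hN0⟩
    · simp
    obtain ⟨hr1, -⟩ := hrepev N0 γ (hS'' N0 hN0).1
    obtain ⟨hr2, -⟩ := hrepev N0 γ' (hS'' N0 hN0).2
    have hnd : ¬ (rep γ).map (mapRingHom (Int.castRingHom ℚ)) ∣
        (rep γ').map (mapRingHom (Int.castRingHom ℚ)) := by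
      intro hd
      have h1 := hr1.2.1.associated_of_dvd hr2.2.1 hd
      have h2 := (hnf _ _ hr1.2.1 hr2.2.1).1 h1
      rw [hr1.1, hr2.1] at h2
      exact hne h2
    have hbd : ∀ g : ℤ[X][X], BiDeg Dg Dg g →
        BiDeg Dg Dg (g.map (mapRingHom (Int.castRingHom ℚ))) := by
      intro g hg
      refine ⟨natDegree_map_le.trans hg.1, fun i => ?_⟩
      rw [coeff_map]
      exact natDegree_map_le.trans (hg.2 i)
    have h3 := hbez _ _ hr1.2.1 hnd (hbd _ hr1.2.2.1) (hbd _ hr2.2.2.1)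
      (S'.image fun N => ((kn N : ℚ) / kd N, (s N : ℚ) / t N)) ?_
    · rwa [Finset.card_image_of_injOn] at h3
      intro N hN N' hN' heq
      have h4 := Prod.ext_iff.1 heq
      exact kp_inj (hKP N (hS' hN)) (hKP N' (hS' hN')) h4.1 h4.2
    · intro y hy
      obtain ⟨N, hN, rfl⟩ := Finset.mem_image.1 hy
      exact ⟨(hrepev N γ (hS'' N hN).1).2, (hrepev N γ' (hS'' N hN).2).2⟩
  · intro I hI c0 γ S' hS' hS''
    rcases S'.eq_empty_or_nonempty with rfl | ⟨N0, hN0⟩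
    · simp
    obtain ⟨hr1, -⟩ := hrepev N0 γ (hS'' N0 hN0).1
    have hpr : ∏ x ∈ I.image ℓ, x = ∏ i ∈ I, ℓ i := Finset.prod_image fun x _ y _ h => hinj h
    refine Nat.le_floor ?_
    refine hcc H X T l1 l2 d A B Z Λ e (rep γ) (I.image ℓ) c0 S' hK2 hXT hT2 hT2' hXH hHX ha5
      hR.2.1 hR.2.2.2 hND hK hA2 hB2 hΛ2 hr1.2.1 hr1.2.2.1
      (fun i j => (hr1.2.2.2 i j).trans (pow_le_pow_right₀ hH1 hC1)) ?_ ?_ ?_ ?_ ?_
    · intro x hx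
      obtain ⟨i, _, rfl⟩ := Finset.mem_image.1 hx
      exact hℓp i
    · rw [Finset.card_image_of_injective _ hinj, hI]
    · rw [hpr]
      exact hlo2.trans (hqlo I hI)
    · rw [hpr]
      exact (hqhi I hI).trans hhi2
    · intro N hN
      obtain ⟨h1, h2, h3, h4⟩ := hS'' N hN
      have hNS := hS' hN
      refine ⟨p N, c N, z N, s N, t N, kn N, kd N, hPt N hNS, hKP N hNS, hkn N hNS, hkd N hNS,
        (hrepev N γ h1).2, ?_, ?_, ?_⟩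
      · rw [hpr, ← h4]
        exact cls_dvd hinj hℓp (hgt N I h2)
      · intro x hx
        obtain ⟨i, hi, rfl⟩ := Finset.mem_image.1 hx
        have h5 := h2 hi
        rw [hgood, Finset.mem_filter, hn1] at h5
        exact ⟨fun h => h5.2 ((h.mul_right _).mul_right _),
          fun h => h5.2 ((h.mul_left _).mul_right _), fun h => h5.2 (h.mul_left _)⟩
      · by_cases h0 : dn N γ = 0
        · left
          rw [← hdn]
          exact h0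
        · right
          intro x hx
          obtain ⟨i, hi, rfl⟩ := Finset.mem_image.1 hx
          rw [← hdn]
          intro h6
          have h7 : i ∈ bad N γ := by
            rw [hbad, if_neg h0, Finset.mem_filter]
            exact ⟨Finset.mem_univ _, h6⟩
          exact Finset.disjoint_left.1 h3 hi h7

end Vale.Agent.P018.Q
end

section

/-! # P018, quartics, family (A): the number of points over one reduced pair (conclusion). -/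

namespace Vale.Agent.P018.Q

open Polynomial NumberField Finset

variable {L : Type} [Field L] [NumberField L]

/-- all numerical inequalities for large `X`. -/
structure PlNum (β η η0 ε w m1 Kg K1n K2 : ℝ) (m r C1 Bz Cb : ℕ) (X : ℝ) : Prop where
  f1 : (2 : ℝ) ^ m * X ^ (β - ε) < X ^ β
  f2 : ((2 : ℝ) ^ (m + 1 + 2 * r)) ^ m * X ^ β < X ^ (β + ε)
  f3 : (2 : ℝ) ^ (m + 1 + 2 * r) * X ^ η0 < X ^ (1 : ℝ)
  f4 : (2 : ℝ) ^ Cb * 2 ^ (r + 1) * X ^ (Cb : ℝ) < X ^ (η0 * ((r + 1 : ℕ) : ℝ))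
  f5 : 3 * Kg * X ^ (β / 2) < X ^ (β + η)
  f6 : (3 * 4 ^ (m + 1 + 2 * r) * (2 ^ (m + 1 + 2 * r)) ^ (m + 1) * C1 * C1 * Bz) * X ^ (β + η / 4)
    < X ^ (β + η)
  f7 : (3 * 2 ^ (m + 1 + 2 * r) * (2 ^ (m + 1 + 2 * r)) ^ m * C1 * K2) * X ^ (β + η / 4)
    < X ^ (β + η)
  f8 : K1n * X ^ (4 * (m1 + ε)) < X ^ (4 * (w - ε))
  f9 : 4 * X ^ (w + ε) < X ^ (1 : ℝ)
  f10 : 2 * X ^ (0 : ℝ) < X ^ η0

theorem plNum_eventually {β η η0 ε w m1 Kg K1n K2 : ℝ} {m r C1 Bz Cb : ℕ} (hβ : 0 < β)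
    (hη : 0 < η) (hη0 : 0 < η0) (hη1 : η0 < 1) (hε : 0 < ε)
    (hr : (Cb : ℝ) < η0 * ((r + 1 : ℕ) : ℝ)) (h8 : 4 * (m1 + ε) < 4 * (w - ε)) (h9 : w + ε < 1) :
    ∀ᶠ X : ℝ in Filter.atTop, PlNum β η η0 ε w m1 Kg K1n K2 m r C1 Bz Cb X := by
  filter_upwards [pl_rpow (2 ^ m) (β - ε) β (by linarith),
    pl_rpow ((2 ^ (m + 1 + 2 * r)) ^ m) β (β + ε) (by linarith),
    pl_rpow (2 ^ (m + 1 + 2 * r)) η0 1 hη1,
    pl_rpow (2 ^ Cb * 2 ^ (r + 1)) (Cb : ℝ) (η0 * ((r + 1 : ℕ) : ℝ)) hr,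
    pl_rpow (3 * Kg) (β / 2) (β + η) (by linarith),
    pl_rpow (3 * 4 ^ (m + 1 + 2 * r) * (2 ^ (m + 1 + 2 * r)) ^ (m + 1) * C1 * C1 * Bz) (β + η / 4)
      (β + η) (by linarith only [hη]),
    pl_rpow (3 * 2 ^ (m + 1 + 2 * r) * (2 ^ (m + 1 + 2 * r)) ^ m * C1 * K2) (β + η / 4)
      (β + η) (by linarith only [hη]),
    pl_rpow K1n (4 * (m1 + ε)) (4 * (w - ε)) h8,
    pl_rpow 4 (w + ε) 1 h9, pl_rpow 2 0 η0 hη0] with X h1 h2 h3 h4 h5 h6 h7 h8 h9 h10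
  exact ⟨h1, h2, h3, h4, h5, h6, h7, h8, h9, h10⟩

/-- the numbers attached to `b = ⌊X ^ η0⌋₊`. -/
theorem pl_size {β η η0 ε w m1 Kg K1n K2 : ℝ} {m r C1 Bz Cb : ℕ} {X : ℝ}
    (hf : PlNum β η η0 ε w m1 Kg K1n K2 m r C1 Bz Cb X) (hX1 : 1 ≤ X) (hη0m : η0 * m = β)
    (hη04 : η0 ≤ η / 4) :
    ∃ b : ℕ, 1 ≤ b ∧ X ^ (β - ε) ≤ (b : ℝ) ^ m ∧
      ((2 ^ (m + 1 + 2 * r) * b : ℕ) : ℝ) ^ m ≤ X ^ (β + ε) ∧
      ((2 ^ (m + 1 + 2 * r) * b : ℕ) : ℝ) < X ∧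
      (∀ H : ℕ, (H : ℝ) ≤ 2 * X → H ^ Cb < b ^ (r + 1)) ∧
      ((2 ^ (m + 1 + 2 * r) * b : ℕ) : ℝ) ^ (m + 1) ≤
        (2 ^ (m + 1 + 2 * r)) ^ (m + 1) * X ^ (β + η / 4) ∧
      ((2 ^ (m + 1 + 2 * r) * b : ℕ) : ℝ) ^ m ≤ (2 ^ (m + 1 + 2 * r)) ^ m * X ^ β := by
  obtain ⟨f1, f2, f3, f4, -, -, -, -, -, f10⟩ := hf
  have hX0 : 0 < X := by linarith only [hX1]
  rw [Real.rpow_one] at f3
  rw [Real.rpow_zero, mul_one] at f10
  obtain ⟨b, hbdef⟩ : ∃ b, b = ⌊X ^ η0⌋₊ := ⟨_, rfl⟩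
  have hbX : (b : ℝ) ≤ X ^ η0 := by rw [hbdef]; exact Nat.floor_le (Real.rpow_nonneg hX0.le _)
  have hbX' : X ^ η0 < b + 1 := by rw [hbdef]; exact Nat.lt_floor_add_one _
  have hbh : X ^ η0 / 2 ≤ b := by linarith only [f10, hbX']
  have hb1 : 1 ≤ b := by
    have h2 : (1 : ℝ) < b := by linarith only [hbX', f10]
    exact_mod_cast h2.le
  have hXη0 : 0 < X ^ η0 := Real.rpow_pos_of_pos hX0 _
  have hpm : (X ^ η0) ^ m = X ^ β := by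
    rw [← Real.rpow_natCast, ← Real.rpow_mul hX0.le, hη0m]
  have hM2 : ((2 ^ (m + 1 + 2 * r) * b : ℕ) : ℝ) ≤ 2 ^ (m + 1 + 2 * r) * X ^ η0 := by
    push_cast
    exact mul_le_mul_of_nonneg_left hbX (by positivity)
  have hhm : ((2 ^ (m + 1 + 2 * r) * b : ℕ) : ℝ) ^ m ≤ (2 ^ (m + 1 + 2 * r)) ^ m * X ^ β := by
    calc ((2 ^ (m + 1 + 2 * r) * b : ℕ) : ℝ) ^ m
        ≤ (2 ^ (m + 1 + 2 * r) * X ^ η0) ^ m := pow_le_pow_left₀ (by (clear * - hb1; positivity)) hM2 _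
      _ = (2 ^ (m + 1 + 2 * r)) ^ m * X ^ β := by rw [mul_pow, hpm]
  refine ⟨b, hb1, ?_, hhm.trans f2.le, lt_of_le_of_lt hM2 f3, ?_, ?_, hhm⟩
  · have h1 : (X ^ η0 / 2) ^ m ≤ (b : ℝ) ^ m := pow_le_pow_left₀ (by positivity) hbh m
    rw [div_pow, hpm] at h1
    refine le_trans ?_ h1
    rw [le_div_iff₀ (by positivity)]
    linarith only [f1]
  · intro H hHX
    have h1 : (H : ℝ) ^ Cb < (b : ℝ) ^ (r + 1) := by
      have h2 : (H : ℝ) ^ Cb ≤ 2 ^ Cb * X ^ (Cb : ℝ) := by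
        rw [Real.rpow_natCast, ← mul_pow]
        exact pow_le_pow_left₀ (by (clear * -; positivity)) hHX _
      have h3 : X ^ (η0 * ((r + 1 : ℕ) : ℝ)) / 2 ^ (r + 1) ≤ (b : ℝ) ^ (r + 1) := by
        have h4 : (X ^ η0 / 2) ^ (r + 1) ≤ (b : ℝ) ^ (r + 1) :=
          pow_le_pow_left₀ (by positivity) hbh _
        rwa [div_pow, ← Real.rpow_natCast (X ^ η0), ← Real.rpow_mul hX0.le] at h4
      refine lt_of_le_of_lt h2 (lt_of_lt_of_le ?_ h3)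
      rw [lt_div_iff₀ (by positivity)]
      calc 2 ^ Cb * X ^ (Cb : ℝ) * 2 ^ (r + 1) = 2 ^ Cb * 2 ^ (r + 1) * X ^ (Cb : ℝ) := by ring
        _ < _ := f4
    exact_mod_cast h1
  · calc ((2 ^ (m + 1 + 2 * r) * b : ℕ) : ℝ) ^ (m + 1)
        ≤ (2 ^ (m + 1 + 2 * r) * X ^ η0) ^ (m + 1) := pow_le_pow_left₀ (by positivity) hM2 _
      _ = (2 ^ (m + 1 + 2 * r)) ^ (m + 1) * (X ^ β * X ^ η0) := by
          rw [mul_pow, pow_succ (X ^ η0), hpm]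
      _ = (2 ^ (m + 1 + 2 * r)) ^ (m + 1) * X ^ (β + η0) := by rw [← Real.rpow_add hX0]
      _ ≤ _ := mul_le_mul_of_nonneg_left
          (Real.rpow_le_rpow_of_exponent_le hX1 (by linarith only [hη04])) (by positivity)

/-- the final summation. -/
theorem pl_final {β η η0 ε w m1 Kg K1n K2 : ℝ} {m r C1 Bz Cb : ℕ} {X : ℝ}
    (hf : PlNum β η η0 ε w m1 Kg K1n K2 m r C1 Bz Cb X) (hX1 : 1 ≤ X) (hK2 : 0 < K2)
    {b sa sb : ℕ} (hsa : (sa : ℝ) ≤ Kg * X ^ (β / 2))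
    (hq1 : ((2 ^ (m + 1 + 2 * r) * b : ℕ) : ℝ) ^ (m + 1) ≤
        (2 ^ (m + 1 + 2 * r)) ^ (m + 1) * X ^ (β + η / 4))
    (hq0 : ((2 ^ (m + 1 + 2 * r) * b : ℕ) : ℝ) ^ m ≤ (2 ^ (m + 1 + 2 * r)) ^ m * X ^ β)
    (hsb : sb ≤ 4 ^ (m + 1 + 2 * r) * ((2 ^ (m + 1 + 2 * r) * b) ^ (m + 1) * (C1 * C1 * Bz)) +
      2 ^ (m + 1 + 2 * r) * ((2 ^ (m + 1 + 2 * r) * b) ^ m * (C1 * ⌊K2 * X ^ (η / 4)⌋₊))) :
    ((sa + sb : ℕ) : ℝ) ≤ X ^ (β + η) := by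
  obtain ⟨-, -, -, -, f5, f6, f7, -, -, -⟩ := hf
  have hX0 : 0 < X := by linarith only [hX1]
  have hSb2 : (sb : ℝ) ≤ 4 ^ (m + 1 + 2 * r) *
      (((2 ^ (m + 1 + 2 * r) * b : ℕ) : ℝ) ^ (m + 1) * (C1 * C1 * Bz)) +
      2 ^ (m + 1 + 2 * r) * (((2 ^ (m + 1 + 2 * r) * b : ℕ) : ℝ) ^ m *
        (C1 * (⌊K2 * X ^ (η / 4)⌋₊ : ℝ))) := by
    exact_mod_cast hsb
  have hfl : (⌊K2 * X ^ (η / 4)⌋₊ : ℝ) ≤ K2 * X ^ (η / 4) :=
    Nat.floor_le (mul_nonneg hK2.le (Real.rpow_nonneg hX0.le _))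
  have hT1' : 4 ^ (m + 1 + 2 * r) *
      (((2 ^ (m + 1 + 2 * r) * b : ℕ) : ℝ) ^ (m + 1) * (C1 * C1 * Bz)) ≤ X ^ (β + η) / 3 := by
    have h1 : (4 : ℝ) ^ (m + 1 + 2 * r) *
      (((2 ^ (m + 1 + 2 * r) * b : ℕ) : ℝ) ^ (m + 1) * (C1 * C1 * Bz)) ≤
        4 ^ (m + 1 + 2 * r) * (((2 ^ (m + 1 + 2 * r)) ^ (m + 1) * X ^ (β + η / 4)) *
          (C1 * C1 * Bz)) :=
      mul_le_mul_of_nonneg_left (mul_le_mul_of_nonneg_right hq1 (by positivity)) (by positivity)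
    refine h1.trans ?_
    rw [le_div_iff₀ (by norm_num)]
    refine le_trans (le_of_eq ?_) f6.le
    ring
  have hT2' : 2 ^ (m + 1 + 2 * r) * (((2 ^ (m + 1 + 2 * r) * b : ℕ) : ℝ) ^ m *
        (C1 * (⌊K2 * X ^ (η / 4)⌋₊ : ℝ))) ≤ X ^ (β + η) / 3 := by
    have h1 : (2 : ℝ) ^ (m + 1 + 2 * r) * (((2 ^ (m + 1 + 2 * r) * b : ℕ) : ℝ) ^ m *
        (C1 * (⌊K2 * X ^ (η / 4)⌋₊ : ℝ))) ≤
        2 ^ (m + 1 + 2 * r) * (((2 ^ (m + 1 + 2 * r)) ^ m * X ^ β) *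
          (C1 * (K2 * X ^ (η / 4)))) := by
      refine mul_le_mul_of_nonneg_left (mul_le_mul hq0 ?_ (by positivity) (by positivity))
        (by positivity)
      exact mul_le_mul_of_nonneg_left hfl (Nat.cast_nonneg _)
    refine h1.trans ?_
    rw [le_div_iff₀ (by norm_num)]
    refine le_trans (le_of_eq ?_) f7.le
    rw [Real.rpow_add hX0]
    ring
  have hfin : Kg * X ^ (β / 2) ≤ X ^ (β + η) / 3 := by
    rw [le_div_iff₀ (by norm_num)]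
    linarith only [f5]
  push_cast
  linarith only [hT2', hT1', hSb2, f5, hsa]

/-- nondegeneracy of the pair. -/
theorem pl_nondeg {G : ℤ[X]} {θ : Fin 4 → 𝓞 L} (hF : Fld G θ) {C : ℕ} {K1n ε w m1 X T : ℝ}
    {l1 l2 : Fin 4 → ℤ} (hK1n : 1 ≤ K1n)
    (hnorm : ∀ l : Fin 4 → ℤ, l ≠ 0 → ∃ N1 : ℤ, N1 ≠ 0 ∧ ∏ j, K.ell (θ j) l = (N1 : 𝓞 L) ∧
      |(N1 : ℝ)| ≤ K1n * (dot l l : ℝ) ^ 2) (hX1 : 1 ≤ X) (hXT : X ≤ T ^ 4)
    (hT1 : X ^ (w - ε) ≤ T) (hR : Red l1 l2) (ha2 : (dot l1 l1 : ℝ) ≤ X ^ (2 * (m1 + ε)))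
    (f8 : K1n * X ^ (4 * (m1 + ε)) < X ^ (4 * (w - ε))) (hXC : (C : ℝ) + 1 ≤ X)
    {N : ℤ} {p : ℕ} {c : ℤ} {z : Fin 4 → ℤ} {s t : ℤ} (hP : Pt θ C X T l1 l2 N p c z s t) :
    NonDeg θ l1 l2 ∧ t ≠ 0 := by
  have hX0 : 0 < X := by linarith
  obtain ⟨c', hc', hc'C, hprod⟩ := hP.dat.nrm
  obtain ⟨N1, -, hN1, hN1b⟩ := hnorm l1 hR.1
  have hpX : X ≤ p := hXT.trans hP.dat.lo
  refine nonDeg_of_dat G hF.monic hF.deg hF.irr θ hF.inj hF.split hR.2.2.2 hP.dat.prime hc' ?_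
    hN1 ?_ hprod
  · have h1 : (|c'| : ℝ) ≤ C := by exact_mod_cast hc'C
    have h2 : (|c'| : ℝ) < p := by linarith only [hXC, hpX, h1]
    exact_mod_cast h2
  · have h1 : (dot l1 l1 : ℝ) ^ 2 ≤ X ^ (4 * (m1 + ε)) := by
      have h2 : (0 : ℝ) ≤ dot l1 l1 := by exact_mod_cast pl_dot_nonneg l1
      calc (dot l1 l1 : ℝ) ^ 2 ≤ (X ^ (2 * (m1 + ε))) ^ 2 := pow_le_pow_left₀ h2 ha2 2
        _ = X ^ (4 * (m1 + ε)) := by
          rw [← Real.rpow_natCast, ← Real.rpow_mul hX0.le]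
          congr 1; push_cast; ring
    have h3 : X ^ (4 * (w - ε)) ≤ T ^ 4 := by
      calc X ^ (4 * (w - ε)) = (X ^ (w - ε)) ^ 4 := by
            rw [← Real.rpow_natCast, ← Real.rpow_mul hX0.le]
            congr 1; push_cast; ring
        _ ≤ T ^ 4 := pow_le_pow_left₀ (Real.rpow_nonneg hX0.le _) hT1 4
    have h4 : |(N1 : ℝ)| < p := by
      calc |(N1 : ℝ)| ≤ K1n * (dot l1 l1 : ℝ) ^ 2 := hN1b
        _ ≤ K1n * X ^ (4 * (m1 + ε)) := mul_le_mul_of_nonneg_left h1 (by linarith only [hK1n])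
        _ < X ^ (4 * (w - ε)) := f8
        _ ≤ T ^ 4 := h3
        _ ≤ p := hP.dat.lo
    exact_mod_cast h4

/-- abbreviation for the statement of `gap_sigma` with fixed constants. -/
def GsStmt (θ : Fin 4 → 𝓞 L) (D C : ℕ) (ε K : ℝ) : Prop :=
    ∀ (H : ℕ) (X T : ℝ) (l1 l2 : Fin 4 → ℤ) (A B Λ : ℤ[X]) (S : Finset ℤ),
      2 ≤ H → 1 ≤ X → X ≤ T ^ 4 → (H : ℝ) ≤ T ^ 4 → T ≤ H → X ≤ H →
      (∀ a b : ℤ, a • l1 + b • l2 = 0 → a = 0 ∧ b = 0) →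
      Λ.map (algebraMap ℤ (𝓞 L)) = ∏ j, piPoly θ l1 l2 j →
      A.natDegree ≤ D → B.natDegree ≤ D →
      (∀ i, |A.coeff i| ≤ (H : ℤ) ^ C) → (∀ i, |B.coeff i| ≤ (H : ℤ) ^ C) →
      (∀ i, |Λ.coeff i| ≤ (H : ℤ) ^ C) →
      (∀ N ∈ S, ∃ (p : ℕ) (c : ℤ) (z : Fin 4 → ℤ) (s t : ℤ), Pt θ C X T l1 l2 N p c z s t ∧
        t ≠ 0 ∧ aeval ((s : ℚ) / t) A ≠ 0 ∧
        aeval ((s : ℚ) / t) A * (N : ℚ) = aeval ((s : ℚ) / t) B) →
      (S.card : ℝ) ≤ K * (H : ℝ) ^ ε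

/-- the points with `A(σ) N = B(σ)`. -/
theorem pl_case_a {θ : Fin 4 → 𝓞 L} {C C0 : ℕ} {δ Kg X T : ℝ} (hδ : 0 ≤ δ) (hKg : 0 ≤ Kg)
    (hgs : GsStmt θ 5 (2 * C + 2 * C0) δ Kg)
    {l1 l2 : Fin 4 → ℤ} {A B Λ : ℤ[X]} {S : Finset ℤ} (hX8 : 8 ≤ X) (hXT : X ≤ T ^ 4)
    (hT0 : 0 ≤ T) (hTX : T ≤ X / 4) (hR : Red l1 l2)
    (hΛ : Λ.map (algebraMap ℤ (𝓞 L)) = ∏ j, piPoly θ l1 l2 j)
    (hdA : A.natDegree ≤ 5) (hdB : B.natDegree ≤ 5)
    (hA : ∀ i, |A.coeff i| ≤ (⌈X⌉₊ : ℤ) ^ C0) (hB : ∀ i, |B.coeff i| ≤ (⌈X⌉₊ : ℤ) ^ C0)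
    (hΛ' : ∀ i, |Λ.coeff i| ≤ (⌈X⌉₊ : ℤ) ^ C0)
    (hS : ∀ N ∈ S, ∃ (p : ℕ) (c : ℤ) (z : Fin 4 → ℤ) (s t : ℤ), Pt θ C X T l1 l2 N p c z s t ∧
        t ≠ 0 ∧ aeval ((s : ℚ) / t) A ≠ 0 ∧
        aeval ((s : ℚ) / t) A * (N : ℚ) = aeval ((s : ℚ) / t) B) :
    (S.card : ℝ) ≤ Kg * X ^ δ := by
  have hX0 : 0 < X := by linarith only [hX8]
  obtain ⟨H', hH'def⟩ : ∃ H', H' = ⌊X⌋₊ := ⟨_, rfl⟩
  have hH'X : (H' : ℝ) ≤ X := by rw [hH'def]; exact Nat.floor_le hX0.le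
  have hXH' : X < H' + 1 := by rw [hH'def]; exact Nat.lt_floor_add_one X
  have hH'2 : 2 ≤ H' := by
    have : (1 : ℝ) < H' := by linarith only [hXH', hX8]
    exact_mod_cast this
  have hHH' : ⌈X⌉₊ ≤ H' ^ 2 := by
    have h1 : ⌈X⌉₊ ≤ H' + 1 := by
      rw [hH'def]; exact Nat.ceil_le_floor_add_one X
    nlinarith
  have hpow : (⌈X⌉₊ : ℤ) ^ C0 ≤ (H' : ℤ) ^ (2 * C + 2 * C0) := by
    have h1 : ⌈X⌉₊ ^ C0 ≤ H' ^ (2 * C + 2 * C0) := by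
      calc ⌈X⌉₊ ^ C0 ≤ (H' ^ 2) ^ C0 := Nat.pow_le_pow_left hHH' _
        _ = H' ^ (2 * C0) := by rw [← pow_mul]
        _ ≤ H' ^ (2 * C + 2 * C0) := Nat.pow_le_pow_right (by omega) (by omega)
    exact_mod_cast h1
  have h1 := hgs H' (X / 2) T l1 l2 A B Λ S hH'2 (by linarith only [hX8]) (by linarith only [hXT, hX8])
    (hH'X.trans hXT) (by linarith only [hX8, hTX, hXH']) (by linarith only [hXH', hX8]) hR.2.2.2 hΛ hdA hdB
    (fun i => (hA i).trans hpow) (fun i => (hB i).trans hpow)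
    (fun i => (hΛ' i).trans hpow) ?_
  · refine h1.trans (mul_le_mul_of_nonneg_left ?_ hKg)
    exact Real.rpow_le_rpow (Nat.cast_nonneg _) hH'X hδ
  · intro N hN
    obtain ⟨p, c, z, s, t, hP, ht, h2, h3⟩ := hS N hN
    exact ⟨p, c, z, s, t, hP.half (by omega) hX0.le hT0, ht, h2, h3⟩

theorem pl_lH {X : ℝ} (hX1 : 1 ≤ X) (l : Fin 4 → ℤ) (a : ℝ) (ha : a ≤ 1)
    (hl : (dot l l : ℝ) ≤ X ^ (2 * a)) (j : Fin 4) : |l j| ≤ (⌈X⌉₊ : ℤ) := by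
  have h1 : ((l j : ℤ) : ℝ) ^ 2 ≤ (⌈X⌉₊ : ℝ) ^ 2 := by
    have h2 : ((l j * l j : ℤ) : ℝ) ≤ dot l l := by exact_mod_cast pl_sq_le_dot l j
    push_cast at h2
    have h3 : X ^ (2 * a) ≤ X ^ (2 : ℝ) := Real.rpow_le_rpow_of_exponent_le hX1 (by linarith)
    rw [Real.rpow_two] at h3
    have h4 : X ^ 2 ≤ (⌈X⌉₊ : ℝ) ^ 2 := pow_le_pow_left₀ (by linarith) (Nat.le_ceil X) 2
    linarith only [h4, h3, h2, hl]
  have h5 : |((l j : ℤ) : ℝ)| ≤ (⌈X⌉₊ : ℝ) := abs_le_of_sq_le_sq h1 (by positivity)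
  exact_mod_cast h5

/-- the local count for fixed constants. -/
theorem pl_main {G : ℤ[X]} {θ : Fin 4 → 𝓞 L} (hF : Fld G θ)
    {C C0 Ckp C1 Dg m r Bz Cb : ℕ} {w m1 m2 β η η0 ε1 ε2 ε K1 K2 Kg K1n : ℝ}
    (hC0 : ∀ (H : ℕ) (l1 l2 : Fin 4 → ℤ), 2 ≤ H → l1 ≠ 0 → (∀ j, |l1 j| ≤ H) →
      (∀ j, |l2 j| ≤ H) → NonDeg θ l1 l2 →
      ∃ (d : Fin 2 → ℕ) (A B : Fin 2 → ℤ[X]) (Z : Fin 2 → Fin 4 → ℤ[X]) (Λ : ℤ[X]) (c : ℤ),
        KData θ l1 l2 d A B Z Λ c ∧ |c| ≤ (H : ℤ) ^ C0 ∧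
        (∀ i k, |(A i).coeff k| ≤ (H : ℤ) ^ C0) ∧ (∀ i k, |(B i).coeff k| ≤ (H : ℤ) ^ C0) ∧
        (∀ i m k, |(Z i m).coeff k| ≤ (H : ℤ) ^ C0) ∧ (∀ k, |Λ.coeff k| ≤ (H : ℤ) ^ C0))
    (hkp : KpStmt θ C C0 Ckp) (hcl : ClStmt θ C C0 w m1 m2 β ε1 Dg C1 K1)
    (hcc : CcStmt θ C Dg m (C0 + Ckp + C1) w m1 β (η / 4) ε2 K2)
    (hbez : ∀ g Ψ : ℚ[X][X], Irreducible g → ¬ g ∣ Ψ → BiDeg Dg Dg g → BiDeg Dg Dg Ψ →
      ∀ S : Finset (ℚ × ℚ), (∀ z ∈ S, ev g z.1 z.2 = 0 ∧ ev Ψ z.1 z.2 = 0) → S.card ≤ Bz)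
    (hgs : GsStmt θ 5 (2 * C + 2 * C0) (β / 2) Kg)
    (hK1n : 1 ≤ K1n)
    (hnorm : ∀ l : Fin 4 → ℤ, l ≠ 0 → ∃ N1 : ℤ, N1 ≠ 0 ∧ ∏ j, K.ell (θ j) l = (N1 : 𝓞 L) ∧
      |(N1 : ℝ)| ≤ K1n * (dot l l : ℝ) ^ 2)
    (hβ : 0 < β) (hKg : 0 < Kg) (hK2 : 0 < K2) (hη0m : η0 * m = β) (hη04 : η0 ≤ η / 4)
    (hεε1 : ε ≤ ε1) (hεε2 : ε ≤ ε2) (hm1ε : m1 + ε ≤ 1) (hm2ε : m2 + ε ≤ 1)
    (hCb : Cb = (3 * (C0 + Ckp + C1) + 16) +
      ((C0 + Ckp + C1) + 2 * Dg + (C0 + Ckp + C1) * Dg + 3))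
    {X T : ℝ} {l1 l2 : Fin 4 → ℤ}
    (hf : PlNum β η η0 ε w m1 Kg K1n K2 m r C1 Bz Cb X)
    (hX8 : 8 ≤ X) (hXK1 : K1 ≤ X) (hXK2 : K2 ≤ X) (hXC : (C : ℝ) + 1 ≤ X) (hXD : (Dg : ℝ) + 1 ≤ X)
    (hXT : X ≤ T ^ 4) (hT1 : X ^ (w - ε) ≤ T) (hT2 : T ≤ X ^ (w + ε)) (hR : Red l1 l2)
    (ha1 : X ^ (2 * (m1 - ε)) ≤ dot l1 l1) (ha2 : (dot l1 l1 : ℝ) ≤ X ^ (2 * (m1 + ε)))
    (ha3 : X ^ (2 * (m2 - ε)) ≤ dot l2 l2) (ha4 : (dot l2 l2 : ℝ) ≤ X ^ (2 * (m2 + ε)))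
    (S : Finset ℤ) (hS : ∀ N ∈ S, ∃ (p : ℕ) (c : ℤ) (z : Fin 4 → ℤ) (s t : ℤ),
        Pt θ C X T l1 l2 N p c z s t) : (S.card : ℝ) ≤ X ^ (β + η) := by
  classical
  have hX1 : 1 ≤ X := by linarith only [hX8]
  have hX0 : 0 < X := by linarith only [hX8]
  have mono : ∀ a b : ℝ, a ≤ b → X ^ a ≤ X ^ b := fun a b h =>
    Real.rpow_le_rpow_of_exponent_le hX1 h
  have hT0 : 0 < T := (Real.rpow_pos_of_pos hX0 _).trans_le hT1
  rcases S.eq_empty_or_nonempty with rfl | ⟨N0, hN0⟩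
  · rw [Finset.card_empty, Nat.cast_zero]
    exact Real.rpow_nonneg hX0.le _
  have hl2 : l2 ≠ 0 := by
    rintro rfl
    have := hR.2.2.2 0 1 (by simp)
    omega
  have hnd : ∀ (N : ℤ) (p : ℕ) (c : ℤ) (z : Fin 4 → ℤ) (s t : ℤ), Pt θ C X T l1 l2 N p c z s t →
      NonDeg θ l1 l2 ∧ t ≠ 0 := fun N p c z s t hP =>
    pl_nondeg hF hK1n hnorm hX1 hXT hT1 hR ha2 hf.f8 hXC hP
  have hND : NonDeg θ l1 l2 := by
    obtain ⟨p, c, z, s, t, hP⟩ := hS N0 hN0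
    exact (hnd N0 p c z s t hP).1
  have hXH : X ≤ (⌈X⌉₊ : ℝ) := Nat.le_ceil X
  have hH1 : (⌈X⌉₊ : ℝ) < X + 1 := Nat.ceil_lt_add_one hX0.le
  have hHX : (⌈X⌉₊ : ℝ) ≤ 2 * X := by linarith only [hX8, hH1]
  have hH2 : 2 ≤ ⌈X⌉₊ := by
    have : (2 : ℝ) ≤ (⌈X⌉₊ : ℝ) := by linarith only [hXH, hX8]
    exact_mod_cast this
  have hTX : T ≤ X / 4 := by
    have := hf.f9
    rw [Real.rpow_one] at this
    linarith only [hT2, this]
  have hTH : T ≤ (⌈X⌉₊ : ℝ) := by linarith only [hTX, hXH, hX8]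
  have hCH : C ≤ ⌈X⌉₊ := by
    have : (C : ℝ) ≤ (⌈X⌉₊ : ℝ) := by linarith only [hXH, hXC]
    exact_mod_cast this
  have hDH : Dg + 1 ≤ ⌈X⌉₊ := by
    have : (Dg : ℝ) + 1 ≤ (⌈X⌉₊ : ℝ) := by linarith only [hXH, hXD]
    exact_mod_cast this
  obtain ⟨d, A, B, Z, Λ, e, hKD, -, hA, hB, -, hΛ⟩ := hC0 ⌈X⌉₊ l1 l2 hH2 hR.1
    (pl_lH hX1 l1 (m1 + ε) hm1ε ha2) (pl_lH hX1 l2 (m2 + ε) hm2ε ha4) hND
  obtain ⟨b, hb1, hlo, hhi, hbX, hbad, hq1, hq0⟩ := pl_size hf hX1 hη0m hη04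
  have hbad' := hbad ⌈X⌉₊ hHX
  have hbad1 : ⌈X⌉₊ ^ (3 * (C0 + Ckp + C1) + 16) < b ^ (r + 1) :=
    lt_of_le_of_lt (Nat.pow_le_pow_right (by omega) (by omega)) hbad'
  have hbad2 : ⌈X⌉₊ ^ ((C0 + Ckp + C1) + 2 * Dg + (C0 + Ckp + C1) * Dg + 3) < b ^ (r + 1) :=
    lt_of_le_of_lt (Nat.pow_le_pow_right (by omega) (by omega)) hbad'
  have hHi1 : (1 : ℤ) ≤ (⌈X⌉₊ : ℤ) := by exact_mod_cast (by omega : 1 ≤ ⌈X⌉₊)
  have hd5 : ∀ i, d i ≤ 5 := by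
    rw [Fin.forall_fin_two]
    rcases hKD.dd with ⟨h2, h3⟩ | ⟨h2, h3⟩ <;> rw [h2, h3] <;> decide
  rw [← Finset.card_filter_add_card_filter_not (s := S) fun N => ∃ (p : ℕ) (c : ℤ)
    (z : Fin 4 → ℤ) (s t : ℤ), Pt θ C X T l1 l2 N p c z s t ∧ t ≠ 0 ∧
      aeval ((s : ℚ) / t) (A 1) ≠ 0 ∧
      aeval ((s : ℚ) / t) (A 1) * (N : ℚ) = aeval ((s : ℚ) / t) (B 1)]
  refine pl_final hf hX1 hK2 ?_ hq1 hq0 ?_
  · exact pl_case_a (by linarith only [hβ]) hKg.le hgs hX8 hXT hT0.le hTX hR hKD.hΛ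
      ((hKD.dA 1).trans (hd5 1)) ((hKD.dB 1).trans (hd5 1)) (hA 1) (hB 1) hΛ
      (fun N hN => (Finset.mem_filter.1 hN).2)
  · refine count_b (η := η / 4) (C2 := C0 + Ckp + C1) (r := r) hcl hcc (by omega) (by omega) hbez
      hXK1 hXK2 hXH hHX hXT hT0.le hTH hH2 hCH hDH
      ((mono _ _ (by linarith only [hεε1])).trans hT1) (hT2.trans (mono _ _ (by linarith only [hεε1])))
      ((mono _ _ (by linarith only [hεε2])).trans hT1) (hT2.trans (mono _ _ (by linarith only [hεε2])))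
      ((mono _ _ (by linarith only [hεε1])).trans ha1) (ha2.trans (mono _ _ (by linarith only [hεε1])))
      ((mono _ _ (by linarith only [hεε1])).trans ha3) (ha4.trans (mono _ _ (by linarith only [hεε1])))
      ((mono _ _ (by linarith only [hεε2])).trans ha1) hR hND hKD hA hB hΛ hb1
      ((mono _ _ (by linarith only [hεε1])).trans hlo) (hhi.trans (mono _ _ (by linarith only [hεε1])))
      ((mono _ _ (by linarith only [hεε2])).trans hlo) (hhi.trans (mono _ _ (by linarith only [hεε2])))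
      hbX hbad1 hbad2 _ ?_
    intro N hN
    rw [Finset.mem_filter] at hN
    obtain ⟨p, c, z, s, t, hP⟩ := hS N hN.1
    have ht := (hnd N p c z s t hP).2
    rcases hkp ⌈X⌉₊ X T l1 l2 d A B Z Λ e N p c z s t hH2 hXH hTH ht hR.1 hl2 hKD hA hB hP with
      h1 | ⟨kn, kd, h1, h2, h3⟩
    · exact absurd ⟨p, c, z, s, t, hP, ht, h1.1, h1.2⟩ hN.2
    · exact ⟨p, c, z, s, t, kn, kd, hP, h1,
        h2.trans (pow_le_pow_right₀ hHi1 (by omega)), h3.trans (pow_le_pow_right₀ hHi1 (by omega))⟩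

/-- the local count: at most `X^(β+η)` points over one reduced pair. -/
theorem pair_local_of {G : ℤ[X]} {θ : Fin 4 → 𝓞 L} (hF : Fld G θ) (C : ℕ) (w m1 m2 β : ℝ)
    (hw : 1 / 4 ≤ w) (hw' : w ≤ 1 / 2) (hm1 : 0 ≤ m1) (hm12 : m1 ≤ m2) (hm : m2 < w)
    (hβ : 0 < β) (hcur : NumCurve w m1 β)
    (hkpS : ∀ C0 : ℕ, ∃ C1 : ℕ, KpStmt θ C C0 C1)
    (hclS : ∀ C0 : ℕ, ∃ ε : ℝ, 0 < ε ∧ ∃ (Dg C1 : ℕ) (K : ℝ), 0 < K ∧
      ClStmt θ C C0 w m1 m2 β ε Dg C1 K)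
    (η : ℝ) (hη : 0 < η) :
    ∃ ε : ℝ, 0 < ε ∧ ∃ K : ℝ, 0 < K ∧ ∀ (X T : ℝ) (l1 l2 : Fin 4 → ℤ),
      K ≤ X → X ≤ T ^ 4 → X ^ (w - ε) ≤ T → T ≤ X ^ (w + ε) → Red l1 l2 →
      X ^ (2 * (m1 - ε)) ≤ dot l1 l1 → (dot l1 l1 : ℝ) ≤ X ^ (2 * (m1 + ε)) →
      X ^ (2 * (m2 - ε)) ≤ dot l2 l2 → (dot l2 l2 : ℝ) ≤ X ^ (2 * (m2 + ε)) →
      ∀ S : Finset ℤ, (∀ N ∈ S, ∃ (p : ℕ) (c : ℤ) (z : Fin 4 → ℤ) (s t : ℤ),
        Pt θ C X T l1 l2 N p c z s t) → (S.card : ℝ) ≤ X ^ (β + η) := by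
  have hw0 : 0 < w := by linarith only [hm, hm12, hm1]
  have hm1w : m1 < w := lt_of_le_of_lt hm12 hm
  obtain ⟨C0, hC0⟩ := exists_kappa G hF.monic hF.deg hF.irr θ hF.inj hF.split
  obtain ⟨Ckp, hkp⟩ := hkpS C0
  obtain ⟨ε1, hε1, Dg, C1, K1, hK1, hcl⟩ := hclS C0
  obtain ⟨Bz, hBz⟩ := bezout2 Dg Dg
  obtain ⟨K1n, hK1n, hnorm⟩ := norm_int hF
  obtain ⟨m, hmm⟩ := exists_nat_gt (4 * β / η + β + 1)
  have hpos : 0 < 4 * β / η := by positivity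
  have hm0 : (0 : ℝ) < m := by linarith only [hpos, hmm, hw0, hβ, hw']
  have hmβ : β < m := by linarith only [hpos, hmm, hw0, hw']
  obtain ⟨η0, hη0⟩ : ∃ η0, η0 = β / m := ⟨_, rfl⟩
  have hη0p : 0 < η0 := by rw [hη0]; (clear * - hβ hm0; positivity)
  have hη01 : η0 < 1 := by rw [hη0, div_lt_one hm0]; exact hmβ
  have hη0m : η0 * m = β := by rw [hη0]; field_simp
  have hη04 : η0 ≤ η / 4 := by
    rw [hη0, div_le_iff₀ hm0]
    have h1 : 4 * β / η < m := by linarith only [hβ, hmm, hη0p, hη01]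
    rw [div_lt_iff₀ hη] at h1
    linarith only [h1]
  obtain ⟨ε2, hε2, K2, hK2, hcc⟩ := curve_count hF C Dg m (C0 + Ckp + C1) w m1 β hw0 hw' hm1 hm1w
    hβ hcur (η / 4) (by positivity)
  obtain ⟨Cb, hCb⟩ : ∃ Cb, Cb = (3 * (C0 + Ckp + C1) + 16) +
      ((C0 + Ckp + C1) + 2 * Dg + (C0 + Ckp + C1) * Dg + 3) := ⟨_, rfl⟩
  obtain ⟨r, hr⟩ := exists_nat_gt ((Cb : ℝ) / η0)
  have hr' : (Cb : ℝ) < η0 * ((r + 1 : ℕ) : ℝ) := by
    rw [div_lt_iff₀ hη0p] at hr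
    push_cast
    linarith only [hr, hη0p]
  obtain ⟨Kg, hKg, hgs⟩ := gap_sigma hF 5 (2 * C + 2 * C0) (β / 2) (by positivity)
  obtain ⟨ε, hεdef⟩ : ∃ ε, ε = min (min ε1 ε2) (min ((w - m1) / 4) (1 / 8)) := ⟨_, rfl⟩
  have hε : 0 < ε := by
    rw [hεdef]
    exact lt_min (lt_min hε1 hε2) (lt_min (by linarith only [hm1w]) (by norm_num))
  have hεε1 : ε ≤ ε1 := by rw [hεdef]; exact (min_le_left _ _).trans (min_le_left _ _)
  have hεε2 : ε ≤ ε2 := by rw [hεdef]; exact (min_le_left _ _).trans (min_le_right _ _)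
  have hεw : ε ≤ (w - m1) / 4 := by rw [hεdef]; exact (min_le_right _ _).trans (min_le_left _ _)
  have hε8 : ε ≤ 1 / 8 := by rw [hεdef]; exact (min_le_right _ _).trans (min_le_right _ _)
  obtain ⟨Kn, hKn⟩ := Filter.eventually_atTop.1 (plNum_eventually (β := β) (η := η) (η0 := η0)
    (ε := ε) (w := w) (m1 := m1) (Kg := Kg) (K1n := K1n) (K2 := K2) (m := m) (r := r) (C1 := C1)
    (Bz := Bz) (Cb := Cb) hβ hη hη0p hη01 hε hr' (by linarith only [hεw, hε]) (by linarith only [hε8, hε, hw']))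
  have hC0' : (0 : ℝ) ≤ C := Nat.cast_nonneg _
  have hDg0' : (0 : ℝ) ≤ Dg := Nat.cast_nonneg _
  have hKn0 := abs_nonneg Kn
  have hKn1 := le_abs_self Kn
  refine ⟨ε, hε, |Kn| + K1 + K2 + C + Dg + 8, by (clear * - hK1 hK2; positivity),
    fun X T l1 l2 hKX hXT hT1 hT2 hR ha1 ha2 ha3 ha4 S hS => ?_⟩
  exact pl_main hF hC0 hkp hcl hcc hBz hgs hK1n hnorm hβ hKg hK2 hη0m hη04 hεε1 hεε2
    (by linarith only [hw', hε, hεw, hε8]) (by linarith only [hw', hm, hε, hε8]) hCb (hKn X (by linarith only [hK1, hK2, hε, hε8, hKn1, hKX])) (by linarith only [hKX, hKn0, hK2, hK1]) (by linarith only [hKX, hKn0, hε8, hε, hK2])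
    (by linarith only [hKX, hKn0, hε8, hε, hK1]) (by linarith only [hK1, hK2, hε, hε8, hKn0, hKX]) (by linarith only [hKX, hKn0, hε8, hε, hK2, hK1]) hXT hT1 hT2 hR ha1 ha2 ha3 ha4 S hS

end Vale.Agent.P018.Q
end

section

/-! # P018, quartics, family (A): the trivial count over one reduced pair. -/

namespace Vale.Agent.P018.Q

open Polynomial NumberField Finset

variable {L : Type} [Field L] [NumberField L]

/-- integers with `s² D ≤ C T²` are bounded. -/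
private theorem abs_le_aux {C : ℕ} {X T w m ε : ℝ} {s D : ℤ} (hX : 1 ≤ X) (hT0 : 0 ≤ T)
    (hT : T ≤ X ^ (w + ε)) (hD : X ^ (2 * (m - ε)) ≤ D) (h : (s : ℝ) ^ 2 * D ≤ C * T ^ 2) :
    |(s : ℝ)| ≤ Real.sqrt C * X ^ (w - m + 2 * ε) := by
  have hX0 : 0 < X := by linarith
  have hA : 0 ≤ Real.sqrt C * X ^ (w - m + 2 * ε) := by positivity
  apply abs_le_of_sq_le_sq _ hA
  have hp : 0 < X ^ (2 * (m - ε)) := by positivity
  have h1 : (s : ℝ) ^ 2 * X ^ (2 * (m - ε)) ≤ C * (X ^ (w + ε)) ^ 2 := by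
    calc (s : ℝ) ^ 2 * X ^ (2 * (m - ε)) ≤ (s : ℝ) ^ 2 * D := by
          exact mul_le_mul_of_nonneg_left hD (sq_nonneg _)
      _ ≤ C * T ^ 2 := h
      _ ≤ C * (X ^ (w + ε)) ^ 2 := by gcongr
  have h2 : (Real.sqrt C * X ^ (w - m + 2 * ε)) ^ 2 * X ^ (2 * (m - ε)) =
      C * (X ^ (w + ε)) ^ 2 := by
    rw [mul_pow, Real.sq_sqrt (Nat.cast_nonneg C), mul_assoc]
    congr 1
    rw [← Real.rpow_natCast, ← Real.rpow_natCast, ← Real.rpow_mul hX0.le,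
      ← Real.rpow_mul hX0.le, ← Real.rpow_add hX0]
    congr 1
    push_cast
    ring
  rw [← h2] at h1
  exact le_of_mul_le_mul_right h1 hp

/-- the trivial count over one reduced pair. -/
theorem pair_trivial {G : ℤ[X]} {θ : Fin 4 → 𝓞 L} (hF : Fld G θ) (C : ℕ) (w m1 m2 : ℝ)
    (hw : 1 / 4 ≤ w) (hm1 : 0 ≤ m1) (hm12 : m1 ≤ m2) (hm : m2 < w) (η : ℝ) (hη : 0 < η) :
    ∃ ε : ℝ, 0 < ε ∧ ∃ K : ℝ, 0 < K ∧ ∀ (X T : ℝ) (l1 l2 : Fin 4 → ℤ),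
      K ≤ X → X ≤ T ^ 4 → X ^ (w - ε) ≤ T → T ≤ X ^ (w + ε) → Red l1 l2 →
      X ^ (2 * (m1 - ε)) ≤ dot l1 l1 → (dot l1 l1 : ℝ) ≤ X ^ (2 * (m1 + ε)) →
      X ^ (2 * (m2 - ε)) ≤ dot l2 l2 → (dot l2 l2 : ℝ) ≤ X ^ (2 * (m2 + ε)) →
      ∀ S : Finset ℤ, (∀ N ∈ S, ∃ (p : ℕ) (c : ℤ) (z : Fin 4 → ℤ) (s t : ℤ),
        Pt θ C X T l1 l2 N p c z s t) → (S.card : ℝ) ≤ X ^ (2 * w - m1 - m2 + η) := by
  obtain ⟨K0, hK0⟩ := pt_unique hF C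
  set M : ℝ := 2 * Real.sqrt C + 1 with hM
  have hM1 : 1 ≤ M := by
    have := Real.sqrt_nonneg (C : ℝ)
    linarith only [this]
  refine ⟨η / 8, by positivity, max (max K0 1) ((M ^ 2) ^ (2 / η)), by positivity, ?_⟩
  intro X T l1 l2 hKX hXT hT1 hT2 _ hl1 _ hl2 _ S hS
  have hXK0 : K0 ≤ X := le_trans (le_trans (le_max_left _ _) (le_max_left _ _)) hKX
  have hX1 : 1 ≤ X := le_trans (le_trans (le_max_right _ _) (le_max_left _ _)) hKX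
  have hXM : (M ^ 2) ^ (2 / η) ≤ X := le_trans (le_max_right _ _) hKX
  have hX0 : 0 < X := by linarith only [hX1]
  have hT0 : 0 ≤ T := le_trans (by positivity) hT1
  have hMX : M ^ 2 ≤ X ^ (η / 2) := by
    have h1 : ((M ^ 2) ^ (2 / η)) ^ (η / 2) ≤ X ^ (η / 2) := by
      apply Real.rpow_le_rpow (by (clear * -; positivity)) hXM (by positivity)
    rwa [← Real.rpow_mul (by (clear * -; positivity)), show 2 / η * (η / 2) = 1 by field_simp,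
      Real.rpow_one] at h1
  choose! p c z s t hPt using hS
  have hbd : ∀ m : ℝ, m < w → 2 * (⌊Real.sqrt C * X ^ (w - m + 2 * (η / 8))⌋ : ℝ) + 1 ≤
      M * X ^ (w - m + η / 4) := by
    intro m hmw
    have h1 : (1 : ℝ) ≤ X ^ (w - m + η / 4) := Real.one_le_rpow hX1 (by linarith only [hη, hmw])
    have h2 := Int.floor_le (Real.sqrt C * X ^ (w - m + 2 * (η / 8)))
    rw [show w - m + 2 * (η / 8) = w - m + η / 4 by ring] at h2 ⊢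
    have h3 : M * X ^ (w - m + η / 4) =
        2 * (Real.sqrt C * X ^ (w - m + η / 4)) + X ^ (w - m + η / 4) := by
      rw [hM]; ring
    rw [h3]
    linarith only [h1, h2]
  set A : ℤ := ⌊Real.sqrt C * X ^ (w - m1 + 2 * (η / 8))⌋ with hA
  set B : ℤ := ⌊Real.sqrt C * X ^ (w - m2 + 2 * (η / 8))⌋ with hB
  have hA0 : 0 ≤ A := Int.floor_nonneg.2 (by (clear * - hX1; positivity))
  have hB0 : 0 ≤ B := Int.floor_nonneg.2 (by (clear * - hX1; positivity))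
  have hmem : ∀ N ∈ S, (s N, t N) ∈ (Finset.Icc (-A) A) ×ˢ (Finset.Icc (-B) B) := by
    intro N hN
    have h := hPt N hN
    have h1 := abs_le_aux hX1 hT0 hT2 hl1 h.hs
    have h2 := abs_le_aux hX1 hT0 hT2 hl2 h.ht
    have h3 : |s N| ≤ A := by
      rw [hA, Int.le_floor]; push_cast; exact h1
    have h4 : |t N| ≤ B := by
      rw [hB, Int.le_floor]; push_cast; exact h2
    rw [Finset.mem_product, Finset.mem_Icc, Finset.mem_Icc]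
    exact ⟨abs_le.1 h3, abs_le.1 h4⟩
  have hinj : Set.InjOn (fun N => (s N, t N)) S := by
    intro N hN N' hN' he
    have he1 : s N = s N' := congrArg Prod.fst he
    have he2 : t N = t N' := congrArg Prod.snd he
    exact hK0 X T l1 l2 N N' _ _ _ _ _ _ _ _ _ _ hXK0 hXT (hPt N hN) (hPt N' hN')
      (by rw [he1, he2])
  have hcard : S.card ≤ ((Finset.Icc (-A) A) ×ˢ (Finset.Icc (-B) B)).card :=
    Finset.card_le_card_of_injOn _ hmem hinj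
  rw [Finset.card_product, Int.card_Icc, Int.card_Icc] at hcard
  have hcA : (((A + 1 - -A).toNat : ℕ) : ℝ) = 2 * (A : ℝ) + 1 := by
    have : (((A + 1 - -A).toNat : ℕ) : ℤ) = 2 * A + 1 := by omega
    exact_mod_cast this
  have hcB : (((B + 1 - -B).toNat : ℕ) : ℝ) = 2 * (B : ℝ) + 1 := by
    have : (((B + 1 - -B).toNat : ℕ) : ℤ) = 2 * B + 1 := by omega
    exact_mod_cast this
  have hcard' : (S.card : ℝ) ≤ (2 * (A : ℝ) + 1) * (2 * (B : ℝ) + 1) := by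
    rw [← hcA, ← hcB]; exact_mod_cast hcard
  have hB0' : (0 : ℝ) ≤ 2 * (B : ℝ) + 1 := by
    have : (0 : ℝ) ≤ B := by exact_mod_cast hB0
    linarith only [this]
  calc (S.card : ℝ) ≤ (2 * (A : ℝ) + 1) * (2 * (B : ℝ) + 1) := hcard'
    _ ≤ (M * X ^ (w - m1 + η / 4)) * (M * X ^ (w - m2 + η / 4)) := by
        apply mul_le_mul (hbd m1 (by linarith only [hm, hm12])) (hbd m2 hm) hB0' (by (clear * - hX1; positivity))
    _ = M ^ 2 * X ^ (2 * w - m1 - m2 + η / 2) := by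
        have hh : X ^ (2 * w - m1 - m2 + η / 2) =
            X ^ (w - m1 + η / 4) * X ^ (w - m2 + η / 4) := by
          rw [← Real.rpow_add hX0]
          congr 1
          ring
        rw [hh]
        ring
    _ ≤ X ^ (η / 2) * X ^ (2 * w - m1 - m2 + η / 2) := by gcongr
    _ = X ^ (2 * w - m1 - m2 + η) := by
        rw [← Real.rpow_add hX0]
        congr 1
        ring

end Vale.Agent.P018.Q
end

section

/-! # P018, (B), gap curves: linear algebra and the Wronskian identity. -/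

namespace Vale.Agent.P018.QB.GapC

open Polynomial Finset

/-- a kernel vector with small entries, when the kernel is one dimensional. -/
theorem bounded_kernel {I J : Type*} [Fintype J] [DecidableEq J] (v : I → J → ℤ) (M : ℤ)
    (hM : ∀ i j, |v i j| ≤ M) (α : J → ℤ) (j0 : J) (hα0 : α j0 ≠ 0)
    (hα : ∀ i, ∑ j, α j * v i j = 0)
    (huniq : ∀ β : J → ℚ, (∀ i, ∑ j, β j * v i j = 0) → β j0 = 0 → β = 0) :
    ∃ (β : J → ℤ) (a b : ℤ), a ≠ 0 ∧ b ≠ 0 ∧ (∀ j, a * β j = b * α j) ∧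
      ∀ j, |β j| ≤ ((Fintype.card {j : J // j ≠ j0}).factorial : ℤ) *
        M ^ (Fintype.card {j : J // j ≠ j0}) := by
  classical
  obtain ⟨φ, hφ⟩ : ∃ φ : {j : J // j ≠ j0} → I,
      (Matrix.of fun (i : {j : J // j ≠ j0}) (j : {j : J // j ≠ j0}) =>
        ((v (φ i) j : ℤ) : ℚ)).det ≠ 0 := by
    by_contra hcon
    push Not at hcon
    obtain ⟨β', hβ', hk⟩ := exists_kernel
      (fun (i : I) (j : {j : J // j ≠ j0}) => ((v i j : ℤ) : ℚ)) hcon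
    apply hβ'
    have h1 := huniq (fun j => if h : j ≠ j0 then β' ⟨j, h⟩ else 0) (by
      intro i
      rw [← Fintype.sum_subtype_add_sum_subtype (fun j => j ≠ j0)]
      have e1 : ∑ j : {j : J // j ≠ j0}, (if h : (j : J) ≠ j0 then β' ⟨j, h⟩ else 0) *
          ((v i j : ℤ) : ℚ) = 0 := by
        rw [← hk i]
        refine Finset.sum_congr rfl fun j _ => ?_
        rw [dif_pos j.2]
      have e2 : ∑ j : {j : J // ¬ j ≠ j0}, (if h : (j : J) ≠ j0 then β' ⟨j, h⟩ else 0) *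
          ((v i j : ℤ) : ℚ) = 0 := by
        refine Finset.sum_eq_zero fun j _ => ?_
        rw [dif_neg j.2, zero_mul]
      rw [e1, e2, add_zero]) (by simp)
    funext j
    have := congrFun h1 (j : J)
    simpa [j.2] using this
  set W : Matrix {j : J // j ≠ j0} {j : J // j ≠ j0} ℤ := Matrix.of fun i j => v (φ i) j with hW
  have hdet : W.det ≠ 0 := by
    intro h0
    apply hφ
    have : (Matrix.of fun (i : {j : J // j ≠ j0}) (j : {j : J // j ≠ j0}) =>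
        ((v (φ i) j : ℤ) : ℚ)) = (Int.castRingHom ℚ).mapMatrix W := by
      ext i j; simp [hW]
    rw [this, ← RingHom.map_det, h0, map_zero]
  set b : {j : J // j ≠ j0} → ℤ := fun i => v (φ i) j0 with hb
  have hmul : W.mulVec (fun j => α j) = -(α j0) • b := by
    funext i
    have h1 := hα (φ i)
    rw [← Fintype.sum_subtype_add_sum_subtype (fun j => j ≠ j0)] at h1
    have e2 : ∑ j : {j : J // ¬ j ≠ j0}, α j * v (φ i) j = α j0 * v (φ i) j0 := by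
      rw [Fintype.sum_eq_single (⟨j0, by simp⟩ : {j : J // ¬ j ≠ j0})]
      rintro ⟨j, hj⟩ hne
      exact absurd (Subtype.ext (not_ne_iff.1 hj)) hne
    rw [e2] at h1
    simp only [Matrix.mulVec, dotProduct, hW, Matrix.of_apply, Pi.smul_apply, smul_eq_mul, hb]
    have : ∑ j : {j : J // j ≠ j0}, v (φ i) j * α j = ∑ j : {j : J // j ≠ j0}, α j * v (φ i) j :=
      Finset.sum_congr rfl fun j _ => mul_comm _ _
    rw [this]
    linarith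
  have hcr : -(α j0) • (W.cramer b) = W.det • (fun j : {j : J // j ≠ j0} => α j) := by
    rw [← LinearMap.map_smul, ← hmul, Matrix.cramer_eq_adjugate_mulVec, Matrix.mulVec_mulVec,
      Matrix.adjugate_mul]
    simp
  have hle : ∀ A : Matrix {j : J // j ≠ j0} {j : J // j ≠ j0} ℤ, (∀ i j, |A i j| ≤ M) →
      |A.det| ≤ ((Fintype.card {j : J // j ≠ j0}).factorial : ℤ) *
        M ^ (Fintype.card {j : J // j ≠ j0}) := by
    intro A hA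
    have := Matrix.det_le (A := A) (abv := AbsoluteValue.abs) (x := M) hA
    simpa using this
  refine ⟨fun j => if h : j ≠ j0 then -(W.cramer b ⟨j, h⟩) else W.det, α j0, W.det, hα0, hdet,
    fun j => ?_, fun j => ?_⟩
  · beta_reduce
    by_cases h : j ≠ j0
    · rw [dif_pos h]
      have := congrFun hcr ⟨j, h⟩
      simp only [Pi.smul_apply, smul_eq_mul] at this
      linarith
    · rw [dif_neg h, not_ne_iff.1 h, mul_comm]
  · beta_reduce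
    by_cases h : j ≠ j0
    · rw [dif_pos h, abs_neg, Matrix.cramer_apply]
      refine hle _ fun i k => ?_
      rw [Matrix.updateCol_apply]
      split_ifs
      · exact hM _ _
      · exact hM _ _
    · rw [dif_neg h]
      exact hle _ fun i k => hM _ _

/-- the polynomial with coefficients `β 0, …, β D` -/
noncomputable def pl {R : Type*} [CommRing R] (D : ℕ) (β : Fin (D + 1) → R) : R[X] :=
  ∑ i : Fin (D + 1), C (β i) * X ^ (i : ℕ)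

theorem pl_coeff {R : Type*} [CommRing R] (D : ℕ) (β : Fin (D + 1) → R) (i : Fin (D + 1)) :
    (pl D β).coeff i = β i := by
  unfold pl
  rw [finsetSum_coeff, Finset.sum_eq_single i]
  · simp
  · intro j _ hj
    rw [coeff_C_mul, coeff_X_pow, if_neg, mul_zero]
    exact fun h => hj (Fin.ext h.symm)
  · simp

theorem pl_natDegree {R : Type*} [CommRing R] (D : ℕ) (β : Fin (D + 1) → R) :
    (pl D β).natDegree ≤ D := by
  unfold pl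
  refine natDegree_sum_le_of_forall_le _ _ fun i _ => ?_
  refine (natDegree_C_mul_X_pow_le _ _).trans ?_
  omega

theorem pl_eval {R : Type*} [CommRing R] (D : ℕ) (β : Fin (D + 1) → R) (x : R) :
    (pl D β).eval x = ∑ i : Fin (D + 1), β i * x ^ (i : ℕ) := by
  unfold pl
  rw [eval_finsetSum]
  simp

theorem pl_of_coeff {R : Type*} [CommRing R] (D : ℕ) (A : R[X]) (hA : A.natDegree ≤ D) :
    pl D (fun i => A.coeff i) = A := by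
  ext n
  rcases Nat.lt_or_ge n (D + 1) with h | h
  · exact pl_coeff D _ ⟨n, h⟩
  · rw [coeff_eq_zero_of_natDegree_lt (lt_of_le_of_lt (pl_natDegree D _) (by omega)),
      coeff_eq_zero_of_natDegree_lt (by omega)]

theorem pl_hom {K : Type*} [Field K] (D : ℕ) (β : Fin (D + 1) → K) (x y : K) (hy : y ≠ 0) :
    (pl D β).eval (x / y) * y ^ D = ∑ i : Fin (D + 1), β i * (x ^ (i : ℕ) * y ^ (D - i)) := by
  rw [pl_eval, Finset.sum_mul]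
  refine Finset.sum_congr rfl fun i _ => ?_
  have h : y ^ D = y ^ (i : ℕ) * y ^ (D - i) := by
    rw [← pow_add]; congr 1; omega
  rw [h, div_pow]
  field_simp

theorem uniq_aux {K : Type*} [Field K] {A B A' B' : K[X]} {D : ℕ} (hcop : IsCoprime A B)
    (h : A' * B = A * B') (hA : A.natDegree = D) (hD : 1 ≤ D) (hA' : A'.natDegree ≤ D)
    (h0 : A'.coeff D = 0) : A' = 0 ∧ B' = 0 := by
  have hdvd : A ∣ A' := hcop.dvd_of_dvd_mul_right (h ▸ dvd_mul_right _ _)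
  have hA0 : A ≠ 0 := by rintro rfl; simp at hA; omega
  have h1 : A' = 0 := by
    by_contra hne
    have h2 := natDegree_le_of_dvd hdvd hne
    have h3 : A'.natDegree = D := by omega
    have h4 : A'.leadingCoeff = 0 := by rw [leadingCoeff, h3, h0]
    exact hne (leadingCoeff_eq_zero.1 h4)
  refine ⟨h1, ?_⟩
  rw [h1, zero_mul] at h
  rcases mul_eq_zero.1 h.symm with h2 | h2
  · exact absurd h2 hA0
  · exact h2

/-- replace `(A, B)` by proportional polynomials of bounded height. -/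
theorem bounded_pair (D : ℕ) (A B : ℤ[X]) (hA : A.natDegree ≤ D) (hB : B.natDegree ≤ D)
    (hAB : A.natDegree = D ∨ B.natDegree = D)
    (hcop : IsCoprime (A.map (Int.castRingHom ℚ)) (B.map (Int.castRingHom ℚ)))
    (hD : 1 ≤ D) (S : Finset ℤ) (s t : ℤ → ℤ) (hS : 2 * D < S.card)
    (ht : ∀ N ∈ S, t N ≠ 0)
    (hinj : ∀ N ∈ S, ∀ N' ∈ S, (s N : ℚ) / t N = (s N' : ℚ) / t N' → N = N')
    (heq : ∀ N ∈ S, ((A.map (Int.castRingHom ℚ)).eval ((s N : ℚ) / t N)) * N =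
      (B.map (Int.castRingHom ℚ)).eval ((s N : ℚ) / t N))
    (M : ℤ) (hM1 : ∀ N ∈ S, |N| ≤ M) (hM2 : ∀ N ∈ S, |s N| ≤ M) (hM3 : ∀ N ∈ S, |t N| ≤ M)
    (hM : 1 ≤ M) :
    ∃ (A1 B1 : ℤ[X]) (a b : ℤ), a ≠ 0 ∧ b ≠ 0 ∧ C a * A1 = C b * A ∧ C a * B1 = C b * B ∧
      A1.natDegree ≤ D ∧ B1.natDegree ≤ D ∧
      (∀ i, |A1.coeff i| ≤ ((2 * D + 1).factorial : ℤ) * (M ^ (D + 1)) ^ (2 * D + 1)) ∧
      (∀ i, |B1.coeff i| ≤ ((2 * D + 1).factorial : ℤ) * (M ^ (D + 1)) ^ (2 * D + 1)) := by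
  classical
  set v : {N : ℤ // N ∈ S} → Fin (D + 1) ⊕ Fin (D + 1) → ℤ := fun N j =>
    Sum.elim (fun i : Fin (D + 1) => (N : ℤ) * (s N ^ (i : ℕ) * t N ^ (D - i)))
      (fun i : Fin (D + 1) => -(s N ^ (i : ℕ) * t N ^ (D - i))) j with hv
  have hvM : ∀ N j, |v N j| ≤ M ^ (D + 1) := by
    rintro ⟨N, hN⟩ j
    have h1 : ∀ i : Fin (D + 1), |s N ^ (i : ℕ) * t N ^ (D - i)| ≤ M ^ D := by
      intro i
      have e : M ^ D = M ^ (i : ℕ) * M ^ (D - i) := by rw [← pow_add]; congr 1; omega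
      rw [abs_mul, abs_pow, abs_pow, e]
      exact mul_le_mul (pow_le_pow_left₀ (abs_nonneg _) (hM2 N hN) _)
        (pow_le_pow_left₀ (abs_nonneg _) (hM3 N hN) _) (by (clear * -; positivity)) (by positivity)
    rcases j with i | i
    · simp only [hv, Sum.elim_inl]
      rw [abs_mul, pow_succ, mul_comm (M ^ D)]
      exact mul_le_mul (hM1 N hN) (h1 i) (abs_nonneg _) (by linarith only [hM])
    · simp only [hv, Sum.elim_inr, abs_neg]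
      refine (h1 i).trans ?_
      exact pow_le_pow_right₀ hM (by omega)
  set α : Fin (D + 1) ⊕ Fin (D + 1) → ℤ := fun j =>
    Sum.elim (fun i : Fin (D + 1) => A.coeff i) (fun i : Fin (D + 1) => B.coeff i) j with hαdef
  -- kernel condition in terms of polynomials
  have hker : ∀ (β : Fin (D + 1) ⊕ Fin (D + 1) → ℚ) (N : {N : ℤ // N ∈ S}),
      ∑ j, β j * v N j = ((pl D fun i => β (Sum.inl i)).eval ((s N : ℚ) / t N) * (N : ℤ) -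
        (pl D fun i => β (Sum.inr i)).eval ((s N : ℚ) / t N)) * (t N : ℚ) ^ D := by
    rintro β ⟨N, hN⟩
    have ht0 : (t N : ℚ) ≠ 0 := by exact_mod_cast ht N hN
    rw [sub_mul, mul_right_comm, pl_hom D _ _ _ ht0, pl_hom D _ _ _ ht0, Fintype.sum_sum_type,
      Finset.sum_mul, sub_eq_add_neg, ← Finset.sum_neg_distrib]
    congr 1
    · refine Finset.sum_congr rfl fun i _ => ?_
      simp only [hv, Sum.elim_inl]; push_cast; ring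
    · refine Finset.sum_congr rfl fun i _ => ?_
      simp only [hv, Sum.elim_inr]; push_cast; ring
  have hmapA : (pl D fun i : Fin (D + 1) => ((α (Sum.inl i) : ℤ) : ℚ)) =
      A.map (Int.castRingHom ℚ) := by
    rw [← pl_of_coeff D (A.map (Int.castRingHom ℚ)) (natDegree_map_le.trans hA)]
    congr 1; funext i; simp [hαdef]
  have hmapB : (pl D fun i : Fin (D + 1) => ((α (Sum.inr i) : ℤ) : ℚ)) =
      B.map (Int.castRingHom ℚ) := by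
    rw [← pl_of_coeff D (B.map (Int.castRingHom ℚ)) (natDegree_map_le.trans hB)]
    congr 1; funext i; simp [hαdef]
  have hα : ∀ N, ∑ j, α j * v N j = 0 := by
    intro N
    have h1 := hker (fun j => (α j : ℚ)) N
    rw [hmapA, hmapB, heq N N.2, sub_self, zero_mul] at h1
    exact_mod_cast h1
  have hdegA : (A.map (Int.castRingHom ℚ)).natDegree = A.natDegree :=
    natDegree_map_eq_of_injective (RingHom.injective_int _) _
  have hdegB : (B.map (Int.castRingHom ℚ)).natDegree = B.natDegree :=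
    natDegree_map_eq_of_injective (RingHom.injective_int _) _
  -- proportionality
  have hprop : ∀ β : Fin (D + 1) ⊕ Fin (D + 1) → ℚ, (∀ N, ∑ j, β j * v N j = 0) →
      (pl D fun i => β (Sum.inl i)) * B.map (Int.castRingHom ℚ) =
        A.map (Int.castRingHom ℚ) * (pl D fun i => β (Sum.inr i)) := by
    intro β hβ
    rw [← sub_eq_zero]
    refine eq_zero_of_natDegree_lt_card_of_eval_eq_zero' _
      (S.image fun N => (s N : ℚ) / t N) ?_ ?_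
    · intro x hx
      obtain ⟨N, hN, rfl⟩ := Finset.mem_image.1 hx
      have h1 := hker β ⟨N, hN⟩
      rw [hβ] at h1
      have ht0 : (t N : ℚ) ≠ 0 := by exact_mod_cast ht N hN
      have h2 := (mul_eq_zero.1 h1.symm).resolve_right (pow_ne_zero _ ht0)
      have h3 := heq N hN
      simp only at h2
      rw [eval_sub, eval_mul, eval_mul, ← h3]
      linear_combination ((A.map (Int.castRingHom ℚ)).eval ((s N : ℚ) / t N)) * h2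
    · rw [Finset.card_image_of_injOn fun N hN N' hN' h => hinj N hN N' hN' h]
      refine lt_of_le_of_lt ((natDegree_sub_le _ _).trans (max_le ?_ ?_)) hS
      · refine natDegree_mul_le.trans ?_
        have := pl_natDegree D fun i => β (Sum.inl i)
        omega
      · refine natDegree_mul_le.trans ?_
        have := pl_natDegree D fun i => β (Sum.inr i)
        omega
  have hzero : ∀ β : Fin (D + 1) ⊕ Fin (D + 1) → ℚ, (pl D fun i => β (Sum.inl i)) = 0 →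
      (pl D fun i => β (Sum.inr i)) = 0 → β = 0 := by
    intro β h1 h2
    funext j
    rcases j with i | i
    · rw [← pl_coeff D (fun i => β (Sum.inl i)) i, h1]; simp
    · rw [← pl_coeff D (fun i => β (Sum.inr i)) i, h2]; simp
  have hlast : ((Fin.last D : Fin (D + 1)) : ℕ) = D := rfl
  have hcard : ∀ j0 : Fin (D + 1) ⊕ Fin (D + 1),
      Fintype.card {j : Fin (D + 1) ⊕ Fin (D + 1) // j ≠ j0} = 2 * D + 1 := by
    intro j0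
    rw [Fintype.card_subtype_compl, Fintype.card_subtype_eq, Fintype.card_sum, Fintype.card_fin]
    omega
  obtain ⟨j0, hj0, huniq⟩ : ∃ j0, α j0 ≠ 0 ∧ ∀ β : Fin (D + 1) ⊕ Fin (D + 1) → ℚ,
      (∀ N, ∑ j, β j * v N j = 0) → β j0 = 0 → β = 0 := by
    rcases hAB with h | h
    · refine ⟨Sum.inl (Fin.last D), ?_, fun β hβ h0 => ?_⟩
      · simp only [hαdef, Sum.elim_inl, hlast]
        rw [← h]
        intro h0
        have : A = 0 := leadingCoeff_eq_zero.1 h0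
        rw [this] at h; simp at h; omega
      · have := uniq_aux hcop (hprop β hβ) (hdegA.trans h) hD (pl_natDegree D _) (by
          have := pl_coeff D (fun i => β (Sum.inl i)) (Fin.last D)
          rw [hlast] at this
          rw [this, h0])
        exact hzero β this.1 this.2
    · refine ⟨Sum.inr (Fin.last D), ?_, fun β hβ h0 => ?_⟩
      · simp only [hαdef, Sum.elim_inr, hlast]
        rw [← h]
        intro h0
        have : B = 0 := leadingCoeff_eq_zero.1 h0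
        rw [this] at h; simp at h; omega
      · have h2 := hprop β hβ
        have := uniq_aux (A' := pl D fun i => β (Sum.inr i)) (B' := pl D fun i => β (Sum.inl i))
          hcop.symm (by rw [mul_comm, ← h2, mul_comm]) (hdegB.trans h) hD (pl_natDegree D _) (by
          have := pl_coeff D (fun i => β (Sum.inr i)) (Fin.last D)
          rw [hlast] at this
          rw [this, h0])
        exact hzero β this.2 this.1
  obtain ⟨β, a, b, ha, hb, hab, hβM⟩ := bounded_kernel v (M ^ (D + 1)) hvM α j0 hj0 hα huniq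
  rw [hcard j0] at hβM
  refine ⟨pl D fun i => β (Sum.inl i), pl D fun i => β (Sum.inr i), a, b, ha, hb, ?_, ?_,
    pl_natDegree _ _, pl_natDegree _ _, fun i => ?_, fun i => ?_⟩
  · ext n
    rw [coeff_C_mul, coeff_C_mul]
    rcases Nat.lt_or_ge n (D + 1) with h | h
    · rw [pl_coeff D (fun i => β (Sum.inl i)) ⟨n, h⟩]
      exact hab (Sum.inl ⟨n, h⟩)
    · rw [coeff_eq_zero_of_natDegree_lt (lt_of_le_of_lt (pl_natDegree D _) (by omega)),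
        coeff_eq_zero_of_natDegree_lt (by omega), mul_zero, mul_zero]
  · ext n
    rw [coeff_C_mul, coeff_C_mul]
    rcases Nat.lt_or_ge n (D + 1) with h | h
    · rw [pl_coeff D (fun i => β (Sum.inr i)) ⟨n, h⟩]
      exact hab (Sum.inr ⟨n, h⟩)
    · rw [coeff_eq_zero_of_natDegree_lt (lt_of_le_of_lt (pl_natDegree D _) (by omega)),
        coeff_eq_zero_of_natDegree_lt (by omega), mul_zero, mul_zero]
  · rcases Nat.lt_or_ge i (D + 1) with h | h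
    · rw [pl_coeff D (fun i => β (Sum.inl i)) ⟨i, h⟩]
      exact hβM _
    · rw [coeff_eq_zero_of_natDegree_lt (lt_of_le_of_lt (pl_natDegree D _) (by omega)), abs_zero]
      positivity
  · rcases Nat.lt_or_ge i (D + 1) with h | h
    · rw [pl_coeff D (fun i => β (Sum.inr i)) ⟨i, h⟩]
      exact hβM _
    · rw [coeff_eq_zero_of_natDegree_lt (lt_of_le_of_lt (pl_natDegree D _) (by omega)), abs_zero]
      positivity

end Vale.Agent.P018.QB.GapC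
end

section

/-! # P018, (B): gap curves, assembly. -/

namespace Vale.Agent.P018.QB

open Polynomial NumberField Vale.Agent.P018.Q

namespace GapC

theorem exists_red (u1 u2 : ℤ) (h : u1 ≠ 0) : ∃ g s t : ℤ, g ≠ 0 ∧ t ≠ 0 ∧ u1 = g * t ∧
    u2 = g * s ∧ IsCoprime s t ∧ |s| ≤ |u2| ∧ |t| ≤ |u1| := by
  have hg : 0 < Int.gcd u1 u2 := Int.gcd_pos_of_ne_zero_left _ h
  obtain ⟨t, s, h1, h2, h3⟩ := Int.exists_gcd_one hg
  set g : ℤ := (Int.gcd u1 u2 : ℤ) with hgdef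
  have hg0 : g ≠ 0 := by rw [hgdef]; exact_mod_cast hg.ne'
  have ht : t ≠ 0 := by
    rintro rfl
    apply h; rw [h2]; ring
  have hg1 : 1 ≤ |g| := Int.one_le_abs hg0
  refine ⟨g, s, t, hg0, ht, by rw [h2]; ring, by rw [h3]; ring, ?_, ?_, ?_⟩
  · exact (Int.isCoprime_iff_gcd_eq_one.2 h1).symm
  · rw [h3, abs_mul]
    nlinarith [abs_nonneg s]
  · rw [h2, abs_mul]
    nlinarith [abs_nonneg t]

theorem hom_eval (D : ℕ) (A : ℤ[X]) (hA : A.natDegree ≤ D) (s t : ℤ) (ht : t ≠ 0) :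
    ((hom D A s t : ℤ) : ℚ) = (t : ℚ) ^ D * (A.map (Int.castRingHom ℚ)).eval ((s : ℚ) / t) := by
  rw [← Gap.hQ_map, Gap.hQ_ne D _ (natDegree_map_le.trans hA) _ _ (by exact_mod_cast ht)]

theorem eval_ne {A B : ℚ[X]} (h : IsCoprime A B) {w N : ℚ} (hN : N * A.eval w = B.eval w) :
    A.eval w ≠ 0 := by
  intro h0
  obtain ⟨a, b, hab⟩ := h
  have := congrArg (Polynomial.eval w) hab
  rw [eval_add, eval_mul, eval_mul, ← hN, h0, eval_one] at this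
  simp at this

/-- the count, for polynomials with bounded coefficients. -/
theorem gap_core {L : Type} [Field L] [NumberField L] (θ : Fin 4 → 𝓞 L) (G : ℤ[X])
    (hG : Root4 θ G) (C E D : ℕ) (ε : ℝ) (hε : 0 < ε) :
    ∃ K : ℝ, 0 < K ∧ ∀ (H : ℕ) (X T : ℝ), 2 ≤ H → (H : ℝ) ≤ (T ^ 4) ^ 2 → (C : ℝ) < T ^ 4 →
      1 < T ^ 4 → 1 ≤ T → 1 ≤ X → X ≤ C * T ^ 4 → ∀ (φ : L →+* ℂ) (c : ℤ) (g1 g2 : Fin 4 → ℤ),
      NonSpec θ g1 g2 → ∀ (d : ℕ) (A B : ℤ[X]), d + 1 ≤ D → A.natDegree ≤ d + 1 →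
      B.natDegree ≤ d + 1 → (A.natDegree = d + 1 ∨ B.natDegree = d + 1) →
      IsCoprime (A.map (Int.castRingHom ℚ)) (B.map (Int.castRingHom ℚ)) →
      (∀ i, |A.coeff i| ≤ (H : ℤ) ^ E) → (∀ i, |B.coeff i| ≤ (H : ℤ) ^ E) →
      (∀ j, ∃ h : ℂ[X], B.map (Int.castRingHom ℂ) - Polynomial.C (φ (θ j)) *
          A.map (Int.castRingHom ℂ) = (Polynomial.C (cf θ φ g1 j) +
            Polynomial.C (cf θ φ g2 j) * Polynomial.X) * h ^ 2) →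
      ∀ (S : Finset ℤ) (p : ℤ → ℕ) (y : ℤ → Fin 4 → ℤ) (u1 u2 : ℤ → ℤ),
        (∀ N ∈ S, Dat θ C X T N (p N) c (y N) (fun j => u1 N * g1 j + u2 N * g2 j) ∧
          u1 N ≠ 0 ∧ |u1 N| ≤ (H : ℤ) ^ E ∧ |u2 N| ≤ (H : ℤ) ^ E ∧
          (N : ℚ) * (A.map (Int.castRingHom ℚ)).eval ((u2 N : ℚ) / u1 N) =
            (B.map (Int.castRingHom ℚ)).eval ((u2 N : ℚ) / u1 N)) →
        (S.card : ℝ) ≤ K * T ^ ε := by
  classical
  obtain ⟨C1, hC1⟩ := Vale.Agent.P018.Q.Gap.exists_res D E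
  obtain ⟨C2, hC2⟩ := dvd_wr θ G hG C E D
  obtain ⟨K1, hK1, hK1'⟩ := gap_lemma D E (ε / 8) (by positivity)
  refine ⟨K1 * (C ^ 2 + 2) + 2 * D + 2 * (C1 + C2) * (4 * (2 * C ^ 2 + 1)), by (clear * - hK1; positivity), ?_⟩
  intro H X T hH hHT hCT hT1 hT hX1 hX φ c g1 g2 hns d A B hdD hA hB hAB hcop hAH hBH hfac S p y
    u1 u2 hS
  obtain ⟨hwr0, m, hm0, hmH, hm⟩ := hC2 H d φ g1 g2 A B hH hdD hns hA hB hAB hcop hAH hBH hfac
  obtain ⟨R, hR0, hRH, hR⟩ := hC1 H (d + 1) A B hH (by omega) hdD hA hB hAB hcop hAH hBH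
  have hred : ∀ N : ℤ, ∃ g s t : ℤ, N ∈ S → g ≠ 0 ∧ t ≠ 0 ∧ u1 N = g * t ∧
      u2 N = g * s ∧ IsCoprime s t ∧ |s| ≤ |u2 N| ∧ |t| ≤ |u1 N| := by
    intro N
    by_cases hN : N ∈ S
    · obtain ⟨g, s, t, h⟩ := exists_red (u1 N) (u2 N) (hS N hN).2.1
      exact ⟨g, s, t, fun _ => h⟩
    · exact ⟨0, 0, 0, fun h => absurd h hN⟩
  choose g s t hgst using hred
  have hw : ∀ N ∈ S, (u2 N : ℚ) / u1 N = (s N : ℚ) / t N := by
    intro N hN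
    obtain ⟨h1, h2, h3, h4, -⟩ := hgst N hN
    rw [h3, h4]; push_cast
    rw [mul_div_mul_left _ _ (by exact_mod_cast h1)]
  have hEv : ∀ N ∈ S, (N : ℚ) * (A.map (Int.castRingHom ℚ)).eval ((s N : ℚ) / t N) =
      (B.map (Int.castRingHom ℚ)).eval ((s N : ℚ) / t N) := by
    intro N hN
    have := (hS N hN).2.2.2.2
    rwa [hw N hN] at this
  have hinj : ∀ N ∈ S, ∀ N' ∈ S, (s N : ℚ) / t N = (s N' : ℚ) / t N' → N = N' := by
    intro N hN N' hN' h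
    have h1 := hEv N hN
    have h2 := hEv N' hN'
    rw [← h] at h2
    have h3 := eval_ne hcop h1
    have h4 : (N : ℚ) = N' := mul_right_cancel₀ h3 (h1.trans h2.symm)
    exact_mod_cast h4
  have hhomA : ∀ N ∈ S, hom (d + 1) A (s N) (t N) ≠ 0 := by
    intro N hN h
    obtain ⟨h1, h2, h3, h4, -⟩ := hgst N hN
    have h5 := hom_eval (d + 1) A hA (s N) (t N) h2
    rw [h] at h5
    have h6 : ((t N : ℤ) : ℚ) ≠ 0 := by exact_mod_cast h2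
    have h7 := eval_ne hcop (hEv N hN)
    have h8 := mul_ne_zero (pow_ne_zero (d + 1) h6) h7
    apply h8; rw [← h5]; simp
  have hhom : ∀ N ∈ S, hom (d + 1) A (s N) (t N) * N = hom (d + 1) B (s N) (t N) := by
    intro N hN
    obtain ⟨h1, h2, h3, h4, -⟩ := hgst N hN
    have h5 := hom_eval (d + 1) A hA (s N) (t N) h2
    have h6 := hom_eval (d + 1) B hB (s N) (t N) h2
    have h7 : ((hom (d + 1) A (s N) (t N) : ℤ) : ℚ) * N = ((hom (d + 1) B (s N) (t N) : ℤ) : ℚ) := by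
      rw [h5, h6, ← hEv N hN]; ring
    exact_mod_cast h7
  -- the three parts
  set S1 := S.filter fun N => (p N : ℤ) ∣ m * R with hS1
  set S2 := S.filter fun N => hom (2 * d) (wr A B) (s N) (t N) = 0 with hS2
  set S3 := S.filter fun N => ¬ ((p N : ℤ) ∣ m * R) ∧ hom (2 * d) (wr A B) (s N) (t N) ≠ 0 with hS3
  have hcov : S ⊆ S1 ∪ S2 ∪ S3 := by
    intro N hN
    by_cases a : (p N : ℤ) ∣ m * R
    · exact Finset.mem_union_left _ (Finset.mem_union_left _ (Finset.mem_filter.2 ⟨hN, a⟩))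
    · by_cases b : hom (2 * d) (wr A B) (s N) (t N) = 0
      · exact Finset.mem_union_left _ (Finset.mem_union_right _ (Finset.mem_filter.2 ⟨hN, b⟩))
      · exact Finset.mem_union_right _ (Finset.mem_filter.2 ⟨hN, a, b⟩)
  have hcard : S.card ≤ S1.card + S2.card + S3.card :=
    (Finset.card_le_card hcov).trans ((Finset.card_union_le _ _).trans
      (Nat.add_le_add_right (Finset.card_union_le _ _) _))
  have c1 : S1.card ≤ 2 * (C1 + C2) * (4 * (2 * C ^ 2 + 1)) := by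
    refine card_dvd θ G hG C X T hCT hT1 hX1 hX c (m * R) (mul_ne_zero hm0 hR0) (C1 + C2) H ?_ hHT
      S1 p y (fun N => fun j => u1 N * g1 j + u2 N * g2 j) ?_
    · rw [abs_mul, add_comm, pow_add]
      exact mul_le_mul hmH hRH (abs_nonneg _) (by positivity)
    · intro N hN
      obtain ⟨h1, h2⟩ := Finset.mem_filter.1 hN
      exact ⟨(hS N h1).1, h2⟩
  have c2 : S2.card ≤ 2 * D := by
    have hmap0 : (wr A B).map (Int.castRingHom ℚ) ≠ 0 :=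
      (Polynomial.map_ne_zero_iff (RingHom.injective_int _)).2 hwr0
    have h1 : S2.card ≤ ((wr A B).map (Int.castRingHom ℚ)).roots.toFinset.card := by
      refine Finset.card_le_card_of_injOn (fun N => (s N : ℚ) / t N) ?_ ?_
      · intro N hN
        obtain ⟨h1, h2⟩ := Finset.mem_filter.1 (Finset.mem_coe.1 hN)
        obtain ⟨-, ht, -⟩ := hgst N h1
        have h3 := hom_eval (2 * d) (wr A B) (Gap.natDegree_wr d A B hA hB) (s N) (t N) ht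
        rw [h2] at h3
        have h6 : ((t N : ℤ) : ℚ) ≠ 0 := by exact_mod_cast ht
        rw [Finset.mem_coe, Multiset.mem_toFinset, mem_roots hmap0, IsRoot.def]
        have h7 : (t N : ℚ) ^ (2 * d) ≠ 0 := pow_ne_zero _ h6
        have h8 : (0 : ℚ) = (t N : ℚ) ^ (2 * d) *
          ((wr A B).map (Int.castRingHom ℚ)).eval ((s N : ℚ) / t N) := by
          rw [← h3]; simp
        exact (mul_eq_zero.1 h8.symm).resolve_left h7
      · intro N hN N' hN' h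
        exact hinj N (Finset.mem_filter.1 (Finset.mem_coe.1 hN)).1 N'
          (Finset.mem_filter.1 (Finset.mem_coe.1 hN')).1 h
    have h2 : ((wr A B).map (Int.castRingHom ℚ)).roots.toFinset.card ≤ 2 * d :=
      ((Multiset.toFinset_card_le _).trans (card_roots' _)).trans
        (natDegree_map_le.trans (Gap.natDegree_wr d A B hA hB))
    omega
  have hC0 : (0 : ℝ) ≤ C := Nat.cast_nonneg C
  have c3 : (S3.card : ℝ) ≤ K1 * (C ^ 2 + 2) * T ^ ε := by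
    have h0 : (S3.card : ℝ) ≤ K1 * (H : ℝ) ^ (ε / 8) * (1 + max 1 (C * X) / T ^ 4) := by
      refine hK1' H (max 1 (C * X)) (T ^ 4) (d + 1) A B S3 s t p hH (le_max_left _ _) hT1.le
        (by omega) hdD hA hB hAB hcop hAH hBH ?_
      intro N hN
      obtain ⟨hNS, hN1, hN2⟩ := Finset.mem_filter.1 hN
      obtain ⟨hdat, hu10, hu1, hu2, -⟩ := hS N hNS
      obtain ⟨hg0, ht0, hu1e, hu2e, hst, hs, ht⟩ := hgst N hNS
      refine ⟨hdat.hN.trans (le_max_right _ _), hst, hs.trans hu2, ht.trans hu1, hhom N hNS,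
        hhomA N hNS, hdat.prime, hdat.lo, ?_, ?_, ?_⟩
      · intro h
        apply hN1
        have h1 := hR (s N) (t N) hst ⟨N, (hhom N hNS).symm⟩
        exact (h.trans h1).mul_left m
      · rw [show 2 * (d + 1) - 2 = 2 * d by omega]
        have hCp : C < p N := by
          have := hCT.trans_le hdat.lo
          exact_mod_cast this
        have h1 := hm X T c N (p N) (y N) (u1 N) (u2 N) (g N) (s N) (t N) hdat hu1e hu2e hst ht0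
          (hhom N hNS) hCp
        have hpp : Prime ((p N : ℕ) : ℤ) := Nat.prime_iff_prime_int.1 hdat.prime
        rcases hpp.dvd_or_dvd h1 with h | h
        · exact absurd (h.mul_right R) hN1
        · exact h
      · rw [show 2 * (d + 1) - 2 = 2 * d by omega]; exact hN2
    have hT0 : 0 < T := by linarith only [hT]
    have h1 : (H : ℝ) ^ (ε / 8) ≤ T ^ ε := by
      calc (H : ℝ) ^ (ε / 8) ≤ ((T ^ 4) ^ 2) ^ (ε / 8) := by gcongr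
        _ = (T ^ (8 : ℝ)) ^ (ε / 8) := by
          congr 1
          rw [← pow_mul]
          norm_cast
        _ = T ^ ε := by rw [← Real.rpow_mul hT0.le]; congr 1; ring
    have h2 : 1 + max 1 (C * X) / T ^ 4 ≤ (C : ℝ) ^ 2 + 2 := by
      have h3 : max 1 (C * X) ≤ ((C : ℝ) ^ 2 + 1) * T ^ 4 := by
        apply max_le
        · nlinarith [sq_nonneg (C : ℝ)]
        · (by_contra nlg; linarith only [nlg, mul_nonneg (sub_nonneg.2 hC0) (sub_nonneg.2 hC0), mul_nonneg (sub_nonneg.2 hX) (sub_nonneg.2 hX), mul_nonneg (sub_nonneg.2 hX1) (sub_nonneg.2 hX), mul_nonneg (le_of_lt (sub_pos.2 hCT)) (sub_nonneg.2 hC0), mul_pos (sub_pos.2 hCT) (sub_pos.2 hCT), mul_nonneg (le_of_lt (sub_pos.2 (not_le.1 nlg))) (sub_nonneg.2 hC0), mul_pos (sub_pos.2 (not_le.1 nlg)) (sub_pos.2 hCT), mul_nonneg (mul_self_nonneg (1 : ℝ)) (sub_nonneg.2 hX)])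
      have h4 : max 1 (C * X) / T ^ 4 ≤ (C : ℝ) ^ 2 + 1 := by
        rw [div_le_iff₀ (by positivity)]; exact h3
      linarith only [h4]
    have h5 : 0 ≤ 1 + max 1 (C * X) / T ^ 4 := by positivity
    calc (S3.card : ℝ) ≤ K1 * (H : ℝ) ^ (ε / 8) * (1 + max 1 (C * X) / T ^ 4) := h0
      _ ≤ K1 * T ^ ε * (C ^ 2 + 2) := by gcongr
      _ = _ := by ring
  have hTe : (1 : ℝ) ≤ T ^ ε := Real.one_le_rpow hT hε.le
  have e1 : (S.card : ℝ) ≤ (S1.card : ℝ) + S2.card + S3.card := by exact_mod_cast hcard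
  have e2 : (S1.card : ℝ) ≤ 2 * (C1 + C2) * (4 * (2 * C ^ 2 + 1)) * T ^ ε := by
    have h1 : (S1.card : ℝ) ≤ 2 * (C1 + C2) * (4 * (2 * C ^ 2 + 1)) := by exact_mod_cast c1
    refine h1.trans ?_
    have h2 : (0 : ℝ) ≤ 2 * (C1 + C2) * (4 * (2 * C ^ 2 + 1)) := by (clear * -; positivity)
    exact le_mul_of_one_le_right h2 hTe
  have e3 : (S2.card : ℝ) ≤ 2 * D * T ^ ε := by
    have h1 : (S2.card : ℝ) ≤ 2 * D := by exact_mod_cast c2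
    refine h1.trans ?_
    have h2 : (0 : ℝ) ≤ 2 * D := by (clear * -; positivity)
    exact le_mul_of_one_le_right h2 hTe
  calc (S.card : ℝ) ≤ (S1.card : ℝ) + S2.card + S3.card := e1
    _ ≤ 2 * (C1 + C2) * (4 * (2 * C ^ 2 + 1)) * T ^ ε + 2 * D * T ^ ε
      + K1 * (C ^ 2 + 2) * T ^ ε := by linarith only [e3, e2, c3]
    _ = _ := by ring

theorem eval_ratC (A : ℤ[X]) (q : ℚ) : (A.map (Int.castRingHom ℂ)).eval ((q : ℚ) : ℂ) =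
    (((A.map (Int.castRingHom ℚ)).eval q : ℚ) : ℂ) := by
  have h : Int.castRingHom ℂ = (algebraMap ℚ ℂ).comp (Int.castRingHom ℚ) :=
    RingHom.ext_int _ _
  have h1 : ((q : ℚ) : ℂ) = algebraMap ℚ ℂ q := by simp
  rw [h, ← Polynomial.map_map, Polynomial.eval_map, h1, Polynomial.eval₂_at_apply]
  simp

theorem map_prop {K : Type*} [Field K] [CharZero K] {A A1 : ℤ[X]} {a b : ℤ} (ha : a ≠ 0)
    (h : Polynomial.C a * A1 = Polynomial.C b * A) :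
    A1.map (Int.castRingHom K) = Polynomial.C ((b : K) / a) * A.map (Int.castRingHom K) := by
  have h1 := congrArg (Polynomial.map (Int.castRingHom K)) h
  rw [Polynomial.map_mul, Polynomial.map_mul, Polynomial.map_C, Polynomial.map_C] at h1
  have ha' : (a : K) ≠ 0 := by exact_mod_cast ha
  have h2 : Polynomial.C ((a : K)⁻¹) * (Polynomial.C (a : K) * A1.map (Int.castRingHom K)) =
      Polynomial.C ((a : K)⁻¹) * (Polynomial.C (b : K) * A.map (Int.castRingHom K)) := by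
    simpa using congrArg (fun x => Polynomial.C ((a : K)⁻¹) * x) h1
  rw [← mul_assoc, ← mul_assoc, ← Polynomial.C_mul, ← Polynomial.C_mul, inv_mul_cancel₀ ha',
    Polynomial.C_1, one_mul] at h2
  rw [h2, div_eq_inv_mul]

end GapC

open GapC in
/-- gap curves: uses `gap_lemma`. -/
theorem count_gap {L : Type} [Field L] [NumberField L] (θ : Fin 4 → 𝓞 L) (G : ℤ[X])
    (hG : Root4 θ G) (C D : ℕ) (ε : ℝ) (hε : 0 < ε) :
    ∃ K : ℝ, 0 < K ∧ ∀ (X T U : ℝ), 1 ≤ T → 1 ≤ X → T ^ 2 ≤ C * X → X ≤ C * T ^ 4 → 1 ≤ U →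
      U ≤ C * T ^ 4 → ∀ (φ : L →+* ℂ) (c : ℤ) (g1 g2 : Fin 4 → ℤ), NonSpec θ g1 g2 →
      (∀ j, |(g1 j : ℝ)| ≤ C * T ^ 4) → (∀ j, |(g2 j : ℝ)| ≤ C * T ^ 4) →
      ∀ A B : ℤ[X], A.natDegree ≤ D → B.natDegree ≤ D →
        IsCoprime (A.map (Int.castRingHom ℚ)) (B.map (Int.castRingHom ℚ)) →
        (∀ j, ∃ h : ℂ[X], B.map (Int.castRingHom ℂ) - Polynomial.C (φ (θ j)) *
          A.map (Int.castRingHom ℂ) = (Polynomial.C (cf θ φ g1 j) +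
            Polynomial.C (cf θ φ g2 j) * Polynomial.X) * h ^ 2) →
      ∀ (S : Finset ℤ) (p : ℤ → ℕ) (y : ℤ → Fin 4 → ℤ) (u1 u2 : ℤ → ℤ),
        (∀ N ∈ S, BDat θ C X T U c g1 g2 N (p N) (y N) (u1 N) (u2 N)) →
        (∀ N ∈ S, (N : ℂ) * (A.map (Int.castRingHom ℂ)).eval ((u2 N : ℂ) / u1 N) =
          (B.map (Int.castRingHom ℂ)).eval ((u2 N : ℂ) / u1 N)) →
        (S.card : ℝ) ≤ K * T ^ ε := by
  classical
  set E : ℕ := (D + 1) * (2 * D + 1) + 1 with hE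
  obtain ⟨K, hK, hK'⟩ := gap_core θ G hG C E D ε hε
  set T0 : ℝ := (C : ℝ) ^ 2 + C + 3 + (2 * D + 1).factorial with hT0
  have hT0p : 0 < T0 := by (clear * -; positivity)
  refine ⟨K + (2 * (C ^ 2 * T0) + 1) + (2 * D + 1), by (clear * - hK; positivity), ?_⟩
  intro X T U hT hX hTX hXT hU hUT φ c g1 g2 hns hg1 hg2 A B hA hB hcop hfac S p y u1 u2 hS hSeq
  have hTe : (1 : ℝ) ≤ T ^ ε := Real.one_le_rpow hT hε.le
  have hT4 : (1 : ℝ) ≤ T ^ 4 := one_le_pow₀ hT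
  have hC0 : (0 : ℝ) ≤ C := Nat.cast_nonneg C
  have hfin : ∀ (a : ℝ), 0 ≤ a → (S.card : ℝ) ≤ a → a ≤ K + (2 * (C ^ 2 * T0) + 1) + (2 * D + 1) →
      (S.card : ℝ) ≤ (K + (2 * (C ^ 2 * T0) + 1) + (2 * D + 1)) * T ^ ε := by
    intro a ha h1 h2
    have h3 : (0 : ℝ) ≤ K + (2 * (C ^ 2 * T0) + 1) + (2 * D + 1) := by (clear * - hK; positivity)
    exact (h1.trans h2).trans (le_mul_of_one_le_right h3 hTe)
  have hNX : ∀ N ∈ S, |(N : ℝ)| ≤ C ^ 2 * T ^ 4 := by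
    intro N hN
    have := (hS N hN).dat.hN
    calc |(N : ℝ)| ≤ C * X := this
      _ ≤ C * (C * T ^ 4) := by gcongr
      _ = _ := by ring
  by_cases hsmall : T ^ 4 < T0
  · have hsub : S ⊆ Finset.Icc (-⌊(C : ℝ) ^ 2 * T0⌋) ⌊(C : ℝ) ^ 2 * T0⌋ := by
      intro N hN
      have h1 : |(N : ℝ)| ≤ C ^ 2 * T0 := (hNX N hN).trans (by gcongr)
      have h2 := abs_le.1 h1
      rw [Finset.mem_Icc]
      constructor
      · have : -N ≤ ⌊(C : ℝ) ^ 2 * T0⌋ := Int.le_floor.2 (by push_cast; linarith)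
        linarith only [this]
      · exact Int.le_floor.2 h2.2
    have h1 := Finset.card_le_card hsub
    rw [Int.card_Icc] at h1
    have h0 : (0 : ℤ) ≤ ⌊(C : ℝ) ^ 2 * T0⌋ := Int.floor_nonneg.2 (by (clear * -; positivity))
    have h2 : (S.card : ℤ) ≤ 2 * ⌊(C : ℝ) ^ 2 * T0⌋ + 1 := by omega
    have h3 : (S.card : ℝ) ≤ 2 * (⌊(C : ℝ) ^ 2 * T0⌋ : ℝ) + 1 := by exact_mod_cast h2
    have h4 := Int.floor_le ((C : ℝ) ^ 2 * T0)
    refine hfin (2 * (C ^ 2 * T0) + 1) (by (clear * -; positivity)) (by linarith only [h3, h4]) ?_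
    have : (0 : ℝ) ≤ 2 * D + 1 := by (clear * -; positivity)
    linarith only [this, hK]
  by_cases hcard : S.card ≤ 2 * D + 1
  · refine hfin (2 * D + 1) (by (clear * -; positivity)) (by exact_mod_cast hcard) ?_
    have : (0 : ℝ) ≤ 2 * (C ^ 2 * T0) + 1 := by (clear * -; positivity)
    linarith only [this, hK]
  push Not at hsmall hcard
  set H : ℕ := ⌈((C : ℝ) ^ 2 + C + 2) * T ^ 4⌉₊ with hH
  have hH1 : ((C : ℝ) ^ 2 + C + 2) * T ^ 4 ≤ H := Nat.le_ceil _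
  have hH2 : (H : ℝ) ≤ ((C : ℝ) ^ 2 + C + 3) * T ^ 4 := by
    have := (Nat.ceil_lt_add_one (show (0 : ℝ) ≤ ((C : ℝ) ^ 2 + C + 2) * T ^ 4 by (clear * - hT; positivity))).le
    rw [← hH] at this
    linarith only [hT4, this]
  have hfac1 : (1 : ℝ) ≤ ((2 * D + 1).factorial : ℝ) := by
    exact_mod_cast (2 * D + 1).factorial_pos
  have hT4C : (C : ℝ) ^ 2 + C + 3 ≤ T ^ 4 := by
    rw [hT0] at hsmall; linarith only [hfac1, hsmall]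
  have hT4f : ((2 * D + 1).factorial : ℝ) ≤ T ^ 4 := by
    have : (0 : ℝ) ≤ (C : ℝ) ^ 2 + C + 3 := by (clear * -; positivity)
    rw [hT0] at hsmall; linarith only [hsmall, this]
  have hHT : (H : ℝ) ≤ (T ^ 4) ^ 2 := by
    calc (H : ℝ) ≤ ((C : ℝ) ^ 2 + C + 3) * T ^ 4 := hH2
      _ ≤ T ^ 4 * T ^ 4 := by gcongr
      _ = _ := by ring
  have hCC : (0 : ℝ) ≤ (C : ℝ) ^ 2 := by (clear * -; positivity)
  have hH0 : ∀ x : ℝ, 0 ≤ x → x ≤ ((C : ℝ) ^ 2 + C + 2) → x * T ^ 4 ≤ (H : ℝ) := by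
    intro x hx hx2
    calc x * T ^ 4 ≤ ((C : ℝ) ^ 2 + C + 2) * T ^ 4 := by gcongr
      _ ≤ (H : ℝ) := hH1
  have hH2' : 2 ≤ H := by
    have h1 := hH0 2 (by norm_num) (by linarith only [hT4C, hCC])
    have : (2 : ℝ) ≤ H := by linarith only [h1, hCC, hT4C, hfac1, hsmall]
    exact_mod_cast this
  have hHf : (2 * D + 1).factorial ≤ H := by
    have h1 := hH0 1 (by norm_num) (by linarith only [hCC, hT4C])
    have : ((2 * D + 1).factorial : ℝ) ≤ H := by linarith only [h1, hCC, hT4C, hsmall]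
    exact_mod_cast this
  have hNH : ∀ N ∈ S, |N| ≤ (H : ℤ) := by
    intro N hN
    have h1 := hH0 ((C : ℝ) ^ 2) hCC (by linarith only [hT4C])
    have h2 := (hNX N hN).trans h1
    exact_mod_cast h2
  have hu1H : ∀ N ∈ S, |u1 N| ≤ (H : ℤ) := by
    intro N hN
    have h1 := hH0 C hC0 (by linarith only [hCC])
    have h2 := ((hS N hN).hu1.trans hUT).trans h1
    exact_mod_cast h2
  have hu2H : ∀ N ∈ S, |u2 N| ≤ (H : ℤ) := by
    intro N hN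
    have h1 := hH0 C hC0 (by linarith only [hCC])
    have h2 := ((hS N hN).hu2.trans hUT).trans h1
    exact_mod_cast h2
  have hEq : ∀ N ∈ S, (N : ℚ) * (A.map (Int.castRingHom ℚ)).eval ((u2 N : ℚ) / u1 N) =
      (B.map (Int.castRingHom ℚ)).eval ((u2 N : ℚ) / u1 N) := by
    intro N hN
    have h1 := hSeq N hN
    have h2 : (u2 N : ℂ) / u1 N = (((u2 N : ℚ) / u1 N : ℚ) : ℂ) := by push_cast; rfl
    rw [h2, eval_ratC, eval_ratC] at h1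
    exact_mod_cast h1
  have hinj : ∀ N ∈ S, ∀ N' ∈ S, (u2 N : ℚ) / u1 N = (u2 N' : ℚ) / u1 N' → N = N' := by
    intro N hN N' hN' h
    have h1 := hEq N hN
    have h2 := hEq N' hN'
    rw [← h] at h2
    have h3 := eval_ne hcop h1
    have h4 : (N : ℚ) = N' := mul_right_cancel₀ h3 (h1.trans h2.symm)
    exact_mod_cast h4
  -- the degree
  obtain ⟨D', hD', hA', hB', hAB⟩ : ∃ D' ≤ D, A.natDegree ≤ D' ∧ B.natDegree ≤ D' ∧
      (A.natDegree = D' ∨ B.natDegree = D') := by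
    refine ⟨max A.natDegree B.natDegree, max_le hA hB, le_max_left _ _, le_max_right _ _, ?_⟩
    rcases max_choice A.natDegree B.natDegree with h | h
    · exact Or.inl h.symm
    · exact Or.inr h.symm
  rcases Nat.eq_zero_or_pos D' with h0 | h0
  · exfalso
    subst h0
    have hA0 : A = Polynomial.C (A.coeff 0) := eq_C_of_natDegree_le_zero hA'
    have hB0 : B = Polynomial.C (B.coeff 0) := eq_C_of_natDegree_le_zero hB'
    have h1 : S.card ≤ 1 := by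
      rw [Finset.card_le_one]
      intro N hN N' hN'
      have e1 := hEq N hN
      have e2 := hEq N' hN'
      have e3 := eval_ne hcop e1
      rw [hA0, hB0] at e1 e2
      rw [hA0] at e3
      simp only [Polynomial.map_C, eval_C] at e1 e2 e3
      have h4 : (N : ℚ) = N' := mul_right_cancel₀ e3 (e1.trans e2.symm)
      exact_mod_cast h4
    omega
  obtain ⟨d, rfl⟩ : ∃ d, D' = d + 1 := ⟨D' - 1, by omega⟩
  obtain ⟨A1, B1, a, b, ha, hb, hA1, hB1, hA1d, hB1d, hA1H, hB1H⟩ :=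
    bounded_pair (d + 1) A B hA' hB' hAB hcop (by omega) S u2 u1 (by omega)
      (fun N hN => (hS N hN).u10) hinj (fun N hN => by rw [mul_comm]; exact hEq N hN)
      (H : ℤ) hNH hu2H hu1H (by exact_mod_cast (show 1 ≤ H by omega))
  have hHE : ((2 * (d + 1) + 1).factorial : ℤ) * (((H : ℤ) ^ (d + 1 + 1)) ^ (2 * (d + 1) + 1))
      ≤ (H : ℤ) ^ E := by
    have h1 : (2 * (d + 1) + 1).factorial ≤ H :=
      (Nat.factorial_le (by omega)).trans hHf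
    have h2 : (H ^ (d + 1 + 1)) ^ (2 * (d + 1) + 1) ≤ H ^ ((D + 1) * (2 * D + 1)) := by
      rw [← pow_mul]
      refine Nat.pow_le_pow_right (by omega) ?_
      exact Nat.mul_le_mul (by omega) (by omega)
    have h3 := Nat.mul_le_mul h1 h2
    have h4 : (2 * (d + 1) + 1).factorial * (H ^ (d + 1 + 1)) ^ (2 * (d + 1) + 1) ≤ H ^ E := by
      have h5 : H ^ E = H * H ^ ((D + 1) * (2 * D + 1)) := by rw [hE]; ring
      rw [h5]
      exact h3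
    exact_mod_cast h4
  have hdegA : A1.natDegree = A.natDegree := by
    have := congrArg natDegree hA1
    rwa [natDegree_C_mul ha, natDegree_C_mul hb] at this
  have hdegB : B1.natDegree = B.natDegree := by
    have := congrArg natDegree hB1
    rwa [natDegree_C_mul ha, natDegree_C_mul hb] at this
  have haQ : (a : ℚ) ≠ 0 := by exact_mod_cast ha
  have hbQ : (b : ℚ) ≠ 0 := by exact_mod_cast hb
  have hcount := hK' H X T hH2' hHT (by linarith only [hsmall, hfac1, hCC]) (by linarith only [hCC, hT4C, hfac1, hsmall]) hT hX hXT φ c g1 g2 hns d A1 B1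
    hD' hA1d hB1d (by rw [hdegA, hdegB]; exact hAB) ?_ (fun i => (hA1H i).trans hHE)
    (fun i => (hB1H i).trans hHE) ?_ S p y u1 u2 ?_
  · refine hcount.trans ?_
    have : (0 : ℝ) ≤ (2 * (C ^ 2 * T0) + 1) + (2 * D + 1) := by (clear * -; positivity)
    have h1 : K ≤ K + (2 * (C ^ 2 * T0) + 1) + (2 * D + 1) := by linarith only [this]
    gcongr
  · rw [map_prop ha hA1, map_prop ha hB1]
    rw [isCoprime_mul_unit_left (Polynomial.isUnit_C.2 (isUnit_iff_ne_zero.2 (div_ne_zero hbQ haQ)))]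
    exact hcop
  · intro j
    obtain ⟨h, hh⟩ := hfac j
    obtain ⟨r, hr⟩ := IsAlgClosed.exists_pow_nat_eq ((b : ℂ) / a) (n := 2) (by norm_num)
    refine ⟨Polynomial.C r * h, ?_⟩
    rw [map_prop ha hA1, map_prop ha hB1, mul_pow, ← Polynomial.C_pow, hr]
    linear_combination (Polynomial.C ((b : ℂ) / a)) * hh
  · intro N hN
    have hE1 : (H : ℤ) ≤ (H : ℤ) ^ E := by
      refine le_self_pow₀ (by exact_mod_cast (show 1 ≤ H by omega)) (by omega)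
    refine ⟨(hS N hN).dat, (hS N hN).u10, (hu1H N hN).trans hE1, (hu2H N hN).trans hE1, ?_⟩
    rw [map_prop ha hA1, map_prop ha hB1, eval_mul, eval_mul, ← hEq N hN]
    ring

end Vale.Agent.P018.QB
end
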