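import Mathlib
import Vale.Agent.P018.Bdl.B9
import Vale.Agent.P018.Bdl.B13
import Vale.Agent.P018.Bdl.B8
import Vale.Agent.P018.Bdl.B4
import Vale.Agent.P018.Bdl.B1
import Vale.Agent.P018.Bdl.B7
import Vale.Agent.P018.Bdl.B10
import Vale.Agent.P018.Bdl.B14
import Vale.Agent.P018.Bdl.B12

set_option linter.all false

section

/-! # P018, quartics, family (A): the curves containing the points of one class. -/

namespace Vale.Agent.P018.Q

open Polynomial NumberField Finset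

variable {L : Type} [Field L] [NumberField L]

/-- for every class `s = σ0 t mod q` the points lie on a bounded number of irreducible curves. -/
theorem class_curves {G : ℤ[X]} {θ : Fin 4 → 𝓞 L} (hF : Fld G θ) (C C0 : ℕ) (w m1 m2 β : ℝ)
    (hw : 0 < w) (hm1 : 0 ≤ m1) (hm2 : 0 ≤ m2) (hm : m2 < w) (hβ : 0 < β)
    (hrel : NumRel w m1 m2 β) :
    ∃ ε : ℝ, 0 < ε ∧ ∃ (Dg C1 : ℕ) (K : ℝ), 0 < K ∧ ∀ (H : ℕ) (X T : ℝ) (l1 l2 : Fin 4 → ℤ)
      (d : Fin 2 → ℕ) (A B : Fin 2 → ℤ[X]) (Z : Fin 2 → Fin 4 → ℤ[X]) (Λ : ℤ[X]) (e : ℤ)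
      (q : ℕ) (σ0 : ℤ), K ≤ X → X ≤ H → X ≤ T ^ 4 → X ^ (w - ε) ≤ T → T ≤ X ^ (w + ε) →
      X ^ (2 * (m1 - ε)) ≤ dot l1 l1 → (dot l1 l1 : ℝ) ≤ X ^ (2 * (m1 + ε)) →
      X ^ (2 * (m2 - ε)) ≤ dot l2 l2 → (dot l2 l2 : ℝ) ≤ X ^ (2 * (m2 + ε)) →
      KData θ l1 l2 d A B Z Λ e →
      (∀ i k, |(A i).coeff k| ≤ (H : ℤ) ^ C0) → (∀ i k, |(B i).coeff k| ≤ (H : ℤ) ^ C0) →
      X ^ (β - ε) ≤ q → (q : ℝ) ≤ X ^ (β + ε) → (∀ p : ℕ, p.Prime → T ^ 4 ≤ p → ¬ p ∣ q) →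
      ∃ Cv : Finset (ℤ[X][X]), Cv.card ≤ C1 ∧
        (∀ g ∈ Cv, Irreducible (g.map (mapRingHom (Int.castRingHom ℚ))) ∧ BiDeg Dg Dg g ∧
          (∀ i j, |(g.coeff i).coeff j| ≤ (H : ℤ) ^ C1)) ∧
        ∀ (N : ℤ) (p : ℕ) (c : ℤ) (z : Fin 4 → ℤ) (s t kn kd : ℤ),
          Pt θ C X T l1 l2 N p c z s t → KP A B Z N c s t kn kd z →
          IsCoprime t (q : ℤ) → (q : ℤ) ∣ s - σ0 * t →
          ∃ g ∈ Cv, ev (g.map (mapRingHom (Int.castRingHom ℚ))) ((kn : ℚ) / kd) ((s : ℚ) / t) = 0 := by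
  obtain ⟨ε, hε, Nd, D, Cr, K, hK, hmain⟩ := rel_class hF C w m1 m2 β hw hm1 hm2 hm hβ hrel
  obtain ⟨Cs, hCs⟩ := subK_height Nd D (max Cr C0)
  obtain ⟨Cf, hCf⟩ := factor_set (Nd + (D + 5 * Nd))
  refine ⟨ε, hε, Nd + (D + 5 * Nd), Cf + (Cs + 1) * Cf, max K 2, lt_max_of_lt_left hK, ?_⟩
  intro H X T l1 l2 d A B Z Λ e q σ0 hKX hXH hXT h1 h2 h3 h4 h5 h6 hKD hA hB h7 h8 h9
  have hX2 : (2 : ℝ) ≤ X := (le_max_right _ _).trans hKX
  have hH2 : 2 ≤ H := by exact_mod_cast hX2.trans hXH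
  have hH1 : (1 : ℤ) ≤ H := by exact_mod_cast (by omega : 1 ≤ H)
  obtain ⟨F, hF0, hFD, hFH, hFv⟩ := hmain H X T l1 l2 q σ0 ((le_max_left _ _).trans hKX) hXH hXT
    h1 h2 h3 h4 h5 h6 h7 h8 h9
  -- degrees
  have hd5 : ∀ i, d i ≤ 5 := by
    intro i
    rcases hKD.dd with h | h
    · fin_cases i
      · exact h.1.le.trans (by norm_num)
      · exact h.2.le.trans (by norm_num)
    · fin_cases i
      · exact h.1.le.trans (by norm_num)
      · exact h.2.le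
  have hA5 : ∀ i, (A i).natDegree ≤ 5 := fun i => (hKD.dA i).trans (hd5 i)
  have hB5 : ∀ i, (B i).natDegree ≤ 5 := fun i => (hKD.dB i).trans (hd5 i)
  -- `l1 ≠ 0`
  have hl1 : l1 ≠ 0 := by
    rintro rfl
    have h10 : (0 : ℝ) < X ^ (2 * (m1 - ε)) := Real.rpow_pos_of_pos (by linarith only [hX2]) _
    have h11 : dot (0 : Fin 4 → ℤ) 0 = 0 := by simp [dot]
    rw [h11] at h3
    push_cast at h3
    linarith only [h3, h10]
  have hdet := Lev.det_ne_zero (fun j => pc_ell hF hl1 j) hKD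
  have hS0 : subK A B Nd F ≠ 0 := subK_ne_zero A B hdet Nd F hF0 hFD.1
  have hSD : BiDeg (Nd + (D + 5 * Nd)) (Nd + (D + 5 * Nd)) (subK A B Nd F) :=
    (subK_biDeg A B Nd D F hFD hA5 hB5).mono (by omega) (by omega)
  have hSH : ∀ i j, |((subK A B Nd F).coeff i).coeff j| ≤ (H : ℤ) ^ Cs :=
    hCs H A B F hH2 hFD hA5 hB5
      (fun i k => (hA i k).trans (pow_le_pow_right₀ hH1 (le_max_right _ _)))
      (fun i k => (hB i k).trans (pow_le_pow_right₀ hH1 (le_max_right _ _)))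
      (fun a b => (hFH a b).trans (pow_le_pow_right₀ hH1 (le_max_left _ _)))
  have hH3 : 2 ≤ H ^ (Cs + 1) := hH2.trans (Nat.le_self_pow (by omega) H)
  obtain ⟨Cv, hcard, hCv, hev⟩ := hCf (H ^ (Cs + 1)) (subK A B Nd F) hH3 hS0 hSD (by
    intro i j
    push_cast
    exact (hSH i j).trans (pow_le_pow_right₀ hH1 (by omega)))
  refine ⟨Cv, hcard.trans (by omega), fun g hg => ?_, ?_⟩
  · obtain ⟨h20, h21, h22⟩ := hCv g hg
    refine ⟨h20, h21, fun i j => (h22 i j).trans ?_⟩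
    push_cast
    rw [← pow_mul]
    exact pow_le_pow_right₀ hH1 (by omega)
  · intro N p c z s t kn kd hPt hKP hcop hdvd
    exact hev _ _ (subK_ev A B Z Nd D F hFD hKP (hFv N p c z s t hPt hcop hdvd))

end Vale.Agent.P018.Q
end

section

/-! # P018, quartics, family (A): summation over the reduced pairs. -/

namespace Vale.Agent.P018.Q

open Finset

theorem sum_geom32 (n : ℕ) : ∑ k ∈ Finset.range (n + 1), (32 : ℝ) ^ k ≤ 2 * 32 ^ n := by
  induction n with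
  | zero => simp
  | succ n ih =>
    rw [Finset.sum_range_succ, pow_succ]
    have : (0 : ℝ) < 32 ^ n := by positivity
    linarith only [ih, this]

/-- the number of reduced pairs in a box. -/
theorem card_box : ∃ C : ℝ, 0 < C ∧ ∀ (A B : ℝ), 1 ≤ B → 1 ≤ A →
    ∀ S : Finset ((Fin 4 → ℤ) × (Fin 4 → ℤ)),
    (∀ l ∈ S, Red l.1 l.2 ∧ (dot l.1 l.1 : ℝ) ≤ A ^ 2 ∧ (dot l.2 l.2 : ℝ) ≤ B ^ 2) →
    (S.card : ℝ) ≤ C * A ^ 5 * B ^ 3 := by
  classical
  obtain ⟨C, hC, h⟩ := card_red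
  refine ⟨2 * C, by positivity, ?_⟩
  intro A B hB hA S hS
  set n : ℕ := Nat.log 4 ⌊A ^ 2⌋₊ with hn
  set f : (Fin 4 → ℤ) × (Fin 4 → ℤ) → ℕ := fun l => Nat.log 4 (dot l.1 l.1).toNat with hf
  have hfl : ⌊A ^ 2⌋₊ ≠ 0 := by
    have : 1 ≤ ⌊A ^ 2⌋₊ := Nat.le_floor (by rw [Nat.cast_one]; (by_contra nlg; linarith only [nlg, mul_nonneg (sub_nonneg.2 hA) (sub_nonneg.2 hA), mul_nonneg (le_of_lt (sub_pos.2 (not_le.1 nlg))) (sub_nonneg.2 hA), mul_pos (sub_pos.2 (not_le.1 nlg)) (sub_pos.2 (not_le.1 nlg)), mul_nonneg (sq_nonneg (A : ℝ)) (sub_nonneg.2 hA), mul_nonneg (sq_nonneg (A : ℝ)) (le_of_lt (sub_pos.2 (not_le.1 nlg)))]))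
    omega
  have h4n : (2 : ℝ) ^ n ≤ A := by
    have h1 : 4 ^ n ≤ ⌊A ^ 2⌋₊ := Nat.pow_log_le_self 4 hfl
    have h2 : ((4 ^ n : ℕ) : ℝ) ≤ A ^ 2 := (Nat.le_floor_iff (by positivity)).1 h1
    have h3 : ((2 : ℝ) ^ n) ^ 2 ≤ A ^ 2 := by
      rw [← pow_mul, mul_comm n 2, pow_mul]
      push_cast at h2
      norm_num
      exact h2
    exact (pow_le_pow_iff_left₀ (by positivity) (by linarith only [hA]) (by norm_num)).1 h3
  have hmem : ∀ l ∈ S, f l ∈ Finset.range (n + 1) := by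
    intro l hl
    obtain ⟨-, h1, -⟩ := hS l hl
    rw [Finset.mem_range, Nat.lt_succ_iff]
    apply Nat.log_mono_right
    apply Nat.le_floor
    have h0 : (((dot l.1 l.1).toNat : ℕ) : ℤ) = dot l.1 l.1 := Int.toNat_of_nonneg (dot_nonneg _)
    have h0' : (((dot l.1 l.1).toNat : ℕ) : ℝ) = ((dot l.1 l.1 : ℤ) : ℝ) := by exact_mod_cast h0
    rw [h0']; exact h1
  have hcard : S.card = ∑ k ∈ Finset.range (n + 1), (S.filter (fun l => f l = k)).card :=
    Finset.card_eq_sum_card_fiberwise hmem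
  have hk : ∀ k ∈ Finset.range (n + 1), ((S.filter (fun l => f l = k)).card : ℝ) ≤
      C * B ^ 3 * 32 ^ k := by
    intro k _
    have := h (2 ^ k) B hB (by positivity) (S.filter (fun l => f l = k)) (by
      intro l hl
      rw [Finset.mem_filter] at hl
      obtain ⟨hlS, hlk⟩ := hl
      obtain ⟨hr, h1, h2⟩ := hS l hlS
      have hpos := dot_pos hr.1
      have h0 : (((dot l.1 l.1).toNat : ℕ) : ℤ) = dot l.1 l.1 := Int.toNat_of_nonneg hpos.le
      have hne : (dot l.1 l.1).toNat ≠ 0 := by omega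
      have hlow : 4 ^ k ≤ (dot l.1 l.1).toNat := by
        rw [← hlk]; exact Nat.pow_log_le_self 4 hne
      have hup : (dot l.1 l.1).toNat < 4 ^ (k + 1) := by
        rw [← hlk]; exact Nat.lt_pow_succ_log_self (by norm_num) _
      have h0' : (((dot l.1 l.1).toNat : ℕ) : ℝ) = ((dot l.1 l.1 : ℤ) : ℝ) := by
        exact_mod_cast h0
      have hpw : ((2 : ℝ) ^ k) ^ 2 = 4 ^ k := by
        rw [← pow_mul, mul_comm k 2, pow_mul]; norm_num
      refine ⟨hr, ?_, ?_, h2⟩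
      · rw [hpw, ← h0']; exact_mod_cast hlow
      · rw [hpw, ← h0']
        have : (((dot l.1 l.1).toNat : ℕ) : ℝ) ≤ ((4 ^ (k + 1) : ℕ) : ℝ) := by
          exact_mod_cast hup.le
        push_cast at this
        rw [pow_succ] at this
        linarith only [this])
    have hpw : ((2 : ℝ) ^ k) ^ 5 = 32 ^ k := by
      rw [← pow_mul, mul_comm k 5, pow_mul]; norm_num
    rw [hpw] at this
    calc ((S.filter (fun l => f l = k)).card : ℝ) ≤ C * 32 ^ k * B ^ 3 := this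
      _ = C * B ^ 3 * 32 ^ k := by ring
  have h32 : (32 : ℝ) ^ n ≤ A ^ 5 := by
    calc (32 : ℝ) ^ n = (2 ^ n) ^ 5 := by rw [← pow_mul, mul_comm n 5, pow_mul]; norm_num
      _ ≤ A ^ 5 := pow_le_pow_left₀ (by positivity) h4n 5
  calc (S.card : ℝ) = ∑ k ∈ Finset.range (n + 1), ((S.filter (fun l => f l = k)).card : ℝ) := by
        rw [hcard]; push_cast; rfl
    _ ≤ ∑ k ∈ Finset.range (n + 1), C * B ^ 3 * 32 ^ k := Finset.sum_le_sum hk
    _ = C * B ^ 3 * ∑ k ∈ Finset.range (n + 1), 32 ^ k := by rw [Finset.mul_sum]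
    _ ≤ C * B ^ 3 * (2 * 32 ^ n) := by
        apply mul_le_mul_of_nonneg_left (sum_geom32 n); positivity
    _ ≤ C * B ^ 3 * (2 * A ^ 5) := by
        apply mul_le_mul_of_nonneg_left _ (by positivity)
        linarith only [h32]
    _ = 2 * C * A ^ 5 * B ^ 3 := by ring

/-- summation over the reduced pairs. -/
theorem sum_pairs (m1 m2 ε : ℝ) (hm1 : 0 ≤ m1) (hm2 : 0 ≤ m2) (hε : 0 < ε) :
    ∃ K : ℝ, 0 < K ∧ ∀ (X β : ℝ) (S : Finset ℤ) (R : ℤ → (Fin 4 → ℤ) × (Fin 4 → ℤ) → Prop),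
      K ≤ X →
      (∀ N ∈ S, ∃ l, R N l ∧ Red l.1 l.2 ∧
        X ^ (2 * (m1 - ε)) ≤ dot l.1 l.1 ∧ (dot l.1 l.1 : ℝ) ≤ X ^ (2 * (m1 + ε)) ∧
        (dot l.2 l.2 : ℝ) ≤ X ^ (2 * (m2 + ε))) →
      (∀ l, Red l.1 l.2 →
        X ^ (2 * (m1 - ε)) ≤ dot l.1 l.1 → (dot l.1 l.1 : ℝ) ≤ X ^ (2 * (m1 + ε)) →
        (dot l.2 l.2 : ℝ) ≤ X ^ (2 * (m2 + ε)) →
        ∀ S' ⊆ S, (∀ N ∈ S', R N l) → (S'.card : ℝ) ≤ X ^ β) →
      (S.card : ℝ) ≤ X ^ (5 * m1 + 3 * m2 + β + 10 * ε) := by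
  classical
  obtain ⟨C, hC, hbox⟩ := card_box
  refine ⟨max 1 (C ^ (1 / (2 * ε))), by positivity, ?_⟩
  intro X β S R hKX h1 h2
  have hX1 : 1 ≤ X := le_trans (le_max_left _ _) hKX
  have hX0 : 0 < X := by linarith only [hX1]
  have hXC : C ≤ X ^ (2 * ε) := by
    have h3 : C ^ (1 / (2 * ε)) ≤ X := le_trans (le_max_right _ _) hKX
    have h4 : (C ^ (1 / (2 * ε))) ^ (2 * ε) ≤ X ^ (2 * ε) :=
      Real.rpow_le_rpow (by positivity) h3 (by positivity)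
    rw [← Real.rpow_mul hC.le] at h4
    have h5 : 1 / (2 * ε) * (2 * ε) = 1 := by field_simp
    rwa [h5, Real.rpow_one] at h4
  choose! f hf using h1
  have hcard : S.card = ∑ l ∈ S.image f, (S.filter (fun N => f N = l)).card :=
    Finset.card_eq_sum_card_fiberwise (fun N hN => Finset.mem_image_of_mem f hN)
  have hfib : ∀ l ∈ S.image f, ((S.filter (fun N => f N = l)).card : ℝ) ≤ X ^ β := by
    intro l hl
    obtain ⟨N, hN, rfl⟩ := Finset.mem_image.1 hl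
    obtain ⟨-, hr, ha, hb, hc⟩ := hf N hN
    refine h2 (f N) hr ha hb hc _ (Finset.filter_subset _ _) ?_
    intro N' hN'
    rw [Finset.mem_filter] at hN'
    rw [← hN'.2]
    exact (hf N' hN'.1).1
  have himg : ((S.image f).card : ℝ) ≤ C * (X ^ (m1 + ε)) ^ 5 * (X ^ (m2 + ε)) ^ 3 := by
    apply hbox
    · exact Real.one_le_rpow hX1 (by linarith only [hε, hm2])
    · exact Real.one_le_rpow hX1 (by linarith only [hε, hm1])
    · intro l hl
      obtain ⟨N, hN, rfl⟩ := Finset.mem_image.1 hl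
      obtain ⟨-, hr, ha, hb, hc⟩ := hf N hN
      have e1 : (X ^ (m1 + ε)) ^ 2 = X ^ (2 * (m1 + ε)) := by
        rw [← Real.rpow_natCast, ← Real.rpow_mul hX0.le]; congr 1; push_cast; ring
      have e2 : (X ^ (m2 + ε)) ^ 2 = X ^ (2 * (m2 + ε)) := by
        rw [← Real.rpow_natCast, ← Real.rpow_mul hX0.le]; congr 1; push_cast; ring
      rw [e1, e2]
      exact ⟨hr, hb, hc⟩
  have hXb : 0 < X ^ β := Real.rpow_pos_of_pos hX0 _
  calc (S.card : ℝ) = ∑ l ∈ S.image f, ((S.filter (fun N => f N = l)).card : ℝ) := by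
        rw [hcard]; push_cast; rfl
    _ ≤ ∑ _l ∈ S.image f, X ^ β := Finset.sum_le_sum hfib
    _ = (S.image f).card * X ^ β := by rw [Finset.sum_const, nsmul_eq_mul]
    _ ≤ (C * (X ^ (m1 + ε)) ^ 5 * (X ^ (m2 + ε)) ^ 3) * X ^ β :=
        mul_le_mul_of_nonneg_right himg hXb.le
    _ ≤ (X ^ (2 * ε) * (X ^ (m1 + ε)) ^ 5 * (X ^ (m2 + ε)) ^ 3) * X ^ β := by
        gcongr
    _ = X ^ (5 * m1 + 3 * m2 + β + 10 * ε) := by
        rw [← Real.rpow_natCast, ← Real.rpow_natCast, ← Real.rpow_mul hX0.le,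
          ← Real.rpow_mul hX0.le, ← Real.rpow_add hX0, ← Real.rpow_add hX0,
          ← Real.rpow_add hX0]
        congr 1; push_cast; ring

end Vale.Agent.P018.Q
end

section

/-! # P018, (B): sizes of the conjugates of `z` and the cells. -/

namespace Vale.Agent.P018.QB

open Polynomial NumberField Vale.Agent.P018.Q

variable {L : Type} [Field L] [NumberField L]

theorem cf_lin (θ : Fin 4 → 𝓞 L) (φ : L →+* ℂ) (g g' : Fin 4 → ℤ) (u1 u2 : ℤ) (i : Fin 4) :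
    cf θ φ (fun j => u1 * g j + u2 * g' j) i = u1 * cf θ φ g i + u2 * cf θ φ g' i := by
  have h : el (θ i) (fun j => u1 * g j + u2 * g' j) =
      (u1 : 𝓞 L) * el (θ i) g + (u2 : 𝓞 L) * el (θ i) g' := by
    simp only [el, K.ell, Finset.mul_sum, ← Finset.sum_add_distrib]
    refine Finset.sum_congr rfl fun j _ => ?_
    push_cast
    ring
  unfold cf
  rw [h]
  simp only [map_add, map_mul, map_intCast]

theorem abs_le_dot (g : Fin 4 → ℤ) (j : Fin 4) : |(g j : ℝ)| ≤ √((dot g g : ℤ) : ℝ) := by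
  refine Real.abs_le_sqrt ?_
  have h : (g j) ^ 2 ≤ dot g g := by
    unfold dot
    rw [sq]
    exact Finset.single_le_sum (f := fun i => g i * g i) (fun i _ => mul_self_nonneg _)
      (Finset.mem_univ j)
  exact_mod_cast h

theorem cf_upper (θ : Fin 4 → 𝓞 L) : ∃ B : ℝ, 1 ≤ B ∧ (∀ (φ : L →+* ℂ) (j : Fin 4),
    ‖φ (θ j : L)‖ ≤ B) ∧ ∀ (φ : L →+* ℂ) (g : Fin 4 → ℤ) (j : Fin 4),
    ‖cf θ φ g j‖ ≤ B * √((dot g g : ℤ) : ℝ) := by
  classical
  set B : ℝ := 1 + ∑ φ : L →+* ℂ, ∑ i, ∑ j : Fin 4, ‖φ (θ i : L)‖ ^ (j : ℕ) with hB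
  have h3 : ∀ (φ : L →+* ℂ) (i : Fin 4), ∑ j : Fin 4, ‖φ (θ i : L)‖ ^ (j : ℕ) ≤ B := by
    intro φ i
    have h1 : ∑ j : Fin 4, ‖φ (θ i : L)‖ ^ (j : ℕ) ≤ ∑ i, ∑ j : Fin 4, ‖φ (θ i : L)‖ ^ (j : ℕ) :=
      Finset.single_le_sum (f := fun i => ∑ j : Fin 4, ‖φ (θ i : L)‖ ^ (j : ℕ))
        (fun _ _ => Finset.sum_nonneg fun _ _ => by positivity) (Finset.mem_univ i)
    have h2 : ∑ i, ∑ j : Fin 4, ‖φ (θ i : L)‖ ^ (j : ℕ) ≤
        ∑ φ : L →+* ℂ, ∑ i, ∑ j : Fin 4, ‖φ (θ i : L)‖ ^ (j : ℕ) :=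
      Finset.single_le_sum (f := fun φ : L →+* ℂ => ∑ i, ∑ j : Fin 4, ‖φ (θ i : L)‖ ^ (j : ℕ))
        (fun _ _ => Finset.sum_nonneg fun _ _ => Finset.sum_nonneg fun _ _ => by positivity)
        (Finset.mem_univ φ)
    linarith only [h2, h1]
  have hB1 : 1 ≤ B := by
    have : 0 ≤ ∑ φ : L →+* ℂ, ∑ i, ∑ j : Fin 4, ‖φ (θ i : L)‖ ^ (j : ℕ) :=
      Finset.sum_nonneg fun _ _ => Finset.sum_nonneg fun _ _ => Finset.sum_nonneg fun _ _ => by
        positivity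
    linarith
  refine ⟨B, hB1, ?_, ?_⟩
  · intro φ j
    refine le_trans ?_ (h3 φ j)
    have h := Finset.single_le_sum (f := fun k : Fin 4 => ‖φ (θ j : L)‖ ^ (k : ℕ))
      (fun _ _ => by positivity) (Finset.mem_univ (1 : Fin 4))
    simpa using h
  · intro φ g j
    have h1 := data_upper (φ.comp (algebraMap (𝓞 L) L)) (θ j) g _ (abs_le_dot g)
    refine h1.trans ?_
    rw [mul_comm]
    exact mul_le_mul_of_nonneg_right (h3 φ j) (Real.sqrt_nonneg _)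

/-- lower bounds for the conjugates of `z` (from `dat_lower` and the equation). -/
theorem z_lower' (θ : Fin 4 → 𝓞 L) (C : ℕ) :
    ∃ K1 : ℝ, 0 < K1 ∧ ∀ (X T : ℝ) (N : ℤ) (p : ℕ) (c : ℤ) (y z : Fin 4 → ℤ), 1 ≤ T → K1 ≤ X →
      X ≤ C * |(N : ℝ)| → Dat θ C X T N p c y z → ∀ (φ : L →+* ℂ) (i : Fin 4),
        X / T ^ 2 ≤ K1 * ‖cf θ φ z i‖ ∧ ‖cf θ φ z i‖ ≤ K1 * (X / T ^ 2) := by
  obtain ⟨K0, hK0, hlow⟩ := dat_lower θ C
  obtain ⟨B, hB1, hB, -⟩ := cf_upper θ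
  refine ⟨2 * C / K0 ^ 2 + C * (C + 1) / K0 ^ 2 + 2 * (C + 1) * B, by positivity, ?_⟩
  intro X T N p c y z hT hX hN hd φ i
  have hT0 : 0 < T := by linarith only [hT]
  have hCpos : (1 : ℝ) ≤ C := by
    have h1 := Int.one_le_abs hd.c0
    have h2 := hd.cC
    have h3 : (1 : ℤ) ≤ C := by omega
    exact_mod_cast h3
  obtain ⟨hy1, hy2⟩ := hlow X T N p c y z hT hd φ i
  have e1 := congrArg (fun x : 𝓞 L => ‖φ (x : L)‖) (hd.eqn i)
  simp only [map_mul, map_pow, map_sub, map_intCast, norm_mul, norm_pow,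
    Complex.norm_intCast] at e1
  set r : ℝ := ‖φ (K.ell (θ i) y : 𝓞 L)‖ with hr
  have hcf : ‖φ ((K.ell (θ i) z : 𝓞 L) : L)‖ = ‖cf θ φ z i‖ := rfl
  rw [hcf] at e1
  set q : ℝ := ‖cf θ φ z i‖ with hq
  have hq0 : 0 ≤ q := norm_nonneg _
  have hr0 : 0 < r := lt_of_lt_of_le (by positivity) hy1
  have hc1 : (1 : ℝ) ≤ |(c : ℝ)| := by exact_mod_cast Int.one_le_abs hd.c0
  have hcC : |(c : ℝ)| ≤ C := by exact_mod_cast hd.cC
  have hXB : 2 * (C + 1) * B ≤ X := by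
    have : 0 ≤ 2 * C / K0 ^ 2 + C * (C + 1) / K0 ^ 2 := by (clear * - hCpos hK0; positivity)
    linarith only [this, hX]
  have hX0 : 0 < X := lt_of_lt_of_le (by positivity) hXB
  have hlo : |(N : ℝ)| - B ≤ ‖(N : ℂ) - φ (θ i : L)‖ := by
    have h1 := norm_sub_norm_le (N : ℂ) (φ (θ i : L))
    rw [Complex.norm_intCast] at h1
    linarith only [hB φ i, h1]
  have hup : ‖(N : ℂ) - φ (θ i : L)‖ ≤ |(N : ℝ)| + B := by
    have h1 := norm_sub_le (N : ℂ) (φ (θ i : L))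
    rw [Complex.norm_intCast] at h1
    linarith only [hB φ i, h1]
  have hN1 : X ≤ 2 * C * ‖(N : ℂ) - φ (θ i : L)‖ := by
    have h1 : 2 * C * (|(N : ℝ)| - B) ≤ 2 * C * ‖(N : ℂ) - φ (θ i : L)‖ :=
      mul_le_mul_of_nonneg_left hlo (by positivity)
    linarith only [h1, hXB, hN, hB1]
  have hN2 : ‖(N : ℂ) - φ (θ i : L)‖ ≤ (C + 1) * X := by
    have h1 := hd.hN
    nlinarith
  have hN0 : 0 ≤ ‖(N : ℂ) - φ (θ i : L)‖ := norm_nonneg _
  constructor
  · rw [div_le_iff₀ (by positivity)]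
    have h1 : r ^ 2 ≤ (K0⁻¹ * T) ^ 2 := pow_le_pow_left₀ hr0.le hy2 2
    have h2 : ‖(N : ℂ) - φ (θ i : L)‖ ≤ r ^ 2 * q := by
      rw [← e1]
      linarith only [mul_nonneg (sub_nonneg.2 hc1) (sub_nonneg.2 hN0)]
    have h3 : r ^ 2 * q ≤ (K0⁻¹ * T) ^ 2 * q := mul_le_mul_of_nonneg_right h1 hq0
    have h4 : X ≤ 2 * C * ((K0⁻¹ * T) ^ 2 * q) := by
      refine hN1.trans (mul_le_mul_of_nonneg_left (h2.trans h3) (by positivity))
    have h5 : 2 * C * ((K0⁻¹ * T) ^ 2 * q) = 2 * C / K0 ^ 2 * q * T ^ 2 := by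
      field_simp
    rw [h5] at h4
    refine h4.trans (mul_le_mul_of_nonneg_right (mul_le_mul_of_nonneg_right ?_ hq0)
      (by positivity))
    have : 0 ≤ C * (C + 1) / K0 ^ 2 + 2 * (C + 1) * B := by (clear * - hCpos hK0 hB1; positivity)
    linarith only [this]
  · have h1 : (K0 * T) ^ 2 ≤ r ^ 2 := pow_le_pow_left₀ (by positivity) hy1 2
    have h2 : (K0 * T) ^ 2 * q ≤ C * ((C + 1) * X) := by
      refine (mul_le_mul_of_nonneg_right h1 hq0).trans ?_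
      rw [← e1]
      exact mul_le_mul hcC hN2 hN0 (by positivity)
    have h3 : q ≤ C * (C + 1) / K0 ^ 2 * (X / T ^ 2) := by
      rw [div_mul_div_comm, le_div_iff₀ (by positivity)]
      calc q * (K0 ^ 2 * T ^ 2) = (K0 * T) ^ 2 * q := by ring
        _ ≤ C * ((C + 1) * X) := h2
        _ = C * (C + 1) * X := by ring
    refine h3.trans (mul_le_mul_of_nonneg_right ?_ (by positivity))
    have : 0 ≤ 2 * C / K0 ^ 2 + 2 * (C + 1) * B := by positivity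
    linarith only [this]

/-- the cells. -/
theorem exists_cells' (θ : Fin 4 → 𝓞 L) (C : ℕ) :
    ∃ K : ℝ, 0 < K ∧ ∀ (X T ρ : ℝ), 1 ≤ T → K ≤ X → 0 < ρ → ρ ≤ 1 → ∀ (g g' : Fin 4 → ℤ),
      g ≠ 0 → g' ≠ 0 → ∀ (S : Finset ℤ) (p : ℤ → ℕ) (c : ℤ) (y : ℤ → Fin 4 → ℤ) (u1 u2 : ℤ → ℤ),
      (∀ N ∈ S, Dat θ C X T N (p N) c (y N) (fun j => u1 N * g j + u2 N * g' j) ∧
        X ≤ C * |(N : ℝ)| ∧ u1 N ≠ 0 ∧ (u1 N : ℝ) ^ 2 * dot g g ≤ C * (X / T ^ 2) ^ 2 ∧
        (u2 N : ℝ) ^ 2 * dot g' g' ≤ (u1 N : ℝ) ^ 2 * dot g g) →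
      ∃ (k : ℕ) (cl : ℤ → ℕ) (w0 : ℕ → ℝ), (k : ℝ) ≤ K / ρ ∧ (∀ N ∈ S, cl N < k) ∧
        ∀ N ∈ S, ∀ (φ : L →+* ℂ) (j : Fin 4),
          |(u2 N : ℝ) / u1 N - w0 (cl N)| * ‖cf θ φ g' j‖ ≤
            ρ * ‖cf θ φ g j + w0 (cl N) * cf θ φ g' j‖ := by
  classical
  obtain ⟨K1, hK1, hz⟩ := z_lower' θ C
  obtain ⟨B, hB1, -, hB⟩ := cf_upper θ
  have hC0 : (0 : ℝ) ≤ C := Nat.cast_nonneg C
  refine ⟨K1 + (2 * (B * K1 * (C + 1)) + 1), by (clear * - hK1 hB1; positivity), ?_⟩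
  intro X T ρ hT hX hρ hρ1 g g' hg hg' S p c y u1 u2 hS
  have hT0 : 0 < T := by linarith
  have hXK : K1 ≤ X := by
    have : 0 ≤ 2 * (B * K1 * (C + 1)) + 1 := by positivity
    linarith only [this, hX]
  have hX0 : 0 < X := by linarith
  have hdpos : ∀ h : Fin 4 → ℤ, h ≠ 0 → (0 : ℝ) < ((dot h h : ℤ) : ℝ) := by
    intro h hh
    obtain ⟨j, hj⟩ := Function.ne_iff.1 hh
    have h1 : (g' 0 : ℝ) = g' 0 := rfl
    have h2 : 0 < dot h h := by
      unfold dot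
      exact Finset.sum_pos' (fun i _ => mul_self_nonneg _)
        ⟨j, Finset.mem_univ j, mul_self_pos.2 hj⟩
    exact_mod_cast h2
  have ha := hdpos g hg
  have ha' := hdpos g' hg'
  set a : ℝ := √((dot g g : ℤ) : ℝ) with hadef
  set a' : ℝ := √((dot g' g' : ℤ) : ℝ) with hadef'
  have ha2 : a ^ 2 = ((dot g g : ℤ) : ℝ) := Real.sq_sqrt ha.le
  have ha2' : a' ^ 2 = ((dot g' g' : ℤ) : ℝ) := Real.sq_sqrt ha'.le
  have ha0 : 0 < a := Real.sqrt_pos.2 ha
  have ha0' : 0 < a' := Real.sqrt_pos.2 ha'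
  -- the length of the cells
  obtain ⟨δ, hδ⟩ : ∃ δ : ℝ, δ = ρ * a / (a' * (B * K1 * (C + 1))) := ⟨_, rfl⟩
  have hδ0 : 0 < δ := by rw [hδ]; (clear * - hρ ha ha' hB1 hK1; positivity)
  have hM : 2 * (a / a') / δ = 2 * (B * K1 * (C + 1)) / ρ := by
    rw [hδ]; field_simp
  -- the abscissa
  let w : ℤ → ℝ := fun N => (u2 N : ℝ) / u1 N
  have hu1 : ∀ N ∈ S, (0 : ℝ) < |(u1 N : ℝ)| := by
    intro N hN
    exact abs_pos.2 (by exact_mod_cast (hS N hN).2.2.1)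
  have hw : ∀ N ∈ S, |w N| ≤ a / a' := by
    intro N hN
    obtain ⟨-, -, h3, -, h5⟩ := hS N hN
    have h6 := hu1 N hN
    rw [← ha2, ← ha2', ← mul_pow, ← mul_pow, sq_le_sq, abs_mul, abs_mul, abs_of_pos ha0,
      abs_of_pos ha0'] at h5
    show |(u2 N : ℝ) / u1 N| ≤ a / a'
    rw [abs_div, div_le_div_iff₀ h6 ha0']
    linarith only [h5]
  let cl : ℤ → ℕ := fun N => ⌊(w N + a / a') / δ⌋₊
  have hcl0 : ∀ N ∈ S, 0 ≤ (w N + a / a') / δ := by
    intro N hN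
    have := (abs_le.1 (hw N hN)).1
    have h2 : 0 ≤ w N + a / a' := by linarith only [this]
    (clear * - h2 hδ0; positivity)
  let w0 : ℕ → ℝ := fun m => if h : ∃ N ∈ S, cl N = m then w h.choose else 0
  refine ⟨⌊2 * (a / a') / δ⌋₊ + 1, cl, w0, ?_, ?_, ?_⟩
  · have h1 : (⌊2 * (a / a') / δ⌋₊ : ℝ) ≤ 2 * (a / a') / δ := Nat.floor_le (by (clear * - ha ha' hδ0; positivity))
    rw [hM] at h1
    have h2 : (1 : ℝ) ≤ 1 / ρ := by rw [le_div_iff₀ hρ]; linarith only [hρ1]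
    have h3 : 0 ≤ K1 / ρ := by positivity
    rw [hM]
    push_cast
    calc (⌊2 * (B * K1 * (C + 1)) / ρ⌋₊ : ℝ) + 1
        ≤ 2 * (B * K1 * (C + 1)) / ρ + 1 / ρ := by
          refine add_le_add ?_ h2
          rw [← hM] at h1 ⊢
          exact h1
      _ ≤ (K1 + (2 * (B * K1 * (C + 1)) + 1)) / ρ := by
          rw [add_div K1, add_div]; linarith only [h3]
  · intro N hN
    have h1 := (abs_le.1 (hw N hN)).2
    refine Nat.lt_succ_of_le (Nat.floor_le_floor ?_)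
    rw [div_le_div_iff_of_pos_right hδ0]
    linarith only [h1]
  · intro N hN φ j
    have hex : ∃ N' ∈ S, cl N' = cl N := ⟨N, hN, rfl⟩
    have hw0 : w0 (cl N) = w hex.choose := dif_pos hex
    obtain ⟨hN0, hcl⟩ := hex.choose_spec
    set N0 := hex.choose with hN0def
    rw [hw0]
    -- the two points are in one cell
    have hdist : |w N - w N0| ≤ δ := by
      have h1 := Nat.floor_le (hcl0 N hN)
      have h2 := Nat.lt_floor_add_one ((w N + a / a') / δ)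
      have h3 := Nat.floor_le (hcl0 N0 hN0)
      have h4 := Nat.lt_floor_add_one ((w N0 + a / a') / δ)
      have h5 : (⌊(w N0 + a / a') / δ⌋₊ : ℝ) = (⌊(w N + a / a') / δ⌋₊ : ℝ) := by
        exact_mod_cast hcl
      rw [h5] at h3 h4
      have h6 : |(w N + a / a') / δ - (w N0 + a / a') / δ| ≤ 1 := by
        rw [abs_le]; constructor <;> linarith
      rw [← sub_div, abs_div, abs_of_pos hδ0, div_le_one hδ0] at h6
      have h7 : w N + a / a' - (w N0 + a / a') = w N - w N0 := by ring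
      rwa [h7] at h6
    obtain ⟨hd0, hN1, hu0, hu2, -⟩ := hS N0 hN0
    have hzl := (hz X T N0 (p N0) c (y N0) _ hT hXK hN1 hd0 φ j).1
    rw [cf_lin] at hzl
    have hfac : (u1 N0 : ℂ) * cf θ φ g j + (u2 N0 : ℂ) * cf θ φ g' j =
        (u1 N0 : ℂ) * (cf θ φ g j + ((w N0 : ℝ) : ℂ) * cf θ φ g' j) := by
      have h1 : (u1 N0 : ℂ) ≠ 0 := by exact_mod_cast hu0
      show _ = (u1 N0 : ℂ) * (cf θ φ g j + (((u2 N0 : ℝ) / u1 N0 : ℝ) : ℂ) * cf θ φ g' j)
      push_cast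
      field_simp
    rw [hfac, norm_mul, Complex.norm_intCast] at hzl
    set Q : ℝ := ‖cf θ φ g j + ((w N0 : ℝ) : ℂ) * cf θ φ g' j‖ with hQ
    have hQ0 : 0 ≤ Q := norm_nonneg _
    have hua : |(u1 N0 : ℝ)| * a ≤ (C + 1) * (X / T ^ 2) := by
      have h1 : (|(u1 N0 : ℝ)| * a) ^ 2 ≤ ((C + 1) * (X / T ^ 2)) ^ 2 := by
        rw [mul_pow, sq_abs, ha2, mul_pow]
        refine hu2.trans (mul_le_mul_of_nonneg_right ?_ (by positivity))
        nlinarith
      exact (pow_le_pow_iff_left₀ (by (clear * - hu0 ha; positivity)) (by (clear * - hX0 hT; positivity)) two_ne_zero).1 h1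
    have hXT : 0 < X / T ^ 2 := by positivity
    have hQa : a ≤ (C + 1) * K1 * Q := by
      have h1 : |(u1 N0 : ℝ)| * a ≤ (C + 1) * (K1 * (|(u1 N0 : ℝ)| * Q)) :=
        hua.trans (mul_le_mul_of_nonneg_left hzl (by (clear * -; positivity)))
      have h2 : |(u1 N0 : ℝ)| * a ≤ |(u1 N0 : ℝ)| * ((C + 1) * K1 * Q) := by
        refine h1.trans (le_of_eq ?_)
        ring
      exact le_of_mul_le_mul_left h2 (hu1 N0 hN0)
    calc |(u2 N : ℝ) / u1 N - w N0| * ‖cf θ φ g' j‖ ≤ δ * (B * a') :=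
          mul_le_mul hdist (hB φ g' j) (norm_nonneg _) hδ0.le
      _ = ρ * (a / (K1 * (C + 1))) := by rw [hδ]; field_simp
      _ ≤ ρ * Q := by
          refine mul_le_mul_of_nonneg_left ?_ hρ.le
          rw [div_le_iff₀ (by (clear * - hK1; positivity))]
          linarith only [hQa]

end Vale.Agent.P018.QB
end

section

/-! # P018, (B): from a relation between the functions `fv` to a polynomial in `(n, w)`.

Proof of `poly_of_relation`.  For a sign vector `s ∈ {±1}^4` one has `fv 1 w (s π) x = s^x fv 1 w π x`.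
The product `R = ∏_s ∑_x κ_x s^x fv 1 w π x` is, as a polynomial in `π`, invariant under all sign
changes, so it is a polynomial in the `π_j^2` and `w`; replace `π_j^2` by `c (n - α_j)/γ_j(w)` and
multiply by `(∏ γ_j)^k`: this is `H`, and `evB n w H = (∏ γ_j(w))^k ∏_s F_s`, for every point of the
model.  At a point with `∑ κ_x fv = 0` the factor `s = 1` vanishes.  At the generic point no factor
vanishes, because the family `s^x fv 1 w π x` is again independent. -/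

namespace Vale.Agent.P018.QB

open Polynomial NumberField Vale.Agent.P018.Q

section bideg

variable {R : Type*} [CommRing R]

theorem bn_mono {j m j' m' : ℕ} {P : R[X][X]} (h : BiDeg j m P) (h1 : j ≤ j') (h2 : m ≤ m') :
    BiDeg j' m' P := ⟨h.1.trans h1, fun i => (h.2 i).trans h2⟩

theorem bn_sum {ι : Type*} {j m : ℕ} (s : Finset ι) {P : ι → R[X][X]}
    (h : ∀ i ∈ s, BiDeg j m (P i)) : BiDeg j m (∑ i ∈ s, P i) := by
  refine ⟨natDegree_sum_le_of_forall_le _ _ fun i hi => (h i hi).1, fun i => ?_⟩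
  rw [finsetSum_coeff]
  exact natDegree_sum_le_of_forall_le _ _ fun k hk => (h k hk).2 i

theorem bn_mul {j m j' m' : ℕ} {P Q : R[X][X]} (h : BiDeg j m P) (h' : BiDeg j' m' Q) :
    BiDeg (j + j') (m + m') (P * Q) := by
  refine ⟨natDegree_mul_le.trans (add_le_add h.1 h'.1), fun i => ?_⟩
  rw [coeff_mul]
  exact natDegree_sum_le_of_forall_le _ _ fun k _ =>
    natDegree_mul_le.trans (add_le_add (h.2 _) (h'.2 _))

theorem bn_one : BiDeg 0 0 (1 : R[X][X]) := by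
  refine ⟨by simp, fun i => ?_⟩
  rw [coeff_one]
  split_ifs <;> simp

theorem bn_pow {j m : ℕ} {P : R[X][X]} (h : BiDeg j m P) (n : ℕ) :
    BiDeg (n * j) (n * m) (P ^ n) := by
  induction n with
  | zero => simpa using bn_one
  | succ n ih =>
    rw [pow_succ, Nat.succ_mul, Nat.succ_mul]
    exact bn_mul ih h

theorem bn_prod {ι : Type*} (s : Finset ι) {P : ι → R[X][X]} {j m : ι → ℕ}
    (h : ∀ i ∈ s, BiDeg (j i) (m i) (P i)) :
    BiDeg (∑ i ∈ s, j i) (∑ i ∈ s, m i) (∏ i ∈ s, P i) := by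
  classical
  induction s using Finset.induction_on with
  | empty => simpa using bn_one
  | insert a s ha ih =>
    rw [Finset.sum_insert ha, Finset.sum_insert ha, Finset.prod_insert ha]
    exact bn_mul (h a (Finset.mem_insert_self _ _))
      (ih fun i hi => h i (Finset.mem_insert_of_mem hi))

theorem bn_C {m : ℕ} {A : R[X]} (h : A.natDegree ≤ m) : BiDeg 0 m (C A) := by
  refine ⟨by simp, fun i => ?_⟩
  rw [coeff_C]
  split_ifs
  · exact h
  · simp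

theorem bn_lin (a b : R) : BiDeg 1 0 (C (C a) * (X - C (C b)) : R[X][X]) := by
  have h : (C (C a) * (X - C (C b)) : R[X][X]) = C (C a) * X + C (C (-(a * b))) := by
    simp only [C_neg, C_mul]
    ring
  rw [h]
  have hX : BiDeg 1 0 (X : R[X][X]) := by
    refine ⟨natDegree_X_le, fun i => ?_⟩
    rw [coeff_X]
    split_ifs <;> simp
  have h1 : BiDeg 1 0 (C (C a) * X : R[X][X]) := by
    have := bn_mul (bn_C (natDegree_C a).le) hX
    simpa using this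
  have h2 : BiDeg 1 0 (C (C (-(a * b))) : R[X][X]) :=
    bn_mono (bn_C (natDegree_C _).le) (Nat.zero_le _) le_rfl
  refine ⟨natDegree_add_le_of_degree_le h1.1 h2.1, fun i => ?_⟩
  rw [coeff_add]
  exact natDegree_add_le_of_degree_le (h1.2 i) (h2.2 i)

end bideg

section mv

/-- bounded total degree and bounded degree of the coefficients. -/
def BnBd (a b : ℕ) (P : MvPolynomial (Fin 4) ℂ[X]) : Prop :=
  P.totalDegree ≤ a ∧ ∀ m, (P.coeff m).natDegree ≤ b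

theorem BnBd.mono {a b a' b' : ℕ} {P : MvPolynomial (Fin 4) ℂ[X]} (h : BnBd a b P) (h1 : a ≤ a')
    (h2 : b ≤ b') : BnBd a' b' P := ⟨h.1.trans h1, fun i => (h.2 i).trans h2⟩

theorem BnBd.sum {ι : Type*} {a b : ℕ} (s : Finset ι) {P : ι → MvPolynomial (Fin 4) ℂ[X]}
    (h : ∀ i ∈ s, BnBd a b (P i)) : BnBd a b (∑ i ∈ s, P i) := by
  refine ⟨MvPolynomial.totalDegree_finsetSum_le fun i hi => (h i hi).1, fun m => ?_⟩
  rw [MvPolynomial.coeff_sum]
  exact natDegree_sum_le_of_forall_le _ _ fun k hk => (h k hk).2 m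

theorem BnBd.mul {a b a' b' : ℕ} {P Q : MvPolynomial (Fin 4) ℂ[X]} (h : BnBd a b P)
    (h' : BnBd a' b' Q) : BnBd (a + a') (b + b') (P * Q) := by
  refine ⟨(MvPolynomial.totalDegree_mul _ _).trans (add_le_add h.1 h'.1), fun m => ?_⟩
  rw [MvPolynomial.coeff_mul]
  exact natDegree_sum_le_of_forall_le _ _ fun k _ =>
    natDegree_mul_le.trans (add_le_add (h.2 _) (h'.2 _))

theorem BnBd.const {b : ℕ} {A : ℂ[X]} (h : A.natDegree ≤ b) : BnBd 0 b (MvPolynomial.C A) := by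
  refine ⟨by simp, fun m => ?_⟩
  rw [MvPolynomial.coeff_C]
  split_ifs
  · exact h
  · simp

theorem BnBd.one : BnBd 0 0 1 := by
  have := BnBd.const (A := (1 : ℂ[X])) (b := 0) (by simp)
  simpa using this

theorem BnBd.prod {ι : Type*} (s : Finset ι) {P : ι → MvPolynomial (Fin 4) ℂ[X]} {a b : ι → ℕ}
    (h : ∀ i ∈ s, BnBd (a i) (b i) (P i)) :
    BnBd (∑ i ∈ s, a i) (∑ i ∈ s, b i) (∏ i ∈ s, P i) := by
  classical
  induction s using Finset.induction_on with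
  | empty => simpa using BnBd.one
  | insert a s ha ih =>
    rw [Finset.sum_insert ha, Finset.sum_insert ha, Finset.prod_insert ha]
    exact (h a (Finset.mem_insert_self _ _)).mul
      (ih fun i hi => h i (Finset.mem_insert_of_mem hi))

theorem BnBd.pow {a b : ℕ} {P : MvPolynomial (Fin 4) ℂ[X]} (h : BnBd a b P) (n : ℕ) :
    BnBd (n * a) (n * b) (P ^ n) := by
  induction n with
  | zero => simpa using BnBd.one
  | succ n ih =>
    rw [pow_succ, Nat.succ_mul, Nat.succ_mul]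
    exact ih.mul h

theorem BnBd.X (j : Fin 4) : BnBd 1 0 (MvPolynomial.X j) := by
  refine ⟨(MvPolynomial.totalDegree_X j).le, fun m => ?_⟩
  rw [MvPolynomial.coeff_X]
  split_ifs <;> simp

theorem bn_mon {A : Type*} [CommRing A] (t : Fin 4 → A) (u : Fin 4 →₀ ℕ) (a : A) :
    MvPolynomial.aeval (fun j => (MvPolynomial.C (t j) * MvPolynomial.X j : MvPolynomial (Fin 4) A))
        (MvPolynomial.monomial u a) = MvPolynomial.C (∏ j, t j ^ u j) * MvPolynomial.monomial u a := by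
  have h2 : (MvPolynomial.monomial u a : MvPolynomial (Fin 4) A) =
      MvPolynomial.C a * ∏ j, MvPolynomial.X j ^ u j := by
    rw [MvPolynomial.monomial_eq, Finsupp.prod_fintype]
    intro i
    exact pow_zero _
  rw [h2, map_mul, map_prod, map_prod]
  have h3 : ∀ j, MvPolynomial.aeval
      (fun j => (MvPolynomial.C (t j) * MvPolynomial.X j : MvPolynomial (Fin 4) A))
      ((MvPolynomial.X j : MvPolynomial (Fin 4) A) ^ u j) =
      MvPolynomial.C (t j ^ u j) * MvPolynomial.X j ^ u j := by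
    intro j
    rw [map_pow, MvPolynomial.aeval_X, mul_pow, map_pow]
  have h4 : MvPolynomial.aeval
      (fun j => (MvPolynomial.C (t j) * MvPolynomial.X j : MvPolynomial (Fin 4) A))
      (MvPolynomial.C a : MvPolynomial (Fin 4) A) = MvPolynomial.C a := by
    rw [MvPolynomial.aeval_C]
    rfl
  rw [h4, Finset.prod_congr rfl fun j _ => h3 j, Finset.prod_mul_distrib]
  ring

/-- effect of a rescaling of the variables on the coefficients. -/
theorem bn_coeff {A : Type*} [CommRing A] (t : Fin 4 → A) (P : MvPolynomial (Fin 4) A)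
    (m : Fin 4 →₀ ℕ) :
    MvPolynomial.coeff m
      (MvPolynomial.aeval
        (fun j => (MvPolynomial.C (t j) * MvPolynomial.X j : MvPolynomial (Fin 4) A)) P) =
      (∏ j, t j ^ m j) * MvPolynomial.coeff m P := by
  induction P using MvPolynomial.induction_on' with
  | monomial u a =>
    rw [bn_mon, MvPolynomial.coeff_C_mul, MvPolynomial.coeff_monomial]
    split_ifs with h
    · rw [h]
    · simp
  | add p q hp hq =>
    rw [map_add, MvPolynomial.coeff_add, MvPolynomial.coeff_add, hp, hq]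
    ring

/-- the relation, twisted by a sign vector. -/
noncomputable def bnP (B : Finset Ix) (κ : Ix → ℂ) (s : Fin 4 → ℤˣ) :
    MvPolynomial (Fin 4) ℂ[X] :=
  ∑ x ∈ B, MvPolynomial.C (C (κ x) * X ^ x.1.2) *
    ∏ j, (MvPolynomial.C (((s j : ℤ) : ℂ[X])) * MvPolynomial.X j) ^ x.2 j

/-- a bound for the degrees. -/
def bnM (B : Finset Ix) : ℕ := ∑ x ∈ B, (x.1.2 + ∑ j, x.2 j)

theorem bnP_bd (B : Finset Ix) (κ : Ix → ℂ) (s : Fin 4 → ℤˣ) :
    BnBd (bnM B) (bnM B) (bnP B κ s) := by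
  refine BnBd.sum B fun x hx => ?_
  have hM : x.1.2 + ∑ j, x.2 j ≤ bnM B :=
    Finset.single_le_sum (f := fun x : Ix => x.1.2 + ∑ j, x.2 j) (fun _ _ => Nat.zero_le _) hx
  have h1 : BnBd 0 x.1.2 (MvPolynomial.C (C (κ x) * X ^ x.1.2) : MvPolynomial (Fin 4) ℂ[X]) :=
    BnBd.const (natDegree_C_mul_X_pow_le _ _)
  have h2 : BnBd (∑ j, x.2 j * 1) (∑ j, x.2 j * 0)
      (∏ j, (MvPolynomial.C (((s j : ℤ) : ℂ[X])) * MvPolynomial.X j) ^ x.2 j) := by
    refine BnBd.prod _ fun j _ => ?_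
    refine BnBd.pow ?_ _
    have h3 : BnBd 0 0 (MvPolynomial.C (((s j : ℤ) : ℂ[X]))) :=
      BnBd.const (natDegree_intCast _).le
    simpa using h3.mul (BnBd.X j)
  refine (h1.mul h2).mono ?_ ?_
  · simp only [mul_one, zero_add]
    omega
  · simp only [mul_zero, Finset.sum_const_zero, add_zero]
    omega

/-- the norm. -/
noncomputable def bnR (B : Finset Ix) (κ : Ix → ℂ) : MvPolynomial (Fin 4) ℂ[X] :=
  ∏ s : Fin 4 → ℤˣ, bnP B κ s

/-- a bound for the degrees of the norm. -/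
def bnK (B : Finset Ix) : ℕ := Fintype.card (Fin 4 → ℤˣ) * bnM B

theorem bnR_bd (B : Finset Ix) (κ : Ix → ℂ) : BnBd (bnK B) (bnK B) (bnR B κ) := by
  have h := BnBd.prod (Finset.univ : Finset (Fin 4 → ℤˣ)) (P := bnP B κ)
    (a := fun _ => bnM B) (b := fun _ => bnM B) (fun s _ => bnP_bd B κ s)
  rw [Finset.sum_const, smul_eq_mul, Finset.card_univ] at h
  exact h

theorem bnP_aux {A ι : Type*} [CommRing A] (B : Finset ι) (c : ι → A) (e : ι → Fin 4 → ℕ)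
    (s t : Fin 4 → A) :
    MvPolynomial.aeval
      (fun j => (MvPolynomial.C (t j) * MvPolynomial.X j : MvPolynomial (Fin 4) A))
      (∑ x ∈ B, MvPolynomial.C (c x) *
        ∏ j, (MvPolynomial.C (s j) * MvPolynomial.X j) ^ e x j) =
      ∑ x ∈ B, MvPolynomial.C (c x) *
        ∏ j, (MvPolynomial.C (s j * t j) * MvPolynomial.X j) ^ e x j := by
  rw [map_sum]
  refine Finset.sum_congr rfl fun x _ => ?_
  rw [map_mul, map_prod]
  have h4 : ∀ a : A, MvPolynomial.aeval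
      (fun j => (MvPolynomial.C (t j) * MvPolynomial.X j : MvPolynomial (Fin 4) A))
      (MvPolynomial.C a : MvPolynomial (Fin 4) A) = MvPolynomial.C a := by
    intro a
    rw [MvPolynomial.aeval_C]
    rfl
  rw [h4]
  congr 1
  refine Finset.prod_congr rfl fun j _ => ?_
  rw [map_pow, map_mul, MvPolynomial.aeval_X, h4, ← mul_assoc, MvPolynomial.C_mul]

theorem bnP_cast (s t : Fin 4 → ℤˣ) (j : Fin 4) :
    (((s * t) j : ℤ) : ℂ[X]) = ((s j : ℤ) : ℂ[X]) * ((t j : ℤ) : ℂ[X]) := by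
  rw [Pi.mul_apply, Units.val_mul, Int.cast_mul]

theorem bnP_aeval (B : Finset Ix) (κ : Ix → ℂ) (s t : Fin 4 → ℤˣ) :
    MvPolynomial.aeval
      (fun j => (MvPolynomial.C (((t j : ℤ) : ℂ[X])) * MvPolynomial.X j :
        MvPolynomial (Fin 4) ℂ[X]))
      (bnP B κ s) = bnP B κ (s * t) := by
  refine (bnP_aux B (fun x => C (κ x) * X ^ x.1.2) (fun x => x.2)
    (fun j => ((s j : ℤ) : ℂ[X])) (fun j => ((t j : ℤ) : ℂ[X]))).trans ?_
  refine Finset.sum_congr rfl fun x _ => ?_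
  refine congrArg (fun z => MvPolynomial.C (C (κ x) * X ^ x.1.2) * z) ?_
  refine Finset.prod_congr rfl fun j _ => ?_
  refine congrArg (fun z => (MvPolynomial.C z * MvPolynomial.X j) ^ x.2 j) ?_
  exact (bnP_cast s t j).symm

theorem bnR_aeval (B : Finset Ix) (κ : Ix → ℂ) (t : Fin 4 → ℤˣ) :
    MvPolynomial.aeval
      (fun j => (MvPolynomial.C (((t j : ℤ) : ℂ[X])) * MvPolynomial.X j :
        MvPolynomial (Fin 4) ℂ[X]))
      (bnR B κ) = bnR B κ := by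
  unfold bnR
  rw [map_prod]
  simp_rw [bnP_aeval]
  exact Fintype.prod_equiv (Equiv.mulRight t) _ _ fun s => rfl

theorem bnR_even (B : Finset Ix) (κ : Ix → ℂ) (m : Fin 4 →₀ ℕ) (hm : m ∈ (bnR B κ).support)
    (j : Fin 4) : Even (m j) := by
  by_contra hodd
  rw [Nat.not_even_iff_odd] at hodd
  let t : Fin 4 → ℤˣ := Function.update 1 j (-1)
  have h1 := bn_coeff (fun j => (((t j : ℤ) : ℂ[X]))) (bnR B κ) m
  rw [bnR_aeval] at h1
  have h2 : ∏ i, (((t i : ℤ) : ℂ[X])) ^ m i = -1 := by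
    rw [Finset.prod_eq_single j]
    · simp [t, hodd.neg_one_pow]
    · intro i _ hij
      simp [t, hij]
    · intro h
      exact absurd (Finset.mem_univ j) h
  rw [h2] at h1
  have h3 : (2 : ℂ[X]) * MvPolynomial.coeff m (bnR B κ) = 0 := by linear_combination h1
  have h4 := (mul_eq_zero.1 h3).resolve_left two_ne_zero
  exact (MvPolynomial.mem_support_iff.1 hm) h4

/-- the polynomial in `(n, w)`. -/
noncomputable def bnH (α g1 g2 : Fin 4 → ℂ) (c : ℂ) (k : ℕ) (R : MvPolynomial (Fin 4) ℂ[X]) :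
    ℂ[X][X] :=
  ∑ m ∈ R.support, C (R.coeff m) * ∏ j, (C (C (g1 j) + X * C (g2 j)) ^ (k - m j / 2) *
    (C (C c) * (X - C (C (α j)))) ^ (m j / 2))

theorem bnH_bd (α g1 g2 : Fin 4 → ℂ) (c : ℂ) (k : ℕ) (R : MvPolynomial (Fin 4) ℂ[X])
    (hR : BnBd k k R) : BiDeg (5 * k) (5 * k) (bnH α g1 g2 c k R) := by
  refine bn_sum _ fun m hm => ?_
  have hdeg : ∑ j, m j ≤ k := by
    have := (MvPolynomial.le_totalDegree hm).trans hR.1
    rwa [Finsupp.sum_fintype _ _ (fun _ => rfl)] at this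
  have h1 : BiDeg 0 k (C (R.coeff m)) := bn_C (hR.2 m)
  have h2 := bn_prod (Finset.univ : Finset (Fin 4))
    (P := fun j => (C (C (g1 j) + X * C (g2 j)) ^ (k - m j / 2) *
      (C (C c) * (X - C (C (α j)))) ^ (m j / 2) : ℂ[X][X]))
    (j := fun j => (k - m j / 2) * 0 + m j / 2 * 1)
    (m := fun j => (k - m j / 2) * 1 + m j / 2 * 0) (fun j _ => by
      refine bn_mul (bn_pow (bn_C ?_) _) (bn_pow (bn_lin _ _) _)
      refine natDegree_add_le_of_degree_le (by simp) ?_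
      refine natDegree_mul_le.trans ?_
      simp)
  refine bn_mono (bn_mul h1 h2) ?_ ?_
  · have : ∑ j, ((k - m j / 2) * 0 + m j / 2 * 1) ≤ ∑ j, m j :=
      Finset.sum_le_sum fun j _ => by omega
    omega
  · have : ∑ j, ((k - m j / 2) * 1 + m j / 2 * 0) ≤ ∑ _j : Fin 4, k :=
      Finset.sum_le_sum fun j _ => by omega
    rw [Finset.sum_const, Finset.card_univ, Fintype.card_fin, smul_eq_mul] at this
    omega

theorem bnH_ev (α g1 g2 : Fin 4 → ℂ) (c : ℂ) (k : ℕ) (R : MvPolynomial (Fin 4) ℂ[X])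
    (hR : BnBd k k R) (hev : ∀ m ∈ R.support, ∀ j, Even (m j)) (Ω : Type) [Field Ω]
    [Algebra ℂ Ω] (n w : Ω) (pi : Fin 4 → Ω) (hM : Mdl α g1 g2 c Ω n w pi) :
    evB n w (bnH α g1 g2 c k R) =
      (∏ j, (algebraMap ℂ Ω (g1 j) + w * algebraMap ℂ Ω (g2 j)) ^ k) *
        MvPolynomial.eval₂ (aeval w : ℂ[X] →ₐ[ℂ] Ω).toRingHom pi R := by
  have hring : ∀ F : ℂ[X][X], evB n w F =
      eval₂RingHom (aeval w : ℂ[X] →ₐ[ℂ] Ω).toRingHom n F := fun F => rfl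
  have hC : ∀ a : ℂ[X], eval₂RingHom (aeval w : ℂ[X] →ₐ[ℂ] Ω).toRingHom n (C a) = aeval w a := by
    intro a
    simp
  rw [hring, bnH, map_sum, MvPolynomial.eval₂_eq', Finset.mul_sum]
  refine Finset.sum_congr rfl fun m hm => ?_
  have hdeg : ∑ j, m j ≤ k := by
    have := (MvPolynomial.le_totalDegree hm).trans hR.1
    rwa [Finsupp.sum_fintype _ _ (fun _ => rfl)] at this
  rw [map_mul, hC, map_prod]
  have hfac : ∀ j, eval₂RingHom (aeval w : ℂ[X] →ₐ[ℂ] Ω).toRingHom n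
      (C (C (g1 j) + X * C (g2 j)) ^ (k - m j / 2) *
        (C (C c) * (X - C (C (α j)))) ^ (m j / 2)) =
      (algebraMap ℂ Ω (g1 j) + w * algebraMap ℂ Ω (g2 j)) ^ k * pi j ^ m j := by
    intro j
    have hjk : m j ≤ k := (Finset.single_le_sum (f := fun j => m j) (fun _ _ => Nat.zero_le _)
      (Finset.mem_univ j)).trans hdeg
    obtain ⟨f, hf⟩ := hev m hm j
    have hf2 : m j / 2 = f := by omega
    have hf3 : m j = 2 * f := by omega
    have h1 : eval₂RingHom (aeval w : ℂ[X] →ₐ[ℂ] Ω).toRingHom n (C (C (g1 j) + X * C (g2 j))) =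
        algebraMap ℂ Ω (g1 j) + w * algebraMap ℂ Ω (g2 j) := by
      rw [hC]
      simp only [map_add, map_mul, aeval_C, aeval_X]
    have h2 : eval₂RingHom (aeval w : ℂ[X] →ₐ[ℂ] Ω).toRingHom n
        (C (C c) * (X - C (C (α j)))) =
        algebraMap ℂ Ω c * (n - algebraMap ℂ Ω (α j)) := by
      rw [map_mul, map_sub, hC, hC]
      simp
    rw [map_mul, map_pow, map_pow, h1, h2, ← hM.eq j, hf2, mul_pow]
    have hk : k = (k - f) + f := by omega
    rw [show pi j ^ m j = (pi j ^ 2) ^ f by rw [hf3, pow_mul]]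
    calc (algebraMap ℂ Ω (g1 j) + w * algebraMap ℂ Ω (g2 j)) ^ (k - f) *
          ((pi j ^ 2) ^ f * (algebraMap ℂ Ω (g1 j) + w * algebraMap ℂ Ω (g2 j)) ^ f)
        = (algebraMap ℂ Ω (g1 j) + w * algebraMap ℂ Ω (g2 j)) ^ ((k - f) + f) * (pi j ^ 2) ^ f := by
          rw [pow_add]; ring
      _ = _ := by rw [← hk]
  rw [Finset.prod_congr rfl fun j _ => hfac j, Finset.prod_mul_distrib]
  show aeval w (R.coeff m) * _ = _ * (aeval w (R.coeff m) * _)
  ring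

theorem bnP_ev (B : Finset Ix) (κ : Ix → ℂ) (s : Fin 4 → ℤˣ) (Ω : Type) [Field Ω]
    [Algebra ℂ Ω] (w : Ω) (pi : Fin 4 → Ω) :
    MvPolynomial.eval₂ (aeval w : ℂ[X] →ₐ[ℂ] Ω).toRingHom pi (bnP B κ s) =
      ∑ x ∈ B, (κ x * ∏ j, ((s j : ℤ) : ℂ) ^ x.2 j) • fv 1 w pi x := by
  unfold bnP
  rw [← MvPolynomial.coe_eval₂Hom, map_sum]
  refine Finset.sum_congr rfl fun x _ => ?_
  rw [map_mul, map_prod, MvPolynomial.coe_eval₂Hom, MvPolynomial.eval₂_C, Algebra.smul_def]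
  have h1 : (aeval w : ℂ[X] →ₐ[ℂ] Ω).toRingHom (C (κ x) * X ^ x.1.2) =
      algebraMap ℂ Ω (κ x) * w ^ x.1.2 := by
    show aeval w (C (κ x) * X ^ x.1.2) = _
    simp
  have h2 : ∀ j, MvPolynomial.eval₂ (aeval w : ℂ[X] →ₐ[ℂ] Ω).toRingHom pi
      ((MvPolynomial.C (((s j : ℤ) : ℂ[X])) * MvPolynomial.X j) ^ x.2 j) =
      algebraMap ℂ Ω (((s j : ℤ) : ℂ) ^ x.2 j) * pi j ^ x.2 j := by
    intro j
    rw [← MvPolynomial.coe_eval₂Hom, map_pow, map_mul, MvPolynomial.coe_eval₂Hom,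
      MvPolynomial.eval₂_C, MvPolynomial.eval₂_X, mul_pow]
    have : (aeval w : ℂ[X] →ₐ[ℂ] Ω).toRingHom (((s j : ℤ) : ℂ[X])) =
        algebraMap ℂ Ω ((s j : ℤ) : ℂ) := by
      rw [map_intCast, map_intCast]
    rw [this, map_pow]
  rw [h1, Finset.prod_congr rfl fun j _ => h2 j, Finset.prod_mul_distrib, map_mul, map_prod]
  unfold fv
  rw [one_pow, one_mul]
  ring

end mv

theorem poly_of_relation (B : Finset Ix) :
    ∃ D : ℕ, ∀ (α g1 g2 : Fin 4 → ℂ) (c : ℂ), Lat α g1 g2 c → ∀ κ : Ix → ℂ,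
      (∃ x ∈ B, κ x ≠ 0) →
      ∃ H : ℂ[X][X], BiDeg D D H ∧
        (∀ (n w : ℂ) (pi : Fin 4 → ℂ), Mdl α g1 g2 c ℂ n w pi →
          ∑ x ∈ B, κ x * fv 1 w pi x = 0 → evB n w H = 0) ∧
        (∀ (Ω : Type) [Field Ω] [Algebra ℂ Ω] (n w : Ω) (pi : Fin 4 → Ω),
          Mdl α g1 g2 c Ω n w pi → (LinearIndependent ℂ fun x : B => fv 1 w pi (x : Ix)) →
          evB n w H ≠ 0) := by
  refine ⟨5 * bnK B, fun α g1 g2 c _ κ hκ => ⟨bnH α g1 g2 c (bnK B) (bnR B κ),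
    bnH_bd _ _ _ _ _ _ (bnR_bd B κ), ?_, ?_⟩⟩
  · intro n w pi hM hrel
    rw [bnH_ev α g1 g2 c _ _ (bnR_bd B κ) (fun m hm j => bnR_even B κ m hm j) ℂ n w pi hM]
    have h0 : MvPolynomial.eval₂ (aeval w : ℂ[X] →ₐ[ℂ] ℂ).toRingHom pi (bnR B κ) = 0 := by
      unfold bnR
      rw [← MvPolynomial.coe_eval₂Hom, map_prod]
      refine Finset.prod_eq_zero (Finset.mem_univ 1) ?_
      rw [MvPolynomial.coe_eval₂Hom, bnP_ev, ← hrel]
      refine Finset.sum_congr rfl fun x _ => ?_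
      simp
    rw [h0, mul_zero]
  · intro Ω _ _ n w pi hM hind
    rw [bnH_ev α g1 g2 c _ _ (bnR_bd B κ) (fun m hm j => bnR_even B κ m hm j) Ω n w pi hM]
    refine mul_ne_zero (Finset.prod_ne_zero_iff.2 fun j _ => pow_ne_zero _ (hM.ne j)) ?_
    unfold bnR
    rw [← MvPolynomial.coe_eval₂Hom, map_prod]
    refine Finset.prod_ne_zero_iff.2 fun s _ => ?_
    rw [MvPolynomial.coe_eval₂Hom, bnP_ev]
    intro h0
    obtain ⟨x0, hx0, hκ0⟩ := hκ
    rw [← Finset.sum_coe_sort B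
      (fun x => (κ x * ∏ j, ((s j : ℤ) : ℂ) ^ x.2 j) • fv 1 w pi x)] at h0
    have h1 := Fintype.linearIndependent_iff.1 hind
      (fun x : B => κ x * ∏ j, ((s j : ℤ) : ℂ) ^ (x : Ix).2 j) h0 ⟨x0, hx0⟩
    have h2 : (∏ j, ((s j : ℤ) : ℂ) ^ x0.2 j) ≠ 0 :=
      Finset.prod_ne_zero_iff.2 fun j _ => pow_ne_zero _ (by
        rcases Int.units_eq_one_or (s j) with h | h <;> rw [h] <;> simp)
    exact (mul_ne_zero hκ0 h2) h1

/-- homogeneity. -/
theorem fv_scale (W : ℤ) (B : Finset Ix)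
    (hW : ∀ x ∈ B, 2 * ((x.1.1 : ℤ) + x.1.2) - ∑ j, (x.2 j : ℤ) = W) (κ : Ix → ℂ)
    (u1 u2 r : ℂ) (hu : u1 ≠ 0) (hr : r ^ 2 = u1) (pi : Fin 4 → ℂ) :
    ∑ x ∈ B, κ x * fv 1 (u2 / u1) (fun k => r * pi k) x =
      r ^ (-W) * ∑ x ∈ B, κ x * fv u1 u2 pi x := by
  have hr0 : r ≠ 0 := by
    intro h
    rw [h] at hr
    exact hu (by rw [← hr]; ring)
  rw [Finset.mul_sum]
  refine Finset.sum_congr rfl fun x hx => ?_
  have hWx := hW x hx
  unfold fv
  rw [one_pow, one_mul, div_pow]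
  simp_rw [mul_pow]
  rw [Finset.prod_mul_distrib, Finset.prod_pow_eq_pow_sum]
  have hs : (∑ j, (x.2 j : ℤ)) = ((∑ j, x.2 j : ℕ) : ℤ) := by push_cast; rfl
  rw [hs] at hWx
  have key : r ^ (∑ j, x.2 j) = r ^ (-W) * u1 ^ x.1.1 * u1 ^ x.1.2 := by
    rw [← hr, ← pow_mul, ← pow_mul, ← zpow_natCast, ← zpow_natCast, ← zpow_natCast,
      ← zpow_add₀ hr0, ← zpow_add₀ hr0]
    congr 1
    push_cast at hWx ⊢
    linarith
  rw [key]
  have hu2 : u1 ^ x.1.2 ≠ 0 := pow_ne_zero _ hu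
  field_simp

/-- the dehomogenised point of a solution. -/
theorem mdl_of_data (α g1 g2 : Fin 4 → ℂ) (c : ℂ) (n u1 u2 r : ℂ) (pi : Fin 4 → ℂ) (hu : u1 ≠ 0)
    (hr : r ^ 2 = u1) (h1 : ∀ j, u1 * g1 j + u2 * g2 j ≠ 0)
    (h2 : ∀ j, pi j ^ 2 * (u1 * g1 j + u2 * g2 j) = c * (n - α j)) :
    Mdl α g1 g2 c ℂ n (u2 / u1) (fun k => r * pi k) := by
  refine ⟨fun j => ?_, fun j => ?_⟩
  · intro h
    apply h1 j
    simp only [Algebra.algebraMap_self, RingHom.id_apply] at h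
    have : u1 * g1 j + u2 * g2 j = u1 * (g1 j + u2 / u1 * g2 j) := by field_simp
    rw [this, h, mul_zero]
  · simp only [Algebra.algebraMap_self, RingHom.id_apply]
    rw [← h2 j, mul_pow, hr]
    field_simp

end Vale.Agent.P018.QB
end

section

/-! # P018, (B), curve step: boundedly many solutions in one class. -/

namespace Vale.Agent.P018.QB

open Polynomial NumberField Vale.Agent.P018.Q

/-- an independent set of monomials with as many elements as the rank. -/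
theorem exists_basis_finset {Ω : Type} [Field Ω] [Algebra ℂ Ω] (w : Ω) (pi : Fin 4 → Ω)
    (M : Finset Ix) :
    ∃ B ⊆ M, B.card = Module.finrank ℂ (spn w pi (M : Set Ix)) ∧
      LinearIndependent ℂ (fun x : B => fv 1 w pi (x : Ix)) := by
  classical
  have hfin : ((fun x => fv 1 w pi x) '' (M : Set Ix)).Finite := M.finite_toSet.image _
  have : Module.Finite ℂ (Submodule.span ℂ ((fun x => fv 1 w pi x) '' (M : Set Ix))) :=
    Module.Finite.span_of_finite ℂ hfin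
  obtain ⟨f, hf, -, hli⟩ := Submodule.exists_fun_fin_finrank_span_eq ℂ
    ((fun x => fv 1 w pi x) '' (M : Set Ix))
  choose x hx hxf using hf
  simp only at hxf
  have hinj : Function.Injective x := by
    intro a b hab
    exact hli.injective (by rw [← hxf a, ← hxf b, hab])
  refine ⟨Finset.univ.image x, ?_, ?_, ?_⟩
  · intro z hz
    obtain ⟨k, -, rfl⟩ := Finset.mem_image.mp hz
    exact hx k
  · rw [Finset.card_image_of_injective _ hinj, Finset.card_univ, Fintype.card_fin]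
    rfl
  · let e : Fin (Module.finrank ℂ (Submodule.span ℂ ((fun x => fv 1 w pi x) '' (M : Set Ix)))) ≃
        (Finset.univ.image x : Finset Ix) :=
      Equiv.ofBijective (fun k => ⟨x k, Finset.mem_image_of_mem _ (Finset.mem_univ k)⟩)
        ⟨fun a b hab => hinj (congrArg Subtype.val hab), fun z => by
          obtain ⟨k, -, hk⟩ := Finset.mem_image.mp z.2
          exact ⟨k, Subtype.ext hk⟩⟩
    rw [← linearIndependent_equiv e]
    have : (fun z : (Finset.univ.image x : Finset Ix) => fv 1 w pi (z : Ix)) ∘ e = f := by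
      funext k
      exact hxf k
    rw [this]
    exact hli

theorem fv_pi {S : Finset ℤ} (U1 U2 : S → ℂ) (Y : Fin 4 → S → ℂ) (x : Ix) (N : S) :
    fv U1 U2 Y x N = fv (U1 N) (U2 N) (fun j => Y j N) x := by
  simp [fv, Finset.prod_apply]

/-- many solutions on a curve: the rank of the functions on the set of solutions is at least the
rank on the curve. -/
theorem rank_restrict (D : ℕ) (W : ℤ) (M : Finset Ix)
    (hW : ∀ x ∈ M, 2 * ((x.1.1 : ℤ) + x.1.2) - ∑ j, (x.2 j : ℤ) = W) :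
    ∃ K : ℕ, ∀ (α g1 g2 : Fin 4 → ℂ) (c : ℂ), Lat α g1 g2 c → ∀ Φ : ℂ[X][X], Irreducible Φ →
      BiDeg D D Φ → ∀ (Ω : Type) [Field Ω] [Algebra ℂ Ω] (n w : Ω) (pi : Fin 4 → Ω),
      Mdl α g1 g2 c Ω n w pi → (∀ F, evB n w F = 0 ↔ Φ ∣ F) →
      ∀ (S : Finset ℤ) (u1 u2 : ℤ → ℂ) (pv : Fin 4 → ℤ → ℂ),
      (∀ N ∈ S, u1 N ≠ 0 ∧ (∀ j, u1 N * g1 j + u2 N * g2 j ≠ 0) ∧
        (∀ j, pv j N ^ 2 * (u1 N * g1 j + u2 N * g2 j) = c * (N - α j)) ∧
        evB (N : ℂ) (u2 N / u1 N) Φ = 0) → K < S.card →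
      Module.finrank ℂ (spn w pi (M : Set Ix)) ≤
        Module.finrank ℂ (spA (A := S → ℂ) (fun N => u1 N) (fun N => u2 N)
          (fun j N => pv j N) (M : Set Ix)) := by
  classical
  choose DB hDB using poly_of_relation
  choose CB hCB using bezC
  refine ⟨∑ B ∈ M.powerset, CB (max D (DB B)), ?_⟩
  intro α g1 g2 c hL Φ hirr hbd Ω _ _ n w pi hM hΦ S u1 u2 pv hS hK
  obtain ⟨B, hBM, hcard, hli⟩ := exists_basis_finset w pi M
  have key : LinearIndependent ℂ (fun x : B => (fv (fun N : S => u1 N) (fun N : S => u2 N)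
      (fun j (N : S) => pv j N) (x : Ix) : S → ℂ)) := by
    rw [Fintype.linearIndependent_iff]
    intro g hg
    by_contra hne
    push Not at hne
    obtain ⟨i0, hi0⟩ := hne
    set κ : Ix → ℂ := fun x => if h : x ∈ B then g ⟨x, h⟩ else 0 with hκ
    have hκ0 : ∃ x ∈ B, κ x ≠ 0 := ⟨i0, i0.2, by simp [hκ, hi0]⟩
    obtain ⟨H, hH1, hH2, hH3⟩ := hDB B α g1 g2 c hL κ hκ0
    have hnd : ¬ Φ ∣ H := by
      rw [← hΦ H]
      exact hH3 Ω n w pi hM hli
    have hz : ∀ N ∈ S, evB (N : ℂ) (u2 N / u1 N) H = 0 := by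
      intro N hN
      obtain ⟨h1, h2, h3, -⟩ := hS N hN
      obtain ⟨r, hr⟩ := IsAlgClosed.exists_pow_nat_eq (u1 N) (n := 2) (by norm_num)
      refine hH2 _ _ _ (mdl_of_data α g1 g2 c N (u1 N) (u2 N) r (fun j => pv j N) h1 hr h2 h3) ?_
      rw [fv_scale W B (fun x hx => hW x (hBM hx)) κ (u1 N) (u2 N) r h1 hr]
      have h4 := congrFun hg ⟨N, hN⟩
      rw [Finset.sum_apply, Pi.zero_apply] at h4
      have h5 : ∑ x ∈ B, κ x * fv (u1 N) (u2 N) (fun j => pv j N) x = 0 := by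
        rw [← h4, ← Finset.sum_coe_sort B]
        refine Finset.sum_congr rfl fun x _ => ?_
        rw [Pi.smul_apply, fv_pi, smul_eq_mul]
        simp [hκ]
      rw [h5, mul_zero]
    have h6 := hCB (max D (DB B)) Φ H hirr hnd
      ⟨hbd.1.trans (le_max_left _ _), fun i => (hbd.2 i).trans (le_max_left _ _)⟩
      ⟨hH1.1.trans (le_max_right _ _), fun i => (hH1.2 i).trans (le_max_right _ _)⟩
      (S.image fun N : ℤ => ((N : ℂ), u2 N / u1 N)) (by
        intro z hz'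
        obtain ⟨N, hN, rfl⟩ := Finset.mem_image.mp hz'
        exact ⟨(hS N hN).2.2.2, hz N hN⟩)
    rw [Finset.card_image_of_injective _ (fun a b hab => by
      have h8 : (a : ℂ) = (b : ℂ) := congrArg Prod.fst hab
      exact_mod_cast h8)] at h6
    have h7 : CB (max D (DB B)) ≤ ∑ B ∈ M.powerset, CB (max D (DB B)) :=
      Finset.single_le_sum (f := fun B => CB (max D (DB B))) (fun _ _ => Nat.zero_le _)
        (Finset.mem_powerset.mpr hBM)
    omega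
  have h1 := finrank_span_eq_card key
  rw [Fintype.card_coe, hcard] at h1
  rw [← h1]
  refine Submodule.finrank_mono (Submodule.span_mono ?_)
  rintro _ ⟨x, rfl⟩
  exact ⟨x, hBM x.2, rfl⟩

/-- the functions of a class are congruent to polynomials in the parameter. -/
theorem fv_class (m u1 u2 x lam r0 : ℤ) (i t : ℕ) (y : Fin 4 → ℤ) (Y : Fin 4 → ℤ[X]) (z : Ix)
    (hz : z ∈ mons (i + t) (2 * t)) (hx : m ∣ u1 * x - u2) (hlam : m ∣ lam ^ 2 * u1 - r0)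
    (hy : ∀ j, m ∣ y j - lam * (Y j).eval x) :
    m ∣ lam ^ (2 * i) * fv u1 u2 y z -
      (C (r0 ^ (i + t)) * X ^ z.1.2 * ∏ j, Y j ^ z.2 j : ℤ[X]).eval x := by
  obtain ⟨h1, h2⟩ := mem_mons.mp (Finset.mem_coe.mpr hz)
  have hx' : u2 ≡ u1 * x [ZMOD m] := (Int.modEq_iff_dvd).mpr hx
  have hlam' : r0 ≡ lam ^ 2 * u1 [ZMOD m] := (Int.modEq_iff_dvd).mpr hlam
  have hy' : ∀ j, lam * (Y j).eval x ≡ y j [ZMOD m] := fun j => (Int.modEq_iff_dvd).mpr (hy j)
  rw [← Int.modEq_iff_dvd]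
  simp only [eval_mul, eval_C, eval_pow, eval_X, eval_prod]
  have e1 : fv u1 u2 y z ≡ u1 ^ z.1.1 * (u1 * x) ^ z.1.2 * ∏ j, (lam * (Y j).eval x) ^ z.2 j
      [ZMOD m] := by
    unfold fv
    refine Int.ModEq.mul (Int.ModEq.mul_left _ (hx'.pow _)) ?_
    refine Int.ModEq.prod fun j _ => ?_
    exact ((hy' j).symm).pow _
  have e2 : lam ^ (2 * i) * (u1 ^ z.1.1 * (u1 * x) ^ z.1.2 *
      ∏ j, (lam * (Y j).eval x) ^ z.2 j) =
      (lam ^ 2 * u1) ^ (i + t) * x ^ z.1.2 * ∏ j, (Y j).eval x ^ z.2 j := by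
    have e3 : ∏ j, (lam * (Y j).eval x) ^ z.2 j = lam ^ (2 * t) * ∏ j, (Y j).eval x ^ z.2 j := by
      rw [← h2, ← Finset.prod_pow_eq_pow_sum, ← Finset.prod_mul_distrib]
      exact Finset.prod_congr rfl fun j _ => mul_pow _ _ _
    rw [e3, mul_pow u1 x, ← h1, mul_pow (lam ^ 2) u1]
    have e4 : i + t = z.1.1 + z.1.2 := h1.symm
    have e5 : lam ^ (2 * i) * lam ^ (2 * t) = (lam ^ 2) ^ (z.1.1 + z.1.2) := by
      rw [← pow_add, ← mul_add, e4, pow_mul]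
    calc lam ^ (2 * i) * (u1 ^ z.1.1 * (u1 ^ z.1.2 * x ^ z.1.2) *
          (lam ^ (2 * t) * ∏ j, (Y j).eval x ^ z.2 j)) =
          (lam ^ (2 * i) * lam ^ (2 * t)) * (u1 ^ z.1.1 * u1 ^ z.1.2) * x ^ z.1.2 *
          ∏ j, (Y j).eval x ^ z.2 j := by ring
      _ = _ := by rw [e5, ← pow_add]
  have e6 := (e1.mul_left (lam ^ (2 * i)))
  rw [e2] at e6
  refine Int.ModEq.trans ?_ e6.symm
  exact Int.ModEq.mul_right _ (Int.ModEq.mul_right _ (hlam'.pow _))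

theorem fv_bound {U T' : ℝ} (hU : 0 ≤ U) (u1 u2 : ℤ) (y : Fin 4 → ℤ)
    (h1 : |(u1 : ℝ)| ≤ U) (h2 : |(u2 : ℝ)| ≤ U) (hy : ∀ j, |(y j : ℝ)| ≤ T') (i l : ℕ) (z : Ix)
    (hz : z ∈ mons i l) : |((fv u1 u2 y z : ℤ) : ℝ)| ≤ U ^ i * T' ^ l := by
  obtain ⟨h3, h4⟩ := mem_mons.mp (Finset.mem_coe.mpr hz)
  unfold fv
  push_cast
  rw [abs_mul, abs_mul, abs_pow, abs_pow, Finset.abs_prod, ← h3, ← h4, pow_add,
    ← Finset.prod_pow_eq_pow_sum]
  refine mul_le_mul (mul_le_mul (pow_le_pow_left₀ (abs_nonneg _) h1 _)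
    (pow_le_pow_left₀ (abs_nonneg _) h2 _) (by positivity) (by positivity))
    (Finset.prod_le_prod (fun j _ => abs_nonneg _) fun j _ => ?_)
    (Finset.prod_nonneg fun j _ => abs_nonneg _) (by positivity)
  rw [abs_pow]
  exact pow_le_pow_left₀ (abs_nonneg _) (hy j) _

theorem cf_psi {L : Type} [Field L] [NumberField L] (θ : Fin 4 → 𝓞 L) (φ : L →+* ℂ)
    (y : Fin 4 → ℤ) (j : Fin 4) :
    cf θ φ y j = (φ.comp (algebraMap (𝓞 L) L)) (el (θ j) y) := rfl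

theorem bc_cf_eq {L : Type} [Field L] [NumberField L] (θ : Fin 4 → 𝓞 L) (φ : L →+* ℂ)
    (y : Fin 4 → ℤ) (j : Fin 4) :
    cf θ φ y j = ∑ k : Fin 4, (φ (θ j)) ^ (k : ℕ) * (y k : ℂ) := by
  rw [cf_psi, el_map]
  simp only [el, K.ell]
  refine Finset.sum_congr rfl fun k _ => ?_
  rw [mul_comm]
  rfl

theorem cf_point {L : Type} [Field L] [NumberField L] (θ : Fin 4 → 𝓞 L) (φ : L →+* ℂ)
    (c N u1 u2 : ℤ) (g1 g2 y : Fin 4 → ℤ) (j : Fin 4)
    (h : (c : 𝓞 L) * ((N : 𝓞 L) - θ j) =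
      el (θ j) y ^ 2 * el (θ j) (fun m => u1 * g1 m + u2 * g2 m)) :
    cf θ φ y j ^ 2 * ((u1 : ℂ) * cf θ φ g1 j + (u2 : ℂ) * cf θ φ g2 j) =
      (c : ℂ) * ((N : ℂ) - φ (θ j)) := by
  rw [bc_el_comb] at h
  have h1 := congrArg (φ.comp (algebraMap (𝓞 L) L)) h
  rw [map_mul, map_sub, map_mul, map_pow, map_add, map_mul, map_mul, map_intCast, map_intCast,
    map_intCast, map_intCast, ← cf_psi, ← cf_psi, ← cf_psi] at h1
  exact h1.symm

theorem lat_of {L : Type} [Field L] [NumberField L] (θ : Fin 4 → 𝓞 L) (hinj : Function.Injective θ)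
    (φ : L →+* ℂ) (c : ℤ) (g1 g2 : Fin 4 → ℤ) (hc : c ≠ 0) (hns : NonSpec θ g1 g2) :
    Lat (fun j => φ (θ j)) (cf θ φ g1) (cf θ φ g2) (c : ℂ) := by
  refine ⟨fun i j hij => ?_, by exact_mod_cast hc, fun j k hjk h => ?_⟩
  · exact hinj (RingOfIntegers.coe_injective (φ.injective hij))
  · refine hns j k hjk ?_
    simp only [cf, ← map_mul] at h
    exact RingOfIntegers.coe_injective (φ.injective h)

theorem biDeg_toC {D : ℕ} {Φ : ℤ[X][X]} (h : BiDeg D D Φ) : BiDeg D D (toC Φ) := by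
  refine ⟨natDegree_map_le.trans h.1, fun i => ?_⟩
  unfold toC
  rw [coeff_map]
  exact natDegree_map_le.trans (h.2 i)

theorem natDegree_toC (Φ : ℤ[X][X]) : (toC Φ).natDegree = Φ.natDegree :=
  natDegree_map_eq_of_injective (map_injective _ (Int.castRingHom ℂ).injective_int) Φ

/-- boundedly many solutions in one class. -/
theorem class_bound (D C C0 s : ℕ) (hC0 : 1 ≤ C0) (hs : C0 ≤ s) : ∃ K : ℕ,
    ∀ {L : Type} [Field L] [NumberField L] (θ : Fin 4 → 𝓞 L) (G : ℤ[X]), Root4 θ G →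
    ∀ (X T U : ℝ), 1 ≤ T → 1 ≤ U → ∀ (φ : L →+* ℂ) (c : ℤ) (g1 g2 : Fin 4 → ℤ), c ≠ 0 →
    NonSpec θ g1 g2 → ∀ Φ : ℤ[X][X], Irreducible (toC Φ) → BiDeg D D Φ → Φ.natDegree ≠ 0 →
    (∀ (Ω : Type) [Field Ω] [Algebra ℂ Ω] (n w : Ω) (pi : Fin 4 → Ω),
      Mdl (fun j => φ (θ j)) (cf θ φ g1) (cf θ φ g2) c Ω n w pi →
      (∀ F, evB n w F = 0 ↔ toC Φ ∣ F) → ∀ i t : ℕ, C0 ≤ i → C0 ≤ t →
      2 * i + 6 * t ≤ C0 + Module.finrank ℂ (spn w pi (mons (i + t) (2 * t) : Set Ix))) →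
    ∀ l : ℕ, l.Prime → l ≠ 2 → ¬ (l : ℤ) ∣ c →
    (2 * ((2 * (4 * s) + 5 * C0 + 6 * (3 * s) : ℕ) : ℝ)) ^ (2 * (4 * s) + 5 * C0 + 6 * (3 * s)) *
      ∏ k ∈ Finset.range (2 * (4 * s) + 5 * C0 + 6 * (3 * s)),
        (U ^ (4 * s + levC (4 * s) C0 k) * ((C + 1) * T) ^ (2 * levC (4 * s) C0 k)) ≤
    (l : ℝ) ^ ((2 * (4 * s) + 5 * C0 + 6 * (3 * s)) *
      (2 * (4 * s) + 5 * C0 + 6 * (3 * s) - 1) / 2) →
    ∀ (x0 N0 r0 : ℤ) (y0 : Fin 4 → ℤ), ¬ (l : ℤ) ∣ r0 → ¬ (l : ℤ) ∣ G.eval N0 →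
    ¬ (l : ℤ) ∣ ev2 (derivative Φ) x0 N0 →
    ∀ (S : Finset ℤ) (p : ℤ → ℕ) (y : ℤ → Fin 4 → ℤ) (u1 u2 : ℤ → ℤ),
    (∀ N ∈ S, BDat θ C X T U c g1 g2 N (p N) (y N) (u1 N) (u2 N)) →
    (∀ N ∈ S, evB (N : ℂ) ((u2 N : ℂ) / u1 N) (toC Φ) = 0 ∧ ¬ (l : ℤ) ∣ u1 N ∧
      (l : ℤ) ∣ u2 N - x0 * u1 N ∧ (l : ℤ) ∣ N - N0 ∧
      ∃ κ : ℤ, (l : ℤ) ∣ κ ^ 2 * r0 - u1 N ∧ ∀ m, (l : ℤ) ∣ κ * y N m - y0 m) →
    S.card ≤ K := by
  classical
  set i : ℕ := 4 * s with hi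
  set n : ℕ := 2 * i + 5 * C0 + 6 * (3 * s) with hn
  have hW : ∀ t : ℕ, ∀ x ∈ mons (i + t) (2 * t),
      2 * ((x.1.1 : ℤ) + x.1.2) - ∑ j, (x.2 j : ℤ) = 2 * i := by
    intro t x hx
    obtain ⟨h1, h2⟩ := mem_mons.mp (Finset.mem_coe.mpr hx)
    have h1' : ((x.1.1 : ℤ) + x.1.2) = i + t := by exact_mod_cast h1
    have h2' : ∑ j, (x.2 j : ℤ) = 2 * t := by exact_mod_cast h2
    rw [h1', h2']
    ring
  choose Kt hKt using fun t : ℕ => rank_restrict D (2 * i) (mons (i + t) (2 * t)) (hW t)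
  refine ⟨∑ t ∈ Finset.range (C0 + 3 * s + 1), Kt t, ?_⟩
  intro L _ _ θ G hG X T U hT hU φ c g1 g2 hc hns Φ hirr hbd hnat hrank l hl hl2 hlc hnum x0 N0 r0
    y0 hr0 hGN hΦ0 S p y u1 u2 hB hcl
  by_contra hK
  push Not at hK
  have hKt' : ∀ t ≤ C0 + 3 * s, Kt t < S.card := by
    intro t ht
    refine lt_of_le_of_lt ?_ hK
    exact Finset.single_le_sum (f := Kt) (fun _ _ => Nat.zero_le _)
      (Finset.mem_range.mpr (by omega))
  have hL := lat_of θ hG.inj φ c g1 g2 hc hns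
  obtain ⟨Ω, _, _, gn, gw, gpi, hM, hgen⟩ := generic_curve _ _ _ _ hL (toC Φ) hirr
    (by rw [natDegree_toC]; exact hnat)
  -- the points
  have heq : ∀ N ∈ S, ∀ j, cf θ φ (y N) j ^ 2 *
      ((u1 N : ℂ) * cf θ φ g1 j + (u2 N : ℂ) * cf θ φ g2 j) = (c : ℂ) * ((N : ℂ) - φ (θ j)) :=
    fun N hN j => cf_point θ φ c N (u1 N) (u2 N) g1 g2 (y N) j ((hB N hN).dat.eqn j)
  have hNθ : ∀ N ∈ S, ∀ j, (N : ℂ) - φ (θ j) ≠ 0 := by
    intro N hN j h0
    have h1 : ((N : 𝓞 L)) = θ j := by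
      refine RingOfIntegers.coe_injective (φ.injective ?_)
      rw [← sub_eq_zero, ← h0]
      simp
    have h2 : ((G.eval N : ℤ) : 𝓞 L) = 0 := by
      have h3 := congrArg (fun F : (𝓞 L)[X] => F.eval (N : 𝓞 L)) hG.roots
      simp only [eval_prod, eval_sub, eval_X, eval_C] at h3
      rw [Finset.prod_eq_zero (Finset.mem_univ j) (by rw [h1, sub_self])] at h3
      rw [← h3]
      have h4 : (N : 𝓞 L) = algebraMap ℤ (𝓞 L) N := by simp
      rw [h4, eval_map_apply]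
      simp
    have h5 : G.eval N = 0 := by exact_mod_cast h2
    refine hGN ?_
    have h6 : (l : ℤ) ∣ G.eval N0 - G.eval N := by
      have h7 : (l : ℤ) ∣ N0 - N := by
        have := (hcl N hN).2.2.2.1
        rwa [← dvd_neg, neg_sub] at this
      exact h7.trans (sub_dvd_eval_sub _ _ _)
    rwa [h5, sub_zero] at h6
  have hne : ∀ N ∈ S, ∀ j, (u1 N : ℂ) * cf θ φ g1 j + (u2 N : ℂ) * cf θ φ g2 j ≠ 0 := by
    intro N hN j h0
    have h1 := heq N hN j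
    rw [h0, mul_zero] at h1
    exact mul_ne_zero (by exact_mod_cast hc) (hNθ N hN j) h1.symm
  -- functions on `S`
  set U1 : S → ℂ := fun N => (u1 N : ℂ) with hU1
  set U2 : S → ℂ := fun N => (u2 N : ℂ) with hU2
  set Y : Fin 4 → S → ℂ := fun j N => (y N j : ℂ) with hY
  have hpi : (fun j (N : S) => cf θ φ (y N) j) =
      fun j => ∑ k, ((φ (θ j)) ^ ((k : Fin 4) : ℕ)) • Y k := by
    funext j N
    rw [bc_cf_eq, Finset.sum_apply]
    refine Finset.sum_congr rfl fun k _ => ?_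
    rw [Pi.smul_apply, smul_eq_mul]
  have hrk : ∀ t, C0 ≤ t → t ≤ C0 + 3 * s →
      2 * i + 6 * t ≤ C0 + Module.finrank ℂ (spA U1 U2 Y (mons (i + t) (2 * t))) := by
    intro t h1 h2
    have h3 := hrank Ω gn gw gpi hM hgen i t (by omega) h1
    have h4 := hKt t _ _ _ _ hL (toC Φ) hirr (biDeg_toC hbd) Ω gn gw gpi hM hgen S
      (fun N => (u1 N : ℂ)) (fun N => (u2 N : ℂ)) (fun j N => cf θ φ (y N) j)
      (fun N hN => ⟨by exact_mod_cast (hB N hN).u10, hne N hN, heq N hN, (hcl N hN).1⟩)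
      (hKt' t h2)
    have h5 : Module.finrank ℂ (spA (A := S → ℂ) (fun N : S => (u1 N : ℂ))
        (fun N : S => (u2 N : ℂ)) (fun j (N : S) => cf θ φ (y N) j)
        (mons (i + t) (2 * t) : Set Ix)) ≤
        Module.finrank ℂ (spA U1 U2 Y (mons (i + t) (2 * t))) := by
      refine Submodule.finrank_mono ?_
      rw [hpi]
      exact spA_change U1 U2 Y (fun j k => (φ (θ j)) ^ (k : ℕ)) (i + t) (2 * t)
    omega
  have hconst : algebraMap ℂ (S → ℂ) ((c : ℂ) * (φ (θ 1) - φ (θ 0))) ∈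
      spA U1 U2 Y (mons 1 2) := by
    refine const_mem (fun j => φ (θ j)) (cf θ φ g1) (cf θ φ g2) (c : ℂ) (fun N : S => (N : ℂ))
      U1 U2 Y fun j => ?_
    have h1 := congrFun hpi j
    rw [← h1]
    funext N
    have h2 := heq N N.2 j
    simp only [Pi.mul_apply, Pi.pow_apply, Pi.add_apply, Pi.smul_apply, Pi.sub_apply,
      Pi.algebraMap_apply, smul_eq_mul, Algebra.algebraMap_self, RingHom.id_apply, hU1, hU2]
    rw [mul_comm (cf θ φ g1 j), mul_comm (cf θ φ g2 j)]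
    exact h2
  have hκ : (c : ℂ) * (φ (θ 1) - φ (θ 0)) ≠ 0 := by
    refine mul_ne_zero (by exact_mod_cast hc) (sub_ne_zero.mpr fun h => ?_)
    exact absurd (hL.inj h) (by decide)
  obtain ⟨x, hx, hli⟩ := exists_fam C0 i (3 * s) U1 U2 Y _ hκ hconst hrk
  -- the class
  have hn1 : 1 ≤ n := by omega
  obtain ⟨xp, lam, Yp, hYp⟩ := class_param θ G hG Φ l hl hl2 n hn1 c hlc g1 g2 (S : Set ℤ) y u1 u2
    x0 N0 r0 y0 hr0 hGN hΦ0 (fun N hN => by
      have hN' : N ∈ S := hN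
      obtain ⟨h1, h2, h3, h4, h5⟩ := hcl N hN'
      exact ⟨h2, h3, h4, (hB N hN').dat.eqn, h1, h5⟩)
  have hT0 : (0 : ℝ) ≤ (C + 1) * T := by (clear * - hT; positivity)
  have hT1 : (1 : ℝ) ≤ (C + 1) * T := by
    have : (0 : ℝ) ≤ C := Nat.cast_nonneg _
    (by_contra nlg; linarith only [nlg, mul_nonneg (sub_nonneg.2 hT0) (sub_nonneg.2 this), mul_nonneg (sub_nonneg.2 hT) (sub_nonneg.2 this), mul_nonneg (sub_nonneg.2 hT) (sub_nonneg.2 hT0), mul_nonneg (le_of_lt (sub_pos.2 (not_le.1 nlg))) (sub_nonneg.2 this), mul_nonneg (le_of_lt (sub_pos.2 (not_le.1 nlg))) (sub_nonneg.2 hT0), mul_nonneg (le_of_lt (sub_pos.2 (not_le.1 nlg))) (sub_nonneg.2 hT), mul_pos (sub_pos.2 (not_le.1 nlg)) (sub_pos.2 (not_le.1 nlg))])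
  obtain ⟨w, ⟨k0, hk0, hwk0⟩, hw⟩ := siegel_wrap hn1 l hl (S : Set ℤ)
    (fun k N => fv (u1 N) (u2 N) (y N) (x k))
    (fun k => Polynomial.C (r0 ^ (i + levC i C0 k)) * Polynomial.X ^ (x k).1.2 *
      ∏ j, Yp j ^ (x k).2 j)
    (fun N => lam N ^ (2 * i)) xp x0
    (fun k => U ^ (i + levC i C0 k) * ((C + 1) * T) ^ (2 * levC i C0 k))
    (fun k _ => one_le_mul_of_one_le_of_one_le (one_le_pow₀ hU) (one_le_pow₀ hT1))
    (fun N hN h => (hYp N hN).2.2.1 ((Nat.prime_iff_prime_int.mp hl).dvd_of_dvd_pow h))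
    (fun N hN => (hYp N hN).1)
    (fun N hN k hk => fv_class _ (u1 N) (u2 N) (xp N) (lam N) r0 i (levC i C0 k) (y N) Yp (x k)
      (hx k hk) (hYp N hN).2.1 (hYp N hN).2.2.2.1 (hYp N hN).2.2.2.2)
    (fun N hN k hk => by
      have hb := hB N hN
      refine fv_bound (by linarith only [hU]) (u1 N) (u2 N) (y N) hb.hu1 hb.hu2 (fun j => ?_) _ _ _
        (hx k hk)
      exact (hb.dat.hy j).trans (by linarith only [hT]))
    hnum
  rw [Fintype.linearIndependent_iff] at hli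
  have h1 := hli (fun k => (w k : ℂ)) (by
    funext N
    have h2 := hw N N.2
    have h3 : ((∑ k ∈ Finset.range n, w k * fv (u1 N) (u2 N) (y N) (x k) : ℤ) : ℂ) = 0 := by
      rw [h2]
      simp
    rw [Finset.sum_apply, Pi.zero_apply, ← h3, Finset.sum_range]
    push_cast
    refine Finset.sum_congr rfl fun k _ => ?_
    rw [Pi.smul_apply, fv_pi, smul_eq_mul]
    simp only [fv, hU1, hU2, hY]
    push_cast
    rfl) ⟨k0, hk0⟩
  exact hwk0 (by exact_mod_cast h1)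

end Vale.Agent.P018.QB
end

section

/-! # P018, (B), curve step: at most 32 classes modulo `l` over a given `(n, w)` modulo `l`.

Proof.  `Δ = 2 ∏_{i<j} (θ_i - θ_j)^2` (an integer `≠ 0`).  Let `𝔩` be a maximal ideal of `𝓞 L`
containing `l`, `k = 𝓞 L / 𝔩`.  Fix a base point `P0 ∈ S`.  In `k` write `π_j(P) = el (θ j) (y P)`,
`γ_j(P) = el (θ j) (u1 g1 + u2 g2)`; all these are `≠ 0` because `c^4 G(N) = ∏ c (N - θ_j)` is prime
to `l`, and `u1(P0) γ_j(P) = u1(P) γ_j(P0)` (same `w`).  Hence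
`(π_j(P) π_0(P0))^2 = (π_0(P) π_j(P0))^2` for all `j`, so `π_j(P) π_0(P0) = ε_j(P) π_0(P) π_j(P0)`
with `ε_j(P) = ± 1`.  Key: the quadratic character of `u1(P) u1(P0)` modulo `l`, and the `ε_j(P)`.
If the keys of `P` (= N) and `P'` (= M) are equal then `π_j(P) π_0(P') = π_0(P) π_j(P')` for all `j`,
and `(π_0(P')/π_0(P))^2 = u1(P)/u1(P')` is a square `κ^2` in `F_l`, so `π_j(P') = ± κ π_j(P)` for all
`j` with the same sign; change the sign of `κ`.  Then `el (θ j) (y P' - κ y P) ∈ 𝔩` for all `j`, and by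
Vandermonde (`l ∤ Δ`) all coordinates are in `𝔩 ∩ ℤ = l ℤ`. -/

namespace Vale.Agent.P018.QB

open Polynomial NumberField Vale.Agent.P018.Q

/-- two nonsquares have a square product, in the form needed for the keys. -/
theorem sq_of_key {l : ℕ} [Fact l.Prime] (a b r : ZMod l) (ha : a ≠ 0) (hb : b ≠ 0) (hr : r ≠ 0)
    (h : IsSquare (a * r) ↔ IsSquare (b * r)) : IsSquare (a * b) := by
  have har : a * r ≠ 0 := mul_ne_zero ha hr
  have hbr : b * r ≠ 0 := mul_ne_zero hb hr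
  have h1 : quadraticChar (ZMod l) (a * r) = quadraticChar (ZMod l) (b * r) := by
    by_cases hs : IsSquare (a * r)
    · rw [(quadraticChar_one_iff_isSquare har).2 hs,
        (quadraticChar_one_iff_isSquare hbr).2 (h.1 hs)]
    · rw [quadraticChar_neg_one_iff_not_isSquare.2 hs,
        quadraticChar_neg_one_iff_not_isSquare.2 (fun h' => hs (h.2 h'))]
  have h2 : IsSquare ((a * r) * (b * r)) := by
    rw [← quadraticChar_one_iff_isSquare (mul_ne_zero har hbr), map_mul, h1, ← sq]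
    exact quadraticChar_sq_one hbr
  obtain ⟨s, hs⟩ := h2
  refine ⟨s / r, ?_⟩
  field_simp
  linear_combination hs

/-- the argument in the residue field. -/
theorem keys_field {l : ℕ} [Fact l.Prime] {k : Type} [Field k] [CharP k l] (t : Fin 4 → k)
    (ht : Function.Injective t) (c : ℤ) (g1 g2 : Fin 4 → ℤ) (S : Finset ℤ)
    (y : ℤ → Fin 4 → ℤ) (u1 u2 : ℤ → ℤ)
    (h1 : ∀ N ∈ S, ∀ M ∈ S, (l : ℤ) ∣ u2 N * u1 M - u2 M * u1 N ∧ (l : ℤ) ∣ N - M)
    (h2 : ∀ N ∈ S, ¬ (l : ℤ) ∣ u1 N ∧ ∀ j, (c : k) * ((N : k) - t j) ≠ 0 ∧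
        (c : k) * ((N : k) - t j) =
          el (t j) (y N) ^ 2 * el (t j) (fun m => u1 N * g1 m + u2 N * g2 m)) :
    ∃ key : ℤ → Bool × (Fin 4 → Bool), ∀ N ∈ S, ∀ M ∈ S, key N = key M →
        ∃ κ : ℤ, ¬ (l : ℤ) ∣ κ ∧ (l : ℤ) ∣ κ ^ 2 * u1 M - u1 N ∧
          ∀ m, (l : ℤ) ∣ κ * y N m - y M m := by
  classical
  have dvd_k : ∀ a : ℤ, (l : ℤ) ∣ a ↔ (a : k) = 0 := fun a => (CharP.intCast_eq_zero_iff k l a).symm
  have dvd_z : ∀ a : ℤ, (l : ℤ) ∣ a ↔ (a : ZMod l) = 0 := fun a => (CharP.intCast_eq_zero_iff (ZMod l) l a).symm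
  rcases S.eq_empty_or_nonempty with hS | ⟨P0, hP0⟩
  · exact ⟨fun _ => (true, fun _ => true), fun N hN => by simp [hS] at hN⟩
  -- the values in the residue field
  have hπ : ∀ N ∈ S, ∀ j, el (t j) (y N) ≠ 0 := by
    intro N hN j h0
    obtain ⟨-, hj⟩ := h2 N hN
    obtain ⟨hne, he⟩ := hj j
    rw [h0] at he
    apply hne
    rw [he]; ring
  have hsq : ∀ N ∈ S, ∀ M ∈ S, ∀ j,
      el (t j) (y N) ^ 2 * (u1 N : k) = el (t j) (y M) ^ 2 * (u1 M : k) := by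
    intro N hN M hM j
    obtain ⟨hne, he⟩ := (h2 N hN).2 j
    obtain ⟨hne', he'⟩ := (h2 M hM).2 j
    obtain ⟨hw, hn⟩ := h1 N hN M hM
    have hw' : (u2 N : k) * u1 M - u2 M * u1 N = 0 := by
      have := (dvd_k _).1 hw; push_cast at this; exact this
    have hn' : (N : k) - M = 0 := by
      have := (dvd_k _).1 hn; push_cast at this; exact this
    have hγ : el (t j) (fun m => u1 N * g1 m + u2 N * g2 m) * (u1 M : k) =
        el (t j) (fun m => u1 M * g1 m + u2 M * g2 m) * (u1 N : k) := by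
      simp only [el, K.ell]
      push_cast
      rw [Finset.sum_mul, Finset.sum_mul]
      refine Finset.sum_congr rfl fun m _ => ?_
      linear_combination (g2 m : k) * t j ^ (m : ℕ) * hw'
    have hγ0 : el (t j) (fun m => u1 M * g1 m + u2 M * g2 m) ≠ 0 := by
      intro h0
      rw [h0] at he'
      exact hne' (by rw [he']; ring)
    have key : el (t j) (y N) ^ 2 * el (t j) (fun m => u1 N * g1 m + u2 N * g2 m) =
        el (t j) (y M) ^ 2 * el (t j) (fun m => u1 M * g1 m + u2 M * g2 m) := by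
      rw [← he, ← he']
      linear_combination (c : k) * hn'
    have : el (t j) (fun m => u1 M * g1 m + u2 M * g2 m) *
        (el (t j) (y N) ^ 2 * (u1 N : k) - el (t j) (y M) ^ 2 * (u1 M : k)) = 0 := by
      linear_combination (u1 M : k) * key - el (t j) (y N) ^ 2 * hγ
    rcases mul_eq_zero.1 this with h | h
    · exact absurd h hγ0
    · exact sub_eq_zero.1 h
  refine ⟨fun N => (decide (IsSquare ((u1 N : ZMod l) * (u1 P0 : ZMod l))),
    fun j => decide (el (t j) (y N) * el (t 0) (y P0) = el (t 0) (y N) * el (t j) (y P0))), ?_⟩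
  intro N hN M hM hkey
  rw [Prod.mk.injEq] at hkey
  obtain ⟨hk1, hk2⟩ := hkey
  have hk1' := decide_eq_decide.1 hk1
  have hk2' : ∀ j, (el (t j) (y N) * el (t 0) (y P0) = el (t 0) (y N) * el (t j) (y P0)) ↔
      (el (t j) (y M) * el (t 0) (y P0) = el (t 0) (y M) * el (t j) (y P0)) := fun j =>
    decide_eq_decide.1 (congrFun hk2 j)
  have huk : ∀ N ∈ S, (u1 N : k) ≠ 0 := fun N hN h0 => (h2 N hN).1 ((dvd_k _).2 h0)
  have huz : ∀ N ∈ S, (u1 N : ZMod l) ≠ 0 := fun N hN h0 => (h2 N hN).1 ((dvd_z _).2 h0)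
  -- the sign relation
  have hsgn : ∀ N ∈ S, ∀ j, el (t j) (y N) * el (t 0) (y P0) = el (t 0) (y N) * el (t j) (y P0) ∨
      el (t j) (y N) * el (t 0) (y P0) = -(el (t 0) (y N) * el (t j) (y P0)) := by
    intro N hN j
    rw [← sq_eq_sq_iff_eq_or_eq_neg]
    have e1 := hsq N hN P0 hP0 j
    have e2 := hsq N hN P0 hP0 0
    have : (u1 N : k) * ((el (t j) (y N) * el (t 0) (y P0)) ^ 2 -
        (el (t 0) (y N) * el (t j) (y P0)) ^ 2) = 0 := by
      linear_combination el (t 0) (y P0) ^ 2 * e1 - el (t j) (y P0) ^ 2 * e2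
    rcases mul_eq_zero.1 this with h | h
    · exact absurd h (huk N hN)
    · exact sub_eq_zero.1 h
  have hrat : ∀ j, el (t j) (y N) * el (t 0) (y M) = el (t 0) (y N) * el (t j) (y M) := by
    intro j
    have hp := hπ P0 hP0 0
    have : el (t 0) (y P0) * (el (t j) (y N) * el (t 0) (y M) - el (t 0) (y N) * el (t j) (y M)) =
        0 := by
      by_cases hN' : el (t j) (y N) * el (t 0) (y P0) = el (t 0) (y N) * el (t j) (y P0)
      · have hM' := (hk2' j).1 hN'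
        linear_combination el (t 0) (y M) * hN' - el (t 0) (y N) * hM'
      · have hM' : ¬ (el (t j) (y M) * el (t 0) (y P0) = el (t 0) (y M) * el (t j) (y P0)) :=
          fun h => hN' ((hk2' j).2 h)
        have a1 := (hsgn N hN j).resolve_left hN'
        have a2 := (hsgn M hM j).resolve_left hM'
        linear_combination el (t 0) (y M) * a1 - el (t 0) (y N) * a2
    rcases mul_eq_zero.1 this with h | h
    · exact absurd h hp
    · exact sub_eq_zero.1 h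
  -- the square root
  obtain ⟨s, hs⟩ := sq_of_key (u1 N : ZMod l) (u1 M) (u1 P0) (huz N hN) (huz M hM) (huz P0 hP0) hk1'
  obtain ⟨κ, hκ⟩ : ∃ κ : ℤ, (κ : ZMod l) = s / (u1 M : ZMod l) := ⟨_, ZMod.intCast_zmod_cast _⟩
  have hκ2 : (κ : ZMod l) ^ 2 * (u1 M : ZMod l) = (u1 N : ZMod l) := by
    have := huz M hM
    rw [hκ]
    field_simp
    linear_combination -hs
  have hκd : (l : ℤ) ∣ κ ^ 2 * u1 M - u1 N := by
    rw [dvd_z]; push_cast; rw [hκ2]; ring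
  have hκk : (κ : k) ^ 2 * (u1 M : k) = (u1 N : k) := by
    have := (dvd_k _).1 hκd
    push_cast at this
    exact sub_eq_zero.1 this
  have hκ0 : (κ : k) ≠ 0 := by
    intro h0
    rw [h0] at hκk
    exact huk N hN (by rw [← hκk]; ring)
  have hpm : el (t 0) (y M) = (κ : k) * el (t 0) (y N) ∨
      el (t 0) (y M) = -((κ : k) * el (t 0) (y N)) := by
    rw [← sq_eq_sq_iff_eq_or_eq_neg]
    have e := hsq N hN M hM 0
    have : (u1 M : k) * (el (t 0) (y M) ^ 2 - ((κ : k) * el (t 0) (y N)) ^ 2) = 0 := by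
      linear_combination -e - el (t 0) (y N) ^ 2 * hκk
    rcases mul_eq_zero.1 this with h | h
    · exact absurd h (huk M hM)
    · exact sub_eq_zero.1 h
  -- fix the sign
  obtain ⟨κ', hκ'0, hκ'd, hκ'1⟩ : ∃ κ' : ℤ, (κ' : k) ≠ 0 ∧ (l : ℤ) ∣ κ' ^ 2 * u1 M - u1 N ∧
      el (t 0) (y M) = (κ' : k) * el (t 0) (y N) := by
    rcases hpm with h | h
    · exact ⟨κ, hκ0, hκd, h⟩
    · refine ⟨-κ, by push_cast; exact neg_ne_zero.2 hκ0, ?_, ?_⟩
      · have : (-κ) ^ 2 * u1 M - u1 N = κ ^ 2 * u1 M - u1 N := by ring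
        rw [this]; exact hκd
      · rw [h]; push_cast; ring
  refine ⟨κ', fun h => hκ'0 ((dvd_k _).1 h), hκ'd, ?_⟩
  have hall : ∀ j, ∑ m : Fin 4, ((κ' * y N m - y M m : ℤ) : k) * t j ^ (m : ℕ) = 0 := by
    intro j
    have h0 := hπ N hN 0
    have hj : el (t 0) (y N) * ((κ' : k) * el (t j) (y N) - el (t j) (y M)) = 0 := by
      linear_combination hrat j - el (t j) (y N) * hκ'1
    have hj' : (κ' : k) * el (t j) (y N) - el (t j) (y M) = 0 := by
      rcases mul_eq_zero.1 hj with h | h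
      · exact absurd h h0
      · exact h
    rw [← hj']
    simp only [el, K.ell]
    rw [Finset.mul_sum, ← Finset.sum_sub_distrib]
    refine Finset.sum_congr rfl fun m _ => ?_
    push_cast
    ring
  have hz := Matrix.eq_zero_of_forall_index_sum_mul_pow_eq_zero ht hall
  intro m
  rw [dvd_k]
  exact congrFun hz m

theorem exists_keys {L : Type} [Field L] [NumberField L] (θ : Fin 4 → 𝓞 L) (G : ℤ[X])
    (hG : Root4 θ G) :
    ∃ Δ : ℤ, Δ ≠ 0 ∧ (2 : ℤ) ∣ Δ ∧ ∀ (l : ℕ), l.Prime → ¬ (l : ℤ) ∣ Δ →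
      ∀ (c : ℤ) (g1 g2 : Fin 4 → ℤ) (S : Finset ℤ) (y : ℤ → Fin 4 → ℤ) (u1 u2 : ℤ → ℤ),
      ¬ (l : ℤ) ∣ c →
      (∀ N ∈ S, ∀ M ∈ S, (l : ℤ) ∣ u2 N * u1 M - u2 M * u1 N ∧ (l : ℤ) ∣ N - M) →
      (∀ N ∈ S, ¬ (l : ℤ) ∣ u1 N ∧ ¬ (l : ℤ) ∣ G.eval N ∧
        ∀ j, (c : 𝓞 L) * ((N : 𝓞 L) - θ j) =
          el (θ j) (y N) ^ 2 * el (θ j) (fun m => u1 N * g1 m + u2 N * g2 m)) →
      ∃ key : ℤ → Bool × (Fin 4 → Bool), ∀ N ∈ S, ∀ M ∈ S, key N = key M →
        ∃ κ : ℤ, ¬ (l : ℤ) ∣ κ ∧ (l : ℤ) ∣ κ ^ 2 * u1 M - u1 N ∧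
          ∀ m, (l : ℤ) ∣ κ * y N m - y M m := by
  classical
  set D : 𝓞 L := ∏ i : Fin 4, ∏ j ∈ Finset.univ.erase i, (θ i - θ j) with hD
  have hD0 : D ≠ 0 := by
    rw [hD, Finset.prod_ne_zero_iff]
    intro i _
    rw [Finset.prod_ne_zero_iff]
    intro j hj
    rw [Finset.mem_erase] at hj
    exact sub_ne_zero.2 fun h => hj.1 (hG.inj h).symm
  set m : ℕ := Ideal.absNorm (Ideal.span {D}) with hm
  have hm0 : m ≠ 0 := by
    rw [hm, Ne, Ideal.absNorm_eq_zero_iff, Ideal.span_singleton_eq_bot]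
    exact hD0
  have hDm : D ∣ (m : 𝓞 L) := by
    rw [← Ideal.mem_span_singleton]
    exact Ideal.absNorm_mem _
  refine ⟨2 * m, by positivity, ⟨m, rfl⟩, ?_⟩
  intro l hl hlΔ c g1 g2 S y u1 u2 hc h1 h2
  haveI : Fact l.Prime := ⟨hl⟩
  have hspan : (Ideal.span {(l : ℤ)}).IsMaximal :=
    PrincipalIdealRing.isMaximal_of_irreducible (Nat.prime_iff_prime_int.1 hl).irreducible
  obtain ⟨𝔩, h𝔩, hover⟩ := Ideal.exists_maximal_ideal_liesOver_of_isIntegral (S := 𝓞 L)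
    (Ideal.span {(l : ℤ)})
  have hmem : ∀ a : ℤ, (a : 𝓞 L) ∈ 𝔩 ↔ (l : ℤ) ∣ a := by
    intro a
    rw [← Ideal.mem_span_singleton, hover.over, Ideal.mem_comap]
    simp
  letI : Field (𝓞 L ⧸ 𝔩) := Ideal.Quotient.field 𝔩
  haveI : CharP (𝓞 L ⧸ 𝔩) l := by
    constructor
    intro x
    have := hmem (x : ℤ)
    rw [Int.natCast_dvd_natCast] at this
    rw [← this]
    have e : ((x : ℕ) : 𝓞 L ⧸ 𝔩) = Ideal.Quotient.mk 𝔩 ((x : ℤ) : 𝓞 L) := by simp
    rw [e, Ideal.Quotient.eq_zero_iff_mem]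
  have hq : ∀ a : 𝓞 L, Ideal.Quotient.mk 𝔩 a = 0 ↔ a ∈ 𝔩 := fun a =>
    Ideal.Quotient.eq_zero_iff_mem
  refine keys_field (l := l) (k := 𝓞 L ⧸ 𝔩) (fun j => Ideal.Quotient.mk 𝔩 (θ j)) ?_ c g1 g2 S y u1 u2
    h1 ?_
  · intro i j hij
    by_contra hne
    have hmem' : θ i - θ j ∈ 𝔩 := by
      rw [← hq, map_sub]
      exact sub_eq_zero.2 hij
    have hDl : D ∈ 𝔩 := by
      have d1 : (θ i - θ j) ∣ D := by
        rw [hD]
        exact (Finset.dvd_prod_of_mem (fun j => θ i - θ j)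
          (Finset.mem_erase.2 ⟨fun h => hne h.symm, Finset.mem_univ j⟩)).trans
          (Finset.dvd_prod_of_mem (fun i => ∏ j ∈ Finset.univ.erase i, (θ i - θ j))
            (Finset.mem_univ i))
      exact Ideal.mem_of_dvd _ d1 hmem'
    have hml : ((m : ℤ) : 𝓞 L) ∈ 𝔩 := by
      have := Ideal.mem_of_dvd _ hDm hDl
      simpa using this
    exact hlΔ (Dvd.dvd.mul_left ((hmem m).1 hml) 2)
  · intro N hN
    obtain ⟨hu, hGN, he⟩ := h2 N hN
    refine ⟨hu, fun j => ⟨?_, ?_⟩⟩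
    · have hc' : ((c : ℤ) : 𝓞 L ⧸ 𝔩) ≠ 0 := by
        intro h0
        apply hc
        rw [← hmem, ← hq]
        simpa using h0
      refine mul_ne_zero hc' ?_
      intro h0
      apply hGN
      rw [← hmem, ← hq]
      have hval : ((G.eval N : ℤ) : 𝓞 L) = ∏ i, ((N : 𝓞 L) - θ i) := by
        have := congrArg (Polynomial.eval (N : 𝓞 L)) hG.roots
        rw [Polynomial.eval_prod] at this
        simp only [eval_sub, eval_X, eval_C] at this
        rw [← this, Polynomial.eval_map]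
        have := Polynomial.eval₂_at_intCast (S := 𝓞 L) (algebraMap ℤ (𝓞 L)) N (p := G)
        simpa using this.symm
      rw [hval, map_prod]
      refine Finset.prod_eq_zero (Finset.mem_univ j) ?_
      rw [map_sub, map_intCast]
      exact h0
    · have := congrArg (Ideal.Quotient.mk 𝔩) (he j)
      simp only [map_mul, map_sub, map_intCast, map_pow] at this
      rw [this]
      simp only [el, K.ell, map_sum, map_mul, map_pow, map_intCast]

end Vale.Agent.P018.QB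
end

section

/-! # P018, (B), curve step: counting the classes modulo one prime number. -/

namespace Vale.Agent.P018.QB

open Polynomial NumberField Vale.Agent.P018.Q

/-- the values of `N` modulo `l` over a given value of `w` modulo `l` are the roots of a nonzero
polynomial. -/
theorem card_roots_mod (D : ℕ) (Φ : ℤ[X][X]) (hbd : BiDeg D D Φ) (l : ℕ) [Fact l.Prime] (x0 : ℤ)
    (S : Finset ℤ) (hne : S.Nonempty) (h1 : ∀ N ∈ S, (l : ℤ) ∣ ev2 Φ x0 N)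
    (h2 : ∀ N ∈ S, ¬ (l : ℤ) ∣ ev2 (derivative Φ) x0 N) :
    (S.image fun N : ℤ => (N : ZMod l)).card ≤ D := by
  classical
  set q : (ZMod l)[X] := (Φ.map (evalRingHom x0)).map (Int.castRingHom (ZMod l)) with hq
  have hev : ∀ N : ℤ, q.eval (N : ZMod l) = ((ev2 Φ x0 N : ℤ) : ZMod l) := by
    intro N
    have h3 : (N : ZMod l) = (Int.castRingHom (ZMod l)) N := by simp
    rw [hq, h3, eval_map_apply]
    rfl
  have hev' : ∀ N : ℤ, (derivative q).eval (N : ZMod l) =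
      ((ev2 (derivative Φ) x0 N : ℤ) : ZMod l) := by
    intro N
    have h3 : (N : ZMod l) = (Int.castRingHom (ZMod l)) N := by simp
    rw [hq, derivative_map, derivative_map, h3, eval_map_apply]
    rfl
  have hq0 : q ≠ 0 := by
    intro h0
    obtain ⟨N, hN⟩ := hne
    have h3 := hev' N
    rw [h0, derivative_zero, eval_zero] at h3
    exact h2 N hN ((ZMod.intCast_zmod_eq_zero_iff_dvd _ _).mp h3.symm)
  have h4 : (S.image fun N : ℤ => (N : ZMod l)) ⊆ q.roots.toFinset := by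
    intro z hz
    obtain ⟨N, hN, rfl⟩ := Finset.mem_image.mp hz
    rw [Multiset.mem_toFinset, mem_roots hq0, IsRoot.def, hev]
    exact (ZMod.intCast_zmod_eq_zero_iff_dvd _ _).mpr (h1 N hN)
  calc (S.image fun N : ℤ => (N : ZMod l)).card ≤ q.roots.toFinset.card := Finset.card_le_card h4
    _ ≤ q.roots.card := q.roots.toFinset_card_le
    _ ≤ q.natDegree := card_roots' q
    _ ≤ D := (natDegree_map_le.trans natDegree_map_le).trans hbd.1

theorem prime_count (D Kc : ℕ) (G : ℤ[X]) (Φ : ℤ[X][X]) (hbd : BiDeg D D Φ) (l : ℕ) (hl : l.Prime)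
    (S : Finset ℤ) (y : ℤ → Fin 4 → ℤ) (u1 u2 : ℤ → ℤ)
    (hS : ∀ N ∈ S, evB (N : ℂ) ((u2 N : ℂ) / u1 N) (toC Φ) = 0 ∧ ¬ (l : ℤ) ∣ u1 N ∧
      ¬ (l : ℤ) ∣ G.eval N ∧
      ∀ x, (l : ℤ) ∣ u1 N * x - u2 N → ¬ (l : ℤ) ∣ ev2 (derivative Φ) x N)
    (hkeys : ∀ S' ⊆ S,
      (∀ N ∈ S', ∀ M ∈ S', (l : ℤ) ∣ u2 N * u1 M - u2 M * u1 N ∧ (l : ℤ) ∣ N - M) →
      ∃ key : ℤ → Bool × (Fin 4 → Bool), ∀ N ∈ S', ∀ M ∈ S', key N = key M →
        ∃ κ : ℤ, (l : ℤ) ∣ κ ^ 2 * u1 M - u1 N ∧ ∀ m, (l : ℤ) ∣ κ * y N m - y M m)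
    (hclass : ∀ (x0 N0 r0 : ℤ) (y0 : Fin 4 → ℤ), ¬ (l : ℤ) ∣ r0 → ¬ (l : ℤ) ∣ G.eval N0 →
      ¬ (l : ℤ) ∣ ev2 (derivative Φ) x0 N0 → ∀ S' ⊆ S,
      (∀ N ∈ S', (l : ℤ) ∣ u2 N - x0 * u1 N ∧ (l : ℤ) ∣ N - N0 ∧
        ∃ κ : ℤ, (l : ℤ) ∣ κ ^ 2 * r0 - u1 N ∧ ∀ m, (l : ℤ) ∣ κ * y N m - y0 m) →
      S'.card ≤ Kc) :
    S.card ≤ Kc * 32 * D * l := by
  classical
  have : Fact l.Prime := ⟨hl⟩
  have hlp : Prime (l : ℤ) := Nat.prime_iff_prime_int.mp hl
  have hcast : ∀ a : ℤ, ((a : ZMod l) = 0 ↔ (l : ℤ) ∣ a) := fun a =>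
    ZMod.intCast_zmod_eq_zero_iff_dvd _ _
  have hu1 : ∀ N ∈ S, (u1 N : ZMod l) ≠ 0 := fun N hN h => (hS N hN).2.1 ((hcast _).mp h)
  set f1 : ℤ → ZMod l := fun N => (u2 N : ZMod l) / (u1 N : ZMod l) with hf1
  refine (Finset.card_le_mul_card_image (f := f1) S (Kc * 32 * D) ?_).trans
    (Nat.mul_le_mul_left _ ?_)
  swap
  · exact (Finset.card_le_univ _).trans (by rw [ZMod.card])
  intro a ha
  set Sa := S.filter (fun N => f1 N = a) with hSa
  have hSaS : Sa ⊆ S := Finset.filter_subset _ _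
  obtain ⟨x0, hx0⟩ : ∃ x0 : ℤ, (x0 : ZMod l) = a := ZMod.intCast_surjective a
  have hx : ∀ N ∈ Sa, (l : ℤ) ∣ u1 N * x0 - u2 N := by
    intro N hN
    obtain ⟨hN1, hN2⟩ := Finset.mem_filter.mp hN
    rw [← hcast]
    push_cast
    rw [hx0, ← hN2, hf1]
    simp only
    field_simp [hu1 N hN1]
    simp
  have hx' : ∀ N ∈ Sa, (l : ℤ) ∣ u2 N - x0 * u1 N := by
    intro N hN
    have := hx N hN
    rwa [← dvd_neg, neg_sub, mul_comm] at this
  rcases Sa.eq_empty_or_nonempty with h0 | hne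
  · rw [h0]
    simp
  set f2 : ℤ → ZMod l := fun N => (N : ZMod l) with hf2
  have hroots : (Sa.image f2).card ≤ D := by
    refine card_roots_mod D Φ hbd l x0 Sa hne (fun N hN => ?_) (fun N hN => ?_)
    · have h1 := (hS N (hSaS hN)).1
      rw [evB_int] at h1
      have h3 : u1 N ≠ 0 := fun h0 => (hS N (hSaS hN)).2.1 (by rw [h0]; exact dvd_zero _)
      have h4 := dvd_eval_of_root (Φ.eval (C N)) (u1 N) (u2 N) (l : ℤ) x0 h3
        ((Prime.coprime_iff_not_dvd hlp).mpr (hS N (hSaS hN)).2.1) (hx N hN) h1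
      rwa [ev2_eval, eval_C] at h4
    · exact (hS N (hSaS hN)).2.2.2 x0 (hx N hN)
  refine (Finset.card_le_mul_card_image (f := f2) Sa (Kc * 32) ?_).trans
    (Nat.mul_le_mul_left _ hroots)
  intro b hb
  set Sb := Sa.filter (fun N => f2 N = b) with hSb
  have hSbS : Sb ⊆ Sa := Finset.filter_subset _ _
  have hNM : ∀ N ∈ Sb, ∀ M ∈ Sb, (l : ℤ) ∣ N - M := by
    intro N hN M hM
    rw [← hcast]
    push_cast
    have h1 := (Finset.mem_filter.mp hN).2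
    have h2 := (Finset.mem_filter.mp hM).2
    simp only [hf2] at h1 h2
    rw [h1, h2, sub_self]
  have hww : ∀ N ∈ Sb, ∀ M ∈ Sb, (l : ℤ) ∣ u2 N * u1 M - u2 M * u1 N := by
    intro N hN M hM
    obtain ⟨a1, h1⟩ := hx' N (hSbS hN)
    obtain ⟨a2, h2⟩ := hx' M (hSbS hM)
    exact ⟨a1 * u1 M - a2 * u1 N, by linear_combination u1 M * h1 - u1 N * h2⟩
  obtain ⟨key, hkey⟩ := hkeys Sb (hSbS.trans hSaS)
    (fun N hN M hM => ⟨hww N hN M hM, hNM N hN M hM⟩)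
  refine (Finset.card_le_mul_card_image (f := key) Sb Kc ?_).trans (Nat.mul_le_mul_left _ ?_)
  swap
  · exact (Finset.card_le_univ _).trans (by simp)
  intro k hk
  set Sk := Sb.filter (fun N => key N = k) with hSk
  rcases Sk.eq_empty_or_nonempty with h0 | ⟨M, hM⟩
  · rw [h0]
    simp
  have hMb : M ∈ Sb := (Finset.mem_filter.mp hM).1
  have hMS : M ∈ S := hSaS (hSbS hMb)
  refine hclass x0 M (u1 M) (y M) (hS M hMS).2.1 (hS M hMS).2.2.1
    ((hS M hMS).2.2.2 x0 (hx M (hSbS hMb))) Sk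
    ((Finset.filter_subset _ _).trans (hSbS.trans hSaS)) (fun N hN => ?_)
  have hNb : N ∈ Sb := (Finset.mem_filter.mp hN).1
  exact ⟨hx' N (hSbS hNb), hNM N hNb M hMb, hkey N hNb M hMb
    ((Finset.mem_filter.mp hN).2.trans (Finset.mem_filter.mp hM).2.symm)⟩

end Vale.Agent.P018.QB
end

section

/-! # P018, (B): the `l`-adic curve step. -/

namespace Vale.Agent.P018.QB

open Polynomial NumberField Vale.Agent.P018.Q

theorem abs_scaleRoots_le (p : ℤ[X]) (d : ℕ) (hd : p.natDegree ≤ d) {A B : ℝ} (hA0 : 0 ≤ A)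
    (hA : ∀ i, |(p.coeff i : ℝ)| ≤ A) (hB : 1 ≤ B) (u1 u2 : ℤ) (h1 : |(u1 : ℝ)| ≤ B)
    (h2 : |(u2 : ℝ)| ≤ B) :
    |(((p.scaleRoots u1).eval u2 : ℤ) : ℝ)| ≤ (d + 1) * A * B ^ d := by
  have hB0 : 0 ≤ B := by linarith only [hB]
  rw [eval_eq_sum_range, natDegree_scaleRoots]
  push_cast
  refine (Finset.abs_sum_le_sum_abs _ _).trans ?_
  have h3 : ∀ i ∈ Finset.range (p.natDegree + 1),
      |(((p.scaleRoots u1).coeff i : ℤ) : ℝ) * (u2 : ℝ) ^ i| ≤ A * B ^ d := by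
    intro i hi
    have hi' : i ≤ p.natDegree := Nat.lt_succ_iff.mp (Finset.mem_range.mp hi)
    rw [coeff_scaleRoots]
    push_cast
    rw [abs_mul, abs_mul, abs_pow, abs_pow]
    calc |(p.coeff i : ℝ)| * |(u1 : ℝ)| ^ (p.natDegree - i) * |(u2 : ℝ)| ^ i
        ≤ A * B ^ (p.natDegree - i) * B ^ i := by
          refine mul_le_mul (mul_le_mul (hA i) (pow_le_pow_left₀ (abs_nonneg _) h1 _)
            (by positivity) hA0) (pow_le_pow_left₀ (abs_nonneg _) h2 _) (by positivity)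
            (by positivity)
      _ = A * B ^ p.natDegree := by
          rw [mul_assoc, ← pow_add, Nat.sub_add_cancel hi']
      _ ≤ A * B ^ d := mul_le_mul_of_nonneg_left (pow_le_pow_right₀ hB hd) hA0
  refine (Finset.sum_le_sum h3).trans ?_
  rw [Finset.sum_const, Finset.card_range, nsmul_eq_mul, mul_assoc]
  refine mul_le_mul_of_nonneg_right ?_ (by positivity)
  exact_mod_cast Nat.succ_le_succ hd

theorem abs_eval_le (p : ℤ[X]) (d : ℕ) (hd : p.natDegree ≤ d) {A B : ℝ} (hA0 : 0 ≤ A)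
    (hA : ∀ i, |(p.coeff i : ℝ)| ≤ A) (hB : 1 ≤ B) (x : ℤ) (h1 : |(x : ℝ)| ≤ B) :
    |((p.eval x : ℤ) : ℝ)| ≤ (d + 1) * A * B ^ d := by
  have h := abs_scaleRoots_le p d hd hA0 hA hB 1 x (by simpa using hB) h1
  rwa [scaleRoots_one] at h

/-- the homogenised derivative at a point. -/
noncomputable def dH (Φ : ℤ[X][X]) (N u1 u2 : ℤ) : ℤ :=
  (((derivative Φ).eval (C N)).scaleRoots u1).eval u2

theorem natDegree_eval_C_le {D : ℕ} {Φ : ℤ[X][X]} (h : ∀ i, (Φ.coeff i).natDegree ≤ D) (N : ℤ) :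
    (Φ.eval (C N)).natDegree ≤ D := by
  rw [eval_eq_sum_range]
  refine natDegree_sum_le_of_forall_le _ _ fun i _ => ?_
  rw [← C_pow, mul_comm]
  exact (natDegree_C_mul_le _ _).trans (h i)

theorem natDegree_derivative_coeff_le {D : ℕ} {Φ : ℤ[X][X]} (h : ∀ i, (Φ.coeff i).natDegree ≤ D)
    (i : ℕ) : ((derivative Φ).coeff i).natDegree ≤ D := by
  rw [coeff_derivative]
  have : ((i : ℤ[X]) + 1) = C ((i : ℤ) + 1) := by simp
  rw [this, mul_comm]
  exact (natDegree_C_mul_le _ _).trans (h (i + 1))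

theorem abs_dH_le {D : ℕ} {Φ : ℤ[X][X]} (hbd : BiDeg D D Φ) {A B : ℝ} (hA0 : 0 ≤ A)
    (hA : ∀ i j, |(((Φ.coeff i).coeff j : ℤ) : ℝ)| ≤ A) (hB : 1 ≤ B) (N u1 u2 : ℤ)
    (hN : |(N : ℝ)| ≤ B) (h1 : |(u1 : ℝ)| ≤ B) (h2 : |(u2 : ℝ)| ≤ B) :
    |((dH Φ N u1 u2 : ℤ) : ℝ)| ≤ (D + 1) * ((D + 1) * ((D + 1) * A) * B ^ D) * B ^ D := by
  have hB0 : 0 ≤ B := by linarith
  refine abs_scaleRoots_le _ D (natDegree_eval_C_le (natDegree_derivative_coeff_le hbd.2) N)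
    (by positivity) (fun j => ?_) hB u1 u2 h1 h2
  have hd : (derivative Φ).natDegree ≤ D := (natDegree_derivative_le Φ).trans
    ((Nat.sub_le _ _).trans hbd.1)
  rw [eval_eq_sum_range, finsetSum_coeff]
  push_cast
  refine (Finset.abs_sum_le_sum_abs _ _).trans ?_
  have h3 : ∀ i ∈ Finset.range ((derivative Φ).natDegree + 1),
      |((((derivative Φ).coeff i * C N ^ i).coeff j : ℤ) : ℝ)| ≤ (D + 1) * A * B ^ D := by
    intro i hi
    have hi' : i ≤ (derivative Φ).natDegree := Nat.lt_succ_iff.mp (Finset.mem_range.mp hi)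
    have hiD : i ≤ D := hi'.trans hd
    rw [← C_pow, coeff_mul_C, coeff_derivative]
    have h4 : ((i : ℤ[X]) + 1) = C ((i : ℤ) + 1) := by simp
    rw [h4, coeff_mul_C]
    push_cast
    rw [abs_mul, abs_mul, abs_pow]
    have h5 : |(i : ℝ) + 1| ≤ D + 1 := by
      rw [abs_of_nonneg (by positivity)]
      have : (i : ℝ) ≤ D := by exact_mod_cast hiD
      linarith only [this]
    calc |(((Φ.coeff (i + 1)).coeff j : ℤ) : ℝ)| * |(i : ℝ) + 1| * |(N : ℝ)| ^ i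
        ≤ A * (D + 1) * B ^ D := by
          refine mul_le_mul (mul_le_mul (hA _ _) h5 (abs_nonneg _) hA0)
            ((pow_le_pow_left₀ (abs_nonneg _) hN _).trans (pow_le_pow_right₀ hB hiD))
            (by positivity) (by positivity)
      _ = (D + 1) * A * B ^ D := by ring
  refine (Finset.sum_le_sum h3).trans ?_
  rw [Finset.sum_const, Finset.card_range, nsmul_eq_mul]
  have h6 : (((derivative Φ).natDegree + 1 : ℕ) : ℝ) ≤ D + 1 := by exact_mod_cast Nat.succ_le_succ hd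
  have h7 : 0 ≤ (D + 1) * A * B ^ D := by positivity
  calc (((derivative Φ).natDegree + 1 : ℕ) : ℝ) * ((D + 1) * A * B ^ D)
      ≤ (D + 1) * ((D + 1) * A * B ^ D) := mul_le_mul_of_nonneg_right h6 h7
    _ = (D + 1) * ((D + 1) * A) * B ^ D := by ring

theorem dvd_dH (Φ : ℤ[X][X]) (l N u1 u2 x : ℤ) (hx : l ∣ u1 * x - u2)
    (h : l ∣ ev2 (derivative Φ) x N) : l ∣ dH Φ N u1 u2 := by
  set q := (derivative Φ).eval (C N) with hq
  have h1 : q.eval x = ev2 (derivative Φ) x N := by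
    rw [hq, ev2_eval, eval_C]
  have h2 : l ∣ (q.scaleRoots u1).eval (u1 * x) := by
    have h3 : (q.scaleRoots u1).eval (u1 * x) = u1 ^ q.natDegree * q.eval x := by
      have h7 := scaleRoots_eval₂_mul (p := q) (f := RingHom.id ℤ) x u1
      simpa [eval₂_id] using h7
    rw [h3, h1]
    exact h.mul_left _
  have h4 : l ∣ (q.scaleRoots u1).eval (u1 * x) - (q.scaleRoots u1).eval u2 :=
    hx.trans (sub_dvd_eval_sub _ _ _)
  have h5 := dvd_sub h2 h4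
  rwa [sub_sub_cancel] at h5

theorem evB_of_dH (Φ : ℤ[X][X]) (N u1 u2 : ℤ) (h1 : u1 ≠ 0) (h : dH Φ N u1 u2 = 0) :
    evB (N : ℂ) ((u2 : ℂ) / u1) (derivative (toC Φ)) = 0 := by
  have h2 : derivative (toC Φ) = toC (derivative Φ) := by
    unfold toC
    rw [derivative_map]
  rw [h2, evB_int]
  set q := (derivative Φ).eval (C N) with hq
  have hu : (u1 : ℂ) ≠ 0 := by exact_mod_cast h1
  have h3 := scaleRoots_eval₂_mul (p := q) (f := Int.castRingHom ℂ) ((u2 : ℂ) / u1) u1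
  have h4 : (Int.castRingHom ℂ) u1 * ((u2 : ℂ) / u1) = (Int.castRingHom ℂ) u2 := by
    simp only [eq_intCast]
    field_simp
  rw [h4, eval₂_hom] at h3
  have h5 : (q.scaleRoots u1).eval u2 = 0 := h
  rw [h5, map_zero] at h3
  have h6 := (mul_eq_zero.mp h3.symm).resolve_left (pow_ne_zero _ (by simpa using h1))
  rwa [← eval_map] at h6

/-- few singular points. -/
theorem sing_le (D : ℕ) : ∃ K : ℕ, ∀ Φ : ℤ[X][X], Irreducible (toC Φ) → BiDeg D D Φ →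
    Φ.natDegree ≠ 0 → ∀ (S : Finset ℤ) (u1 u2 : ℤ → ℤ), (∀ N ∈ S, u1 N ≠ 0 ∧
      evB (N : ℂ) ((u2 N : ℂ) / u1 N) (toC Φ) = 0 ∧ dH Φ N (u1 N) (u2 N) = 0) → S.card ≤ K := by
  classical
  obtain ⟨K, hK⟩ := bezC D
  refine ⟨K, fun Φ hirr hbd hnat S u1 u2 hS => ?_⟩
  have hnd : ¬ toC Φ ∣ derivative (toC Φ) := by
    intro h
    have h1 : (derivative (toC Φ)).natDegree < (toC Φ).natDegree :=
      natDegree_derivative_lt (by rw [natDegree_toC]; exact hnat)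
    have h2 := eq_zero_of_dvd_of_natDegree_lt h h1
    have h3 := derivative_eq_zero.mp h2
    rw [natDegree_toC] at h3
    exact hnat h3
  have hbd' : BiDeg D D (derivative (toC Φ)) := by
    have h2 : derivative (toC Φ) = toC (derivative Φ) := by
      unfold toC
      rw [derivative_map]
    rw [h2]
    exact biDeg_toC ⟨(natDegree_derivative_le Φ).trans ((Nat.sub_le _ _).trans hbd.1),
      natDegree_derivative_coeff_le hbd.2⟩
  have h6 := hK (toC Φ) (derivative (toC Φ)) hirr hnd (biDeg_toC hbd) hbd'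
    (S.image fun N : ℤ => ((N : ℂ), (u2 N : ℂ) / u1 N)) (by
      intro z hz'
      obtain ⟨N, hN, rfl⟩ := Finset.mem_image.mp hz'
      exact ⟨(hS N hN).2.1, evB_of_dH Φ N _ _ (hS N hN).1 (hS N hN).2.2⟩)
  rwa [Finset.card_image_of_injective _ (fun a b hab => by
    have h8 : (a : ℂ) = (b : ℂ) := congrArg Prod.fst hab
    exact_mod_cast h8)] at h6

theorem eval_ne_zero_of_root4 {L : Type} [Field L] [NumberField L] {θ : Fin 4 → 𝓞 L} {G : ℤ[X]}
    (hG : Root4 θ G) (N : ℤ) : G.eval N ≠ 0 := by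
  intro h
  have h1 : IsRoot (G.map (Int.castRingHom ℚ)) (N : ℚ) := by
    rw [IsRoot.def]
    have h2 : (N : ℚ) = Int.castRingHom ℚ N := by simp
    rw [h2, eval_map_apply, h, map_zero]
  have h3 := degree_eq_one_of_irreducible_of_root hG.irr h1
  have h4 : (G.map (Int.castRingHom ℚ)).natDegree = 4 := by
    rw [natDegree_map_eq_of_injective (Int.castRingHom ℚ).injective_int, hG.deg]
  have h5 : (G.map (Int.castRingHom ℚ)).natDegree = 1 := natDegree_eq_of_degree_eq_some h3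
  omega

/-- the size of the integer which has to be prime to `l`. -/
theorem bad_le {D C1 : ℕ} {Φ : ℤ[X][X]} (hbd : BiDeg D D Φ) {G : ℤ[X]} (hG : G.natDegree = 4)
    {T B0 AG Cr : ℝ} (hT : 1 ≤ T) (hB0 : 1 ≤ B0) (hAG0 : 0 ≤ AG) (hCr : 0 ≤ Cr)
    (hAG : ∀ i, |((G.coeff i : ℤ) : ℝ)| ≤ AG)
    (hht : ∀ i j, |(((Φ.coeff i).coeff j : ℤ) : ℝ)| ≤ C1 * T ^ C1) (Δ c N u1 u2 : ℤ)
    (hc : |(c : ℝ)| ≤ Cr) (hN : |(N : ℝ)| ≤ B0 * T ^ 4) (hu1 : |(u1 : ℝ)| ≤ B0 * T ^ 4)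
    (hu2 : |(u2 : ℝ)| ≤ B0 * T ^ 4) :
    |((Δ * c * u1 * G.eval N * dH Φ N u1 u2 : ℤ) : ℝ)| ≤
      (|(Δ : ℝ)| * Cr * B0 * ((4 + 1) * AG * B0 ^ 4) *
        ((D + 1) * ((D + 1) * ((D + 1) * C1) * B0 ^ D) * B0 ^ D)) *
      T ^ (4 + 4 * 4 + (C1 + 4 * D + 4 * D)) := by
  have hT4 : 1 ≤ T ^ 4 := one_le_pow₀ hT
  have hBT : 1 ≤ B0 * T ^ 4 := one_le_mul_of_one_le_of_one_le hB0 hT4
  have h1 := abs_eval_le G 4 hG.le hAG0 hAG hBT N hN
  have h2 := abs_dH_le hbd (A := C1 * T ^ C1) (by positivity) hht hBT N u1 u2 hN hu1 hu2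
  push_cast at h1 ⊢
  rw [abs_mul, abs_mul, abs_mul, abs_mul]
  have h3 : |(Δ : ℝ)| * |(c : ℝ)| ≤ |(Δ : ℝ)| * Cr := mul_le_mul_of_nonneg_left hc (abs_nonneg _)
  have h4 : |(Δ : ℝ)| * |(c : ℝ)| * |(u1 : ℝ)| ≤ |(Δ : ℝ)| * Cr * (B0 * T ^ 4) :=
    mul_le_mul h3 hu1 (abs_nonneg _) (by positivity)
  have h5 : |(Δ : ℝ)| * |(c : ℝ)| * |(u1 : ℝ)| * |((G.eval N : ℤ) : ℝ)| ≤
      |(Δ : ℝ)| * Cr * (B0 * T ^ 4) * ((4 + 1) * AG * (B0 * T ^ 4) ^ 4) :=
    mul_le_mul h4 h1 (abs_nonneg _) (by positivity)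
  have h6 := mul_le_mul h5 h2 (abs_nonneg _) (by (clear * - hCr hB0 hT hAG0; positivity))
  refine h6.trans (le_of_eq ?_)
  rw [mul_pow, mul_pow, ← pow_mul, ← pow_mul, pow_add, pow_add, pow_add]
  ring

/-- the `l`-adic curve step: large rank implies few solutions. -/
theorem count_of_rank {L : Type} [Field L] [NumberField L] (θ : Fin 4 → 𝓞 L) (G : ℤ[X])
    (hG : Root4 θ G) (C D C0 C1 : ℕ) (ε : ℝ) (hε : 0 < ε) :
    ∃ K : ℝ, 0 < K ∧ ∀ (X T U : ℝ), 1 ≤ T → 1 ≤ X → T ^ 2 ≤ C * X → X ≤ C * T ^ 4 → 1 ≤ U →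
      U ≤ C * T ^ 4 → ∀ (φ : L →+* ℂ) (c : ℤ) (g1 g2 : Fin 4 → ℤ), NonSpec θ g1 g2 →
      (∀ j, |(g1 j : ℝ)| ≤ C * T ^ 4) → (∀ j, |(g2 j : ℝ)| ≤ C * T ^ 4) →
      ∀ Φ : ℤ[X][X], Irreducible (toC Φ) → BiDeg D D Φ →
      (∀ i j, |(((Φ.coeff i).coeff j : ℤ) : ℝ)| ≤ C1 * T ^ C1) → Φ.natDegree ≠ 0 →
      (∀ (Ω : Type) [Field Ω] [Algebra ℂ Ω] (n w : Ω) (pi : Fin 4 → Ω),
        Mdl (fun j => φ (θ j)) (cf θ φ g1) (cf θ φ g2) c Ω n w pi →
        (∀ F, evB n w F = 0 ↔ toC Φ ∣ F) → ∀ i t : ℕ, C0 ≤ i → C0 ≤ t →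
        2 * i + 6 * t ≤ C0 + Module.finrank ℂ (spn w pi (mons (i + t) (2 * t) : Set Ix))) →
      ∀ (S : Finset ℤ) (p : ℤ → ℕ) (y : ℤ → Fin 4 → ℤ) (u1 u2 : ℤ → ℤ),
        (∀ N ∈ S, BDat θ C X T U c g1 g2 N (p N) (y N) (u1 N) (u2 N)) →
        (∀ N ∈ S, evB (N : ℂ) ((u2 N : ℂ) / u1 N) (toC Φ) = 0) →
        (S.card : ℝ) ≤ K * (T ^ (27 / 169 + ε) * U ^ (131 / 338 : ℝ)) := by
  classical
  obtain ⟨s, K1, hs1, hsC0, hK1, hnum⟩ := num_ineq (C0 + 1) C (by omega) ε hε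
  obtain ⟨Kc, hKc⟩ := class_bound D C (C0 + 1) s (by omega) hsC0
  obtain ⟨Ks, hKs⟩ := sing_le D
  obtain ⟨Δ, hΔ0, h2Δ, hkeys⟩ := exists_keys θ G hG
  -- the constants
  obtain ⟨AG, hAG0, hAG⟩ : ∃ A : ℝ, 0 ≤ A ∧ ∀ i, |((G.coeff i : ℤ) : ℝ)| ≤ A := by
    refine ⟨∑ i ∈ G.support, |((G.coeff i : ℤ) : ℝ)|, Finset.sum_nonneg fun _ _ => abs_nonneg _,
      fun i => ?_⟩
    by_cases hi : i ∈ G.support
    · exact Finset.single_le_sum (f := fun i => |((G.coeff i : ℤ) : ℝ)|)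
        (fun _ _ => abs_nonneg _) hi
    · rw [notMem_support_iff.mp hi]
      simp only [Int.cast_zero, abs_zero]
      exact Finset.sum_nonneg fun _ _ => abs_nonneg _
  set B0 : ℝ := (C : ℝ) ^ 2 + C + 1 with hB0
  have hC0 : (0 : ℝ) ≤ C := Nat.cast_nonneg _
  have hB01 : 1 ≤ B0 := by rw [hB0]; (by_contra nlg; linarith only [mul_nonneg (sq_nonneg (↑C : ℝ)) (le_of_lt (sub_pos.2 hε)), mul_pos (sub_pos.2 (not_le.1 nlg)) (sub_pos.2 hε), mul_nonneg (le_of_lt (sub_pos.2 hε)) (sub_nonneg.2 hC0)])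
  have hCB : (C : ℝ) ≤ B0 := by rw [hB0]; (by_contra nlg; linarith only [hε, mul_nonneg (sq_nonneg (↑C : ℝ)) (le_of_lt (sub_pos.2 hε)), mul_pos (sub_pos.2 (not_le.1 nlg)) (sub_pos.2 hε)])
  have hCCB : (C : ℝ) * C ≤ B0 := by rw [hB0]; linarith only [hCB]
  clear_value B0
  set e : ℕ := 4 + 4 * 4 + (C1 + 4 * D + 4 * D) with he
  set K2 : ℝ := |(Δ : ℝ)| * C * B0 * ((4 + 1) * AG * B0 ^ 4) *
    ((D + 1) * ((D + 1) * ((D + 1) * C1) * B0 ^ D) * B0 ^ D) with hK2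
  have hK20 : 0 ≤ K2 := by (clear * - hΔ0 hB01 hAG0; positivity)
  set K3 : ℝ := K1 + K2 + 1 with hK3
  have hK31 : 1 ≤ K3 := by linarith only [hK1, hK20]
  set M : ℕ := 7 * e + 7 with hM
  refine ⟨Ks + M * (Kc * 32 * D * (2 ^ M * (2 * K3))) + 1, by (clear * - hK1 hΔ0 hB01 hAG0; positivity), ?_⟩
  intro X T U hT hX hTX hXT hU hUT φ c g1 g2 hns hg1 hg2 Φ hirr hbd hht hnat hrank S p y u1 u2 hB hev
  have hT0 : 0 < T := by linarith only [hT]
  have hT4 : 1 ≤ T ^ 4 := one_le_pow₀ hT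
  set P : ℝ := T ^ (27 / 169 + ε) * U ^ (131 / 338 : ℝ) with hPdef
  have hU1 : 1 ≤ U ^ (131 / 338 : ℝ) := Real.one_le_rpow hU (by norm_num)
  have hP : 1 ≤ P := one_le_mul_of_one_le_of_one_le (Real.one_le_rpow hT (by positivity)) hU1
  have hP0 : 0 < P := by linarith only [hP]
  rcases S.eq_empty_or_nonempty with h0 | ⟨P0, hP0S⟩
  · rw [h0]
    simp only [Finset.card_empty, Nat.cast_zero]
    (clear * - hK1 hΔ0 hB01 hAG0 hT hU; positivity)
  have hc0 : c ≠ 0 := (hB P0 hP0S).dat.c0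
  have hcC : |(c : ℝ)| ≤ C := by
    have := (hB P0 hP0S).dat.cC
    exact_mod_cast this
  set Q : ℕ := ⌈K3 * P⌉₊ with hQ
  have hQ1 : 1 ≤ Q := Nat.one_le_ceil_iff.mpr (by (clear * - hK1 hΔ0 hB01 hAG0 hT hU; positivity))
  have hQlo : K3 * P ≤ Q := Nat.le_ceil _
  have hQhi : (Q : ℝ) ≤ 2 * K3 * P := by
    have h1 := (Nat.ceil_lt_add_one (a := K3 * P) (by (clear * - hK1 hΔ0 hB01 hAG0 hT hU; positivity))).le
    have h2 : 1 ≤ K3 * P := one_le_mul_of_one_le_of_one_le hK31 hP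
    linarith only [h1, h2]
  obtain ⟨ℓ, hinj, hℓ⟩ := exists_primes M Q hQ1
  -- the integer which has to be prime to `l`
  set b : ℤ → ℤ := fun N => Δ * c * u1 N * G.eval N * dH Φ N (u1 N) (u2 N) with hb
  have hbb : ∀ N ∈ S, |((b N : ℤ) : ℝ)| ≤ K2 * T ^ e := by
    intro N hN
    have hd := hB N hN
    have hT40 : 0 ≤ T ^ 4 := by positivity
    have hCT : (C : ℝ) * T ^ 4 ≤ B0 * T ^ 4 := mul_le_mul_of_nonneg_right hCB hT40
    have hu1 : |(u1 N : ℝ)| ≤ B0 * T ^ 4 := hd.hu1.trans (hUT.trans hCT)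
    have hu2 : |(u2 N : ℝ)| ≤ B0 * T ^ 4 := hd.hu2.trans (hUT.trans hCT)
    have hN' : |(N : ℝ)| ≤ B0 * T ^ 4 := by
      refine hd.dat.hN.trans ?_
      have h1 : (C : ℝ) * X ≤ C * (C * T ^ 4) := mul_le_mul_of_nonneg_left hXT hC0
      have h2 : (C : ℝ) * (C * T ^ 4) = (C * C) * T ^ 4 := by ring
      exact h1.trans (h2.le.trans (mul_le_mul_of_nonneg_right hCCB hT40))
    exact bad_le hbd hG.deg hT hB01 hAG0 hC0 hAG hht Δ c N (u1 N) (u2 N) hcC hN' hu1 hu2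
  clear_value K2 e
  have hbQ : ∀ N ∈ S, |b N| < (Q : ℤ) ^ M := by
    intro N hN
    have h1 : K2 * T ^ e < (Q : ℝ) ^ M := by
      have h2 : T ^ e ≤ (T ^ (27 / 169 : ℝ)) ^ M := by
        rw [← Real.rpow_natCast, ← Real.rpow_natCast, ← Real.rpow_mul hT0.le]
        refine Real.rpow_le_rpow_of_exponent_le hT ?_
        rw [hM]
        push_cast
        have : (0 : ℝ) ≤ e := Nat.cast_nonneg _
        linarith only [this]
      have h3 : T ^ (27 / 169 : ℝ) ≤ P := by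
        rw [hPdef]
        have h4 : T ^ (27 / 169 : ℝ) ≤ T ^ (27 / 169 + ε) :=
          Real.rpow_le_rpow_of_exponent_le hT (by linarith only [hε])
        have h5 : 0 < T ^ (27 / 169 + ε) := Real.rpow_pos_of_pos hT0 _
        exact h4.trans (le_mul_of_one_le_right h5.le hU1)
      have h4 : K3 * T ^ e ≤ (Q : ℝ) ^ M := by
        calc K3 * T ^ e ≤ K3 ^ M * (T ^ (27 / 169 : ℝ)) ^ M :=
              mul_le_mul (le_self_pow₀ hK31 (by omega)) h2 (by positivity) (by positivity)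
          _ = (K3 * T ^ (27 / 169 : ℝ)) ^ M := (mul_pow _ _ _).symm
          _ ≤ (Q : ℝ) ^ M := by
              refine pow_le_pow_left₀ (by (clear * - hK1 hK20 hT; positivity)) ?_ M
              exact (mul_le_mul_of_nonneg_left h3 (by linarith only [hK20, hK1])).trans hQlo
      have h5 : K2 * T ^ e < K3 * T ^ e := by
        refine mul_lt_mul_of_pos_right ?_ (by positivity)
        linarith only [hK1]
      linarith only [h5, h4]
    have h2 := (hbb N hN).trans_lt h1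
    exact_mod_cast h2
  -- the exceptional set
  set Ssing := S.filter (fun N => dH Φ N (u1 N) (u2 N) = 0) with hSsing
  have hsing : Ssing.card ≤ Ks := by
    refine hKs Φ hirr hbd hnat Ssing u1 u2 fun N hN => ?_
    obtain ⟨h1, h2⟩ := Finset.mem_filter.mp hN
    exact ⟨(hB N h1).u10, hev N h1, h2⟩
  set Sl : Fin M → Finset ℤ := fun i => S.filter (fun N => ¬ ((ℓ i : ℤ)) ∣ b N) with hSl
  have hcover : S ⊆ Ssing ∪ Finset.univ.biUnion Sl := by
    intro N hN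
    rw [Finset.mem_union]
    by_cases h0 : dH Φ N (u1 N) (u2 N) = 0
    · exact Or.inl (Finset.mem_filter.mpr ⟨hN, h0⟩)
    · refine Or.inr ?_
      have hb0 : b N ≠ 0 := by
        simp only [hb]
        exact mul_ne_zero (mul_ne_zero (mul_ne_zero (mul_ne_zero hΔ0 hc0) (hB N hN).u10)
          (eval_ne_zero_of_root4 hG N)) h0
      obtain ⟨i, hi⟩ := exists_good M Q hQ1 ℓ hinj (fun i => ⟨(hℓ i).1, (hℓ i).2.1⟩) (b N) hb0
        (hbQ N hN)
      exact Finset.mem_biUnion.mpr ⟨i, Finset.mem_univ i, Finset.mem_filter.mpr ⟨hN, hi⟩⟩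
  have hone : ∀ i, (Sl i).card ≤ Kc * 32 * D * ℓ i := by
    intro i
    rcases (Sl i).eq_empty_or_nonempty with h0 | ⟨N1, hN1⟩
    · rw [h0]
      simp
    have hlpr := (hℓ i).1
    have hmem : ∀ N ∈ Sl i, N ∈ S ∧ ¬ (ℓ i : ℤ) ∣ b N := fun N hN => Finset.mem_filter.mp hN
    have hbN1 := (hmem N1 hN1).2
    have hlΔ : ¬ (ℓ i : ℤ) ∣ Δ := fun h => hbN1
      ((((h.mul_right _).mul_right _).mul_right _).mul_right _)
    have hlc : ¬ (ℓ i : ℤ) ∣ c := fun h => hbN1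
      ((((h.mul_left _).mul_right _).mul_right _).mul_right _)
    have hl2 : ℓ i ≠ 2 := by
      intro h
      rw [h] at hlΔ
      exact hlΔ h2Δ
    have hnum' := hnum T U (ℓ i) hT hU hUT (by
      have h1 : (Q : ℝ) ≤ ℓ i := by exact_mod_cast (hℓ i).2.1.le
      have h2 : K1 * P ≤ K3 * P := mul_le_mul_of_nonneg_right (by linarith only [hK20]) hP0.le
      linarith only [h2, h1, hQlo])
    refine prime_count D Kc G Φ hbd (ℓ i) hlpr (Sl i) y u1 u2 (fun N hN => ?_)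
      (fun S' hS' hww => ?_) (fun x0 N0 r0 y0 hr0 hGN hΦ0 S' hS' hcl => ?_)
    · obtain ⟨hNS, hbN⟩ := hmem N hN
      refine ⟨hev N hNS, fun h => hbN (((h.mul_left _).mul_right _).mul_right _),
        fun h => hbN ((h.mul_left _).mul_right _), fun x hx h => hbN ?_⟩
      exact (dvd_dH Φ _ N (u1 N) (u2 N) x hx h).mul_left _
    · obtain ⟨key, hkey⟩ := hkeys (ℓ i) hlpr hlΔ c g1 g2 S' y u1 u2 hlc hww (fun N hN => by
        obtain ⟨hNS, hbN⟩ := hmem N (hS' hN)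
        exact ⟨fun h => hbN (((h.mul_left _).mul_right _).mul_right _),
          fun h => hbN ((h.mul_left _).mul_right _), (hB N hNS).dat.eqn⟩)
      refine ⟨key, fun N hN M' hM' hk => ?_⟩
      obtain ⟨κ, -, h1, h2⟩ := hkey N hN M' hM' hk
      exact ⟨κ, h1, h2⟩
    · refine hKc θ G hG X T U hT hU φ c g1 g2 hc0 hns Φ hirr hbd hnat
        (fun Ω _ _ n w pi hM' hgen i t hi ht => ?_) (ℓ i) hlpr hl2 hlc hnum' x0 N0 r0 y0 hr0 hGN hΦ0
        S' p y u1 u2 (fun N hN => hB N (hmem N (hS' hN)).1) (fun N hN => ?_)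
      · have := hrank Ω n w pi hM' hgen i t (by omega) (by omega)
        omega
      · obtain ⟨hNS, hbN⟩ := hmem N (hS' hN)
        obtain ⟨h1, h2, h3⟩ := hcl N hN
        exact ⟨hev N hNS, fun h => hbN (((h.mul_left _).mul_right _).mul_right _), h1, h2, h3⟩
  have hcard : S.card ≤ Ks + ∑ i : Fin M, Kc * 32 * D * ℓ i := by
    calc S.card ≤ (Ssing ∪ Finset.univ.biUnion Sl).card := Finset.card_le_card hcover
      _ ≤ Ssing.card + (Finset.univ.biUnion Sl).card := Finset.card_union_le _ _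
      _ ≤ Ks + ∑ i : Fin M, Kc * 32 * D * ℓ i := by
          refine add_le_add hsing (Finset.card_biUnion_le.trans (Finset.sum_le_sum fun i _ => ?_))
          exact hone i
  have hcardR : (S.card : ℝ) ≤ Ks + M * (Kc * 32 * D * (2 ^ M * Q)) := by
    have h1 : ∑ i : Fin M, Kc * 32 * D * ℓ i ≤ ∑ _i : Fin M, Kc * 32 * D * (2 ^ M * Q) :=
      Finset.sum_le_sum fun i _ => Nat.mul_le_mul_left _ (hℓ i).2.2
    rw [Finset.sum_const, Finset.card_univ, Fintype.card_fin, smul_eq_mul] at h1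
    have h2 := hcard.trans (Nat.add_le_add_left h1 _)
    exact_mod_cast h2
  have h5 : (M : ℝ) * (Kc * 32 * D * (2 ^ M * Q)) ≤
      M * (Kc * 32 * D * (2 ^ M * (2 * K3))) * P := by
    have h6 : (M : ℝ) * (Kc * 32 * D * (2 ^ M * (2 * K3))) * P =
      M * (Kc * 32 * D * (2 ^ M * (2 * K3 * P))) := by ring
    rw [h6]
    gcongr
  have h7 : (Ks : ℝ) ≤ Ks * P := le_mul_of_one_le_right (Nat.cast_nonneg _) hP
  have h8 : (Ks + M * (Kc * 32 * D * (2 ^ M * (2 * K3))) + 1) * P =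
    Ks * P + M * (Kc * 32 * D * (2 ^ M * (2 * K3))) * P + P := by ring
  rw [h8]
  linarith only [hP0, hcardR, h5, h7]

end Vale.Agent.P018.QB
end

section

/-! # P018, (B): few solutions with given `z`. -/

namespace Vale.Agent.P018.QB

open Polynomial NumberField Vale.Agent.P018.Q

section

variable {L : Type} [Field L]

/-- the values at the conjugates as a product of matrices. -/
theorem fz_mat (φ : L →+* ℂ) (θ : Fin 4 → 𝓞 L) (y : Fin 4 → Fin 4 → ℤ) :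
    (Matrix.of fun j k => φ ((K.ell (θ j) (y k) : 𝓞 L) : L) : Matrix (Fin 4) (Fin 4) ℂ).det =
      (Matrix.vandermonde fun j => φ ((θ j : 𝓞 L) : L)).det *
        (((Matrix.of fun i k => y k i : Matrix (Fin 4) (Fin 4) ℤ).det : ℤ) : ℂ) := by
  have h1 : (Matrix.of fun j k => φ ((K.ell (θ j) (y k) : 𝓞 L) : L) :
      Matrix (Fin 4) (Fin 4) ℂ) =
      (Matrix.vandermonde fun j => φ ((θ j : 𝓞 L) : L)) *
        (Matrix.of fun i k => y k i : Matrix (Fin 4) (Fin 4) ℤ).map (Int.castRingHom ℂ) := by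
    ext j k
    rw [Matrix.mul_apply]
    have e0 : φ ((K.ell (θ j) (y k) : 𝓞 L) : L) =
        (φ.comp (algebraMap (𝓞 L) L)) (K.ell (θ j) (y k)) := rfl
    rw [Matrix.of_apply, e0]
    unfold K.ell
    rw [map_sum]
    refine Finset.sum_congr rfl fun i _ => ?_
    rw [Matrix.vandermonde_apply, Matrix.map_apply, Matrix.of_apply, map_mul, map_pow,
      map_intCast, mul_comm]
    rfl
  rw [h1, Matrix.det_mul]
  congr 1
  rw [← RingHom.mapMatrix_apply, ← RingHom.map_det]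
  rfl

/-- the bound of the conjugates. -/
theorem fz_bound (φ : L →+* ℂ) (θ : Fin 4 → 𝓞 L) :
    ∃ A : ℝ, 1 ≤ A ∧ (∀ j, ‖φ ((θ j : 𝓞 L) : L)‖ ≤ A) ∧
      ∀ (j : Fin 4) (y : Fin 4 → ℤ) (B : ℝ), (∀ i, |(y i : ℝ)| ≤ B) →
        ‖φ ((K.ell (θ j) y : 𝓞 L) : L)‖ ≤ A * B := by
  set A0 : ℝ := 1 + ∑ j, ‖φ ((θ j : 𝓞 L) : L)‖ with hA0
  have h0 : ∀ j, ‖φ ((θ j : 𝓞 L) : L)‖ ≤ A0 := by
    intro j
    have h1 : ‖φ ((θ j : 𝓞 L) : L)‖ ≤ ∑ j, ‖φ ((θ j : 𝓞 L) : L)‖ :=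
      Finset.single_le_sum (f := fun j => ‖φ ((θ j : 𝓞 L) : L)‖) (fun _ _ => norm_nonneg _)
        (Finset.mem_univ j)
    linarith
  have hA1 : 1 ≤ A0 := by
    have : 0 ≤ ∑ j, ‖φ ((θ j : 𝓞 L) : L)‖ := Finset.sum_nonneg fun _ _ => norm_nonneg _
    linarith
  have hA3 : 1 ≤ A0 ^ 3 := one_le_pow₀ hA1
  refine ⟨4 * A0 ^ 3, by linarith, fun j => (h0 j).trans ?_, fun j y B hy => ?_⟩
  · have : A0 ≤ A0 ^ 3 := le_self_pow₀ hA1 (by norm_num)
    linarith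
  · have hB : 0 ≤ B := (abs_nonneg _).trans (hy 0)
    have e0 : φ ((K.ell (θ j) y : 𝓞 L) : L) =
        (φ.comp (algebraMap (𝓞 L) L)) (K.ell (θ j) y) := rfl
    rw [e0]
    unfold K.ell
    rw [map_sum]
    refine (norm_sum_le _ _).trans ?_
    calc ∑ i : Fin 4, ‖(φ.comp (algebraMap (𝓞 L) L)) (((y i : ℤ) : 𝓞 L) * θ j ^ (i : ℕ))‖
        ≤ ∑ _i : Fin 4, B * A0 ^ 3 := by
          refine Finset.sum_le_sum fun i _ => ?_
          rw [map_mul, map_pow, map_intCast, norm_mul, norm_pow, Complex.norm_intCast]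
          have h1 : ‖(φ.comp (algebraMap (𝓞 L) L)) (θ j)‖ ^ (i : ℕ) ≤ A0 ^ (i : ℕ) :=
            pow_le_pow_left₀ (norm_nonneg _) (h0 j) _
          have h2 : A0 ^ (i : ℕ) ≤ A0 ^ 3 := pow_le_pow_right₀ hA1 (by omega)
          exact mul_le_mul (hy i) (h1.trans h2) (by positivity) hB
      _ = 4 * A0 ^ 3 * B := by
          rw [Finset.sum_const, Finset.card_univ, Fintype.card_fin, nsmul_eq_mul]
          push_cast
          ring

end

/-- four solutions with the same signs are impossible. -/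
theorem fz_four (α : Fin 4 → ℂ) (hα : Function.Injective α) (C : ℝ) (hC : 1 ≤ C) (A : ℝ)
    (hA : 1 ≤ A) (hαA : ∀ j, ‖α j‖ ≤ A) :
    ∃ (X0 : ℝ) (δ : ℝ), 0 < δ ∧ δ ≤ 1 / 2 ∧ ∀ (X T : ℝ), 1 ≤ T → 1 ≤ X → X0 < X →
      T ^ 2 ≤ C * X →
      ∀ (n : Fin 4 → ℤ) (ρ s : Fin 4 → ℂ) (f P : Fin 4 → Fin 4 → ℂ) (d : ℤ),
      Function.Injective n → (∀ k, X ≤ C * |(n k : ℝ)|) → (∀ k, |(n k : ℝ)| ≤ C * X) →
      (∀ k, s k ^ 2 = (n k : ℂ)) → (∀ j, ρ j ≠ 0) →
      (∀ j k, f j k ^ 2 = 1 - α j / (n k : ℂ)) → (∀ j k, ‖f j k - 1‖ < δ) →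
      (∀ j k, P j k = ρ j * s k * f j k) → (∀ j k, ‖P j k‖ ≤ A * (C * T)) →
      (Matrix.of P).det = (Matrix.vandermonde α).det * (d : ℂ) → False := by
  obtain ⟨δ0, B, hδ0, hB, hnear⟩ := fz_near α hα
  set V : ℝ := ‖(Matrix.vandermonde α).det‖ with hV
  have hV0 : 0 < V := norm_pos_iff.2 (Matrix.det_vandermonde_ne_zero_iff.2 hα)
  refine ⟨B * (16 * C ^ 8 * A ^ 4) * (2 * C) ^ 6 * C ^ 2 / V, min δ0 (1 / 2),
    lt_min hδ0 (by norm_num), min_le_right _ _, ?_⟩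
  intro X T hT hX hX0 hTX n ρ s f P d hn hlow hup hs hρ hf hfδ hP hPb hdet
  have hX' : 0 < X := by linarith only [hX]
  have hn0 : ∀ k, (n k : ℂ) ≠ 0 := by
    intro k h
    have h1 := hlow k
    have h2 : (n k : ℝ) = 0 := by exact_mod_cast h
    rw [h2, abs_zero, mul_zero] at h1
    linarith only [h1, hX']
  have hf1 : ∀ j k, ‖f j k - 1‖ < 1 / 2 := fun j k => (hfδ j k).trans_le (min_le_right _ _)
  have hf2 : ∀ j k, 1 / 2 ≤ ‖f j k‖ := by
    intro j k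
    have h1 := hf1 j k
    have h2 : ‖(1 : ℂ)‖ ≤ ‖f j k‖ + ‖f j k - 1‖ := by
      have := norm_sub_le (f j k) (f j k - 1)
      simpa using this
    rw [norm_one] at h2
    linarith only [h2, h1]
  have hsum : ∀ j k l, f j k + f j l ≠ 0 := by
    intro j k l h
    have h1 : (f j k - 1) + (f j l - 1) = -2 := by linear_combination h
    have h2 := norm_add_le (f j k - 1) (f j l - 1)
    rw [h1, norm_neg] at h2
    have h3 := hf1 j k
    have h4 := hf1 j l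
    have h5 : ‖(2 : ℂ)‖ = 2 := by simp
    linarith only [h2, h3, h4, h5]
  obtain ⟨hD0, hDB⟩ := hnear f fun j k => (hfδ j k).trans_le (min_le_left _ _)
  set t : Fin 4 → ℂ := fun k => 1 / (n k : ℂ) with ht
  have hdetF := fz_det α f t (fun j k => by rw [hf, ht]; ring) hsum
  have htne : ∀ k l, k ≠ l → t k - t l ≠ 0 := by
    intro k l hkl h
    apply hkl
    apply hn
    have h1 : t k = t l := sub_eq_zero.1 h
    have h2 : (n k : ℂ) = n l := by
      simp only [ht, one_div, inv_inj] at h1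
      exact h1
    exact_mod_cast h2
  have htb : ∀ k l, ‖t k - t l‖ ≤ 2 * C / X := by
    have h1 : ∀ k, ‖t k‖ ≤ C / X := by
      intro k
      rw [ht]
      simp only [norm_div, norm_one, Complex.norm_intCast]
      have h2 : 0 < |(n k : ℝ)| := by
        have := hlow k
        by_contra hcon
        have h3 : |(n k : ℝ)| = 0 := le_antisymm (not_lt.1 hcon) (abs_nonneg _)
        rw [h3, mul_zero] at this
        linarith only [this, hX']
      rw [div_le_div_iff₀ h2 hX']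
      linarith [hlow k]
    intro k l
    calc ‖t k - t l‖ ≤ ‖t k‖ + ‖t l‖ := norm_sub_le _ _
      _ ≤ C / X + C / X := add_le_add (h1 k) (h1 l)
      _ = 2 * C / X := by ring
  -- the determinant
  have hPdet : (Matrix.of P).det = (∏ j, ρ j) * (∏ k, s k) * (Matrix.of f).det := by
    have h1 : (Matrix.of P : Matrix (Fin 4) (Fin 4) ℂ) =
        Matrix.diagonal ρ * Matrix.of f * Matrix.diagonal s := by
      ext j k
      rw [Matrix.mul_diagonal, Matrix.diagonal_mul, Matrix.of_apply, Matrix.of_apply, hP]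
      ring
    rw [h1, Matrix.det_mul, Matrix.det_mul, Matrix.det_diagonal, Matrix.det_diagonal]
    ring
  have hs0 : ∀ k, s k ≠ 0 := by
    intro k h
    have := hs k
    rw [h] at this
    exact hn0 k (by rw [← this]; norm_num)
  have hne : (Matrix.of P).det ≠ 0 := by
    rw [hPdet, hdetF]
    refine mul_ne_zero (mul_ne_zero (Finset.prod_ne_zero_iff.2 fun j _ => hρ j)
      (Finset.prod_ne_zero_iff.2 fun k _ => hs0 k)) (mul_ne_zero hD0 ?_)
    have a1 := htne 1 0 (by decide)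
    have a2 := htne 2 0 (by decide)
    have a3 := htne 3 0 (by decide)
    have a4 := htne 2 1 (by decide)
    have a5 := htne 3 1 (by decide)
    have a6 := htne 3 2 (by decide)
    exact mul_ne_zero (mul_ne_zero (mul_ne_zero (mul_ne_zero (mul_ne_zero a1 a2) a3) a4) a5) a6
  have hd : 1 ≤ ‖((d : ℤ) : ℂ)‖ := by
    have h1 : d ≠ 0 := by
      rintro rfl
      apply hne
      rw [hdet]
      simp
    rw [Complex.norm_intCast]
    have h2 : (1 : ℤ) ≤ |d| := Int.one_le_abs h1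
    exact_mod_cast h2
  have hVle : V ≤ ‖(Matrix.of P).det‖ := by
    rw [hdet, norm_mul]
    exact le_mul_of_one_le_right hV0.le hd
  -- sizes
  have hsn : ∀ k, ‖s k‖ ^ 2 = |(n k : ℝ)| := by
    intro k
    rw [← norm_pow, hs, Complex.norm_intCast]
  have hρs : ∀ j k, ‖ρ j‖ * ‖s k‖ ≤ 2 * (A * (C * T)) := by
    intro j k
    have h1 := hPb j k
    rw [hP, norm_mul, norm_mul] at h1
    have h2 := hf2 j k
    have h3 : 0 ≤ ‖ρ j‖ * ‖s k‖ := by (clear * -; positivity)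
    linarith only [mul_nonneg (mul_self_nonneg (1 : ℝ)) (sub_nonneg.2 h1), mul_nonneg (sub_nonneg.2 h2) (sub_nonneg.2 h3)]
  have hprod : (∏ j, ‖ρ j‖) * ∏ k, ‖s k‖ ≤ 16 * (A * (C * T)) ^ 4 := by
    rw [← Finset.prod_mul_distrib]
    calc ∏ j, ‖ρ j‖ * ‖s j‖ ≤ ∏ _j : Fin 4, 2 * (A * (C * T)) :=
          Finset.prod_le_prod (fun j _ => by (clear * -; positivity)) fun j _ => hρs j j
      _ = 16 * (A * (C * T)) ^ 4 := by
          rw [Finset.prod_const, Finset.card_univ, Fintype.card_fin]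
          ring
  have htp : ‖(t 1 - t 0) * (t 2 - t 0) * (t 3 - t 0) * (t 2 - t 1) * (t 3 - t 1) *
      (t 3 - t 2)‖ ≤ (2 * C / X) ^ 6 := by
    rw [norm_mul, norm_mul, norm_mul, norm_mul, norm_mul]
    have hh : 0 ≤ 2 * C / X := by positivity
    calc ‖t 1 - t 0‖ * ‖t 2 - t 0‖ * ‖t 3 - t 0‖ * ‖t 2 - t 1‖ * ‖t 3 - t 1‖ * ‖t 3 - t 2‖
        ≤ (2 * C / X) * (2 * C / X) * (2 * C / X) * (2 * C / X) * (2 * C / X) * (2 * C / X) := by
          gcongr <;> exact htb _ _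
      _ = (2 * C / X) ^ 6 := by ring
  have hfin : V ≤ (16 * (A * (C * T)) ^ 4) * (B * (2 * C / X) ^ 6) := by
    refine hVle.trans ?_
    rw [hPdet, hdetF, norm_mul, norm_mul, norm_mul, norm_prod, norm_prod]
    refine mul_le_mul hprod ?_ (by (clear * - hD0; positivity)) (by positivity)
    exact mul_le_mul hDB htp (norm_nonneg _) hB.le
  -- contradiction
  have hT4 : T ^ 4 ≤ C ^ 2 * X ^ 2 := by
    have h1 : (T ^ 2) ^ 2 ≤ (C * X) ^ 2 := pow_le_pow_left₀ (by positivity) hTX 2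
    calc T ^ 4 = (T ^ 2) ^ 2 := by ring
      _ ≤ (C * X) ^ 2 := h1
      _ = C ^ 2 * X ^ 2 := by ring
  have h1 : (16 * (A * (C * T)) ^ 4) * (B * (2 * C / X) ^ 6) ≤
      B * (16 * C ^ 8 * A ^ 4) * (2 * C) ^ 6 * C ^ 2 / X := by
    have e1 : (16 * (A * (C * T)) ^ 4) * (B * (2 * C / X) ^ 6) =
        B * (16 * C ^ 4 * A ^ 4) * (2 * C) ^ 6 * T ^ 4 / X ^ 6 := by
      field_simp
    rw [e1, div_le_div_iff₀ (by positivity) hX']
    have e2 : C ^ 4 ≤ C ^ 8 := pow_le_pow_right₀ hC (by norm_num)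
    have e3 : X ^ 3 ≤ X ^ 6 := pow_le_pow_right₀ hX (by norm_num)
    calc B * (16 * C ^ 4 * A ^ 4) * (2 * C) ^ 6 * T ^ 4 * X
        ≤ B * (16 * C ^ 8 * A ^ 4) * (2 * C) ^ 6 * (C ^ 2 * X ^ 2) * X := by gcongr
      _ = B * (16 * C ^ 8 * A ^ 4) * (2 * C) ^ 6 * C ^ 2 * X ^ 3 := by ring
      _ ≤ B * (16 * C ^ 8 * A ^ 4) * (2 * C) ^ 6 * C ^ 2 * X ^ 6 := by gcongr
  have h2 : B * (16 * C ^ 8 * A ^ 4) * (2 * C) ^ 6 * C ^ 2 / X < V := by
    rw [div_lt_iff₀ hX']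
    rw [div_lt_iff₀ hV0] at hX0
    linarith only [hX0]
  linarith only [h2, h1, hfin]

/-- few solutions with given `z`. -/
theorem few_z {L : Type} [Field L] [NumberField L] (θ : Fin 4 → 𝓞 L) (G : ℤ[X])
    (hG : Root4 θ G) (C : ℕ) : ∃ K : ℕ, ∀ (X T : ℝ), 1 ≤ T → 1 ≤ X → T ^ 2 ≤ C * X → X ≤ C * T ^ 4 →
      ∀ (c : ℤ) (z : Fin 4 → ℤ) (S : Finset ℤ) (p : ℤ → ℕ) (y : ℤ → Fin 4 → ℤ),
      (∀ N ∈ S, X ≤ C * |(N : ℝ)| ∧ Dat θ C X T N (p N) c (y N) z) → S.card ≤ K := by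
  classical
  by_cases hC : C = 0
  · refine ⟨0, fun X T hT hX hTX => ?_⟩
    exfalso
    rw [hC] at hTX
    simp at hTX
    linarith only [hTX, hT]
  have hC1 : (1 : ℝ) ≤ C := by exact_mod_cast Nat.one_le_iff_ne_zero.2 hC
  obtain ⟨φ⟩ : Nonempty (L →+* ℂ) := inferInstance
  obtain ⟨A, hA1, hαA, hell⟩ := fz_bound φ θ
  set α : Fin 4 → ℂ := fun j => φ ((θ j : 𝓞 L) : L) with hα
  have hαinj : Function.Injective α := fun i j h => hG.inj (RingOfIntegers.ext (φ.injective h))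
  obtain ⟨X0, δ, hδ, hδ2, hfour⟩ := fz_four α hαinj C hC1 A hA1 hαA
  set X1 : ℝ := max X0 (A * C / δ) with hX1
  refine ⟨2 * ⌈(C : ℝ) * X1⌉₊ + 1 + 48, fun X T hT hX hTX hXT c z S p y hS => ?_⟩
  by_cases hXX : X ≤ X1
  · refine (fy_card S ⌈(C : ℝ) * X1⌉₊ fun N hN => ?_).trans (by omega)
    obtain ⟨-, hd⟩ := hS N hN
    have h1 : |(N : ℝ)| ≤ ((⌈(C : ℝ) * X1⌉₊ : ℕ) : ℝ) :=
      (hd.hN.trans (mul_le_mul_of_nonneg_left hXX (by positivity))).trans (Nat.le_ceil _)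
    have h2 : ((|N| : ℤ) : ℝ) ≤ ((⌈(C : ℝ) * X1⌉₊ : ℕ) : ℝ) := by
      push_cast
      exact h1
    exact_mod_cast h2
  · push Not at hXX
    have hX0 : X0 < X := (le_max_left _ _).trans_lt hXX
    have hXA : A * C / δ < X := (le_max_right _ _).trans_lt hXX
    by_contra hcon
    have hcard : 48 < S.card := by omega
    have hX' : 0 < X := by linarith only [hδ, hδ2, hX]
    -- the points
    have hNpos : ∀ N ∈ S, 0 < |(N : ℝ)| := by
      intro N hN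
      have h1 := (hS N hN).1
      by_contra hcon
      have h3 : |(N : ℝ)| = 0 := le_antisymm (not_lt.1 hcon) (abs_nonneg _)
      rw [h3, mul_zero] at h1
      linarith only [h1, hX']
    have hsmall : ∀ N ∈ S, ∀ j, ‖α j / (N : ℂ)‖ < δ := by
      intro N hN j
      have h1 := (hS N hN).1
      rw [norm_div, Complex.norm_intCast, div_lt_iff₀ (hNpos N hN)]
      rw [div_lt_iff₀ hδ] at hXA
      have h2 := hαA j
      have h3 : A * C < C * |(N : ℝ)| * δ := by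
        calc A * C < X * δ := hXA
          _ ≤ C * |(N : ℝ)| * δ := mul_le_mul_of_nonneg_right h1 hδ.le
      have h4 : A < |(N : ℝ)| * δ := by
        by_contra h5
        push Not at h5
        have : C * (|(N : ℝ)| * δ) ≤ C * A := mul_le_mul_of_nonneg_left h5 (by positivity)
        linarith only [this, h3]
      linarith only [h4, h2]
    choose f hf hf1 using fun (j : Fin 4) (N : ℤ) => fz_sqrt (α j / (N : ℂ))
    choose s hs using fun N : ℤ => IsAlgClosed.exists_pow_nat_eq (N : ℂ) (n := 2) (by norm_num)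
    set γ : Fin 4 → ℂ := fun j => φ ((K.ell (θ j) z : 𝓞 L) : L) with hγ
    choose ρ hρ using fun j => IsAlgClosed.exists_pow_nat_eq ((c : ℂ) / γ j) (n := 2)
      (by norm_num)
    have hmap : ∀ N ∈ S, ∀ j, (c : ℂ) * ((N : ℂ) - α j) =
        φ ((K.ell (θ j) (y N) : 𝓞 L) : L) ^ 2 * γ j := by
      intro N hN j
      have h1 := (hS N hN).2.eqn j
      have h2 := congrArg (φ.comp (algebraMap (𝓞 L) L)) h1
      rw [map_mul, map_mul, map_sub, map_pow, map_intCast, map_intCast] at h2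
      exact h2
    have hne : ∀ N ∈ S, ∀ j, (N : ℂ) - α j ≠ 0 := by
      intro N hN j h
      have h1 := hsmall N hN j
      have h2 : α j = N := (sub_eq_zero.1 h).symm
      have h3 : (N : ℂ) ≠ 0 := by
        intro h4
        have h5 : (N : ℝ) = 0 := by exact_mod_cast h4
        have h6 := hNpos N hN
        rw [h5, abs_zero] at h6
        exact lt_irrefl _ h6
      rw [h2, div_self h3, norm_one] at h1
      linarith only [hδ2, h1]
    obtain ⟨N₀, hN₀⟩ : S.Nonempty := Finset.card_pos.1 (by omega)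
    have hc0 : (c : ℂ) ≠ 0 := by
      have := (hS N₀ hN₀).2.c0
      exact_mod_cast this
    have hγ0 : ∀ j, γ j ≠ 0 := by
      intro j h
      have h1 := hmap N₀ hN₀ j
      rw [h, mul_zero] at h1
      exact mul_ne_zero hc0 (hne N₀ hN₀ j) h1
    have hρ0 : ∀ j, ρ j ≠ 0 := by
      intro j h
      have h1 := hρ j
      rw [h] at h1
      exact div_ne_zero hc0 (hγ0 j) (by rw [← h1]; norm_num)
    have hsq : ∀ N ∈ S, ∀ j, φ ((K.ell (θ j) (y N) : 𝓞 L) : L) ^ 2 =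
        (ρ j * s N * f j N) ^ 2 := by
      intro N hN j
      have h1 := hmap N hN j
      have h3 : (N : ℂ) ≠ 0 := by
        intro h4
        have h5 : (N : ℝ) = 0 := by exact_mod_cast h4
        have h6 := hNpos N hN
        rw [h5, abs_zero] at h6
        exact lt_irrefl _ h6
      rw [mul_pow, mul_pow, hρ, hs, hf]
      have h4 := hγ0 j
      field_simp
      linear_combination -h1
    -- pigeonhole on the signs
    set e : ℤ → Fin 4 → Bool := fun N j =>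
      decide (φ ((K.ell (θ j) (y N) : 𝓞 L) : L) = ρ j * s N * f j N) with he
    obtain ⟨e₀, -, he₀⟩ := Finset.exists_lt_card_fiber_of_mul_lt_card_of_maps_to
      (s := S) (t := (Finset.univ : Finset (Fin 4 → Bool))) (f := e) (n := 3)
      (fun _ _ => Finset.mem_univ _) (by
        rw [Finset.card_univ, Fintype.card_fun, Fintype.card_bool, Fintype.card_fin]
        omega)
    obtain ⟨S', hS', hS'c⟩ := Finset.exists_subset_card_eq (show 4 ≤ _ from he₀)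
    set n : Fin 4 → ℤ := fun k => S'.orderEmbOfFin hS'c k with hn
    have hninj : Function.Injective n := (S'.orderEmbOfFin hS'c).injective
    have hnS : ∀ k, n k ∈ S ∧ e (n k) = e₀ := fun k =>
      Finset.mem_filter.1 (hS' (Finset.orderEmbOfFin_mem S' hS'c k))
    set η : Fin 4 → ℂ := fun j => if e₀ j = true then 1 else -1 with hη
    have hη0 : ∀ j, η j ≠ 0 := by
      intro j
      rw [hη]
      dsimp only
      split_ifs <;> norm_num
    have hP : ∀ j k, φ ((K.ell (θ j) (y (n k)) : 𝓞 L) : L) =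
        η j * ρ j * s (n k) * f j (n k) := by
      intro j k
      obtain ⟨h1, h2⟩ := hnS k
      have h3 : e (n k) j = e₀ j := congrFun h2 j
      by_cases h4 : e₀ j = true
      · rw [h4] at h3
        have h5 : φ ((K.ell (θ j) (y (n k)) : 𝓞 L) : L) = ρ j * s (n k) * f j (n k) :=
          of_decide_eq_true h3
        rw [h5, hη]
        dsimp only
        rw [if_pos h4, one_mul]
      · have h5 : ¬ φ ((K.ell (θ j) (y (n k)) : 𝓞 L) : L) = ρ j * s (n k) * f j (n k) := by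
          intro h6
          apply h4
          rw [← h3]
          exact decide_eq_true h6
        have h6 := sq_eq_sq_iff_eq_or_eq_neg.1 (hsq (n k) h1 j)
        rw [h6.resolve_left h5, hη]
        dsimp only
        rw [if_neg h4]
        ring
    refine hfour X T hT hX hX0 hTX n (fun j => η j * ρ j) (fun k => s (n k))
      (fun j k => f j (n k)) (fun j k => φ ((K.ell (θ j) (y (n k)) : 𝓞 L) : L))
      (Matrix.of fun i k => y (n k) i : Matrix (Fin 4) (Fin 4) ℤ).det hninj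
      (fun k => (hS _ (hnS k).1).1) (fun k => (hS _ (hnS k).1).2.hN) (fun k => hs _)
      (fun j => mul_ne_zero (hη0 j) (hρ0 j)) (fun j k => hf j _)
      (fun j k => (hf1 j _).trans_lt (hsmall _ (hnS k).1 j)) (fun j k => hP j k)
      (fun j k => hell j _ _ (hS _ (hnS k).1).2.hy) (fz_mat φ θ fun k => y (n k))

end Vale.Agent.P018.QB
end
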