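import Mathlib
import Vale.Agent.P018.Bdl.B18
import Vale.Agent.P018.Bdl.B11
import Vale.Agent.P018.Bdl.B17
import Vale.Agent.P018.Bdl.B9
import Vale.Agent.P018.Bdl.B14
import Vale.Agent.P018.Bdl.B13
import Vale.Agent.P018.Bdl.B16
import Vale.Agent.P018.Bdl.B7
import Vale.Agent.P018.Bdl.B2
import Vale.Agent.P018.Bdl.B15
import Vale.Agent.P018.Bdl.B8

set_option linter.all false

section

/-! # P018, quartics, family (A): the number of points over one reduced pair. -/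

namespace Vale.Agent.P018.Q

open Polynomial NumberField Finset

variable {L : Type} [Field L] [NumberField L]

/-- the point of the kappa model attached to a solution, with coordinates of bounded height;
in the remaining case `N` is on the rational curve `A 1 (σ) N = B 1 (σ)`. -/
theorem exists_kp {G : ℤ[X]} {θ : Fin 4 → 𝓞 L} (hF : Fld G θ) (C C0 : ℕ) : ∃ C1 : ℕ,
    ∀ (H : ℕ) (X T : ℝ) (l1 l2 : Fin 4 → ℤ) (d : Fin 2 → ℕ)
      (A B : Fin 2 → ℤ[X]) (Z : Fin 2 → Fin 4 → ℤ[X]) (Λ : ℤ[X]) (e : ℤ)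
      (N : ℤ) (p : ℕ) (c : ℤ) (z : Fin 4 → ℤ) (s t : ℤ),
      2 ≤ H → X ≤ H → T ≤ H → t ≠ 0 → l1 ≠ 0 → l2 ≠ 0 → KData θ l1 l2 d A B Z Λ e →
      (∀ i k, |(A i).coeff k| ≤ (H : ℤ) ^ C0) → (∀ i k, |(B i).coeff k| ≤ (H : ℤ) ^ C0) →
      Pt θ C X T l1 l2 N p c z s t →
      (aeval ((s : ℚ) / t) (A 1) ≠ 0 ∧
        aeval ((s : ℚ) / t) (A 1) * (N : ℚ) = aeval ((s : ℚ) / t) (B 1)) ∨
      ∃ kn kd : ℤ, KP A B Z N c s t kn kd z ∧ |kn| ≤ (H : ℤ) ^ C1 ∧ |kd| ≤ (H : ℤ) ^ C1 := by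
  exact PairKp.exists_kp hF C C0

/-- the local count: at most `X^(β+η)` points over one reduced pair. -/
theorem pair_local {G : ℤ[X]} {θ : Fin 4 → 𝓞 L} (hF : Fld G θ) (C : ℕ) (w m1 m2 β : ℝ)
    (hw : 1 / 4 ≤ w) (hw' : w ≤ 1 / 2) (hm1 : 0 ≤ m1) (hm12 : m1 ≤ m2) (hm : m2 < w)
    (hβ : 0 < β) (hrel : NumRel w m1 m2 β) (hcur : NumCurve w m1 β) (η : ℝ) (hη : 0 < η) :
    ∃ ε : ℝ, 0 < ε ∧ ∃ K : ℝ, 0 < K ∧ ∀ (X T : ℝ) (l1 l2 : Fin 4 → ℤ),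
      K ≤ X → X ≤ T ^ 4 → X ^ (w - ε) ≤ T → T ≤ X ^ (w + ε) → Red l1 l2 →
      X ^ (2 * (m1 - ε)) ≤ dot l1 l1 → (dot l1 l1 : ℝ) ≤ X ^ (2 * (m1 + ε)) →
      X ^ (2 * (m2 - ε)) ≤ dot l2 l2 → (dot l2 l2 : ℝ) ≤ X ^ (2 * (m2 + ε)) →
      ∀ S : Finset ℤ, (∀ N ∈ S, ∃ (p : ℕ) (c : ℤ) (z : Fin 4 → ℤ) (s t : ℤ),
        Pt θ C X T l1 l2 N p c z s t) → (S.card : ℝ) ≤ X ^ (β + η) := by
  exact pair_local_of hF C w m1 m2 β hw hw' hm1 hm12 hm hβ hcur (fun C0 => exists_kp hF C C0)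
    (fun C0 => class_curves hF C C0 w m1 m2 β (by linarith only [hm, hm12, hm1]) hm1 (hm1.trans hm12) hm hβ hrel) η hη

end Vale.Agent.P018.Q
end

section

/-! # P018, quartics, family (A): the count near one pair of exponents. -/

namespace Vale.Agent.P018.Q

open Polynomial NumberField Finset

variable {L : Type} [Field L] [NumberField L]

/-- summation over the pairs of a bound for every pair. -/
private theorem lp_fin (θ : Fin 4 → 𝓞 L) (C : ℕ) (w m1 m2 γ : ℝ)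
    (hm1 : 0 ≤ m1) (hm2 : 0 ≤ m2) (hγ : 5 * m1 + 3 * m2 + γ < 1)
    (h : ∃ ε : ℝ, 0 < ε ∧ ∃ K : ℝ, 0 < K ∧ ∀ (X T : ℝ) (l1 l2 : Fin 4 → ℤ),
      K ≤ X → X ≤ T ^ 4 → X ^ (w - ε) ≤ T → T ≤ X ^ (w + ε) → Red l1 l2 →
      X ^ (2 * (m1 - ε)) ≤ dot l1 l1 → (dot l1 l1 : ℝ) ≤ X ^ (2 * (m1 + ε)) →
      X ^ (2 * (m2 - ε)) ≤ dot l2 l2 → (dot l2 l2 : ℝ) ≤ X ^ (2 * (m2 + ε)) →
      ∀ S : Finset ℤ, (∀ N ∈ S, ∃ (p : ℕ) (c : ℤ) (z : Fin 4 → ℤ) (s t : ℤ),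
        Pt θ C X T l1 l2 N p c z s t) → (S.card : ℝ) ≤ X ^ γ) :
    ∃ ε : ℝ, 0 < ε ∧ ∃ K : ℝ, 0 < K ∧ ∀ (X T : ℝ) (S : Finset ℤ),
      K ≤ X → X ≤ T ^ 4 → X ^ (w - ε) ≤ T → T ≤ X ^ (w + ε) →
      (∀ N ∈ S, ∃ (l1 l2 : Fin 4 → ℤ) (p : ℕ) (c : ℤ) (z : Fin 4 → ℤ) (s t : ℤ), Red l1 l2 ∧
        (dot l1 l1 : ℝ) * dot l2 l2 ≤ C * T ^ (4 / 3 : ℝ) ∧ Pt θ C X T l1 l2 N p c z s t ∧
        X ^ (2 * (m1 - ε)) ≤ dot l1 l1 ∧ (dot l1 l1 : ℝ) ≤ X ^ (2 * (m1 + ε)) ∧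
        X ^ (2 * (m2 - ε)) ≤ dot l2 l2 ∧ (dot l2 l2 : ℝ) ≤ X ^ (2 * (m2 + ε))) →
      (S.card : ℝ) ≤ X ^ (1 - ε) := by
  classical
  obtain ⟨ε0, hε0, K0, hK0, h⟩ := h
  set ε : ℝ := min ε0 ((1 - (5 * m1 + 3 * m2 + γ)) / 11) with hε
  have hεpos : 0 < ε := lt_min hε0 (by linarith only [hγ])
  have hε1 : ε ≤ ε0 := min_le_left _ _
  have hε2 : ε ≤ (1 - (5 * m1 + 3 * m2 + γ)) / 11 := min_le_right _ _
  obtain ⟨K1, hK1, hsum⟩ := sum_pairs m1 m2 ε hm1 hm2 hεpos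
  refine ⟨ε, hεpos, max (max K0 K1) 1, by positivity, ?_⟩
  intro X T S hKX hXT hT1 hT2 hS
  have hX0 : K0 ≤ X := le_trans (le_trans (le_max_left _ _) (le_max_left _ _)) hKX
  have hX1 : K1 ≤ X := le_trans (le_trans (le_max_right _ _) (le_max_left _ _)) hKX
  have hX : 1 ≤ X := le_trans (le_max_right _ _) hKX
  have mono : ∀ {a b : ℝ}, a ≤ b → X ^ a ≤ X ^ b := fun hab =>
    Real.rpow_le_rpow_of_exponent_le hX hab
  let R : ℤ → (Fin 4 → ℤ) × (Fin 4 → ℤ) → Prop := fun N l =>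
    X ^ (2 * (m2 - ε)) ≤ dot l.2 l.2 ∧ ∃ (p : ℕ) (c : ℤ) (z : Fin 4 → ℤ) (s t : ℤ),
      Pt θ C X T l.1 l.2 N p c z s t
  refine (hsum X γ S R hX1 ?_ ?_).trans (mono (by linarith only [hε2]))
  · intro N hN
    obtain ⟨l1, l2, p, c, z, s, t, hred, -, hpt, h1, h2, h3, h4⟩ := hS N hN
    exact ⟨(l1, l2), ⟨h3, p, c, z, s, t, hpt⟩, hred, h1, h2, h4⟩
  · intro l hred h1 h2 h4 S' _ hR
    rcases S'.eq_empty_or_nonempty with rfl | ⟨N0, hN0⟩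
    · rw [card_empty, Nat.cast_zero]
      positivity
    · have h3 := (hR N0 hN0).1
      exact h X T l.1 l.2 hX0 hXT ((mono (by linarith only [hε1])).trans hT1)
        (hT2.trans (mono (by linarith only [hε1]))) hred ((mono (by linarith only [hε1])).trans h1)
        (h2.trans (mono (by linarith only [hε1]))) ((mono (by linarith only [hε1])).trans h3)
        (h4.trans (mono (by linarith only [hε1]))) S' (fun N hN => (hR N hN).2)

/-- the count near the exponents `(m1, m2)`. -/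
theorem local_pairs {G : ℤ[X]} {θ : Fin 4 → 𝓞 L} (hF : Fld G θ) (C : ℕ) (w m1 m2 : ℝ)
    (hw : 1 / 4 ≤ w) (hw' : w ≤ 0.349) (hm1 : 0 ≤ m1) (hm2 : 0 ≤ m2) :
    ∃ ε : ℝ, 0 < ε ∧ ∃ K : ℝ, 0 < K ∧ ∀ (X T : ℝ) (S : Finset ℤ),
      K ≤ X → X ≤ T ^ 4 → X ^ (w - ε) ≤ T → T ≤ X ^ (w + ε) →
      (∀ N ∈ S, ∃ (l1 l2 : Fin 4 → ℤ) (p : ℕ) (c : ℤ) (z : Fin 4 → ℤ) (s t : ℤ), Red l1 l2 ∧
        (dot l1 l1 : ℝ) * dot l2 l2 ≤ C * T ^ (4 / 3 : ℝ) ∧ Pt θ C X T l1 l2 N p c z s t ∧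
        X ^ (2 * (m1 - ε)) ≤ dot l1 l1 ∧ (dot l1 l1 : ℝ) ≤ X ^ (2 * (m1 + ε)) ∧
        X ^ (2 * (m2 - ε)) ≤ dot l2 l2 ∧ (dot l2 l2 : ℝ) ≤ X ^ (2 * (m2 + ε))) →
      (S.card : ℝ) ≤ X ^ (1 - ε) := by
  classical
  rcases lt_or_ge m2 m1 with hlt | hm12
  · -- the pair is not reduced
    refine ⟨(m1 - m2) / 4, by linarith only [hlt], 2, by norm_num, ?_⟩
    intro X T S hKX _ _ _ hS
    rcases S.eq_empty_or_nonempty with rfl | ⟨N, hN⟩
    · rw [card_empty, Nat.cast_zero]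
      positivity
    · exfalso
      obtain ⟨l1, l2, p, c, z, s, t, hred, -, -, h1, -, -, h4⟩ := hS N hN
      have h5 : (dot l1 l1 : ℝ) ≤ dot l2 l2 := by exact_mod_cast hred.2.1
      have h6 := (h1.trans h5).trans h4
      rw [Real.rpow_le_rpow_left_iff (by linarith only [hKX])] at h6
      linarith only [h6, hlt]
  rcases lt_or_ge (2 / 3 * w) (m1 + m2) with hgt | hle
  · -- the pair is too long
    set δ : ℝ := 2 * (m1 + m2) - 4 / 3 * w with hδ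
    have hδ0 : 0 < δ := by rw [hδ]; linarith only [hgt]
    refine ⟨δ / 16, by linarith only [hδ0], max 1 (((C : ℝ) + 1) ^ (3 / (2 * δ))), by positivity, ?_⟩
    intro X T S hKX _ hT1 hT2 hS
    have hX1 : 1 ≤ X := le_trans (le_max_left _ _) hKX
    have hXC : ((C : ℝ) + 1) ^ (3 / (2 * δ)) ≤ X := le_trans (le_max_right _ _) hKX
    have hX0 : 0 < X := by linarith only [hX1]
    rcases S.eq_empty_or_nonempty with rfl | ⟨N, hN⟩
    · rw [card_empty, Nat.cast_zero]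
      positivity
    · exfalso
      obtain ⟨l1, l2, p, c, z, s, t, -, hprod, -, h1, -, h3, -⟩ := hS N hN
      have hT0 : 0 ≤ T := le_trans (by positivity) hT1
      have e1 : X ^ (2 * (m1 - δ / 16)) * X ^ (2 * (m2 - δ / 16)) ≤
          C * (X ^ (w + δ / 16)) ^ (4 / 3 : ℝ) := by
        refine (mul_le_mul h1 h3 (by positivity) ((by positivity : (0:ℝ) ≤ _).trans h1)).trans
          (hprod.trans ?_)
        gcongr
      rw [← Real.rpow_add hX0, ← Real.rpow_mul hX0.le] at e1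
      have e2 : X ^ (2 * (m1 - δ / 16) + 2 * (m2 - δ / 16)) =
          X ^ ((w + δ / 16) * (4 / 3)) * X ^ (2 * δ / 3) := by
        rw [← Real.rpow_add hX0]
        congr 1
        rw [hδ]
        ring
      rw [e2, mul_comm] at e1
      have e3 : X ^ (2 * δ / 3) ≤ C := le_of_mul_le_mul_right e1 (by positivity)
      have e4 : (C : ℝ) + 1 ≤ X ^ (2 * δ / 3) := by
        have := Real.rpow_le_rpow (by (clear * -; positivity)) hXC (show 0 ≤ 2 * δ / 3 by (clear * - hδ0; positivity))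
        rwa [← Real.rpow_mul (by (clear * -; positivity)), show 3 / (2 * δ) * (2 * δ / 3) = 1 by field_simp,
          Real.rpow_one] at this
      linarith only [e4, e3]
  have hm2w : m2 < w := by linarith
  rcases lt_or_ge (4 * m1 + 2 * m2) (1 - 2 * w) with hsm | hbig
  · -- the trivial count
    obtain ⟨δ, hδ⟩ : ∃ δ : ℝ, δ = 1 - 2 * w - (4 * m1 + 2 * m2) := ⟨_, rfl⟩
    exact lp_fin θ C w m1 m2 (2 * w - m1 - m2 + δ / 2) hm1 hm2 (by linarith only [hδ, hsm])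
      (pair_trivial hF C w m1 m2 hw hm1 hm12 hm2w (δ / 2) (by linarith only [hδ, hsm]))
  · obtain ⟨β, hβ, hβ1, hrel, hcur⟩ := admA w m1 m2 hw hw' hm1 hm12 hle hbig
    obtain ⟨δ, hδ⟩ : ∃ δ : ℝ, δ = 1 - (5 * m1 + 3 * m2 + β) := ⟨_, rfl⟩
    norm_num at hw'
    exact lp_fin θ C w m1 m2 (β + δ / 2) hm1 hm2 (by linarith only [hδ, hβ1])
      (pair_local hF C w m1 m2 β hw (by linarith only [hw', hβ1, hβ, hbig, hm12]) hm1 hm12 hm2w hβ hrel hcur (δ / 2)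
        (by linarith only [hδ, hβ1]))

end Vale.Agent.P018.Q
end

section

/-! # P018, quartics, family (A): summation over the reduced pairs, compactness. -/

namespace Vale.Agent.P018.Q

open Polynomial NumberField Finset

variable {L : Type} [Field L] [NumberField L]

/-- compactness in the exponents of the reduced pairs. -/
theorem all_pairs {G : ℤ[X]} {θ : Fin 4 → 𝓞 L} (hF : Fld G θ) (C : ℕ) (w : ℝ)
    (hw : 1 / 4 ≤ w) (hw' : w ≤ 0.349) :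
    ∃ ε : ℝ, 0 < ε ∧ ∃ K : ℝ, 0 < K ∧ ∀ (X T : ℝ) (S : Finset ℤ),
      K ≤ X → X ≤ T ^ 4 → X ^ (w - ε) ≤ T → T ≤ X ^ (w + ε) →
      (∀ N ∈ S, ∃ (l1 l2 : Fin 4 → ℤ) (p : ℕ) (c : ℤ) (z : Fin 4 → ℤ) (s t : ℤ), Red l1 l2 ∧
        (dot l1 l1 : ℝ) * dot l2 l2 ≤ C * T ^ (4 / 3 : ℝ) ∧ Pt θ C X T l1 l2 N p c z s t) →
      (S.card : ℝ) ≤ X ^ (1 - ε) := by
  exact all_of_local θ C w hw' fun m1 m2 h1 h2 => local_pairs hF C w m1 m2 hw hw' h1 h2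

end Vale.Agent.P018.Q
end

section

namespace Vale.Agent.P018.Q

open Polynomial NumberField

theorem dat_mono {L : Type} [Field L] [NumberField L] {θ : Fin 4 → 𝓞 L} {C C' : ℕ} (h : C ≤ C')
    {X T : ℝ} (hX : 0 ≤ X) (hT : 0 ≤ T) {N : ℤ} {p : ℕ} {c : ℤ} {y z : Fin 4 → ℤ}
    (hd : Dat θ C X T N p c y z) : Dat θ C' X T N p c y z := by
  have h1 : (C : ℝ) ≤ C' := by exact_mod_cast h
  have h2 : (C : ℤ) ≤ C' := by exact_mod_cast h
  obtain ⟨c', hc1, hc2, hc3⟩ := hd.nrm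
  refine ⟨hd.prime, hd.lo, hd.hi, hd.c0, hd.cC.trans h2, ⟨c', hc1, hc2.trans h2, hc3⟩, hd.eqn,
    hd.hN.trans ?_, fun j => (hd.hy j).trans ?_, fun j => (hd.hz j).trans ?_⟩
  · exact mul_le_mul_of_nonneg_right h1 hX
  · exact mul_le_mul_of_nonneg_right h1 hT
  · exact div_le_div_of_nonneg_right (mul_le_mul_of_nonneg_right h1 hX) (by (clear * -; positivity))

theorem dat_y_ne {L : Type} [Field L] [NumberField L] {θ : Fin 4 → 𝓞 L} {C : ℕ}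
    {X T : ℝ} {N : ℤ} {p : ℕ} {c : ℤ} {y z : Fin 4 → ℤ}
    (hd : Dat θ C X T N p c y z) : y ≠ 0 := by
  rintro rfl
  obtain ⟨c', hc1, -, hc3⟩ := hd.nrm
  have h1 : K.ell (θ 0) (0 : Fin 4 → ℤ) = 0 := by
    unfold K.ell
    simp
  rw [Finset.prod_eq_zero (Finset.mem_univ (0 : Fin 4)) h1] at hc3
  have h2 : ((p : ℤ) * c' : ℤ) ≠ 0 :=
    mul_ne_zero (by exact_mod_cast hd.prime.ne_zero) hc1
  exact h2 (by exact_mod_cast hc3.symm)

/-- the size of `dot y y`. -/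
theorem dot_le_sq (y : Fin 4 → ℤ) (B : ℝ) (hy : ∀ j, |(y j : ℝ)| ≤ B) :
    (dot y y : ℝ) ≤ 4 * B ^ 2 := by
  have h : ∀ j, (y j : ℝ) * y j ≤ B ^ 2 := by
    intro j
    rw [← sq, ← sq_abs]
    exact pow_le_pow_left₀ (abs_nonneg _) (hy j) 2
  unfold dot
  push_cast
  rw [Fin.sum_univ_four]
  linarith [h 0, h 1, h 2, h 3]

/-- the numerical inequality for the product of the two lengths. -/
theorem rank_size (C1 : ℕ) (C2 T D : ℝ) (hC2 : 1 ≤ C2) (hT : 0 ≤ T) (hD0 : 0 ≤ D)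
    (hD : D ≤ 4 * ((C1 : ℝ) * T) ^ 2) :
    C2 * D ^ (2 / 3 : ℝ) ≤ ((C1 + ⌈C2 * (4 * (C1 : ℝ) ^ 2 + 1)⌉₊ : ℕ) : ℝ) * T ^ (4 / 3 : ℝ) := by
  have h1 : D ^ (2 / 3 : ℝ) ≤ (4 * (C1 : ℝ) ^ 2 + 1) * T ^ (4 / 3 : ℝ) := by
    calc D ^ (2 / 3 : ℝ) ≤ ((4 * (C1 : ℝ) ^ 2 + 1) * T ^ 2) ^ (2 / 3 : ℝ) := by
          refine Real.rpow_le_rpow hD0 (hD.trans ?_) (by norm_num)
          linarith only [sq_nonneg T]
      _ = (4 * (C1 : ℝ) ^ 2 + 1) ^ (2 / 3 : ℝ) * (T ^ 2) ^ (2 / 3 : ℝ) :=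
          Real.mul_rpow (by positivity) (by positivity)
      _ ≤ (4 * (C1 : ℝ) ^ 2 + 1) * T ^ (4 / 3 : ℝ) := by
          have e1 : (T ^ 2) ^ (2 / 3 : ℝ) = T ^ (4 / 3 : ℝ) := by
            rw [← Real.rpow_natCast T 2, ← Real.rpow_mul hT]
            norm_num
          have e2 : (4 * (C1 : ℝ) ^ 2 + 1) ^ (2 / 3 : ℝ) ≤ 4 * (C1 : ℝ) ^ 2 + 1 := by
            have e3 : (1 : ℝ) ≤ 4 * (C1 : ℝ) ^ 2 + 1 := by linarith only [sq_nonneg (C1 : ℝ)]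
            calc (4 * (C1 : ℝ) ^ 2 + 1) ^ (2 / 3 : ℝ) ≤ (4 * (C1 : ℝ) ^ 2 + 1) ^ (1 : ℝ) :=
                  Real.rpow_le_rpow_of_exponent_le e3 (by norm_num)
              _ = _ := Real.rpow_one _
          rw [e1]
          exact mul_le_mul_of_nonneg_right e2 (by positivity)
  have h2 : C2 * (4 * (C1 : ℝ) ^ 2 + 1) ≤ ((C1 + ⌈C2 * (4 * (C1 : ℝ) ^ 2 + 1)⌉₊ : ℕ) : ℝ) := by
    push_cast
    have := Nat.le_ceil (C2 * (4 * (C1 : ℝ) ^ 2 + 1))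
    have h3 : (0 : ℝ) ≤ C1 := Nat.cast_nonneg _
    linarith only [h3, this]
  calc C2 * D ^ (2 / 3 : ℝ) ≤ C2 * ((4 * (C1 : ℝ) ^ 2 + 1) * T ^ (4 / 3 : ℝ)) :=
        mul_le_mul_of_nonneg_left h1 (by linarith only [hC2])
    _ = C2 * (4 * (C1 : ℝ) ^ 2 + 1) * T ^ (4 / 3 : ℝ) := by ring
    _ ≤ _ := mul_le_mul_of_nonneg_right h2 (by positivity)

theorem rank_size2 (C1 : ℕ) (C2 T D : ℝ) (hC2 : 1 ≤ C2)
    (hD : D ≤ 4 * ((C1 : ℝ) * T) ^ 2) :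
    C2 * D ≤ ((C1 + ⌈C2 * (4 * (C1 : ℝ) ^ 2 + 1)⌉₊ : ℕ) : ℝ) * T ^ 2 := by
  have h2 : C2 * (4 * (C1 : ℝ) ^ 2 + 1) ≤ ((C1 + ⌈C2 * (4 * (C1 : ℝ) ^ 2 + 1)⌉₊ : ℕ) : ℝ) := by
    push_cast
    have := Nat.le_ceil (C2 * (4 * (C1 : ℝ) ^ 2 + 1))
    have h3 : (0 : ℝ) ≤ C1 := Nat.cast_nonneg _
    linarith
  calc C2 * D ≤ C2 * (4 * ((C1 : ℝ) * T) ^ 2) := mul_le_mul_of_nonneg_left hD (by linarith)
    _ ≤ C2 * (4 * (C1 : ℝ) ^ 2 + 1) * T ^ 2 := by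
        have : 0 ≤ C2 * T ^ 2 := by positivity
        linarith only [this]
    _ ≤ _ := mul_le_mul_of_nonneg_right h2 (sq_nonneg T)

theorem famA (f : ℤ[X]) (hirr : Irreducible (f.map (Int.castRingHom ℚ))) (hd : f.natDegree = 4)
    (a : ℝ) (h1 : 1 ≤ a) (h2 : a ≤ 1.3955) : Near f a := by
  classical
  obtain ⟨L, _, _, θ, G, a0, C1, ha0, hGm, hGd, hGi, hθi, hθ, hdat⟩ := exists_dat f hirr hd
  obtain ⟨C2, hC2, hrk⟩ := exists_rank2
  have hF : Fld G θ := ⟨hGm, hGd, hGi, hθi, hθ⟩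
  obtain ⟨X1, hX1⟩ := pairs_le f hirr hd a0 ha0
  obtain ⟨ε, hε, K, hK, hall⟩ := all_pairs hF (C1 + ⌈C2 * (4 * (C1 : ℝ) ^ 2 + 1)⌉₊) (a / 4)
    (by linarith only [h1]) (by norm_num at h2 ⊢; linarith only [h2])
  refine ⟨4 * ε, by positivity, ε, 4, hε, by norm_num, max (max X1 C1) (max 2 ⌈K⌉₊), ?_⟩
  intro X P hX hXP hmem
  have hXX1 : X1 ≤ X := le_trans (le_max_left _ _) (le_trans (le_max_left _ _) hX)
  have hXC1 : C1 ≤ X := le_trans (le_max_right _ _) (le_trans (le_max_left _ _) hX)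
  have hX2 : 2 ≤ X := le_trans (le_max_left _ _) (le_trans (le_max_right _ _) hX)
  have hXK : ⌈K⌉₊ ≤ X := le_trans (le_max_right _ _) (le_trans (le_max_right _ _) hX)
  have hXK' : K ≤ X := (Nat.le_ceil K).trans (by exact_mod_cast hXK)
  have hXr : (1 : ℝ) < X := by exact_mod_cast (show 1 < X by omega)
  have hX0 : (0 : ℝ) < X := by linarith only [hXr]
  have hPr : (0 : ℝ) < P := by exact_mod_cast (show 0 < P by omega)
  have hXPr : (X : ℝ) ≤ P := by exact_mod_cast hXP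
  have hl : 0 < Real.log X := Real.log_pos hXr
  obtain ⟨T, hT⟩ : ∃ T : ℝ, T = (P : ℝ) ^ (1 / 4 : ℝ) := ⟨_, rfl⟩
  have hT0 : 0 < T := by rw [hT]; (clear * - hPr; positivity)
  have hT4 : T ^ 4 = P := by
    rw [hT, ← Real.rpow_natCast, ← Real.rpow_mul hPr.le]
    norm_num
  have hTl : Real.log T = 1 / 4 * Real.log P := by rw [hT, Real.log_rpow hPr]
  have hm1 := (lt_div_iff₀ hl).1 hmem.1
  have hm2 := (div_lt_iff₀ hl).1 hmem.2
  have key := hall X T ((pairs f 2 X P).image (fun w => a0 * (w.1 : ℤ))) hXK'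
    (by rw [hT4]; exact hXPr)
    (by
      rw [← Real.log_le_log_iff (by (clear * - hX2; positivity)) hT0, Real.log_rpow hX0, hTl]
      linarith only [hm1])
    (by
      rw [← Real.log_le_log_iff hT0 (by positivity), Real.log_rpow hX0, hTl]
      linarith only [hm2])
    (by
      intro N hN
      obtain ⟨w, hw, rfl⟩ := Finset.mem_image.1 hN
      obtain ⟨c, y, z, hD⟩ := hdat X P hXC1 hXP w hw
      rw [← hT] at hD
      obtain ⟨l1, l2, s, t, r1, r2, r3, r4, r5⟩ := hrk y (dat_y_ne hD)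
      have hdy := dot_le_sq y _ hD.hy
      have hdy0 : (0 : ℝ) ≤ dot y y := by exact_mod_cast dot_nonneg y
      refine ⟨l1, l2, w.2, c, z, s, t, r1, r3.trans (rank_size C1 C2 T _ hC2 hT0.le hdy0 hdy), ?_⟩
      have hD2 := dat_mono (Nat.le_add_right C1 ⌈C2 * (4 * (C1 : ℝ) ^ 2 + 1)⌉₊) hX0.le hT0.le hD
      rw [r2] at hD2
      exact ⟨hD2, r4.trans (rank_size2 C1 C2 T _ hC2 hdy), r5.trans (rank_size2 C1 C2 T _ hC2 hdy)⟩)
  have h4 := hX1 X P hXX1 hXP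
  have h5 : ((pairs f 2 X P).card : ℝ) ≤
      4 * (((pairs f 2 X P).image (fun w => a0 * (w.1 : ℤ))).card : ℝ) := by exact_mod_cast h4
  linarith only [h5, key]

end Vale.Agent.P018.Q
end

section

/-! # P018, (B), relation step: from the vanishing of the determinants to curves. -/

namespace Vale.Agent.P018.QB

open Polynomial NumberField Vale.Agent.P018.Q

theorem brs_coeff_swap {R : Type*} [CommRing R] (P : R[X][X]) (i j : ℕ) :
    ((Bivariate.swap P).coeff i).coeff j = (P.coeff j).coeff i := by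
  induction P using Polynomial.induction_on' with
  | add p q hp hq => rw [map_add, coeff_add, coeff_add, coeff_add, coeff_add, hp, hq]
  | monomial n f =>
    induction f using Polynomial.induction_on' with
    | add p q hp hq =>
      rw [map_add, map_add, coeff_add, coeff_add, coeff_add, coeff_add, hp, hq]
    | monomial m r =>
      rw [Bivariate.swap_monomial_monomial, coeff_monomial, coeff_monomial]
      by_cases h1 : m = i
      · by_cases h2 : n = j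
        · rw [if_pos h1, if_pos h2, coeff_monomial, coeff_monomial, if_pos h1, if_pos h2]
        · rw [if_pos h1, if_neg h2, coeff_monomial, if_neg h2, coeff_zero]
      · by_cases h2 : n = j
        · rw [if_neg h1, if_pos h2, coeff_monomial, if_neg h1, coeff_zero]
        · rw [if_neg h1, if_neg h2, coeff_zero, coeff_zero]

/-- the inner degree is the degree of the swapped polynomial. -/
theorem brs_swap_le {R : Type*} [CommRing R] (P : R[X][X]) (D : ℕ) :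
    (Bivariate.swap P).natDegree ≤ D ↔ ∀ i, (P.coeff i).natDegree ≤ D := by
  simp only [natDegree_le_iff_coeff_eq_zero]
  constructor
  · intro h i N hN
    rw [← brs_coeff_swap, h N hN, coeff_zero]
  · intro h N hN
    ext i
    rw [brs_coeff_swap, h i N hN, coeff_zero]

/-- factors of a polynomial of bounded bidegree. -/
theorem factor_bideg (D : ℕ) (H Φ : ℂ[X][X]) (hH : H ≠ 0) (hD : BiDeg D D H) (h : Φ ∣ H) :
    BiDeg D D Φ := by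
  refine ⟨(natDegree_le_of_dvd h hH).trans hD.1, (brs_swap_le Φ D).1 ?_⟩
  have h1 : Bivariate.swap Φ ∣ Bivariate.swap H := by
    obtain ⟨Q, rfl⟩ := h
    exact ⟨Bivariate.swap Q, map_mul _ _ _⟩
  have h2 : Bivariate.swap H ≠ 0 := by
    intro h0
    exact hH ((map_eq_zero_iff _ (Bivariate.swap (R := ℂ)).injective).1 h0)
  exact (natDegree_le_of_dvd h1 h2).trans ((brs_swap_le H D).2 hD.2)

/-- a polynomial of bidegree `(0,0)` is a constant. -/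
theorem brs_const {P : ℂ[X][X]} (h1 : P.natDegree = 0) (h2 : (Bivariate.swap P).natDegree = 0)
    (h0 : P ≠ 0) : IsUnit P := by
  have h3 := (brs_swap_le P 0).1 h2.le 0
  have h4 := eq_C_of_natDegree_eq_zero h1
  have h5 := eq_C_of_natDegree_eq_zero (Nat.le_zero.1 h3)
  rw [h4, h5, isUnit_C, isUnit_C, isUnit_iff_ne_zero]
  intro h6
  rw [h6, C_0] at h5
  rw [h5, C_0] at h4
  exact h0 h4

/-- the irreducible factors. -/
theorem factor_finset (D : ℕ) : ∃ D' : ℕ, ∀ H : ℂ[X][X], H ≠ 0 → BiDeg D D H →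
    ∃ Φs : Finset ℂ[X][X], Φs.card ≤ D' ∧ (∀ Φ ∈ Φs, Irreducible Φ ∧ BiDeg D D Φ) ∧
      ∀ n w : ℂ, evB n w H = 0 → ∃ Φ ∈ Φs, evB n w Φ = 0 := by
  classical
  refine ⟨2 * D, fun H hH hD => ?_⟩
  let t := UniqueFactorizationMonoid.factors H
  have ht0 : (0 : ℂ[X][X]) ∉ t := fun h =>
    (UniqueFactorizationMonoid.irreducible_of_factor _ h).ne_zero rfl
  have hprod : Associated t.prod H := UniqueFactorizationMonoid.factors_prod hH
  have hp0 : t.prod ≠ 0 := hprod.ne_zero_iff.2 hH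
  refine ⟨t.toFinset, ?_, ?_, ?_⟩
  · have e1 : t.prod.natDegree = (t.map natDegree).sum := natDegree_multiset_prod t ht0
    have e2 : (Bivariate.swap t.prod).natDegree =
        (t.map fun P => (Bivariate.swap P).natDegree).sum := by
      rw [map_multiset_prod, natDegree_multiset_prod, Multiset.map_map]
      · rfl
      · rw [Multiset.mem_map]
        rintro ⟨P, hP, h0⟩
        rw [map_eq_zero_iff _ (Bivariate.swap (R := ℂ)).injective] at h0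
        rw [h0] at hP
        exact ht0 hP
    have hb := factor_bideg D H t.prod hH hD hprod.dvd
    have e3 := hb.1
    have e4 := (brs_swap_le t.prod D).2 hb.2
    have e5 : t.card ≤ (t.map fun P => P.natDegree + (Bivariate.swap P).natDegree).sum := by
      have h6 : ∀ x ∈ t, 1 ≤ x.natDegree + (Bivariate.swap x).natDegree := by
        intro P hP
        by_contra hlt
        have hirr := UniqueFactorizationMonoid.irreducible_of_factor _ hP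
        exact hirr.not_isUnit (brs_const (by omega) (by omega) hirr.ne_zero)
      have h7 := Multiset.card_nsmul_le_sum
        (s := t.map fun P => P.natDegree + (Bivariate.swap P).natDegree) (a := 1) (by
          intro x hx
          obtain ⟨P, hP, rfl⟩ := Multiset.mem_map.1 hx
          exact h6 P hP)
      rw [Multiset.card_map, smul_eq_mul, mul_one] at h7
      exact h7
    rw [Multiset.sum_map_add] at e5
    have e6 := Multiset.toFinset_card_le t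
    have e7 : (t.map natDegree).sum = (t.map fun P => P.natDegree).sum := rfl
    omega
  · intro Φ hΦ
    rw [Multiset.mem_toFinset] at hΦ
    exact ⟨UniqueFactorizationMonoid.irreducible_of_factor _ hΦ,
      factor_bideg D H Φ hH hD (UniqueFactorizationMonoid.dvd_of_mem_factors hΦ)⟩
  · intro n w hev
    have hring : ∀ F : ℂ[X][X], evB n w F =
      eval₂RingHom (aeval w : ℂ[X] →ₐ[ℂ] ℂ).toRingHom n F := fun F => rfl
    obtain ⟨v, hv⟩ := hprod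
    rw [← hv, hring, map_mul, mul_eq_zero] at hev
    have hu : eval₂RingHom (aeval w : ℂ[X] →ₐ[ℂ] ℂ).toRingHom n (v : ℂ[X][X]) ≠ 0 :=
      (v.isUnit.map _).ne_zero
    have h1 := hev.resolve_right hu
    rw [map_multiset_prod, Multiset.prod_eq_zero_iff, Multiset.mem_map] at h1
    obtain ⟨P, hP, hP0⟩ := h1
    exact ⟨P, Multiset.mem_toFinset.2 hP, hP0⟩

/-- a subfamily of exact size which is independent. -/
theorem brs_basis {Ω ι : Type} [Field Ω] [Algebra ℂ Ω] [DecidableEq ι] (S : Finset ι) (v : ι → Ω)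
    (d : ℕ) (hd : d ≤ Module.finrank ℂ (Submodule.span ℂ (v '' (S : Set ι)))) :
    ∃ B : Finset ι, B ⊆ S ∧ B.card = d ∧ LinearIndependent ℂ fun x : B => v (x : ι) := by
  obtain ⟨t, h1, h2, h3⟩ := exists_linearIndependent ℂ (v '' (S : Set ι))
  have hfin : t.Finite := (S.finite_toSet.image v).subset h1
  have hft : Fintype t := hfin.fintype
  have hcard : Module.finrank ℂ (Submodule.span ℂ t) = Fintype.card t := by
    have h4 := finrank_span_eq_card h3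
    rwa [Subtype.range_coe] at h4
  rw [← h2, hcard] at hd
  -- choose preimages
  have hpre : ∀ x : t, ∃ i ∈ S, v i = x := fun x => by
    obtain ⟨i, hi, hx⟩ := h1 x.2
    exact ⟨i, hi, hx⟩
  choose f hfS hf using hpre
  have hfinj : Function.Injective f := fun x y hxy => by
    apply Subtype.ext
    rw [← hf x, ← hf y, hxy]
  have hle : d ≤ ((Finset.univ : Finset t).image f).card := by
    rw [Finset.card_image_of_injective _ hfinj, Finset.card_univ]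
    exact hd
  obtain ⟨B, hB, hBc⟩ := Finset.exists_subset_card_eq hle
  refine ⟨B, fun i hi => ?_, hBc, ?_⟩
  · obtain ⟨x, -, rfl⟩ := Finset.mem_image.1 (hB hi)
    exact hfS x
  · have hpre2 : ∀ i : B, ∃ x : t, f x = i := fun i => by
      obtain ⟨x, -, hx⟩ := Finset.mem_image.1 (hB i.2)
      exact ⟨x, hx⟩
    choose g hg using hpre2
    have hginj : Function.Injective g := fun x y hxy => by
      apply Subtype.ext
      rw [← hg x, ← hg y, hxy]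
    have h5 := h3.comp g hginj
    have h6 : (fun x : B => v (x : ι)) = (Subtype.val : t → Ω) ∘ g := by
      funext i
      rw [Function.comp_apply, ← hf, hg]
    rw [h6]
    exact h5

/-- a fixed family of `8 (m-1) (m-1+i)` monomials which are independent on the surface.  The family
depends on the lattice, but there are only finitely many subsets of `mons i (2m)`, so the degree
bound of `poly_of_relation` is uniform. -/
theorem surf_family (i m : ℕ) (hm : 2 ≤ m) : ∃ D : ℕ, ∀ (α g1 g2 : Fin 4 → ℂ) (c : ℂ),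
    Lat α g1 g2 c → ∃ B : Finset Ix, B ⊆ mons i (2 * m) ∧ B.card = 8 * (m - 1) * (m - 1 + i) ∧
      ∀ κ : Ix → ℂ, (∃ x ∈ B, κ x ≠ 0) →
        ∃ Φs : Finset ℂ[X][X], Φs.card ≤ D ∧ (∀ Φ ∈ Φs, Irreducible Φ ∧ BiDeg D D Φ) ∧
          ∀ (n u1 u2 : ℂ) (pi : Fin 4 → ℂ), u1 ≠ 0 → (∀ j, u1 * g1 j + u2 * g2 j ≠ 0) →
            (∀ j, pi j ^ 2 * (u1 * g1 j + u2 * g2 j) = c * (n - α j)) →
            ∑ x ∈ B, κ x * fv u1 u2 pi x = 0 → ∃ Φ ∈ Φs, evB n (u2 / u1) Φ = 0 := by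
  classical
  choose Dp hDp using poly_of_relation
  let D1 : ℕ := (mons i (2 * m)).powerset.sup Dp
  obtain ⟨D2, hD2⟩ := factor_finset D1
  refine ⟨max D1 D2, fun α g1 g2 c hL => ?_⟩
  obtain ⟨Ω, _, _, n0, w0, pi0, hM, hgen⟩ := generic_surf α g1 g2 c hL
  have hrank := surf_rank α g1 g2 c hL Ω n0 w0 pi0 hM hgen i m hm
  obtain ⟨B, hBS, hBc, hBind⟩ := brs_basis (mons i (2 * m)) (fun x => fv 1 w0 pi0 x) _ hrank
  refine ⟨B, hBS, hBc, fun κ hκ => ?_⟩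
  obtain ⟨H, hH1, hH2, hH3⟩ := hDp B α g1 g2 c hL κ hκ
  have hH0 : H ≠ 0 := by
    intro h0
    refine hH3 Ω n0 w0 pi0 hM hBind ?_
    rw [h0]
    exact eval₂_zero _ _
  have hle : Dp B ≤ D1 := Finset.le_sup (f := Dp) (Finset.mem_powerset.2 hBS)
  obtain ⟨Φs, hc1, hc2, hc3⟩ := hD2 H hH0 (bn_mono hH1 hle hle)
  refine ⟨Φs, hc1.trans (le_max_right _ _), fun Φ hΦ => ⟨(hc2 Φ hΦ).1,
    bn_mono (hc2 Φ hΦ).2 (le_max_left _ _) (le_max_left _ _)⟩, ?_⟩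
  intro n u1 u2 pi hu hne heq hsum
  obtain ⟨r, hr⟩ := IsAlgClosed.exists_pow_nat_eq u1 two_pos
  refine hc3 n (u2 / u1) (hH2 n (u2 / u1) (fun k => r * pi k)
    (mdl_of_data α g1 g2 c n u1 u2 r pi hu hr hne heq) ?_)
  rw [fv_scale (2 * (i : ℤ) - 2 * m) B ?_ κ u1 u2 r hu hr pi, hsum, mul_zero]
  intro x hx
  have hx' := hBS hx
  simp only [mons, Finset.mem_product, Finset.HasAntidiagonal.mem_antidiagonal,
    Finset.mem_piAntidiag] at hx'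
  obtain ⟨h1, h2, -⟩ := hx'
  have h3 : (∑ j, (x.2 j : ℤ)) = ((∑ j, x.2 j : ℕ) : ℤ) := by push_cast; rfl
  rw [h3]
  have h4 : (∑ j, x.2 j) = 2 * m := h2
  rw [h4]
  push_cast
  have h5 : ((x.1.1 : ℤ) + x.1.2) = i := by exact_mod_cast h1
  rw [h5]

end Vale.Agent.P018.QB
end

section

/-! # P018, (B): the relation step in a real cell. -/

namespace Vale.Agent.P018.QB

open Polynomial NumberField Vale.Agent.P018.Q

theorem relc_sum_le (N0 : ℕ) : ∑ j ∈ Finset.range N0, j ≤ N0 ^ 2 := by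
  calc ∑ j ∈ Finset.range N0, j ≤ ∑ _j ∈ Finset.range N0, N0 :=
        Finset.sum_le_sum fun j hj => (Finset.mem_range.mp hj).le
    _ = N0 ^ 2 := by rw [Finset.sum_const, Finset.card_range, smul_eq_mul, pow_two]

theorem relc_mono {N0 : ℕ} {K Q A B : ℝ} (hK : 0 < K) (hQ : 0 < Q) (hA0 : 0 ≤ A) (hA : A ≤ 1)
    (h : ∀ S : Finset (ℕ × ℕ), S.card = N0 →
      K * Q ^ N0 * ∏ s ∈ S, (A ^ s.1 * B ^ s.2) < 1) : A ^ (N0 ^ 2) ≤ 1 / (K * Q ^ N0) := by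
  have hi : Function.Injective (fun j : ℕ => (j, (0 : ℕ))) := fun a b hab => by simpa using hab
  have h1 := h ((Finset.range N0).image fun j : ℕ => (j, (0 : ℕ)))
    (by rw [Finset.card_image_of_injective _ hi, Finset.card_range])
  have e0 : ∏ s ∈ (Finset.range N0).image (fun j : ℕ => (j, (0 : ℕ))), (A ^ s.1 * B ^ s.2)
      = A ^ (∑ j ∈ Finset.range N0, j) := by
    rw [Finset.prod_image (fun a _ b _ hab => hi hab), ← Finset.prod_pow_eq_pow_sum]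
    exact Finset.prod_congr rfl fun j _ => by simp
  rw [e0] at h1
  have hKQ : 0 < K * Q ^ N0 := by positivity
  rw [le_div_iff₀ hKQ]
  have h2 : A ^ (N0 ^ 2) ≤ A ^ (∑ j ∈ Finset.range N0, j) :=
    pow_le_pow_of_le_one hA0 hA (relc_sum_le N0)
  (by_contra nlg; linarith only [nlg, mul_nonneg (le_of_lt (sub_pos.2 hKQ)) (sub_nonneg.2 h2), mul_nonneg (le_of_lt (sub_pos.2 (not_le.1 nlg))) (sub_nonneg.2 hA), mul_nonneg (le_of_lt (sub_pos.2 (not_le.1 nlg))) (sub_nonneg.2 hA0), h1])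

theorem relc_mono' {N0 : ℕ} {K Q A B : ℝ} (hK : 0 < K) (hQ : 0 < Q) (hB0 : 0 ≤ B) (hB : B ≤ 1)
    (h : ∀ S : Finset (ℕ × ℕ), S.card = N0 →
      K * Q ^ N0 * ∏ s ∈ S, (A ^ s.1 * B ^ s.2) < 1) : B ^ (N0 ^ 2) ≤ 1 / (K * Q ^ N0) := by
  have hi : Function.Injective (fun j : ℕ => ((0 : ℕ), j)) := fun a b hab => by simpa using hab
  have h1 := h ((Finset.range N0).image fun j : ℕ => ((0 : ℕ), j))
    (by rw [Finset.card_image_of_injective _ hi, Finset.card_range])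
  have e0 : ∏ s ∈ (Finset.range N0).image (fun j : ℕ => ((0 : ℕ), j)), (A ^ s.1 * B ^ s.2)
      = B ^ (∑ j ∈ Finset.range N0, j) := by
    rw [Finset.prod_image (fun a _ b _ hab => hi hab), ← Finset.prod_pow_eq_pow_sum]
    exact Finset.prod_congr rfl fun j _ => by simp
  rw [e0] at h1
  have hKQ : 0 < K * Q ^ N0 := by positivity
  rw [le_div_iff₀ hKQ]
  have h2 : B ^ (N0 ^ 2) ≤ B ^ (∑ j ∈ Finset.range N0, j) :=
    pow_le_pow_of_le_one hB0 hB (relc_sum_le N0)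
  (by_contra nlg; linarith only [nlg, mul_nonneg (le_of_lt (sub_pos.2 hKQ)) (sub_nonneg.2 h2), mul_nonneg (le_of_lt (sub_pos.2 (not_le.1 nlg))) (sub_nonneg.2 hB), mul_nonneg (le_of_lt (sub_pos.2 (not_le.1 nlg))) (sub_nonneg.2 hB0), h1])

theorem relc_prod {N0 : ℕ} {K Q K1 X ρ : ℝ} (hK : 0 < K) (hQ : 0 < Q) (hK1 : 1 ≤ K1)
    (hX : K1 ≤ X) (hρ0 : 0 < ρ) (hρ : ρ ≤ 1)
    (h : ∀ S : Finset (ℕ × ℕ), S.card = N0 →
      K * Q ^ N0 * ∏ s ∈ S, (X⁻¹ ^ s.1 * ρ ^ s.2) < 1) (S : Finset (ℕ × ℕ)) (hS : S.card = N0) :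
    ∏ s ∈ S, ((K1 / X) ^ s.1 * ρ ^ s.2) ≤ K1 ^ (N0 ^ 2) / (K * Q ^ N0) := by
  have hX0 : 0 < X := by linarith only [hX, hK1]
  have hKQ : 0 < K * Q ^ N0 := by positivity
  have hXi : X⁻¹ ≤ 1 := inv_le_one_of_one_le₀ (by linarith only [hX, hK1])
  have hXi0 : 0 ≤ X⁻¹ := by positivity
  have e1 : ∏ s ∈ S, ((K1 / X) ^ s.1 * ρ ^ s.2)
      = K1 ^ (∑ s ∈ S, s.1) * ∏ s ∈ S, (X⁻¹ ^ s.1 * ρ ^ s.2) := by
    rw [← Finset.prod_pow_eq_pow_sum, ← Finset.prod_mul_distrib]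
    refine Finset.prod_congr rfl fun s _ => ?_
    rw [div_eq_mul_inv, mul_pow]
    ring
  rcases le_total (∑ s ∈ S, s.1) (N0 ^ 2) with hle | hle
  · rw [e1, le_div_iff₀ hKQ]
    have h1 := h S hS
    have h2 : K1 ^ (∑ s ∈ S, s.1) ≤ K1 ^ (N0 ^ 2) := pow_le_pow_right₀ hK1 hle
    have h3 : 0 ≤ K1 ^ (∑ s ∈ S, s.1) := by positivity
    calc (K1 ^ (∑ s ∈ S, s.1) * ∏ s ∈ S, (X⁻¹ ^ s.1 * ρ ^ s.2)) * (K * Q ^ N0)
        = K1 ^ (∑ s ∈ S, s.1) * (K * Q ^ N0 * ∏ s ∈ S, (X⁻¹ ^ s.1 * ρ ^ s.2)) := by ring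
      _ ≤ K1 ^ (∑ s ∈ S, s.1) * 1 := mul_le_mul_of_nonneg_left h1.le h3
      _ = K1 ^ (∑ s ∈ S, s.1) := mul_one _
      _ ≤ _ := h2
  · have h1 := relc_mono hK hQ hXi0 hXi h
    have e2 : ∏ s ∈ S, ((K1 / X) ^ s.1 * ρ ^ s.2)
        = (K1 / X) ^ (∑ s ∈ S, s.1) * ρ ^ (∑ s ∈ S, s.2) := by
      rw [Finset.prod_mul_distrib, Finset.prod_pow_eq_pow_sum, Finset.prod_pow_eq_pow_sum]
    have hV : K1 / X ≤ 1 := (div_le_one hX0).mpr hX
    have hV0 : 0 ≤ K1 / X := by positivity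
    have h2 : (K1 / X) ^ (∑ s ∈ S, s.1) ≤ (K1 / X) ^ (N0 ^ 2) :=
      pow_le_pow_of_le_one hV0 hV hle
    have h3 : ρ ^ (∑ s ∈ S, s.2) ≤ 1 := pow_le_one₀ hρ0.le hρ
    have h4 : 0 ≤ ρ ^ (∑ s ∈ S, s.2) := by positivity
    rw [e2]
    calc (K1 / X) ^ (∑ s ∈ S, s.1) * ρ ^ (∑ s ∈ S, s.2)
        ≤ (K1 / X) ^ (N0 ^ 2) * 1 := mul_le_mul h2 h3 h4 (by positivity)
      _ = K1 ^ (N0 ^ 2) * X⁻¹ ^ (N0 ^ 2) := by rw [mul_one, div_eq_mul_inv, mul_pow]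
      _ ≤ K1 ^ (N0 ^ 2) * (1 / (K * Q ^ N0)) :=
          mul_le_mul_of_nonneg_left h1 (by positivity)
      _ = _ := by ring

theorem relc_det {L : Type} [Field L] [NumberField L] (θ : Fin 4 → 𝓞 L) {N0 i m : ℕ}
    (hN0 : 1 ≤ N0) {K1 K X T U ρ : ℝ} (hK1 : 1 ≤ K1)
    (hK : 2 * (((N0 ^ 2 : ℕ) : ℝ) ^ 2 + N0) ^ N0 * (N0.factorial : ℝ) * K1 ^ (N0 + N0 ^ 2) < K)
    (hT : 1 ≤ T) (hX : K ≤ X) (hρ0 : 0 < ρ) (hρ : ρ ≤ 1 / K) (hU : 1 ≤ U)
    (h : ∀ S : Finset (ℕ × ℕ), S.card = N0 →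
      K * (U ^ i * T ^ (2 * m)) ^ N0 * ∏ s ∈ S, (X⁻¹ ^ s.1 * ρ ^ s.2) < 1)
    (B : Finset Ix) (hB : B ⊆ mons i (2 * m)) (hBc : B.card = N0)
    (y : ℤ → Fin 4 → ℤ) (u1 u2 : ℤ → ℤ) (ψ : {x // x ∈ B} → ℤ)
    (hent : ∀ φ : L →+* ℂ, ∃ (co : Ix → ℕ → ℕ → ℂ) (rr v ω : ℤ → ℂ),
      (∀ x ∈ mons i (2 * m), ∀ τ k, ‖co x τ k‖ ≤ K1 * (U ^ i * T ^ (2 * m))) ∧
      ∀ k : {x // x ∈ B}, ‖rr (ψ k)‖ ≤ 1 ∧ ‖v (ψ k)‖ ≤ K1 / X ∧ ‖ω (ψ k)‖ ≤ ρ ∧
        ∀ x ∈ mons i (2 * m),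
          ∃ er : ℂ, ‖er‖ ≤ K1 * (U ^ i * T ^ (2 * m)) *
              (‖v (ψ k)‖ ^ (N0 ^ 2) + ‖ω (ψ k)‖ ^ (N0 ^ 2)) ∧
          φ ((fv ((u1 (ψ k) : ℤ) : 𝓞 L) ((u2 (ψ k) : ℤ) : 𝓞 L) (pv θ (y (ψ k))) x : 𝓞 L) : L) =
            rr (ψ k) * (∑ τ ∈ Finset.range (N0 ^ 2), ∑ k' ∈ Finset.range (N0 ^ 2),
              co x τ k' * v (ψ k) ^ τ * ω (ψ k) ^ k' + er)) :
    (Matrix.of fun k x : {x // x ∈ B} => fv ((u1 (ψ k) : ℤ) : 𝓞 L) ((u2 (ψ k) : ℤ) : 𝓞 L)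
      (pv θ (y (ψ k))) x.1).det = 0 := by
  have hcard : Fintype.card {x // x ∈ B} = N0 := by rw [Fintype.card_coe, hBc]
  obtain ⟨Q, hQ⟩ : ∃ Q : ℝ, Q = U ^ i * T ^ (2 * m) := ⟨_, rfl⟩
  have hQ1 : 1 ≤ Q := by
    rw [hQ]
    exact one_le_mul_of_one_le_of_one_le (one_le_pow₀ hU) (one_le_pow₀ hT)
  have hQ0 : 0 < Q := by linarith only [hQ1]
  have hfac : (1 : ℝ) ≤ N0.factorial := by exact_mod_cast Nat.succ_le_of_lt (Nat.factorial_pos N0)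
  have hR1 : (1 : ℝ) ≤ (((N0 ^ 2 : ℕ) : ℝ) ^ 2 + N0) := by
    have : (1 : ℝ) ≤ N0 := by exact_mod_cast hN0
    linarith only [sq_nonneg (((N0 ^ 2 : ℕ) : ℝ)), this]
  have hRp : (1 : ℝ) ≤ (((N0 ^ 2 : ℕ) : ℝ) ^ 2 + N0) ^ N0 := one_le_pow₀ hR1
  have hKpow : K1 ≤ K1 ^ (N0 + N0 ^ 2) := le_self_pow₀ hK1 (by omega)
  have hKp1 : (1 : ℝ) ≤ K1 ^ (N0 + N0 ^ 2) := one_le_pow₀ hK1
  have hK2 : 2 * K1 ≤ K := by
    refine le_trans ?_ hK.le
    have h1 : (1 : ℝ) ≤ (((N0 ^ 2 : ℕ) : ℝ) ^ 2 + N0) ^ N0 * (N0.factorial : ℝ) :=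
      one_le_mul_of_one_le_of_one_le hRp hfac
    calc 2 * K1 ≤ 2 * (1 * K1 ^ (N0 + N0 ^ 2)) := by linarith only [hKpow]
      _ ≤ 2 * ((((N0 ^ 2 : ℕ) : ℝ) ^ 2 + N0) ^ N0 * (N0.factorial : ℝ) * K1 ^ (N0 + N0 ^ 2)) := by
          have := mul_le_mul_of_nonneg_right h1 (by linarith : 0 ≤ K1 ^ (N0 + N0 ^ 2))
          linarith only [this]
      _ = _ := by ring
  have hK0 : 0 < K := by linarith only [hK2, hK1]
  have hX0 : 0 < X := by linarith only [hK2, hX, hK1]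
  have hV0 : 0 ≤ K1 / X := by positivity
  have hV : K1 / X ≤ 1 / 2 := by
    rw [div_le_div_iff₀ hX0 (by norm_num)]
    linarith only [hK2, hX]
  have hW : ρ ≤ 1 / 2 := by
    refine hρ.trans ?_
    rw [div_le_div_iff₀ hK0 (by norm_num)]
    linarith only [hK2, hK1]
  rw [← hQ] at h
  have hR0 : N0 ^ 2 ≠ 0 := by positivity
  -- the value of the error
  obtain ⟨Γ, hΓdef⟩ : ∃ Γ : ℝ, Γ = 2 * K1 ^ (N0 ^ 2) / (K * Q ^ N0) := ⟨_, rfl⟩
  have hKQ : 0 < K * Q ^ N0 := by positivity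
  have hKR : (1 : ℝ) ≤ K1 ^ (N0 ^ 2) := one_le_pow₀ hK1
  have hEr : (K1 / X) ^ (N0 ^ 2) + ρ ^ (N0 ^ 2) ≤ Γ := by
    have h1 := relc_mono hK0 hQ0 (by positivity : (0 : ℝ) ≤ X⁻¹)
      (inv_le_one_of_one_le₀ (by linarith only [hW, hK2, hρ0, hX, hK1])) h
    have h2 := relc_mono' hK0 hQ0 hρ0.le (by linarith only [hW, hρ0]) h
    have h3 : (K1 / X) ^ (N0 ^ 2) ≤ K1 ^ (N0 ^ 2) / (K * Q ^ N0) := by
      rw [div_eq_mul_inv, mul_pow, div_eq_mul_one_div]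
      exact mul_le_mul_of_nonneg_left h1 (by positivity)
    have h4 : 1 / (K * Q ^ N0) ≤ K1 ^ (N0 ^ 2) / (K * Q ^ N0) :=
      div_le_div_of_nonneg_right hKR hKQ.le
    rw [hΓdef]
    have e : 2 * K1 ^ (N0 ^ 2) / (K * Q ^ N0)
        = K1 ^ (N0 ^ 2) / (K * Q ^ N0) + K1 ^ (N0 ^ 2) / (K * Q ^ N0) := by ring
    rw [e]
    linarith only [h4, h3, h2]
  have hEr1 : (K1 / X) ^ (N0 ^ 2) + ρ ^ (N0 ^ 2) ≤ 1 := by
    have h1 : (K1 / X) ^ (N0 ^ 2) ≤ 1 / 2 :=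
      (pow_le_of_le_one hV0 (by linarith only [hW, hV, hρ0]) hR0).trans hV
    have h2 : ρ ^ (N0 ^ 2) ≤ 1 / 2 := (pow_le_of_le_one hρ0.le (by linarith only [hW, hρ0]) hR0).trans hW
    linarith only [h2, h1]
  have hfin : (((N0 ^ 2 : ℕ) : ℝ) ^ 2 + N0) ^ N0 *
      ((N0.factorial : ℝ) * ((K1 * Q) ^ N0 * Γ)) < 1 := by
    have e : (((N0 ^ 2 : ℕ) : ℝ) ^ 2 + N0) ^ N0 *
      ((N0.factorial : ℝ) * ((K1 * Q) ^ N0 * Γ)) =
      (2 * (((N0 ^ 2 : ℕ) : ℝ) ^ 2 + N0) ^ N0 * (N0.factorial : ℝ) * K1 ^ (N0 + N0 ^ 2)) / K := by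
      rw [hΓdef, mul_pow, pow_add]
      field_simp
    rw [e, div_lt_one hK0]
    exact hK
  apply zero_of_conj
  intro φ
  obtain ⟨co, rr, v, ω, hco, hk⟩ := hent φ
  have hk' : ∀ k : {x // x ∈ B}, ∀ x : {x // x ∈ B}, ∃ er : ℂ,
      ‖er‖ ≤ K1 * Q * ((K1 / X) ^ (N0 ^ 2) + ρ ^ (N0 ^ 2)) ∧
      φ ((fv ((u1 (ψ k) : ℤ) : 𝓞 L) ((u2 (ψ k) : ℤ) : 𝓞 L) (pv θ (y (ψ k))) x.1 : 𝓞 L) : L) =
            rr (ψ k) * (∑ τ ∈ Finset.range (N0 ^ 2), ∑ k' ∈ Finset.range (N0 ^ 2),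
              co x.1 τ k' * v (ψ k) ^ τ * ω (ψ k) ^ k' + er) := by
    intro k x
    obtain ⟨-, hv, hω, hx⟩ := hk k
    obtain ⟨er, her, he⟩ := hx x.1 (hB x.2)
    refine ⟨er, her.trans ?_, he⟩
    rw [← hQ]
    refine mul_le_mul_of_nonneg_left ?_ (by positivity)
    exact add_le_add (pow_le_pow_left₀ (norm_nonneg _) hv _) (pow_le_pow_left₀ (norm_nonneg _) hω _)
  choose er her he using hk'
  have hdet := det_small (N0 ^ 2)
    (Matrix.of fun k x : {x // x ∈ B} => φ ((fv ((u1 (ψ k) : ℤ) : 𝓞 L) ((u2 (ψ k) : ℤ) : 𝓞 L)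
      (pv θ (y (ψ k))) x.1 : 𝓞 L) : L)) (fun k => rr (ψ k)) (fun x => co x.1) er
      (fun k => v (ψ k)) (fun k => ω (ψ k)) (K1 * Q)
      ((K1 / X) ^ (N0 ^ 2) + ρ ^ (N0 ^ 2)) (K1 / X) ρ Γ
      (fun k x => by rw [Matrix.of_apply]; exact he k x)
      (fun k => (hk k).1) (fun x τ l => by rw [hQ]; exact hco x.1 (hB x.2) τ l)
      her (fun k => (hk k).2.1) (fun k => (hk k).2.2.1) hV0 hρ0.le (by linarith only [hW, hV, hρ0]) (by linarith only [hW, hρ0])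
      (by positivity) hEr hEr1
      (fun S hS => by
        rw [hcard] at hS
        refine (relc_prod hK0 hQ0 hK1 (by linarith only [hW, hK2, hρ0, hX, hK1]) hρ0 (by linarith only [hW, hρ0]) h S hS).trans ?_
        rw [hΓdef]
        refine div_le_div_of_nonneg_right ?_ hKQ.le
        linarith only [hKR, hW, hρ0])
  rw [hcard] at hdet
  have hmap : φ (((Matrix.of fun k x : {x // x ∈ B} => fv ((u1 (ψ k) : ℤ) : 𝓞 L)
      ((u2 (ψ k) : ℤ) : 𝓞 L) (pv θ (y (ψ k))) x.1).det : 𝓞 L) : L) =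
      (Matrix.of fun k x : {x // x ∈ B} => φ ((fv ((u1 (ψ k) : ℤ) : 𝓞 L) ((u2 (ψ k) : ℤ) : 𝓞 L)
      (pv θ (y (ψ k))) x.1 : 𝓞 L) : L)).det := by
    have := RingHom.map_det (φ.comp (algebraMap (𝓞 L) L)) (Matrix.of fun k x : {x // x ∈ B} =>
      fv ((u1 (ψ k) : ℤ) : 𝓞 L) ((u2 (ψ k) : ℤ) : 𝓞 L) (pv θ (y (ψ k))) x.1)
    exact this
  rw [hmap]
  exact hdet.trans_lt hfin

theorem relc_ne {L : Type} [Field L] [NumberField L] {θ : Fin 4 → 𝓞 L} {G : ℤ[X]}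
    (hG : Root4 θ G) (N : ℤ) (j : Fin 4) : (N : 𝓞 L) - θ j ≠ 0 := by
  intro h0
  have hval : ((G.eval N : ℤ) : 𝓞 L) = ∏ i, ((N : 𝓞 L) - θ i) := by
    have := congrArg (Polynomial.eval (N : 𝓞 L)) hG.roots
    rw [Polynomial.eval_prod] at this
    simp only [eval_sub, eval_X, eval_C] at this
    rw [← this, Polynomial.eval_map]
    have := Polynomial.eval₂_at_intCast (S := 𝓞 L) (algebraMap ℤ (𝓞 L)) N (p := G)
    simpa using this.symm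
  have hz : G.eval N = 0 := by
    have h1 : ((G.eval N : ℤ) : 𝓞 L) = 0 := by
      rw [hval]
      exact Finset.prod_eq_zero (Finset.mem_univ j) h0
    exact_mod_cast h1
  have hroot : (G.map (Int.castRingHom ℚ)).IsRoot (N : ℚ) := by
    rw [Polynomial.IsRoot.def, Polynomial.eval_map]
    have h2 := Polynomial.eval₂_at_intCast (S := ℚ) (Int.castRingHom ℚ) N (p := G)
    rw [h2, Int.cast_id, hz, map_zero]
  have hd := Polynomial.degree_eq_one_of_irreducible_of_root hG.irr hroot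
  have hd4 : (G.map (Int.castRingHom ℚ)).natDegree = 4 := by
    rw [hG.monic.natDegree_map, hG.deg]
  rw [Polynomial.degree_eq_natDegree hG.irr.ne_zero, hd4] at hd
  norm_num at hd

theorem relc_lin {L : Type} [Field L] [NumberField L] (θ : Fin 4 → 𝓞 L) (φ : L →+* ℂ)
    (g1 g2 : Fin 4 → ℤ) (a b : ℤ) (j : Fin 4) :
    (a : ℂ) * cf θ φ g1 j + (b : ℂ) * cf θ φ g2 j =
      φ ((K.ell (θ j) (fun l => a * g1 l + b * g2 l) : 𝓞 L) : L) := by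
  have h1 : (K.ell (θ j) (fun l => a * g1 l + b * g2 l) : 𝓞 L) =
      (a : 𝓞 L) * K.ell (θ j) g1 + (b : 𝓞 L) * K.ell (θ j) g2 := by
    unfold K.ell
    rw [Finset.mul_sum, Finset.mul_sum, ← Finset.sum_add_distrib]
    refine Finset.sum_congr rfl fun l _ => ?_
    push_cast
    ring
  rw [h1]
  unfold cf el
  have : φ ((((a : 𝓞 L) * K.ell (θ j) g1 + (b : 𝓞 L) * K.ell (θ j) g2 : 𝓞 L)) : L) =
      (φ.comp (algebraMap (𝓞 L) L)) ((a : 𝓞 L) * K.ell (θ j) g1 + (b : 𝓞 L) * K.ell (θ j) g2) := rfl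
  rw [this, map_add, map_mul, map_mul, map_intCast, map_intCast]
  rfl

theorem relc_fv {L : Type} [Field L] [NumberField L] (θ : Fin 4 → 𝓞 L) (φ : L →+* ℂ)
    (a b : ℤ) (y : Fin 4 → ℤ) (x : Ix) :
    φ ((fv (a : 𝓞 L) (b : 𝓞 L) (pv θ y) x : 𝓞 L) : L) =
      fv (a : ℂ) (b : ℂ) (fun j => φ ((pv θ y j : 𝓞 L) : L)) x := by
  have : φ ((fv (a : 𝓞 L) (b : 𝓞 L) (pv θ y) x : 𝓞 L) : L) =
      (φ.comp (algebraMap (𝓞 L) L)) (fv (a : 𝓞 L) (b : 𝓞 L) (pv θ y) x) := rfl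
  rw [this]
  unfold fv
  rw [map_mul, map_mul, map_pow, map_pow, map_prod, map_intCast, map_intCast]
  simp only [map_pow]
  rfl

theorem relc_pt {L : Type} [Field L] [NumberField L] {θ : Fin 4 → 𝓞 L} {G : ℤ[X]}
    (hG : Root4 θ G) (φ : L →+* ℂ) {C : ℕ} {X T U : ℝ} {c : ℤ} {g1 g2 : Fin 4 → ℤ} {N : ℤ}
    {p : ℕ} {y : Fin 4 → ℤ} {u1 u2 : ℤ} (h : BDat θ C X T U c g1 g2 N p y u1 u2) (j : Fin 4) :
    (u1 : ℂ) * cf θ φ g1 j + (u2 : ℂ) * cf θ φ g2 j ≠ 0 ∧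
      φ ((pv θ y j : 𝓞 L) : L) ^ 2 * ((u1 : ℂ) * cf θ φ g1 j + (u2 : ℂ) * cf θ φ g2 j) =
        (c : ℂ) * ((N : ℂ) - φ ((θ j : 𝓞 L) : L)) := by
  have he := h.dat.eqn j
  rw [relc_lin]
  have he2 : φ ((pv θ y j : 𝓞 L) : L) ^ 2 *
      φ ((K.ell (θ j) (fun l => u1 * g1 l + u2 * g2 l) : 𝓞 L) : L) =
        (c : ℂ) * ((N : ℂ) - φ ((θ j : 𝓞 L) : L)) := by
    have h2 := congrArg (φ.comp (algebraMap (𝓞 L) L)) he
    rw [map_mul, map_mul, map_sub, map_pow, map_intCast, map_intCast] at h2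
    exact h2.symm
  refine ⟨?_, he2⟩
  intro h0
  rw [h0, mul_zero] at he2
  have h3 : (φ.comp (algebraMap (𝓞 L) L)) ((c : 𝓞 L) * ((N : 𝓞 L) - θ j)) = 0 := by
    rw [map_mul, map_sub, map_intCast, map_intCast]
    exact he2.symm
  have hinj : Function.Injective (φ.comp (algebraMap (𝓞 L) L)) := by
    rw [RingHom.coe_comp]
    exact φ.injective.comp (FaithfulSMul.algebraMap_injective (𝓞 L) L)
  have h4 : (c : 𝓞 L) * ((N : 𝓞 L) - θ j) = 0 := by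
    apply hinj
    rw [h3, map_zero]
  rcases mul_eq_zero.mp h4 with h5 | h5
  · exact h.dat.c0 (by exact_mod_cast h5)
  · exact relc_ne hG N j h5

/-- the relation step.  Proof: `surf_family` for one embedding `φ0` gives `B` (`|B| = N0`); split
`S` in the `≤ 16^[L:ℚ]` classes of the sign vectors of all embeddings (`entries`); in a class every
`N0 × N0` determinant of the values of `B` has all conjugates `< 1` (`det_small`, `R = N0^2`; the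
error is `≤ 2 K^R max(X^-R, ρ^R)`, compared with the products over `{(j,0)}` and `{(0,j)}`, `j < N0`),
so it vanishes (`zero_of_conj`); `exists_kernel` (P018/LinAlg) over `L`, apply `φ0`. -/
theorem rel_cell {L : Type} [Field L] [NumberField L] (θ : Fin 4 → 𝓞 L) (G : ℤ[X])
    (hG : Root4 θ G) (C i m : ℕ) (hm : 2 ≤ m) :
    ∃ (K : ℝ) (D : ℕ), 0 < K ∧ ∀ (X T U ρ : ℝ), 1 ≤ T → K ≤ X → 0 < ρ → ρ ≤ 1 / K → 1 ≤ U →
      (∀ S : Finset (ℕ × ℕ), S.card = 8 * (m - 1) * (m - 1 + i) →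
        K * (U ^ i * T ^ (2 * m)) ^ (8 * (m - 1) * (m - 1 + i)) *
          ∏ s ∈ S, (X⁻¹ ^ s.1 * ρ ^ s.2) < 1) →
      ∀ (c : ℤ) (g1 g2 : Fin 4 → ℤ) (w0 : ℝ) (S : Finset ℤ) (p : ℤ → ℕ)
        (y : ℤ → Fin 4 → ℤ) (u1 u2 : ℤ → ℤ), Cell θ C X T U ρ c g1 g2 w0 S p y u1 u2 →
        ∃ Φs : Finset ℂ[X][X], Φs.card ≤ D ∧ (∀ Φ ∈ Φs, Irreducible Φ ∧ BiDeg D D Φ) ∧
          ∀ N ∈ S, ∃ Φ ∈ Φs, evB (N : ℂ) ((u2 N : ℂ) / u1 N) Φ = 0 := by
  classical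
  obtain ⟨N0, hN0⟩ : ∃ N0, N0 = 8 * (m - 1) * (m - 1 + i) := ⟨_, rfl⟩
  have hN1 : 1 ≤ N0 := by
    have h1 : 1 ≤ m - 1 := by omega
    rw [hN0]
    have : 0 < 8 * (m - 1) * (m - 1 + i) := by positivity
    omega
  obtain ⟨K1, hK1, hent⟩ := entries θ G hG C i m (N0 ^ 2)
  obtain ⟨D1, hD1⟩ := surf_family i m hm
  obtain ⟨M, hM⟩ : ∃ M, M = Fintype.card ((L →+* ℂ) → Fin 4 → ℤˣ) := ⟨_, rfl⟩
  have hK1' : 0 < K1 := by linarith only [hK1]
  obtain ⟨K, hK⟩ : ∃ K : ℝ, K = 2 * (((N0 ^ 2 : ℕ) : ℝ) ^ 2 + N0) ^ N0 * (N0.factorial : ℝ) *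
    K1 ^ (N0 + N0 ^ 2) + 2 * K1 := ⟨_, rfl⟩
  have hKpos : 0 < K := by rw [hK]; (clear * - hN1 hK1; positivity)
  refine ⟨K, D1 + M * D1, hKpos, ?_⟩
  intro X T U ρ hT hX hρ0 hρ hU h c g1 g2 w0 S p y u1 u2 hcell
  rw [← hN0] at h
  have hpp : 0 ≤ 2 * (((N0 ^ 2 : ℕ) : ℝ) ^ 2 + N0) ^ N0 * (N0.factorial : ℝ) *
    K1 ^ (N0 + N0 ^ 2) := by positivity
  have hK2 : 2 * K1 ≤ K := by rw [hK]; linarith only [hpp]
  have hKlt : 2 * (((N0 ^ 2 : ℕ) : ℝ) ^ 2 + N0) ^ N0 * (N0.factorial : ℝ) *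
    K1 ^ (N0 + N0 ^ 2) < K := by rw [hK]; linarith only [hK1']
  have hρ2 : ρ ≤ 1 / 2 := by
    refine hρ.trans ?_
    rw [div_le_div_iff₀ hKpos (by norm_num)]
    linarith only [hK2, hK1]
  have hent' := hent X T U ρ hT (by linarith only [hρ2, hK2, hρ0, hX, hK1]) hρ0 hρ2 hU c g1 g2 w0 S p y u1 u2 hcell
  choose sg hsg using hent'
  obtain ⟨φ0⟩ : Nonempty (L →+* ℂ) := inferInstance
  rcases S.eq_empty_or_nonempty with hS | ⟨N1, hN1S⟩
  · exact ⟨∅, by simp, by simp, by simp [hS]⟩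
  have hc0 : c ≠ 0 := (hcell.dat N1 hN1S).dat.c0
  have hinj : Function.Injective (φ0.comp (algebraMap (𝓞 L) L)) := by
    rw [RingHom.coe_comp]
    exact φ0.injective.comp (FaithfulSMul.algebraMap_injective (𝓞 L) L)
  have hlat : Lat (fun j => φ0 ((θ j : 𝓞 L) : L)) (cf θ φ0 g1) (cf θ φ0 g2) (c : ℂ) := by
    refine ⟨fun a b hab => hG.inj (hinj hab), by exact_mod_cast hc0, fun j k hjk he => ?_⟩
    refine hcell.ns j k hjk (hinj ?_)
    rw [map_mul, map_mul]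
    exact he
  obtain ⟨B, hB, hBc, hBf⟩ := hD1 _ _ _ _ hlat
  rw [← hN0] at hBc
  have hclass : ∀ s : (L →+* ℂ) → Fin 4 → ℤˣ, ∃ Φs : Finset ℂ[X][X], Φs.card ≤ D1 ∧
      (∀ Φ ∈ Φs, Irreducible Φ ∧ BiDeg D1 D1 Φ) ∧
      ∀ N ∈ S, (∀ φ, sg φ N = s φ) → ∃ Φ ∈ Φs, evB (N : ℂ) ((u2 N : ℂ) / u1 N) Φ = 0 := by
    intro s
    obtain ⟨κ, hκ0, hκ⟩ := exists_kernel (I := {N // N ∈ S ∧ ∀ φ, sg φ N = s φ})
      (J := {x // x ∈ B}) (K := L)
      (fun N x => ((fv ((u1 N.1 : ℤ) : 𝓞 L) ((u2 N.1 : ℤ) : 𝓞 L) (pv θ (y N.1)) x.1 : 𝓞 L) : L))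
      (by
        intro ψ
        have hd := relc_det θ (m := m) (i := i) hN1 hK1 hKlt hT hX hρ0 hρ hU h B hB hBc y u1 u2
          (fun k => (ψ k).1) (by
            intro φ
            obtain ⟨co, rr, v, ω, hco, hN⟩ := hsg φ (s φ)
            exact ⟨co, rr, v, ω, hco, fun k => hN (ψ k).1 (ψ k).2.1 ((ψ k).2.2 φ)⟩)
        have h2 := congrArg (algebraMap (𝓞 L) L) hd
        rw [RingHom.map_det, map_zero] at h2
        exact h2)
    obtain ⟨κ', hκ'⟩ : ∃ κ' : Ix → ℂ, κ' = fun x => if hx : x ∈ B then φ0 (κ ⟨x, hx⟩) else 0 :=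
      ⟨_, rfl⟩
    have hne : ∃ x ∈ B, κ' x ≠ 0 := by
      by_contra hcon
      push Not at hcon
      apply hκ0
      funext x
      have h1 := hcon x.1 x.2
      rw [hκ'] at h1
      simp only [x.2, dif_pos] at h1
      exact (map_eq_zero φ0).mp h1
    obtain ⟨Φs, hcard, hirr, hvan⟩ := hBf κ' hne
    refine ⟨Φs, hcard, hirr, ?_⟩
    intro N hN hs
    have hbd := hcell.dat N hN
    refine hvan (N : ℂ) (u1 N : ℂ) (u2 N : ℂ) (fun j => φ0 ((pv θ (y N) j : 𝓞 L) : L))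
      (by exact_mod_cast hbd.u10) (fun j => (relc_pt hG φ0 hbd j).1)
      (fun j => (relc_pt hG φ0 hbd j).2) ?_
    have h1 := congrArg φ0 (hκ ⟨N, hN, hs⟩)
    rw [map_sum, map_zero] at h1
    rw [← Finset.sum_coe_sort B (fun x => κ' x *
      fv (u1 N : ℂ) (u2 N : ℂ) (fun j => φ0 ((pv θ (y N) j : 𝓞 L) : L)) x), ← h1]
    refine Finset.sum_congr rfl fun x _ => ?_
    rw [map_mul, relc_fv, hκ']
    simp only [x.2, dif_pos]
  choose Φs hcard hirr hvan using hclass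
  refine ⟨Finset.univ.biUnion Φs, ?_, ?_, ?_⟩
  · calc (Finset.univ.biUnion Φs).card ≤ ∑ s, (Φs s).card := Finset.card_biUnion_le
      _ ≤ ∑ _s : (L →+* ℂ) → Fin 4 → ℤˣ, D1 := Finset.sum_le_sum fun s _ => hcard s
      _ = M * D1 := by rw [Finset.sum_const, Finset.card_univ, smul_eq_mul, hM]
      _ ≤ _ := Nat.le_add_left _ _
  · intro Φ hΦ
    rw [Finset.mem_biUnion] at hΦ
    obtain ⟨s, -, hs⟩ := hΦ
    obtain ⟨h1, h2⟩ := hirr s Φ hs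
    exact ⟨h1, bn_mono h2 (Nat.le_add_right _ _) (Nat.le_add_right _ _)⟩
  · intro N hN
    obtain ⟨Φ, hΦ, hv⟩ := hvan (fun φ => sg φ N) N hN (fun _ => rfl)
    exact ⟨Φ, Finset.mem_biUnion.mpr ⟨_, Finset.mem_univ _, hΦ⟩, hv⟩

end Vale.Agent.P018.QB
end

section

/-! # P018, (B): ranks on curves (item (6) of note 8286, note 8572). -/

namespace Vale.Agent.P018.QB

open Polynomial NumberField Vale.Agent.P018.Q

theorem toC_natDegree (Φ : ℤ[X][X]) : (toC Φ).natDegree = Φ.natDegree :=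
  natDegree_map_eq_of_injective (map_injective _ Int.cast_injective) Φ

theorem toC_coeff (Φ : ℤ[X][X]) (b : ℕ) :
    (toC Φ).coeff b = (Φ.coeff b).map (Int.castRingHom ℂ) := by
  unfold toC
  rw [coeff_map]; rfl

theorem toC_dIn {D : ℕ} {Φ : ℤ[X][X]} (h : BiDeg D D Φ) : dIn (toC Φ) ≤ D := by
  refine dIn_le fun b => ?_
  rw [toC_coeff]
  exact natDegree_map_le.trans (h.2 b)

/-- a point of the curve outside finitely many lines. -/
theorem exists_point {g : ℂ[X][X]} (hE : 1 ≤ g.natDegree) {ϖ : Fin 4 → ℂ[X]}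
    (hϖ : ∀ j, ϖ j ≠ 0) : ∃ n0 ξ0 : ℂ, (g.map (evalRingHom ξ0)).eval n0 = 0 ∧
      ∀ j, (ϖ j).eval ξ0 ≠ 0 := by
  have hg0 : g ≠ 0 := by
    rintro rfl
    simp at hE
  have hlc : g.leadingCoeff ≠ 0 := leadingCoeff_ne_zero.2 hg0
  set P : ℂ[X] := g.leadingCoeff * ∏ j, ϖ j with hP
  have hP0 : P ≠ 0 := mul_ne_zero hlc (Finset.prod_ne_zero_iff.2 fun j _ => hϖ j)
  obtain ⟨ξ0, hξ0⟩ : ∃ ξ0, P.eval ξ0 ≠ 0 := by
    by_contra h
    push Not at h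
    exact hP0 (Polynomial.funext fun x => by rw [h x, eval_zero])
  rw [hP, eval_mul, eval_prod] at hξ0
  have h1 := left_ne_zero_of_mul hξ0
  have h2 := Finset.prod_ne_zero_iff.1 (right_ne_zero_of_mul hξ0)
  have h3 : (g.map (evalRingHom ξ0)).natDegree = g.natDegree :=
    natDegree_map_of_leadingCoeff_ne_zero _ (by simpa using h1)
  have h4 : (g.map (evalRingHom ξ0)).degree ≠ 0 := by
    intro h
    have h5 : (g.map (evalRingHom ξ0)).natDegree = 0 := natDegree_eq_of_degree_eq_some (n := 0) h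
    omega
  obtain ⟨n0, hn0⟩ := IsAlgClosed.exists_root _ h4
  exact ⟨n0, ξ0, hn0, fun j => h2 j (Finset.mem_univ j)⟩

/-- the case `E ≥ 2`. -/
theorem large_ge_two {α g1 g2 : Fin 4 → ℂ} {c : ℂ} {g : ℂ[X][X]} {w D : ℕ}
    (hc : Conf α (gm g1 g2)) (hc0 : c ≠ 0) (hg : Irreducible g)
    (hw : ∀ j, OrdAt (α j) (gm g1 g2 j) w g) (hED : g.natDegree ≤ D) (hdI : dIn g ≤ D)
    (hE : 2 ≤ g.natDegree) : Large α g1 g2 c g (6 * D + 10) := by
  obtain ⟨n0, ξ0, h0, hξ⟩ := exists_point (g := g) (by omega) (fun j => hc.ne j)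
  have h1 := class_d hc hg hE (w := fun _ => w) (fun j => (hw j).1) h0 hξ
  simp only [Finset.sum_const, Finset.card_univ, Fintype.card_fin, smul_eq_mul] at h1
  have hwE : w ≤ g.natDegree := ord_le hc hg (by omega) (hw 0).1
  by_cases h6 : 6 ≤ dIn g + 4 * (g.natDegree - w)
  · exact large_one hc hc0 hg hw hED hdI hE h6
  · have hE2 : g.natDegree = 2 := by omega
    have hodd : Odd (dIn g) := by
      have : dIn g = 4 * w - 3 := by omega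
      rw [this]
      refine ⟨2 * w - 2, ?_⟩
      omega
    obtain ⟨a, b, -, hN⟩ := exists_nsq_two hc hg hE2 hodd
    exact large_two hc hc0 hg hw hED hdI (by omega) (by omega) hN

/-- the case `E = 1`. -/
theorem case_one {α g1 g2 : Fin 4 → ℂ} {c : ℂ} {g : ℂ[X][X]} {w D : ℕ}
    (hconf : Conf α (gm g1 g2)) (hc0 : c ≠ 0) (hirr : Irreducible g)
    (hw : ∀ j, OrdAt (α j) (gm g1 g2 j) w g) (hED : g.natDegree ≤ D) (hdI : dIn g ≤ D)
    (A B : ℂ[X]) (hgAB : g = C A * X - C B) (hA0 : A ≠ 0) (hcop : IsCoprime A B)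
    (hE : g.natDegree = 1) (hA : A = g.coeff 1) (hB : B = -g.coeff 0) :
    Large α g1 g2 c g (6 * D + 10) ∨
    (∃ r : Fin 4 → ℂ, (∀ j, r j ≠ 0) ∧ ∀ j, B - C (α j) * A = gm g1 g2 j * C (r j)) ∨
    (∀ j, ∃ (r : ℂ) (K : ℂ[X]), r ≠ 0 ∧ B - C (α j) * A = C r * gm g1 g2 j * K ^ 2) := by
  have hE1 : 1 ≤ g.natDegree := hE.ge
  have hdIAB : ∀ d, A.natDegree ≤ d → B.natDegree ≤ d → dIn g ≤ d := by
    intro d h1 h2
    refine dIn_le fun b => ?_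
    match b with
    | 0 => rw [← natDegree_neg, ← hB]; exact h2
    | 1 => rw [← hA]; exact h1
    | (b + 2) =>
      rw [coeff_eq_zero_of_natDegree_lt (by omega)]
      simp
  have hAle : A.natDegree ≤ dIn g := by rw [hA]; exact natDegree_coeff_le _ _
  have hBle : B.natDegree ≤ dIn g := by
    rw [hB, natDegree_neg]; exact natDegree_coeff_le _ _
  have hord := fun j => lin_ord hconf hA0 hcop (w := w) j (by
    rw [← hgAB]; exact (hw j).1)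
  have hw1 : w ≤ 1 := (hord 0).1
  rcases Nat.lt_or_ge w 1 with hw0 | hw0
  · -- `w = 0`
    have hw00 : w = 0 := by omega
    rcases lin_dichotomy hconf hA0 hcop with ⟨a, b, -, hN⟩ | hK
    · rw [← hgAB] at hN
      exact Or.inl (large_two hconf hc0 hirr hw hED hdI hE1 (by omega) hN)
    · exact Or.inr (Or.inr hK)
  · have hw11 : w = 1 := by omega
    have hdvd : ∀ j, gm g1 g2 j ∣ B - C (α j) * A := fun j => (hord j).2 hw11
    by_cases hd1 : dIn g ≤ 1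
    · -- constant direction
      have hr : ∀ j, ∃ r : ℂ, r ≠ 0 ∧ B - C (α j) * A = gm g1 g2 j * C r := by
        intro j
        obtain ⟨q, hq⟩ := hdvd j
        have hne : B - C (α j) * A ≠ 0 := by
          intro h0
          have hBA : B = C (α j) * A := sub_eq_zero.1 h0
          have hAu : IsUnit A := by
            rw [hBA] at hcop
            obtain ⟨u, v, huv⟩ := hcop
            exact IsUnit.of_mul_eq_one (u + v * C (α j)) (by rw [← huv]; ring)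
          have hA1 := natDegree_eq_zero_of_isUnit hAu
          obtain ⟨j', hj'⟩ : ∃ j' : Fin 4, j' ≠ j := ⟨j + 1, by fin_cases j <;> decide⟩
          have h5 := hdvd j'
          have h6 : B - C (α j') * A = C (α j - α j') * A := by
            rw [hBA, C_sub]; ring
          rw [h6] at h5
          have h70 : α j - α j' ≠ 0 := by
            rw [sub_ne_zero]
            exact fun h => hj' (hconf.inj h).symm
          have h7 : C (α j - α j') * A ≠ 0 := mul_ne_zero (C_ne_zero.2 h70) hA0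
          have h8 := natDegree_le_of_dvd h5 h7
          rw [hconf.deg j', natDegree_C_mul h70, hA1] at h8
          omega
        have hq0 : q ≠ 0 := by
          rintro rfl
          rw [mul_zero] at hq
          exact hne hq
        have hdq : q.natDegree = 0 := by
          have h9 : (B - C (α j) * A).natDegree ≤ 1 := by
            refine (natDegree_sub_le _ _).trans (max_le (hBle.trans hd1) ?_)
            exact (natDegree_C_mul_le _ _).trans (hAle.trans hd1)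
          rw [hq, natDegree_mul (hconf.ne j) hq0, hconf.deg j] at h9
          omega
        obtain ⟨r, rfl⟩ := natDegree_eq_zero.1 hdq
        exact ⟨r, fun h => hq0 (by rw [h, C_0]), hq⟩
      choose r hr0 hr1 using hr
      exact Or.inr (Or.inl ⟨r, hr0, hr1⟩)
    · by_cases hd2 : dIn g ≤ 2
      · -- four classes
        have hN := lin_nsq_all hconf hA0 hcop (hAle.trans hd2) (hBle.trans hd2) (by
          by_contra h
          push Not at h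
          have h1 : A.natDegree ≤ 1 := by have := hAle.trans hd2; omega
          have h2 : B.natDegree ≤ 1 := by have := hBle.trans hd2; omega
          exact hd1 (hdIAB 1 h1 h2)) hdvd
        rw [← hgAB] at hN
        exact Or.inl (large_four hconf hc0 hirr hw hED hdI hE1 (by omega) hN)
      · rcases lin_dichotomy hconf hA0 hcop with ⟨a, b, -, hN⟩ | hK
        · rw [← hgAB] at hN
          exact Or.inl (large_two hconf hc0 hirr hw hED hdI hE1 (by omega) hN)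
        · exact Or.inr (Or.inr hK)

theorem coprime_of_irreducible {g : ℂ[X][X]} (hirr : Irreducible g) (hE : g.natDegree = 1)
    {A B : ℂ[X]} (hgAB : g = C A * X - C B) (hA0 : A ≠ 0) : IsCoprime A B := by
  rw [← isRelPrime_iff_isCoprime]
  intro d hdA hdB
  have h1 : C d ∣ g := by
    rw [hgAB]
    exact dvd_sub (Dvd.dvd.mul_right (_root_.map_dvd C hdA) _) (_root_.map_dvd C hdB)
  obtain ⟨q, hq⟩ := h1
  rcases hirr.isUnit_or_isUnit hq with h | h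
  · exact isUnit_C.1 h
  · exfalso
    have h2 := natDegree_eq_zero_of_isUnit h
    have hd0 : d ≠ 0 := by
      rintro rfl
      exact hA0 (zero_dvd_iff.1 hdA)
    rw [hq, natDegree_C_mul hd0, h2] at hE
    exact absurd hE (by norm_num)

theorem ev_lin {g : ℂ[X][X]} {A B : ℂ[X]} (hgAB : g = C A * X - C B) (n w : ℂ) :
    evB n w g = 0 ↔ n * A.eval w = B.eval w := by
  have h1 : evB n w g = A.eval w * n - B.eval w := by
    rw [hgAB, ← evh_apply, map_sub, map_mul, evh_C, evh_C, evh_X, coe_aeval_eq_eval]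
  rw [h1, sub_eq_zero, mul_comm]

theorem const_dir {α g1 g2 : Fin 4 → ℂ} {g : ℂ[X][X]} {A B : ℂ[X]} (hgAB : g = C A * X - C B)
    (hcop : IsCoprime A B) {r : Fin 4 → ℂ} (hr : ∀ j, B - C (α j) * A = gm g1 g2 j * C (r j))
    (n w : ℂ) (h : evB n w g = 0) (j k : Fin 4) :
    r k * ((n - α j) * (g1 k + w * g2 k)) = r j * ((n - α k) * (g1 j + w * g2 j)) := by
  rw [ev_lin hgAB] at h
  have hAw : A.eval w ≠ 0 := by
    intro h0
    obtain ⟨u, v, huv⟩ := hcop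
    have h1 := congrArg (eval w) huv
    rw [eval_add, eval_mul, eval_mul, h0, ← h, h0] at h1
    simp at h1
  have e : ∀ j, A.eval w * (n - α j) = (g1 j + w * g2 j) * r j := by
    intro j
    have h1 := congrArg (eval w) (hr j)
    rw [eval_sub, eval_mul, eval_mul, eval_C, eval_C, ← h, gm, eval_add, eval_mul, eval_C,
      eval_C, eval_X] at h1
    linear_combination h1
  apply mul_left_cancel₀ hAw
  calc A.eval w * (r k * ((n - α j) * (g1 k + w * g2 k))) =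
      r k * (A.eval w * (n - α j)) * (g1 k + w * g2 k) := by ring
    _ = r j * (A.eval w * (n - α k)) * (g1 j + w * g2 j) := by
        rw [e j, e k]; ring
    _ = _ := by ring

/-- the four cases for an irreducible rational curve `Φ(n, w) = 0` on a non special lattice. -/
theorem curve_rank (D : ℕ) : ∃ C0 : ℕ, ∀ {L : Type} [Field L] [NumberField L] (θ : Fin 4 → 𝓞 L)
    (G : ℤ[X]), Root4 θ G → ∀ (φ : L →+* ℂ) (c : ℤ) (g1 g2 : Fin 4 → ℤ), c ≠ 0 →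
    NonSpec θ g1 g2 → ∀ (Φ : ℤ[X][X]), Irreducible (toC Φ) → BiDeg D D Φ →
    -- large rank
    (∀ (Ω : Type) [Field Ω] [Algebra ℂ Ω] (n w : Ω) (pi : Fin 4 → Ω),
      Mdl (fun j => φ (θ j)) (cf θ φ g1) (cf θ φ g2) c Ω n w pi →
      (∀ F, evB n w F = 0 ↔ toC Φ ∣ F) → ∀ i t : ℕ, C0 ≤ i → C0 ≤ t →
      2 * i + 6 * t ≤ C0 + Module.finrank ℂ (spn w pi (mons (i + t) (2 * t) : Set Ix)))
    -- fibre `w = const`
    ∨ Φ.natDegree = 0
    -- constant direction of `π`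
    ∨ (∃ r : Fin 4 → ℂ, (∀ j, r j ≠ 0) ∧ ∀ (n w : ℂ), evB n w (toC Φ) = 0 →
        ∀ j k, r k * ((n - φ (θ j)) * (cf θ φ g1 k + w * cf θ φ g2 k)) =
          r j * ((n - φ (θ k)) * (cf θ φ g1 j + w * cf θ φ g2 j)))
    -- gap: `n = B(w)/A(w)`, all `x_j` squares
    ∨ (∃ A B : ℤ[X], A.natDegree ≤ D ∧ B.natDegree ≤ D ∧
        IsCoprime (A.map (Int.castRingHom ℚ)) (B.map (Int.castRingHom ℚ)) ∧
        (∀ n w : ℂ, evB n w (toC Φ) = 0 ↔
          n * (A.map (Int.castRingHom ℂ)).eval w = (B.map (Int.castRingHom ℂ)).eval w) ∧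
        ∀ j, ∃ h : ℂ[X], B.map (Int.castRingHom ℂ) - Polynomial.C (φ (θ j)) *
          A.map (Int.castRingHom ℂ) = (Polynomial.C (cf θ φ g1 j) +
            Polynomial.C (cf θ φ g2 j) * X) * h ^ 2) := by
  refine ⟨6 * D + 10, ?_⟩
  intro L _ _ θ G hG φ c g1 g2 hc0 hns Φ hirr hdeg
  by_cases hE0 : Φ.natDegree = 0
  · exact Or.inr (Or.inl hE0)
  have hcC : (c : ℂ) ≠ 0 := by exact_mod_cast hc0
  have hconf := conf_of θ G hG φ hns
  obtain ⟨w, hw⟩ := ord_equal θ G hG φ hns Φ hirr.ne_zero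
  have hED : (toC Φ).natDegree ≤ D := by rw [toC_natDegree]; exact hdeg.1
  have hE1 : 1 ≤ (toC Φ).natDegree := by rw [toC_natDegree]; omega
  have hdI := toC_dIn hdeg
  by_cases hE2 : 2 ≤ (toC Φ).natDegree
  · exact Or.inl (large_ge_two hconf hcC hirr hw hED hdI hE2)
  have hE : (toC Φ).natDegree = 1 := by omega
  have hgAB : toC Φ = C ((toC Φ).coeff 1) * X - C (-(toC Φ).coeff 0) := by
    conv_lhs => rw [eq_X_add_C_of_natDegree_le_one hE.le]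
    rw [C_neg, sub_neg_eq_add]
  have hA0 : (toC Φ).coeff 1 ≠ 0 := by
    have := leadingCoeff_ne_zero.2 hirr.ne_zero
    rwa [leadingCoeff, hE] at this
  have hcop := coprime_of_irreducible hirr hE hgAB hA0
  rcases case_one hconf hcC hirr hw hED hdI _ _ hgAB hA0 hcop hE rfl rfl with h | ⟨r, hr0, hr⟩ | hK
  · exact Or.inl h
  · exact Or.inr (Or.inr (Or.inl ⟨r, hr0, fun n w' h j k => const_dir hgAB hcop hr n w' h j k⟩))
  · refine Or.inr (Or.inr (Or.inr ?_))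
    have eA : (Φ.coeff 1).map (Int.castRingHom ℂ) = (toC Φ).coeff 1 := by rw [toC_coeff]
    have eB : (-Φ.coeff 0).map (Int.castRingHom ℂ) = -(toC Φ).coeff 0 := by
      rw [toC_coeff, Polynomial.map_neg]
    refine ⟨Φ.coeff 1, -Φ.coeff 0, hdeg.2 1, ?_, ?_, ?_, ?_⟩
    · rw [natDegree_neg]; exact hdeg.2 0
    · rw [← isCoprime_map (algebraMap ℚ ℂ), Polynomial.map_map, Polynomial.map_map,
        show (algebraMap ℚ ℂ).comp (Int.castRingHom ℚ) = Int.castRingHom ℂ from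
          RingHom.ext_int _ _, eA, eB]
      exact hcop
    · intro n w
      rw [eA, eB]
      exact ev_lin hgAB n w
    · intro j
      obtain ⟨r, K, hr, hrK⟩ := hK j
      obtain ⟨s, hs⟩ := IsAlgClosed.exists_pow_nat_eq r (n := 2) (by norm_num)
      refine ⟨C s * K, ?_⟩
      rw [eA, eB, hrK, ← hs, mul_pow, C_pow]
      change C s ^ 2 * (C (cf θ φ g1 j) + C (cf θ φ g2 j) * X) * K ^ 2 = _
      ring

end Vale.Agent.P018.QB
end

section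

/-! # P018, (B): few solutions with given `z` or given `y` (`few_z`, `few_y`). -/
end

section

/-! # P018, (B): number of solutions on a curve (`count_of_rank` is in `BCountRank`). -/

namespace Vale.Agent.P018.QB

open Polynomial NumberField Vale.Agent.P018.Q

theorem curve_count {L : Type} [Field L] [NumberField L] (θ : Fin 4 → 𝓞 L) (G : ℤ[X])
    (hG : Root4 θ G) (C D : ℕ) (ε : ℝ) (hε : 0 < ε) :
    ∃ K : ℝ, 0 < K ∧ ∀ (X T U : ℝ), 1 ≤ T → 1 ≤ X → T ^ 2 ≤ C * X → X ≤ C * T ^ 4 → 1 ≤ U →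
      U ≤ C * T ^ 4 → ∀ (c : ℤ) (g1 g2 : Fin 4 → ℤ), NonSpec θ g1 g2 →
      (∀ j, |(g1 j : ℝ)| ≤ C * T ^ 4) → (∀ j, |(g2 j : ℝ)| ≤ C * T ^ 4) →
      ∀ Φ : ℂ[X][X], Irreducible Φ → BiDeg D D Φ →
      ∀ (S : Finset ℤ) (p : ℤ → ℕ) (y : ℤ → Fin 4 → ℤ) (u1 u2 : ℤ → ℤ),
        (∀ N ∈ S, BDat θ C X T U c g1 g2 N (p N) (y N) (u1 N) (u2 N)) →
        (∀ N ∈ S, evB (N : ℂ) ((u2 N : ℂ) / u1 N) Φ = 0) →
        (S.card : ℝ) ≤ K * (T ^ (27 / 169 + ε) * U ^ (131 / 338 : ℝ)) := by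
  classical
  obtain ⟨K0, hK0⟩ := rational_of_points D
  obtain ⟨C0, hC0⟩ := curve_rank D
  obtain ⟨Kz, hKz⟩ := few_z θ G hG C
  obtain ⟨Ky, hKy⟩ := few_y θ G hG C
  set C1 : ℕ := (C ^ 2 + C + 3) ^ K0 + 4 * K0 with hC1
  obtain ⟨Kr, hKr, hrank⟩ := count_of_rank θ G hG C D C0 C1 ε hε
  obtain ⟨Kg, hKg, hgap⟩ := count_gap θ G hG C D ε hε
  set M : ℕ := ccM θ C with hM
  set Kw : ℕ := (Kz * ((2 * M + 1) * (M + 1))) * D with hKw
  set Kd : ℕ := (Ky * ((2 * M + 1) * (M + 1))) * 16 with hKd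
  refine ⟨K0 + Kw + Kd + Kr + Kg, by (clear * - hKr hKg; positivity), ?_⟩
  intro X T U hT hX hTX hXT hU hUT c g1 g2 hns hg1 hg2 Φ hΦ hbd S p y u1 u2 hB hev
  have hP : 1 ≤ T ^ (27 / 169 + ε) * U ^ (131 / 338 : ℝ) :=
    one_le_mul_of_one_le_of_one_le (Real.one_le_rpow hT (by positivity))
      (Real.one_le_rpow hU (by norm_num))
  set P : ℝ := T ^ (27 / 169 + ε) * U ^ (131 / 338 : ℝ) with hPdef
  have hP0 : 0 ≤ P := zero_le_one.trans hP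
  -- a bound by a summand suffices
  have hfin : ∀ k : ℝ, 0 ≤ k → k ≤ K0 + Kw + Kd + Kr + Kg → (S.card : ℝ) ≤ k * P →
      (S.card : ℝ) ≤ (K0 + Kw + Kd + Kr + Kg) * P := fun k _ h1 h2 =>
    h2.trans (mul_le_mul_of_nonneg_right h1 hP0)
  have hnat : ∀ k : ℕ, S.card ≤ k → (S.card : ℝ) ≤ (k : ℝ) * P := fun k hk => by
    have : (S.card : ℝ) ≤ k := by exact_mod_cast hk
    nlinarith [(Nat.cast_nonneg k : (0 : ℝ) ≤ k)]
  have n0 : (0 : ℝ) ≤ K0 := Nat.cast_nonneg _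
  have n1 : (0 : ℝ) ≤ Kw := Nat.cast_nonneg _
  have n2 : (0 : ℝ) ≤ Kd := Nat.cast_nonneg _
  have n3 : (0 : ℝ) ≤ Kr := hKr.le
  have n4 : (0 : ℝ) ≤ Kg := hKg.le
  by_cases hS : S.card ≤ K0
  · exact hfin K0 n0 (by linarith only [n2, n1, hKg, hKr]) (hnat K0 hS)
  push Not at hS
  obtain ⟨N1, hN1⟩ : S.Nonempty := Finset.card_pos.1 (by omega)
  have hc0 : c ≠ 0 := (hB N1 hN1).dat.c0
  obtain ⟨φ⟩ : Nonempty (L →+* ℂ) := inferInstance
  -- rationality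
  obtain ⟨H, hH2, hHX, hHU, hHp⟩ := cc_height C K0 T hT
  have hHb : ∀ (a : ℤ) (b : ℝ), |(a : ℝ)| ≤ b → b ≤ H → |a| ≤ H := fun a b h1 h2 => by
    have : |(a : ℝ)| ≤ H := h1.trans h2
    exact_mod_cast this
  obtain ⟨Ψ, a, ha, hΨ, hΨH⟩ := hK0 H hH2 Φ hΦ hbd S u1 u2 (fun N hN => by
    have hb := hB N hN
    refine ⟨hHb N _ hb.dat.hN (le_trans ?_ hHX), hHb _ _ hb.hu1 (hUT.trans hHU),
      hHb _ _ hb.hu2 (hUT.trans hHU), hb.u10, hev N hN⟩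
    exact mul_le_mul_of_nonneg_left hXT (Nat.cast_nonneg _)) hS
  have hirr : Irreducible (toC Ψ) := by
    rw [hΨ]
    refine (irreducible_isUnit_mul ?_).2 hΦ
    exact (isUnit_C.2 (isUnit_C.2 (isUnit_iff_ne_zero.2 ha)))
  have hbdΨ : BiDeg D D Ψ := cc_bideg hΨ hbd
  have hevΨ : ∀ N ∈ S, evB (N : ℂ) ((u2 N : ℂ) / u1 N) (toC Ψ) = 0 := fun N hN => by
    rw [hΨ, cc_evB_mul, hev N hN, mul_zero]
  have hcoef : ∀ i j, |(((Ψ.coeff i).coeff j : ℤ) : ℝ)| ≤ C1 * T ^ C1 := fun i j => by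
    have h1 : |(((Ψ.coeff i).coeff j : ℤ) : ℝ)| ≤ (H : ℝ) ^ K0 := by exact_mod_cast hΨH i j
    exact h1.trans hHp
  -- the fibre case
  have hfib : Ψ.natDegree = 0 → (S.card : ℝ) ≤ (K0 + Kw + Kd + Kr + Kg) * P := fun h0 => by
    refine hfin Kw n1 (by linarith only [n2, n0, hKg, hKr]) (hnat Kw ?_)
    have hd0 : Φ.natDegree = 0 := by
      have h1 : (toC Ψ).natDegree = 0 := by
        have : (toC Ψ).natDegree ≤ Ψ.natDegree := natDegree_map_le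
        omega
      rw [hΨ, natDegree_C_mul (by simpa using ha)] at h1
      exact h1
    have hΦC : Φ = Polynomial.C (Φ.coeff 0) := eq_C_of_natDegree_eq_zero hd0
    refine cc_fibre_w hG Kz D S p y u1 u2 hB (Φ.coeff 0) ?_ (hbd.2 0) ?_ ?_
    · intro h1
      rw [h1, map_zero] at hΦC
      exact hΦ.ne_zero hΦC
    · intro N hN
      rw [← cc_evB0 hd0 (N : ℂ)]
      exact hev N hN
    · intro z S' hS' hz
      refine hKz X T hT hX hTX hXT c z S' p y fun N hN => ?_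
      have hb := hB N (hS' hN)
      refine ⟨hb.lowN, ?_⟩
      rw [← hz N hN]
      exact hb.dat
  rcases hC0 θ G hG φ c g1 g2 hc0 hns Ψ hirr hbdΨ with h | h | h | h
  · by_cases h0 : Ψ.natDegree = 0
    · exact hfib h0
    · exact hfin Kr n3 (by linarith only [n2, n1, n0, hKg]) (hrank X T U hT hX hTX hXT hU hUT φ c g1 g2 hns hg1 hg2 Ψ hirr
        hbdΨ hcoef h0 h S p y u1 u2 hB hevΨ)
  · exact hfib h
  · obtain ⟨r, hr, hdir⟩ := h
    refine hfin Kd n2 (by linarith only [n1, n0, hKg, hKr]) (hnat Kd ?_)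
    refine cc_signs hG.inj φ r hr Ky M S y (fun N hN j => cc_pi_ne (hB N hN).dat j) ?_ ?_ ?_
    · intro N hN j
      exact cc_dir hG φ (hB N hN) r j 0 (hdir N _ (hevΨ N hN) j 0)
    · intro N hN d hd
      exact cc_content hG.inj (hB N hN).dat d (Or.inr hd)
    · intro w S' hS' hw
      refine hKy X T hT hX hTX hXT c w S' p (fun N j => u1 N * g1 j + u2 N * g2 j) fun N hN => ?_
      have hb := hB N (hS' hN)
      refine ⟨hb.lowN, ?_⟩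
      rw [← hw N hN]
      exact hb.dat
  · obtain ⟨A, B, hA, hBd, hcop, hiff, hsq⟩ := h
    refine hfin Kg n4 (by linarith only [n2, n1, n0, hKr]) ?_
    have h1 := hgap X T U hT hX hTX hXT hU hUT φ c g1 g2 hns hg1 hg2 A B hA hBd hcop hsq S p y u1 u2
      hB (fun N hN => (hiff _ _).1 (hevΨ N hN))
    refine h1.trans (mul_le_mul_of_nonneg_left ?_ n4)
    have h2 : T ^ ε ≤ T ^ (27 / 169 + ε) := Real.rpow_le_rpow_of_exponent_le hT (by linarith only [])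
    have h3 : 1 ≤ U ^ (131 / 338 : ℝ) := Real.one_le_rpow hU (by norm_num)
    have h4 : 0 ≤ T ^ (27 / 169 + ε) := Real.rpow_nonneg (by linarith only [hT]) _
    rw [hPdef]
    linarith only [mul_nonneg (sub_nonneg.2 h3) (sub_nonneg.2 h4), mul_nonneg (mul_self_nonneg (1 : ℝ)) (sub_nonneg.2 h2)]

end Vale.Agent.P018.QB
end

section

/-! # P018, (B): the count over one reduced pair from the cells. -/

namespace Vale.Agent.P018.QB

open Polynomial NumberField Vale.Agent.P018.Q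

/-- the conclusion of `exists_cells`. -/
def CellStmt {L : Type} [Field L] [NumberField L] (θ : Fin 4 → 𝓞 L) (C : ℕ) : Prop :=
    ∃ K : ℝ, 0 < K ∧ ∀ (X T ρ : ℝ), 1 ≤ T → K ≤ X → 0 < ρ → ρ ≤ 1 → ∀ (g g' : Fin 4 → ℤ),
      g ≠ 0 → g' ≠ 0 → ∀ (S : Finset ℤ) (p : ℤ → ℕ) (c : ℤ) (y : ℤ → Fin 4 → ℤ) (u1 u2 : ℤ → ℤ),
      (∀ N ∈ S, Dat θ C X T N (p N) c (y N) (fun j => u1 N * g j + u2 N * g' j) ∧
        X ≤ C * |(N : ℝ)| ∧ u1 N ≠ 0 ∧ (u1 N : ℝ) ^ 2 * dot g g ≤ C * (X / T ^ 2) ^ 2 ∧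
        (u2 N : ℝ) ^ 2 * dot g' g' ≤ (u1 N : ℝ) ^ 2 * dot g g) →
      ∃ (k : ℕ) (cl : ℤ → ℕ) (w0 : ℕ → ℝ), (k : ℝ) ≤ K / ρ ∧ (∀ N ∈ S, cl N < k) ∧
        ∀ N ∈ S, ∀ (φ : L →+* ℂ) (j : Fin 4),
          |(u2 N : ℝ) / u1 N - w0 (cl N)| * ‖cf θ φ g' j‖ ≤
            ρ * ‖cf θ φ g j + w0 (cl N) * cf θ φ g' j‖

/-- one value of `c` and one dominance. -/
theorem pcc_half {L : Type} [Field L] [NumberField L] (θ : Fin 4 → 𝓞 L) (G : ℤ[X])
    (hG : Root4 θ G) (C i m : ℕ) (hm : 2 ≤ m) (ε : ℝ) (hε : 0 < ε) (hcell : CellStmt θ C) :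
    ∃ K : ℝ, 1 ≤ K ∧ ∀ (X T U ρ : ℝ), 1 ≤ T → K ≤ X → T ^ 2 ≤ C * X → X ≤ C * T ^ 4 →
      0 < ρ → ρ ≤ 1 / K → 1 ≤ U → U ≤ C * T ^ 4 → ∀ (g g' : Fin 4 → ℤ), g ≠ 0 → g' ≠ 0 →
      NonSpec θ g g' → (X / T ^ 2) ^ 2 ≤ C * U ^ 2 * dot g' g' →
      (∀ j, |(g j : ℝ)| ≤ C * T ^ 4) → (∀ j, |(g' j : ℝ)| ≤ C * T ^ 4) →
      (∀ S : Finset (ℕ × ℕ), S.card = 8 * (m - 1) * (m - 1 + i) →
        K * (U ^ i * T ^ (2 * m)) ^ (8 * (m - 1) * (m - 1 + i)) *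
          ∏ s ∈ S, (X⁻¹ ^ s.1 * ρ ^ s.2) < 1) →
      ∀ (c : ℤ) (S : Finset ℤ) (p : ℤ → ℕ) (y : ℤ → Fin 4 → ℤ) (u1 u2 : ℤ → ℤ),
        (∀ N ∈ S, BDat θ C X T U c g g' N (p N) (y N) (u1 N) (u2 N) ∧
          (u1 N : ℝ) ^ 2 * dot g g ≤ C * (X / T ^ 2) ^ 2 ∧
          (u2 N : ℝ) ^ 2 * dot g' g' ≤ (u1 N : ℝ) ^ 2 * dot g g) →
      (S.card : ℝ) ≤ K * ρ⁻¹ * (T ^ (27 / 169 + ε) * U ^ (131 / 338 : ℝ)) := by
  classical
  obtain ⟨K1, hK1, hc⟩ := hcell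
  obtain ⟨K2, D, hK2, hr⟩ := rel_cell θ G hG C i m hm
  obtain ⟨K3, hK3, hcc⟩ := curve_count θ G hG C D ε hε
  obtain ⟨K, hK⟩ : ∃ K : ℝ, K = max 1 (max K1 (max K2 (K1 * D * K3))) := ⟨_, rfl⟩
  have hk0 : 1 ≤ K := by rw [hK]; exact le_max_left _ _
  have hk1 : K1 ≤ K := by rw [hK]; exact (le_max_left _ _).trans (le_max_right _ _)
  have hk2 : K2 ≤ K := by
    rw [hK]; exact (le_max_left _ _).trans ((le_max_right _ _).trans (le_max_right _ _))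
  have hk3 : K1 * D * K3 ≤ K := by
    rw [hK]; exact (le_max_right _ _).trans ((le_max_right _ _).trans (le_max_right _ _))
  refine ⟨K, hk0, ?_⟩
  intro X T U ρ hT hKX hTX hXT hρ hρK hU hUT g g' hg hg' hns hUd hgb hgb' hnum c S p y u1 u2 hS
  have hK0 : 0 < K := lt_of_lt_of_le one_pos hk0
  have hX1 : 1 ≤ X := hk0.trans hKX
  have hX0 : 0 < X := lt_of_lt_of_le one_pos hX1
  have hT0 : 0 < T := lt_of_lt_of_le one_pos hT
  have hU0 : 0 < U := lt_of_lt_of_le one_pos hU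
  have hρ1 : ρ ≤ 1 := hρK.trans (by rw [div_le_one hK0]; exact hk0)
  have hρ2 : ρ ≤ 1 / K2 := hρK.trans (one_div_le_one_div_of_le hK2 hk2)
  obtain ⟨k, cl, w0, hk, hcl, hw⟩ := hc X T ρ hT (hk1.trans hKX) hρ hρ1 g g' hg hg' S p c y u1 u2
    (fun N hN => ⟨(hS N hN).1.dat, (hS N hN).1.lowN, (hS N hN).1.u10, (hS N hN).2.1,
      (hS N hN).2.2⟩)
  have hnum2 : ∀ S : Finset (ℕ × ℕ), S.card = 8 * (m - 1) * (m - 1 + i) →
        K2 * (U ^ i * T ^ (2 * m)) ^ (8 * (m - 1) * (m - 1 + i)) *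
          ∏ s ∈ S, (X⁻¹ ^ s.1 * ρ ^ s.2) < 1 := by
    intro S' hS'
    refine lt_of_le_of_lt ?_ (hnum S' hS')
    have h1 : 0 ≤ ∏ s ∈ S', (X⁻¹ ^ s.1 * ρ ^ s.2) :=
      Finset.prod_nonneg fun s _ => by positivity
    have h2 : 0 ≤ (U ^ i * T ^ (2 * m)) ^ (8 * (m - 1) * (m - 1 + i)) := by positivity
    exact mul_le_mul_of_nonneg_right (mul_le_mul_of_nonneg_right hk2 h2) h1
  obtain ⟨F, hF⟩ : ∃ F : ℝ, F = T ^ (27 / 169 + ε) * U ^ (131 / 338 : ℝ) := ⟨_, rfl⟩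
  have hF0 : 0 ≤ F := by rw [hF]; positivity
  rw [← hF]
  -- one cell
  have hone : ∀ a ∈ Finset.range k, ((S.filter (fun N => cl N = a)).card : ℝ) ≤
      D * (K3 * F) := by
    intro a _
    obtain ⟨Φs, hcard, hΦ, hmem⟩ := hr X T U ρ hT (hk2.trans hKX) hρ hρ2 hU hnum2 c g g'
      (w0 a) (S.filter (fun N => cl N = a)) p y u1 u2
      ⟨hns, hUd, fun N hN => (hS N (Finset.mem_filter.1 hN).1).1, by
        intro N hN φ j
        obtain ⟨hN, ha⟩ := Finset.mem_filter.1 hN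
        have := hw N hN φ j
        rwa [ha] at this⟩
    have hsub : S.filter (fun N => cl N = a) ⊆ Φs.biUnion (fun Φ =>
        (S.filter (fun N => cl N = a)).filter
          (fun N : ℤ => evB (N : ℂ) ((u2 N : ℂ) / u1 N) Φ = 0)) := by
      intro N hN
      obtain ⟨Φ, hΦ, h0⟩ := hmem N hN
      exact Finset.mem_biUnion.2 ⟨Φ, hΦ, Finset.mem_filter.2 ⟨hN, h0⟩⟩
    have h1 : ((S.filter (fun N => cl N = a)).card : ℝ) ≤ ∑ Φ ∈ Φs,
        (((S.filter (fun N => cl N = a)).filter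
          (fun N : ℤ => evB (N : ℂ) ((u2 N : ℂ) / u1 N) Φ = 0)).card : ℝ) := by
      exact_mod_cast (Finset.card_le_card hsub).trans Finset.card_biUnion_le
    have h2 : ∀ Φ ∈ Φs, (((S.filter (fun N => cl N = a)).filter
          (fun N : ℤ => evB (N : ℂ) ((u2 N : ℂ) / u1 N) Φ = 0)).card : ℝ) ≤ K3 * F := by
      intro Φ hΦm
      rw [hF]
      refine hcc X T U hT hX1 hTX hXT hU hUT c g g' hns hgb hgb' Φ (hΦ Φ hΦm).1 (hΦ Φ hΦm).2
        _ p y u1 u2 ?_ ?_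
      · intro N hN
        exact (hS N (Finset.mem_filter.1 (Finset.mem_filter.1 hN).1).1).1
      · intro N hN
        exact (Finset.mem_filter.1 hN).2
    calc ((S.filter (fun N => cl N = a)).card : ℝ) ≤ _ := h1
      _ ≤ ∑ _Φ ∈ Φs, K3 * F := Finset.sum_le_sum h2
      _ = (Φs.card : ℝ) * (K3 * F) := by rw [Finset.sum_const, nsmul_eq_mul]
      _ ≤ D * (K3 * F) := by
        have : (Φs.card : ℝ) ≤ D := by exact_mod_cast hcard
        exact mul_le_mul_of_nonneg_right this (by (clear * - hK3 hF0; positivity))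
  have hcov : (S.card : ℝ) = ∑ a ∈ Finset.range k, ((S.filter (fun N => cl N = a)).card : ℝ) := by
    have := Finset.card_eq_sum_card_fiberwise (f := cl) (s := S) (t := Finset.range k)
      (fun N hN => Finset.mem_coe.2 (Finset.mem_range.2 (hcl N hN)))
    exact_mod_cast this
  calc (S.card : ℝ) ≤ ∑ _a ∈ Finset.range k, (D * (K3 * F) : ℝ) := by
        rw [hcov]; exact Finset.sum_le_sum hone
    _ = (k : ℝ) * (D * (K3 * F)) := by
        rw [Finset.sum_const, nsmul_eq_mul, Finset.card_range]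
    _ ≤ (K1 / ρ) * (D * (K3 * F)) := mul_le_mul_of_nonneg_right hk (by (clear * - hK3 hF0; positivity))
    _ = (K1 * D * K3) * ρ⁻¹ * F := by rw [div_eq_mul_inv]; ring
    _ ≤ K * ρ⁻¹ * F := by
        refine mul_le_mul_of_nonneg_right ?_ hF0
        exact mul_le_mul_of_nonneg_right hk3 (by positivity)

theorem pcc_dot_self_pos {v : Fin 4 → ℤ} (h : v ≠ 0) : 0 < dot v v := by
  obtain ⟨j, hj⟩ := Function.ne_iff.1 h
  refine Finset.sum_pos' (fun i _ => mul_self_nonneg (v i)) ⟨j, Finset.mem_univ j, ?_⟩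
  exact mul_self_pos.2 (by simpa using hj)

theorem pcc_sq_le_dot (v : Fin 4 → ℤ) (j : Fin 4) : v j ^ 2 ≤ dot v v := by
  rw [pow_two]
  exact Finset.single_le_sum (f := fun i => v i * v i) (fun i _ => mul_self_nonneg (v i))
    (Finset.mem_univ j)

/-- the element `z` of a solution is not `0`. -/
theorem pcc_z_ne {L : Type} [Field L] [NumberField L] {θ : Fin 4 → 𝓞 L}
    (hinj : Function.Injective θ) {C : ℕ} {X T : ℝ} {N : ℤ} {p : ℕ} {c : ℤ} {y z : Fin 4 → ℤ}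
    (h : Dat θ C X T N p c y z) : z ≠ 0 := by
  intro hz
  have h1 : ∀ i, (N : 𝓞 L) = θ i := by
    intro i
    have := h.eqn i
    rw [hz] at this
    have h0 : K.ell (θ i) (0 : Fin 4 → ℤ) = 0 := by simp [K.ell]
    rw [h0, mul_zero] at this
    rcases mul_eq_zero.1 this with h2 | h2
    · exact absurd (by exact_mod_cast h2) h.c0
    · exact sub_eq_zero.1 h2
  have h2 : θ 0 = θ 1 := (h1 0).symm.trans (h1 1)
  exact absurd (hinj h2) (by decide)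

/-- the count over one reduced pair, given the cells. -/
theorem pcc_main {L : Type} [Field L] [NumberField L] (θ : Fin 4 → 𝓞 L) (G : ℤ[X])
    (hG : Root4 θ G) (C i m : ℕ) (hm : 2 ≤ m) (ε : ℝ) (hε : 0 < ε) (hcell : CellStmt θ C) :
    ∃ K : ℝ, 0 < K ∧ ∀ (X T U ρ : ℝ), 1 ≤ T → K ≤ X → T ^ 2 ≤ C * X → X ≤ C * T ^ 4 →
      0 < ρ → ρ ≤ 1 / K → 1 ≤ U → U ≤ C * T ^ 4 → ∀ (g1 g2 : Fin 4 → ℤ), Red g1 g2 →
      NonSpec θ g1 g2 → (dot g2 g2 : ℝ) ≤ T ^ 8 →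
      C * (X / T ^ 2) ^ 2 ≤ U ^ 2 * dot g1 g1 →
      (∀ S : Finset (ℕ × ℕ), S.card = 8 * (m - 1) * (m - 1 + i) →
        K * (U ^ i * T ^ (2 * m)) ^ (8 * (m - 1) * (m - 1 + i)) *
          ∏ s ∈ S, (X⁻¹ ^ s.1 * ρ ^ s.2) < 1) →
      ∀ S : Finset ℤ, (∀ N ∈ S, ∃ (p : ℕ) (c : ℤ) (y : Fin 4 → ℤ) (s t : ℤ),
        Dat θ C X T N p c y (s • g1 + t • g2) ∧ X ≤ C * |(N : ℝ)| ∧
          (s : ℝ) ^ 2 * dot g1 g1 ≤ C * (X / T ^ 2) ^ 2 ∧
          (t : ℝ) ^ 2 * dot g2 g2 ≤ C * (X / T ^ 2) ^ 2) →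
      (S.card : ℝ) ≤ K * ρ⁻¹ * (T ^ (27 / 169 + ε) * U ^ (131 / 338 : ℝ)) := by
  classical
  obtain ⟨K0, hK0, hh⟩ := pcc_half θ G hG C i m hm ε hε hcell
  have hC1 : (1 : ℝ) ≤ 2 * (2 * C + 1) := by
    have : (0 : ℝ) ≤ C := Nat.cast_nonneg C
    linarith
  have hKK : K0 ≤ 2 * (2 * C + 1) * K0 := le_mul_of_one_le_left (by linarith) hC1
  have hKpos : 0 < 2 * (2 * (C : ℝ) + 1) * K0 := lt_of_lt_of_le (by linarith) hKK
  refine ⟨2 * (2 * C + 1) * K0, hKpos, ?_⟩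
  intro X T U ρ hT hKX hTX hXT hρ hρK hU hUT g1 g2 hred hns hg2 hUg hnum S hS
  have hX1 : 1 ≤ X := hK0.trans (hKK.trans hKX)
  have hX0 : 0 < X := lt_of_lt_of_le one_pos hX1
  have hT0 : 0 < T := lt_of_lt_of_le one_pos hT
  have hU0 : 0 < U := lt_of_lt_of_le one_pos hU
  have hρ2 : ρ ≤ 1 / K0 := hρK.trans (one_div_le_one_div_of_le (by linarith only [hK0]) hKK)
  have hCpos : (1 : ℝ) ≤ C := by
    by_contra hlt
    have h0 : C = 0 := by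
      by_contra h
      exact hlt (by exact_mod_cast Nat.one_le_iff_ne_zero.2 h)
    rw [h0] at hXT
    simp at hXT
    linarith only [hXT, hX0]
  have hg1 : g1 ≠ 0 := hred.1
  have hg2' : g2 ≠ 0 := by
    intro h
    have := hred.2.2.2 0 1 (by simp [h])
    exact one_ne_zero this.2
  have hd1 : 0 < dot g1 g1 := pcc_dot_self_pos hg1
  have hd2 : 0 < dot g2 g2 := pcc_dot_self_pos hg2'
  have hd1R : (0 : ℝ) < dot g1 g1 := by exact_mod_cast hd1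
  have hd2R : (0 : ℝ) < dot g2 g2 := by exact_mod_cast hd2
  have hd12 : (dot g1 g1 : ℝ) ≤ dot g2 g2 := by exact_mod_cast hred.2.1
  have hT4 : T ^ 4 ≤ C * T ^ 4 := le_mul_of_one_le_left (by positivity) hCpos
  have hbd : ∀ v : Fin 4 → ℤ, (dot v v : ℝ) ≤ dot g2 g2 → ∀ j, |(v j : ℝ)| ≤ C * T ^ 4 := by
    intro v hv j
    refine le_trans ?_ hT4
    refine abs_le_of_sq_le_sq ?_ (by positivity)
    have h1 : ((v j : ℝ)) ^ 2 ≤ dot v v := by exact_mod_cast pcc_sq_le_dot v j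
    calc ((v j : ℝ)) ^ 2 ≤ dot v v := h1
      _ ≤ T ^ 8 := hv.trans hg2
      _ = (T ^ 4) ^ 2 := by ring
  have hnum2 : ∀ S : Finset (ℕ × ℕ), S.card = 8 * (m - 1) * (m - 1 + i) →
        K0 * (U ^ i * T ^ (2 * m)) ^ (8 * (m - 1) * (m - 1 + i)) *
          ∏ s ∈ S, (X⁻¹ ^ s.1 * ρ ^ s.2) < 1 := by
    intro S' hS'
    refine lt_of_le_of_lt ?_ (hnum S' hS')
    have h1 : 0 ≤ ∏ s ∈ S', (X⁻¹ ^ s.1 * ρ ^ s.2) :=
      Finset.prod_nonneg fun s _ => by positivity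
    have h2 : 0 ≤ (U ^ i * T ^ (2 * m)) ^ (8 * (m - 1) * (m - 1 + i)) := by positivity
    exact mul_le_mul_of_nonneg_right (mul_le_mul_of_nonneg_right hKK h2) h1
  have hns' : NonSpec θ g2 g1 := by
    intro j k hjk h
    refine hns k j hjk.symm ?_
    exact (mul_comm _ _).trans (h.trans (mul_comm _ _))
  have hU1 : (X / T ^ 2) ^ 2 ≤ C * U ^ 2 * dot g1 g1 := by
    calc (X / T ^ 2) ^ 2 ≤ C * (X / T ^ 2) ^ 2 := le_mul_of_one_le_left (by positivity) hCpos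
      _ ≤ U ^ 2 * dot g1 g1 := hUg
      _ ≤ C * (U ^ 2 * dot g1 g1) := le_mul_of_one_le_left (by positivity) hCpos
      _ = C * U ^ 2 * dot g1 g1 := by ring
  have hU2 : (X / T ^ 2) ^ 2 ≤ C * U ^ 2 * dot g2 g2 :=
    hU1.trans (mul_le_mul_of_nonneg_left hd12 (by positivity))
  choose! p c y s t hdat hlow hs ht using hS
  obtain ⟨F, hF⟩ : ∃ F : ℝ, F = T ^ (27 / 169 + ε) * U ^ (131 / 338 : ℝ) := ⟨_, rfl⟩
  have hsU : ∀ N ∈ S, |(s N : ℝ)| ≤ U := by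
    intro N hN
    refine abs_le_of_sq_le_sq ?_ hU0.le
    have := (hs N hN).trans hUg
    exact le_of_mul_le_mul_right this hd1R
  have htU : ∀ N ∈ S, |(t N : ℝ)| ≤ U := by
    intro N hN
    refine abs_le_of_sq_le_sq ?_ hU0.le
    have := ((ht N hN).trans hUg).trans (mul_le_mul_of_nonneg_left hd12 (sq_nonneg U))
    exact le_of_mul_le_mul_right this hd2R
  -- the two halves
  have hA : ∀ c0 : ℤ, (((S.filter (fun N => c N = c0)).filter (fun N : ℤ =>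
      (t N : ℝ) ^ 2 * dot g2 g2 ≤ (s N : ℝ) ^ 2 * dot g1 g1)).card : ℝ) ≤ K0 * ρ⁻¹ * F := by
    intro c0
    rw [hF]
    refine hh X T U ρ hT (hKK.trans hKX) hTX hXT hρ hρ2 hU hUT g1 g2 hg1 hg2' hns hU2
      (hbd g1 hd12) (hbd g2 le_rfl) hnum2 c0 _ p y s t ?_
    intro N hN
    obtain ⟨hN1, hdom⟩ := Finset.mem_filter.1 hN
    obtain ⟨hNS, hc0⟩ := Finset.mem_filter.1 hN1
    have hz := pcc_z_ne hG.inj (hdat N hNS)
    have hfun : (fun j => s N * g1 j + t N * g2 j) = s N • g1 + t N • g2 := by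
      funext j; simp
    refine ⟨⟨?_, hlow N hNS, hsU N hNS, htU N hNS, ?_⟩, hs N hNS, hdom⟩
    · rw [hfun, ← hc0]; exact hdat N hNS
    · intro h0
      apply hz
      rw [h0] at hdom
      have h1 : (t N : ℝ) ^ 2 * dot g2 g2 ≤ 0 := by simpa using hdom
      have h2 : (t N : ℝ) = 0 := by
        by_contra h3
        have : 0 < (t N : ℝ) ^ 2 * dot g2 g2 := by (clear * - h3 hd2; positivity)
        linarith only [this, h1]
      have h3 : t N = 0 := by exact_mod_cast h2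
      rw [h0, h3]; simp
  have hB : ∀ c0 : ℤ, (((S.filter (fun N => c N = c0)).filter (fun N : ℤ =>
      ¬ (t N : ℝ) ^ 2 * dot g2 g2 ≤ (s N : ℝ) ^ 2 * dot g1 g1)).card : ℝ) ≤ K0 * ρ⁻¹ * F := by
    intro c0
    rw [hF]
    refine hh X T U ρ hT (hKK.trans hKX) hTX hXT hρ hρ2 hU hUT g2 g1 hg2' hg1 hns' hU1
      (hbd g2 le_rfl) (hbd g1 hd12) hnum2 c0 _ p y t s ?_
    intro N hN
    obtain ⟨hN1, hdom⟩ := Finset.mem_filter.1 hN
    obtain ⟨hNS, hc0⟩ := Finset.mem_filter.1 hN1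
    have hfun : (fun j => t N * g2 j + s N * g1 j) = s N • g1 + t N • g2 := by
      funext j; simp [add_comm]
    have hdom' := not_le.1 hdom
    refine ⟨⟨?_, hlow N hNS, htU N hNS, hsU N hNS, ?_⟩, ht N hNS, hdom'.le⟩
    · rw [hfun, ← hc0]; exact hdat N hNS
    · intro h0
      rw [h0] at hdom'
      have h1 : (0 : ℝ) ≤ (s N : ℝ) ^ 2 * dot g1 g1 := by (clear * - hd1; positivity)
      simp at hdom'
      linarith only [hdom', h1]
  have hcN : ∀ N ∈ S, c N ∈ Finset.Icc (-(C : ℤ)) C := by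
    intro N hN
    rw [Finset.mem_Icc]
    exact abs_le.1 (hdat N hN).cC
  have hcov : (S.card : ℝ) = ∑ a ∈ Finset.Icc (-(C : ℤ)) C,
      ((S.filter (fun N => c N = a)).card : ℝ) := by
    have := Finset.card_eq_sum_card_fiberwise (f := c) (s := S) (t := Finset.Icc (-(C : ℤ)) C)
      (fun N hN => Finset.mem_coe.2 (hcN N hN))
    exact_mod_cast this
  have hone : ∀ a ∈ Finset.Icc (-(C : ℤ)) C, ((S.filter (fun N => c N = a)).card : ℝ) ≤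
      2 * (K0 * ρ⁻¹ * F) := by
    intro a _
    have h1 := Finset.card_filter_add_card_filter_not (s := S.filter (fun N => c N = a))
      (fun N : ℤ => (t N : ℝ) ^ 2 * dot g2 g2 ≤ (s N : ℝ) ^ 2 * dot g1 g1)
    rw [← h1]
    push_cast
    have := hA a
    have := hB a
    linarith
  have hcardI : ((Finset.Icc (-(C : ℤ)) C).card : ℝ) = 2 * C + 1 := by
    rw [Int.card_Icc]
    have : ((C : ℤ) + 1 - -(C : ℤ)).toNat = 2 * C + 1 := by omega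
    rw [this]; push_cast; ring
  calc (S.card : ℝ) ≤ ∑ _a ∈ Finset.Icc (-(C : ℤ)) C, 2 * (K0 * ρ⁻¹ * F) := by
        rw [hcov]; exact Finset.sum_le_sum hone
    _ = (2 * C + 1) * (2 * (K0 * ρ⁻¹ * F)) := by
        rw [Finset.sum_const, nsmul_eq_mul, hcardI]
    _ = 2 * (2 * C + 1) * K0 * ρ⁻¹ * F := by ring
    _ = 2 * (2 * C + 1) * K0 * ρ⁻¹ * (T ^ (27 / 169 + ε) * U ^ (131 / 338 : ℝ)) := by rw [hF]

end Vale.Agent.P018.QB
end

section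

/-! # P018, (B): the count over one reduced pair. -/

namespace Vale.Agent.P018.QB

open Polynomial NumberField Vale.Agent.P018.Q

/-- the point `N` over the pair `(g1, g2)` (the `z` of the solution is `s g1 + t g2`). -/
structure PtB {L : Type} [Field L] [NumberField L] (θ : Fin 4 → 𝓞 L) (C : ℕ) (X T : ℝ)
    (g1 g2 : Fin 4 → ℤ) (N : ℤ) (p : ℕ) (c : ℤ) (y : Fin 4 → ℤ) (s t : ℤ) : Prop where
  dat : Dat θ C X T N p c y (s • g1 + t • g2)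
  lowN : X ≤ C * |(N : ℝ)|
  hs : (s : ℝ) ^ 2 * dot g1 g1 ≤ C * (X / T ^ 2) ^ 2
  ht : (t : ℝ) ^ 2 * dot g2 g2 ≤ C * (X / T ^ 2) ^ 2

/-- the cells: `w = u2/u1`, the points with `|u2| |g'| ≤ |u1| |g|` are split into `≤ K / ρ` cells
in which the hypothesis of `rel_cell` holds (`w0` = the value of `w` at one of the points; cells =
intervals of `w` of length `ρ |g| / (K' |g'|)`; `‖cf g j + w0 cf g' j‖ = ‖cf z j‖ / |u1| ≥ |g| / K'`
because `|u1| |g| ≤ √C X/T²`, and `‖cf g' j‖ ≤ K' |g'|`). -/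
theorem exists_cells {L : Type} [Field L] [NumberField L] (θ : Fin 4 → 𝓞 L) (C : ℕ) :
    ∃ K : ℝ, 0 < K ∧ ∀ (X T ρ : ℝ), 1 ≤ T → K ≤ X → 0 < ρ → ρ ≤ 1 → ∀ (g g' : Fin 4 → ℤ),
      g ≠ 0 → g' ≠ 0 → ∀ (S : Finset ℤ) (p : ℤ → ℕ) (c : ℤ) (y : ℤ → Fin 4 → ℤ) (u1 u2 : ℤ → ℤ),
      (∀ N ∈ S, Dat θ C X T N (p N) c (y N) (fun j => u1 N * g j + u2 N * g' j) ∧
        X ≤ C * |(N : ℝ)| ∧ u1 N ≠ 0 ∧ (u1 N : ℝ) ^ 2 * dot g g ≤ C * (X / T ^ 2) ^ 2 ∧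
        (u2 N : ℝ) ^ 2 * dot g' g' ≤ (u1 N : ℝ) ^ 2 * dot g g) →
      ∃ (k : ℕ) (cl : ℤ → ℕ) (w0 : ℕ → ℝ), (k : ℝ) ≤ K / ρ ∧ (∀ N ∈ S, cl N < k) ∧
        ∀ N ∈ S, ∀ (φ : L →+* ℂ) (j : Fin 4),
          |(u2 N : ℝ) / u1 N - w0 (cl N)| * ‖cf θ φ g' j‖ ≤
            ρ * ‖cf θ φ g j + w0 (cl N) * cf θ φ g' j‖ :=
  exists_cells' θ C

/-- the count over one reduced pair. -/
theorem pair_countB {L : Type} [Field L] [NumberField L] (θ : Fin 4 → 𝓞 L) (G : ℤ[X])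
    (hG : Root4 θ G) (C i m : ℕ) (hm : 2 ≤ m) (ε : ℝ) (hε : 0 < ε) :
    ∃ K : ℝ, 0 < K ∧ ∀ (X T U ρ : ℝ), 1 ≤ T → K ≤ X → T ^ 2 ≤ C * X → X ≤ C * T ^ 4 →
      0 < ρ → ρ ≤ 1 / K → 1 ≤ U → U ≤ C * T ^ 4 → ∀ (g1 g2 : Fin 4 → ℤ), Red g1 g2 →
      NonSpec θ g1 g2 → (dot g2 g2 : ℝ) ≤ T ^ 8 →
      C * (X / T ^ 2) ^ 2 ≤ U ^ 2 * dot g1 g1 →
      (∀ S : Finset (ℕ × ℕ), S.card = 8 * (m - 1) * (m - 1 + i) →
        K * (U ^ i * T ^ (2 * m)) ^ (8 * (m - 1) * (m - 1 + i)) *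
          ∏ s ∈ S, (X⁻¹ ^ s.1 * ρ ^ s.2) < 1) →
      ∀ S : Finset ℤ, (∀ N ∈ S, ∃ (p : ℕ) (c : ℤ) (y : Fin 4 → ℤ) (s t : ℤ),
        PtB θ C X T g1 g2 N p c y s t) →
      (S.card : ℝ) ≤ K * ρ⁻¹ * (T ^ (27 / 169 + ε) * U ^ (131 / 338 : ℝ)) := by
  obtain ⟨K, hK, h⟩ := pcc_main θ G hG C i m hm ε hε (exists_cells θ C)
  refine ⟨K, hK, ?_⟩
  intro X T U ρ hT hKX hTX hXT hρ hρK hU hUT g1 g2 hred hns hg2 hUg hnum S hS
  refine h X T U ρ hT hKX hTX hXT hρ hρK hU hUT g1 g2 hred hns hg2 hUg hnum S ?_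
  intro N hN
  obtain ⟨p, c, y, s, t, hP⟩ := hS N hN
  exact ⟨p, c, y, s, t, hP.dat, hP.lowN, hP.hs, hP.ht⟩

end Vale.Agent.P018.QB
end

section

/-! # P018, (B): the solutions with special `z`. -/

namespace Vale.Agent.P018.QB

open Polynomial NumberField Vale.Agent.P018.Q

/-- `z ≠ 0` in the data of a solution. -/
theorem dat_z_ne {L : Type} [Field L] [NumberField L] {θ : Fin 4 → 𝓞 L} {G : ℤ[X]}
    (hG : Root4 θ G) {C : ℕ} {X T : ℝ} {N : ℤ} {p : ℕ} {c : ℤ} {y z : Fin 4 → ℤ}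
    (h : Dat θ C X T N p c y z) : z ≠ 0 := by
  intro hz
  have h0 : ∀ i, (N : 𝓞 L) - θ i = 0 := by
    intro i
    have h1 := h.eqn i
    have h2 : K.ell (θ i) z = 0 := by
      rw [hz]
      simp [K.ell]
    rw [h2, mul_zero] at h1
    rcases mul_eq_zero.mp h1 with h3 | h3
    · exact absurd (by exact_mod_cast h3) h.c0
    · exact h3
  have h1 : θ 0 = θ 1 := by
    rw [← sub_eq_zero.mp (h0 0), ← sub_eq_zero.mp (h0 1)]
  exact absurd (hG.inj h1) (by decide)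

/-- the size of `z` in the data of a solution. -/
theorem dat_z_size {L : Type} [Field L] [NumberField L] {θ : Fin 4 → 𝓞 L}
    {C : ℕ} {X T : ℝ} {N : ℤ} {p : ℕ} {c : ℤ} {y z : Fin 4 → ℤ}
    (h : Dat θ C X T N p c y z) : (dot z z : ℝ) ≤ (2 * C * (X / T ^ 2)) ^ 2 := by
  have h1 : ∀ j, (z j : ℝ) * z j ≤ (C * X / T ^ 2) ^ 2 := by
    intro j
    rw [← sq, ← sq_abs]
    exact pow_le_pow_left₀ (abs_nonneg _) (h.hz j) 2
  have h2 : (dot z z : ℝ) = ∑ i, (z i : ℝ) * z i := by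
    simp [dot]
  rw [h2]
  calc ∑ i, (z i : ℝ) * z i ≤ ∑ _i : Fin 4, (C * X / T ^ 2) ^ 2 :=
        Finset.sum_le_sum fun i _ => h1 i
    _ = (2 * C * (X / T ^ 2)) ^ 2 := by
        simp
        ring

/-- the solutions whose `z` is special: `≤ K R^2 (X/T^2)^2` values of `z`, `O(1)` solutions each
(`few_z`). -/
theorem special_count {L : Type} [Field L] [NumberField L] (θ : Fin 4 → 𝓞 L) (G : ℤ[X])
    (hG : Root4 θ G) (C : ℕ) : ∃ K : ℝ, 0 < K ∧ ∀ (X T R : ℝ), 1 ≤ T → 1 ≤ X → T ^ 2 ≤ C * X →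
      X ≤ C * T ^ 4 → 1 ≤ R → R ≤ X / T ^ 2 → ∀ S : Finset ℤ,
      (∀ N ∈ S, ∃ (p : ℕ) (c : ℤ) (y z : Fin 4 → ℤ), X ≤ C * |(N : ℝ)| ∧
        Dat θ C X T N p c y z ∧ SpecZ θ R z) →
      (S.card : ℝ) ≤ K * R ^ 2 * (X / T ^ 2) ^ 2 := by
  classical
  obtain ⟨K1, hK1, hz⟩ := special_z θ G hG
  obtain ⟨K2, hf⟩ := few_z θ G hG C
  refine ⟨(2 * C + 1) * (K2 + 1) * (K1 * (2 * (C : ℝ) + 1) ^ 2), by positivity, ?_⟩
  intro X T R hT hX hTX hXT hR hRX S hS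
  have hC1 : (1 : ℝ) ≤ C := by
    by_contra hC
    have hC0 : C = 0 := by
      have h1 : (C : ℝ) < 1 := lt_of_not_ge hC
      have h2 : C < 1 := by exact_mod_cast h1
      omega
    rw [hC0] at hTX
    have : (0 : ℝ) < T ^ 2 := by positivity
    simp at hTX
    linarith only [hTX, hT]
  set Y : ℝ := X / T ^ 2 with hY
  have hY1 : 1 ≤ Y := le_trans hR hRX
  choose! p c y z hlow hdat hspec using hS
  set Z : Finset (Fin 4 → ℤ) := S.image z with hZ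
  have hZc : (Z.card : ℝ) ≤ K1 * R ^ 2 * (2 * C * Y) ^ 2 := by
    refine hz R (2 * C * Y) hR ?_ Z ?_
    · linarith [mul_nonneg (sub_nonneg.2 hC1) (sub_nonneg.2 hY1), mul_nonneg (sub_nonneg.2 hC1) (sub_nonneg.2 hRX), mul_nonneg (sub_nonneg.2 hR) (sub_nonneg.2 hC1), hC1]
    · intro v hv
      obtain ⟨N, hN, rfl⟩ := Finset.mem_image.mp hv
      exact ⟨dat_z_ne hG (hdat N hN), dat_z_size (hdat N hN), hspec N hN⟩
  set I : Finset (ℤ × (Fin 4 → ℤ)) := (Finset.Icc (-(C : ℤ)) C) ×ˢ Z with hI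
  have hmaps : ∀ N ∈ S, (c N, z N) ∈ I := by
    intro N hN
    rw [hI, Finset.mem_product]
    refine ⟨?_, Finset.mem_image_of_mem z hN⟩
    rw [Finset.mem_Icc]
    exact abs_le.mp (hdat N hN).cC
  have hcard : S.card ≤ K2 * I.card := by
    refine Finset.card_le_mul_card_image_of_maps_to hmaps K2 ?_
    rintro ⟨c', z'⟩ _
    refine hf X T hT hX hTX hXT c' z' _ p y ?_
    intro N hN
    rw [Finset.mem_filter] at hN
    obtain ⟨hNS, hEq⟩ := hN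
    have e1 : c N = c' := congrArg Prod.fst hEq
    have e2 : z N = z' := congrArg Prod.snd hEq
    refine ⟨hlow N hNS, ?_⟩
    rw [← e1, ← e2]
    exact hdat N hNS
  have hIc : (I.card : ℝ) = (2 * C + 1) * Z.card := by
    rw [hI, Finset.card_product, Int.card_Icc]
    have : ((C : ℤ) + 1 - -(C : ℤ)).toNat = 2 * C + 1 := by omega
    rw [this]
    push_cast
    ring
  have h1 : (S.card : ℝ) ≤ K2 * ((2 * C + 1) * Z.card) := by
    rw [← hIc]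
    exact_mod_cast hcard
  have hZ0 : (0 : ℝ) ≤ Z.card := by (clear * -; positivity)
  have hCC : (0 : ℝ) ≤ C := by (clear * - hC1; positivity)
  calc (S.card : ℝ) ≤ K2 * ((2 * C + 1) * Z.card) := h1
    _ ≤ (K2 + 1) * ((2 * C + 1) * (K1 * R ^ 2 * (2 * C * Y) ^ 2)) := by
        gcongr
        linarith only []
    _ ≤ (K2 + 1) * ((2 * C + 1) * (K1 * R ^ 2 * ((2 * C + 1) * Y) ^ 2)) := by
        gcongr
        linarith only []
    _ = (2 * C + 1) * (K2 + 1) * (K1 * (2 * (C : ℝ) + 1) ^ 2) * R ^ 2 * Y ^ 2 := by ring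

end Vale.Agent.P018.QB
end

section

/-! # P018, (B): compactness in the exponents of the reduced pairs. -/

namespace Vale.Agent.P018.QB

open Polynomial NumberField Vale.Agent.P018.Q

/-- a finite cover of the unit square by small squares. -/
theorem unit_cover (e : ℝ → ℝ → ℝ) (he : ∀ a b, 0 ≤ a → 0 ≤ b → 0 < e a b) :
    ∃ F : Finset (ℝ × ℝ), (∀ p ∈ F, 0 ≤ p.1 ∧ 0 ≤ p.2) ∧
      ∀ a b, 0 ≤ a → a ≤ 1 → 0 ≤ b → b ≤ 1 → ∃ p ∈ F, |a - p.1| < e p.1 p.2 ∧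
        |b - p.2| < e p.1 p.2 := by
  have hc : IsCompact (Set.Icc (0 : ℝ) 1 ×ˢ Set.Icc (0 : ℝ) 1) := isCompact_Icc.prod isCompact_Icc
  obtain ⟨F, hF, hcov⟩ := hc.elim_nhds_subcover (fun p => Metric.ball p (e p.1 p.2))
    (fun p hp => Metric.ball_mem_nhds _ (he _ _ hp.1.1 hp.2.1))
  refine ⟨F, fun p hp => ⟨(hF p hp).1.1, (hF p hp).2.1⟩, ?_⟩
  intro a b ha ha' hb hb'
  have h1 := hcov (show (a, b) ∈ Set.Icc (0 : ℝ) 1 ×ˢ Set.Icc (0 : ℝ) 1 from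
    ⟨⟨ha, ha'⟩, ⟨hb, hb'⟩⟩)
  simp only [Set.mem_iUnion, exists_prop] at h1
  obtain ⟨p, hp, h2⟩ := h1
  rw [Metric.mem_ball, Prod.dist_eq, max_lt_iff, Real.dist_eq, Real.dist_eq] at h2
  exact ⟨p, hp, h2.1, h2.2⟩

/-- the exponent of a real number `≥ 1`. -/
theorem exists_expo {X D : ℝ} (hX : 1 < X) (hD : 1 ≤ D) (hD2 : D ≤ X ^ (2 : ℝ)) :
    ∃ m : ℝ, 0 ≤ m ∧ m ≤ 1 ∧ D = X ^ (2 * m) := by
  have hX0 : 0 < X := by linarith
  have hD0 : 0 < D := by linarith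
  have hl : 0 < Real.log X := Real.log_pos hX
  have hm : X ^ (2 * (Real.log D / (2 * Real.log X))) = D := by
    rw [Real.rpow_def_of_pos hX0]
    have : Real.log X * (2 * (Real.log D / (2 * Real.log X))) = Real.log D := by
      field_simp
    rw [this, Real.exp_log hD0]
  refine ⟨Real.log D / (2 * Real.log X), ?_, ?_, hm.symm⟩
  · exact div_nonneg (Real.log_nonneg hD) (by linarith only [hl])
  · rw [div_le_one (by linarith)]
    have h1 := Real.log_le_log hD0 hD2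
    rwa [Real.log_rpow hX0] at h1

/-- `A ≤ X ^ e` for large `X`. -/
theorem le_rpow_of {A e X : ℝ} (he : 0 < e) (hA : 0 ≤ A) (hX : A ^ (1 / e) ≤ X) : A ≤ X ^ e := by
  have h1 : (A ^ (1 / e)) ^ e ≤ X ^ e := Real.rpow_le_rpow (by positivity) hX he.le
  rwa [← Real.rpow_mul hA, one_div, inv_mul_cancel₀ he.ne', Real.rpow_one] at h1

/-- the abstract covering argument for the non special pairs. -/
theorem cover_count (V : ℝ → ℝ → ℤ → ℝ → ℝ → Prop) (w : ℝ)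
    (hloc : ∀ m1 m2 : ℝ, 0 ≤ m1 → 0 ≤ m2 → ∃ ε : ℝ, 0 < ε ∧ ∃ K : ℝ, 0 < K ∧
      ∀ (X T : ℝ) (S : Finset ℤ), K ≤ X → X ^ (w - ε) ≤ T → T ≤ X ^ (w + ε) →
      (∀ N ∈ S, ∃ D1 D2 : ℝ, V X T N D1 D2 ∧
        X ^ (2 * (m1 - ε)) ≤ D1 ∧ D1 ≤ X ^ (2 * (m1 + ε)) ∧
        X ^ (2 * (m2 - ε)) ≤ D2 ∧ D2 ≤ X ^ (2 * (m2 + ε))) →
      (S.card : ℝ) ≤ X ^ (1 - ε)) :
    ∃ ε : ℝ, 0 < ε ∧ ∃ K : ℝ, 0 < K ∧ ∀ (X T : ℝ) (S : Finset ℤ),
      K ≤ X → X ^ (w - ε) ≤ T → T ≤ X ^ (w + ε) →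
      (∀ N ∈ S, ∃ D1 D2 : ℝ, V X T N D1 D2 ∧ 1 ≤ D1 ∧ D1 ≤ X ^ (2 : ℝ) ∧ 1 ≤ D2 ∧
        D2 ≤ X ^ (2 : ℝ)) →
      (S.card : ℝ) ≤ X ^ (1 - ε) := by
  classical
  choose! e he K hK hloc using hloc
  obtain ⟨F, hF, hcov⟩ := unit_cover e he
  have hFne : F.Nonempty := by
    obtain ⟨p, hp, -⟩ := hcov 0 0 le_rfl zero_le_one le_rfl zero_le_one
    exact ⟨p, hp⟩
  obtain ⟨p0, hp0, hmin⟩ := F.exists_min_image (fun p => e p.1 p.2) hFne
  set ε0 : ℝ := e p0.1 p0.2 with hε0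
  have hε0p : 0 < ε0 := he _ _ (hF p0 hp0).1 (hF p0 hp0).2
  refine ⟨ε0 / 2, by linarith only [hε0p], 2 + ∑ p ∈ F, K p.1 p.2 + (F.card : ℝ) ^ (1 / (ε0 / 2)), ?_, ?_⟩
  · have h1 : 0 ≤ ∑ p ∈ F, K p.1 p.2 := Finset.sum_nonneg fun p hp =>
      (hK _ _ (hF p hp).1 (hF p hp).2).le
    positivity
  intro X T S hX hT1 hT2 hS
  have hsum0 : 0 ≤ ∑ p ∈ F, K p.1 p.2 := Finset.sum_nonneg fun p hp =>
    (hK _ _ (hF p hp).1 (hF p hp).2).le
  have hpw0 : 0 ≤ (F.card : ℝ) ^ (1 / (ε0 / 2)) := by (clear * - hFne; positivity)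
  have hX1 : 1 < X := by linarith
  have hX0 : 0 < X := by linarith only [hX1]
  have hex : ∀ N ∈ S, ∃ p ∈ F, ∃ D1 D2 : ℝ, V X T N D1 D2 ∧
      X ^ (2 * (p.1 - e p.1 p.2)) ≤ D1 ∧ D1 ≤ X ^ (2 * (p.1 + e p.1 p.2)) ∧
      X ^ (2 * (p.2 - e p.1 p.2)) ≤ D2 ∧ D2 ≤ X ^ (2 * (p.2 + e p.1 p.2)) := by
    intro N hN
    obtain ⟨D1, D2, hv, h1, h1', h2, h2'⟩ := hS N hN
    obtain ⟨m1, hm1, hm1', e1⟩ := exists_expo hX1 h1 h1'
    obtain ⟨m2, hm2, hm2', e2⟩ := exists_expo hX1 h2 h2'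
    obtain ⟨p, hp, ha, hb⟩ := hcov m1 m2 hm1 hm1' hm2 hm2'
    rw [abs_lt] at ha hb
    refine ⟨p, hp, D1, D2, hv, ?_, ?_, ?_, ?_⟩
    · rw [e1]; exact Real.rpow_le_rpow_of_exponent_le hX1.le (by linarith)
    · rw [e1]; exact Real.rpow_le_rpow_of_exponent_le hX1.le (by linarith)
    · rw [e2]; exact Real.rpow_le_rpow_of_exponent_le hX1.le (by linarith)
    · rw [e2]; exact Real.rpow_le_rpow_of_exponent_le hX1.le (by linarith)
  choose! f hfF hf using hex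
  have hcard : S.card = ∑ p ∈ F, (S.filter (fun N => f N = p)).card :=
    Finset.card_eq_sum_card_fiberwise hfF
  have hfib : ∀ p ∈ F, ((S.filter (fun N => f N = p)).card : ℝ) ≤ X ^ (1 - ε0) := by
    intro p hp
    have hle : ε0 ≤ e p.1 p.2 := hmin p hp
    have hKX : K p.1 p.2 ≤ X := by
      have h1 : K p.1 p.2 ≤ ∑ p ∈ F, K p.1 p.2 :=
        Finset.single_le_sum (f := fun p => K p.1 p.2)
          (fun q hq => (hK _ _ (hF q hq).1 (hF q hq).2).le) hp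
      linarith
    have h2 := hloc p.1 p.2 (hF p hp).1 (hF p hp).2 X T (S.filter (fun N => f N = p)) hKX
      ((Real.rpow_le_rpow_of_exponent_le hX1.le (by linarith only [hle, hε0p])).trans hT1)
      (hT2.trans (Real.rpow_le_rpow_of_exponent_le hX1.le (by linarith only [hle, hε0p]))) (by
        intro N hN
        rw [Finset.mem_filter] at hN
        obtain ⟨D1, D2, hv, h⟩ := hf N hN.1
        rw [hN.2] at h
        exact ⟨D1, D2, hv, h⟩)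
    exact h2.trans (Real.rpow_le_rpow_of_exponent_le hX1.le (by linarith only [hle]))
  have hn : (F.card : ℝ) ≤ X ^ (ε0 / 2) := le_rpow_of (by linarith only [hε0p]) (by (clear * - hFne; positivity)) (by linarith only [hsum0, hX])
  calc (S.card : ℝ) = ∑ p ∈ F, ((S.filter (fun N => f N = p)).card : ℝ) := by
        rw [hcard]; push_cast; rfl
    _ ≤ ∑ _p ∈ F, X ^ (1 - ε0) := Finset.sum_le_sum hfib
    _ = F.card * X ^ (1 - ε0) := by rw [Finset.sum_const, nsmul_eq_mul]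
    _ ≤ X ^ (ε0 / 2) * X ^ (1 - ε0) := by gcongr
    _ = X ^ (1 - ε0 / 2) := by
        rw [← Real.rpow_add hX0]; congr 1; ring

theorem el_comb {L : Type} [Field L] [NumberField L] (t : 𝓞 L) (a b : ℤ) (u v : Fin 4 → ℤ) :
    el t (a • u + b • v) = (a : 𝓞 L) * el t u + (b : 𝓞 L) * el t v := by
  unfold el K.ell
  simp only [Pi.add_apply, Pi.smul_apply, smul_eq_mul, Int.cast_add, Int.cast_mul, add_mul,
    Finset.sum_add_distrib, Finset.mul_sum]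
  congr 1 <;> exact Finset.sum_congr rfl fun i _ => by ring

/-- sizes in terms of `Y = X / T ^ 2`. -/
theorem sizesB {w ε X T : ℝ} (hw : 0.3488 ≤ w) (hw' : w ≤ 0.38) (hε : 0 < ε) (hε1 : ε ≤ 0.01)
    (hX1 : 1 < X) (hT1 : X ^ (w - ε) ≤ T) (hT2 : T ≤ X ^ (w + ε)) :
    1 ≤ T ∧ T ^ 2 ≤ X ∧ X ≤ T ^ 4 ∧ X ^ (2 / 10 : ℝ) ≤ X / T ^ 2 ∧
      X / T ^ 2 ≤ X ^ (33 / 100 : ℝ) := by
  norm_num at hw hw' hε1
  have hX0 : 0 < X := by linarith only [hε1, hX1, hε]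
  have hT0 : 0 < T := lt_of_lt_of_le (Real.rpow_pos_of_pos hX0 _) hT1
  have hlow : X ^ (335 / 1000 : ℝ) ≤ T :=
    (Real.rpow_le_rpow_of_exponent_le hX1.le (by linarith only [hε1, hw, hε])).trans hT1
  have hup : T ≤ X ^ (4 / 10 : ℝ) :=
    hT2.trans (Real.rpow_le_rpow_of_exponent_le hX1.le (by linarith only [hε1, hw', hε]))
  have a1 : X ^ (67 / 100 : ℝ) ≤ T ^ 2 := by
    have h := pow_le_pow_left₀ (by positivity) hlow 2
    rw [← Real.rpow_natCast, ← Real.rpow_mul hX0.le] at h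
    norm_num at h
    exact h
  have a2 : X ^ (134 / 100 : ℝ) ≤ T ^ 4 := by
    have h := pow_le_pow_left₀ (by positivity) hlow 4
    rw [← Real.rpow_natCast, ← Real.rpow_mul hX0.le] at h
    norm_num at h
    norm_num
    exact h
  have a3 : T ^ 2 ≤ X ^ (8 / 10 : ℝ) := by
    have h := pow_le_pow_left₀ hT0.le hup 2
    rw [← Real.rpow_natCast (X ^ (4 / 10 : ℝ)), ← Real.rpow_mul hX0.le] at h
    norm_num at h
    norm_num
    exact h
  refine ⟨?_, ?_, ?_, ?_, ?_⟩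
  · exact (Real.one_le_rpow hX1.le (by norm_num)).trans hlow
  · refine a3.trans ?_
    calc X ^ (8 / 10 : ℝ) ≤ X ^ (1 : ℝ) := Real.rpow_le_rpow_of_exponent_le hX1.le (by norm_num)
      _ = X := Real.rpow_one X
  · refine le_trans ?_ a2
    calc X = X ^ (1 : ℝ) := (Real.rpow_one X).symm
      _ ≤ X ^ (134 / 100 : ℝ) := Real.rpow_le_rpow_of_exponent_le hX1.le (by norm_num)
  · rw [le_div_iff₀ (by positivity)]
    calc X ^ (2 / 10 : ℝ) * T ^ 2 ≤ X ^ (2 / 10 : ℝ) * X ^ (8 / 10 : ℝ) := by gcongr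
      _ = X := by rw [← Real.rpow_add hX0]; norm_num
  · rw [div_le_iff₀ (by positivity)]
    calc X = X ^ (33 / 100 : ℝ) * X ^ (67 / 100 : ℝ) := by rw [← Real.rpow_add hX0]; norm_num
      _ ≤ X ^ (33 / 100 : ℝ) * T ^ 2 := by gcongr

/-- the bounds of the special part. -/
theorem special_numB {C1 X Y : ℝ} (hC1 : 1 ≤ C1) (hX1 : 1 < X)
    (hXC : C1 ^ 2 ≤ X ^ (1 / 10 : ℝ)) (hY : X ^ (2 / 10 : ℝ) ≤ Y) :
    1 ≤ C1 * Y ^ (1 / 3 : ℝ) ∧ C1 * Y ^ (1 / 3 : ℝ) ≤ Y := by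
  have hX0 : 0 < X := by linarith only [hX1]
  have hY1 : 1 ≤ Y := le_trans (Real.one_le_rpow hX1.le (by norm_num)) hY
  have hY0 : 0 < Y := by linarith only [hY1]
  have hY3 : 1 ≤ Y ^ (1 / 3 : ℝ) := Real.one_le_rpow hY1 (by norm_num)
  constructor
  · (by_contra nlg; linarith only [nlg, mul_nonneg (sub_nonneg.2 hC1) (sub_nonneg.2 hC1), mul_nonneg (le_of_lt (sub_pos.2 (not_le.1 nlg))) (sub_nonneg.2 hC1), mul_nonneg (sq_nonneg (1 * C1 : ℝ)) (sub_nonneg.2 hY3), mul_nonneg (mul_self_nonneg (1 : ℝ)) (sub_nonneg.2 hC1)])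
  · have h1 : C1 ≤ Y ^ (2 / 3 : ℝ) := by
      calc C1 ≤ C1 ^ 2 := by (by_contra nlg; linarith only [nlg, mul_pos (sub_pos.2 (not_le.1 nlg)) (sub_pos.2 (not_le.1 nlg)), mul_nonneg (sq_nonneg (1 * C1 : ℝ)) (sub_nonneg.2 hC1), mul_nonneg (sq_nonneg (1 * C1 : ℝ)) (le_of_lt (sub_pos.2 (not_le.1 nlg)))])
        _ ≤ X ^ (1 / 10 : ℝ) := hXC
        _ ≤ (X ^ (2 / 10 : ℝ)) ^ (2 / 3 : ℝ) := by
            rw [← Real.rpow_mul hX0.le]
            exact Real.rpow_le_rpow_of_exponent_le hX1.le (by norm_num)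
        _ ≤ Y ^ (2 / 3 : ℝ) := by gcongr
    calc C1 * Y ^ (1 / 3 : ℝ) ≤ Y ^ (2 / 3 : ℝ) * Y ^ (1 / 3 : ℝ) := by gcongr
      _ = Y := by rw [← Real.rpow_add hY0]; norm_num

theorem special_numB2 {C1 K1 ε X Y : ℝ} (hX1 : 1 < X)
    (hε1 : ε ≤ 0.01) (hXK : 2 * K1 * C1 ^ 2 ≤ X ^ (1 / 10 : ℝ)) (hY0 : 0 < Y)
    (hY : Y ≤ X ^ (33 / 100 : ℝ)) :
    2 * (K1 * (C1 * Y ^ (1 / 3 : ℝ)) ^ 2 * Y ^ 2) ≤ X ^ (1 - ε) := by
  have hX0 : 0 < X := by linarith only [hX1]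
  calc 2 * (K1 * (C1 * Y ^ (1 / 3 : ℝ)) ^ 2 * Y ^ 2)
      = (2 * K1 * C1 ^ 2) * ((Y ^ (1 / 3 : ℝ)) ^ 2 * Y ^ 2) := by ring
    _ = (2 * K1 * C1 ^ 2) * Y ^ (8 / 3 : ℝ) := by
        congr 1
        rw [← Real.rpow_natCast, ← Real.rpow_mul hY0.le, ← Real.rpow_natCast Y 2,
          ← Real.rpow_add hY0]
        norm_num
    _ ≤ X ^ (1 / 10 : ℝ) * (X ^ (33 / 100 : ℝ)) ^ (8 / 3 : ℝ) := by gcongr
    _ = X ^ (98 / 100 : ℝ) := by
        rw [← Real.rpow_mul hX0.le, ← Real.rpow_add hX0]; norm_num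
    _ ≤ X ^ (1 - ε) := Real.rpow_le_rpow_of_exponent_le hX1.le (by
        norm_num at hε1 ⊢; linarith only [hε1])

theorem dot_facts {g1 g2 : Fin 4 → ℤ} (h : Red g1 g2) : (1 : ℝ) ≤ dot g1 g1 ∧
    (1 : ℝ) ≤ dot g2 g2 ∧ (dot g1 g1 : ℝ) ≤ dot g2 g2 := by
  have h1 := dot_pos h.1
  have h2 := h.2.1
  exact ⟨by exact_mod_cast h1, by exact_mod_cast (by omega : 1 ≤ dot g2 g2),
    by exact_mod_cast h2⟩

/-- a special pair of a solution gives a special `z`. -/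
theorem specZ_of {L : Type} [Field L] [NumberField L] {θ : Fin 4 → 𝓞 L} {C C1 Y : ℝ}
    (hC0 : 0 ≤ C) (hCC : C ≤ C1) (hC1 : 1 ≤ C1) (hY0 : 0 < Y) {g1 g2 : Fin 4 → ℤ}
    (h1 : Red g1 g2) (hns : ¬ NonSpec θ g1 g2)
    (h3 : (dot g1 g1 : ℝ) * dot g2 g2 ≤ C * Y ^ (4 / 3 : ℝ)) (s t : ℤ) :
    SpecZ θ (C1 * Y ^ (1 / 3 : ℝ)) (s • g1 + t • g2) := by
  unfold NonSpec at hns
  push Not at hns
  obtain ⟨j, k, hjk, he⟩ := hns
  refine ⟨g1, h1.1, ?_, j, k, hjk, ?_⟩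
  · obtain ⟨d1, d2, d3⟩ := dot_facts h1
    have hd0 : (0 : ℝ) ≤ dot g1 g1 := by linarith only [d1]
    have h5 : (dot g1 g1 : ℝ) ^ 2 ≤ ((C1 * Y ^ (1 / 3 : ℝ)) ^ 2) ^ 2 := by
      calc (dot g1 g1 : ℝ) ^ 2 = dot g1 g1 * dot g1 g1 := pow_two _
        _ ≤ dot g1 g1 * dot g2 g2 := mul_le_mul_of_nonneg_left d3 hd0
        _ ≤ C * Y ^ (4 / 3 : ℝ) := h3
        _ ≤ C1 ^ 4 * Y ^ (4 / 3 : ℝ) := by
            apply mul_le_mul_of_nonneg_right _ (by positivity)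
            calc (C : ℝ) ≤ C1 := hCC
              _ = C1 ^ 1 := (pow_one _).symm
              _ ≤ C1 ^ 4 := pow_le_pow_right₀ hC1 (by norm_num)
        _ = ((C1 * Y ^ (1 / 3 : ℝ)) ^ 2) ^ 2 := by
            rw [mul_pow, mul_pow, ← pow_mul, ← pow_mul]
            congr 1
            rw [← Real.rpow_natCast, ← Real.rpow_mul hY0.le]
            norm_num
    exact le_of_sq_le_sq h5 (by positivity)
  · rw [el_comb, el_comb]
    linear_combination (t : 𝓞 L) * he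

/-- compactness in the exponents of the reduced pairs, from the special count and the local
count. -/
theorem all_pairsB_of {L : Type} [Field L] [NumberField L] (θ : Fin 4 → 𝓞 L) (C : ℕ) (w : ℝ)
    (hw : 0.3488 ≤ w) (hw' : w ≤ 0.38)
    (hspec : ∃ K : ℝ, 0 < K ∧ ∀ (X T R : ℝ), 1 ≤ T → 1 ≤ X → T ^ 2 ≤ C * X →
      X ≤ C * T ^ 4 → 1 ≤ R → R ≤ X / T ^ 2 → ∀ S : Finset ℤ,
      (∀ N ∈ S, ∃ (p : ℕ) (c : ℤ) (y z : Fin 4 → ℤ), X ≤ C * |(N : ℝ)| ∧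
        Dat θ C X T N p c y z ∧ SpecZ θ R z) →
      (S.card : ℝ) ≤ K * R ^ 2 * (X / T ^ 2) ^ 2)
    (hloc : ∀ m1 m2 : ℝ, 0 ≤ m1 → 0 ≤ m2 →
      ∃ ε : ℝ, 0 < ε ∧ ∃ K : ℝ, 0 < K ∧ ∀ (X T : ℝ) (S : Finset ℤ),
      K ≤ X → X ^ (w - ε) ≤ T → T ≤ X ^ (w + ε) →
      (∀ N ∈ S, ∃ (g1 g2 : Fin 4 → ℤ) (p : ℕ) (c : ℤ) (y : Fin 4 → ℤ) (s t : ℤ), Red g1 g2 ∧
        NonSpec θ g1 g2 ∧
        (dot g1 g1 : ℝ) * dot g2 g2 ≤ C * (X / T ^ 2) ^ (4 / 3 : ℝ) ∧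
        PtB θ C X T g1 g2 N p c y s t ∧
        X ^ (2 * (m1 - ε)) ≤ dot g1 g1 ∧ (dot g1 g1 : ℝ) ≤ X ^ (2 * (m1 + ε)) ∧
        X ^ (2 * (m2 - ε)) ≤ dot g2 g2 ∧ (dot g2 g2 : ℝ) ≤ X ^ (2 * (m2 + ε))) →
      (S.card : ℝ) ≤ X ^ (1 - ε)) :
    ∃ ε : ℝ, 0 < ε ∧ ∃ K : ℝ, 0 < K ∧ ∀ (X T : ℝ) (S : Finset ℤ),
      K ≤ X → X ^ (w - ε) ≤ T → T ≤ X ^ (w + ε) →
      (∀ N ∈ S, ∃ (g1 g2 : Fin 4 → ℤ) (p : ℕ) (c : ℤ) (y : Fin 4 → ℤ) (s t : ℤ), Red g1 g2 ∧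
        (dot g1 g1 : ℝ) * dot g2 g2 ≤ C * (X / T ^ 2) ^ (4 / 3 : ℝ) ∧
        PtB θ C X T g1 g2 N p c y s t) →
      (S.card : ℝ) ≤ X ^ (1 - ε) := by
  classical
  obtain ⟨K1, hK1, hspec⟩ := hspec
  obtain ⟨ε2, hε2, K2, hK2, hcov⟩ := cover_count (fun X T N D1 D2 =>
    ∃ (g1 g2 : Fin 4 → ℤ) (p : ℕ) (c : ℤ) (y : Fin 4 → ℤ) (s t : ℤ), Red g1 g2 ∧
        NonSpec θ g1 g2 ∧
        (dot g1 g1 : ℝ) * dot g2 g2 ≤ C * (X / T ^ 2) ^ (4 / 3 : ℝ) ∧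
        PtB θ C X T g1 g2 N p c y s t ∧ D1 = dot g1 g1 ∧ D2 = dot g2 g2) w (by
    intro m1 m2 h1 h2
    obtain ⟨ε, hε, K, hK, h⟩ := hloc m1 m2 h1 h2
    refine ⟨ε, hε, K, hK, ?_⟩
    intro X T S a1 a2 a3 a4
    refine h X T S a1 a2 a3 ?_
    intro N hN
    obtain ⟨D1, D2, ⟨g1, g2, p, c, y, s, t, b1, b2, b3, b4, rfl, rfl⟩, b5⟩ := a4 N hN
    exact ⟨g1, g2, p, c, y, s, t, b1, b2, b3, b4, b5⟩)
  set ε : ℝ := min (ε2 / 2) 0.01 with hε
  have hεp : 0 < ε := lt_min (by linarith only [hε2]) (by norm_num)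
  have hε1 : ε ≤ ε2 / 2 := min_le_left _ _
  have hε01 : ε ≤ 0.01 := min_le_right _ _
  set C1 : ℝ := 1 + C with hC1
  have hC0 : (0 : ℝ) ≤ C := Nat.cast_nonneg C
  have hC11 : 1 ≤ C1 := by linarith only [hC0]
  refine ⟨ε, hεp, 2 + K2 + (C1 ^ 2) ^ (1 / (1 / 10 : ℝ)) + (2 * K1 * C1 ^ 2) ^ (1 / (1 / 10 : ℝ)) +
    2 ^ (1 / (ε2 / 2)), by (clear * - hK2 hK1; positivity), ?_⟩
  intro X T S hX hT1 hT2 hS
  have hq1 : 0 ≤ (C1 ^ 2) ^ (1 / (1 / 10 : ℝ)) := by (clear * -; positivity)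
  have hq2 : 0 ≤ (2 * K1 * C1 ^ 2) ^ (1 / (1 / 10 : ℝ)) := by positivity
  have hq3 : 0 ≤ (2 : ℝ) ^ (1 / (ε2 / 2)) := by positivity
  have hX1 : 1 < X := by linarith
  have hX0 : 0 < X := by linarith only [hq3, hq2, hq1, hX, hε01, hεp, hK2]
  have hXC : C1 ^ 2 ≤ X ^ (1 / 10 : ℝ) :=
    le_rpow_of (by norm_num) (by (clear * -; positivity)) (by linarith only [hq3, hq2, hX, hε01, hεp, hK2])
  have hXK : 2 * K1 * C1 ^ 2 ≤ X ^ (1 / 10 : ℝ) :=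
    le_rpow_of (by norm_num) (by (clear * - hK1; positivity)) (by linarith only [hq3, hq1, hX, hε01, hεp, hK2])
  have hX2 : 2 ≤ X ^ (ε2 / 2) := le_rpow_of (by linarith only [hε1, hεp]) (by norm_num) (by linarith only [hq2, hq1, hX, hε01, hεp, hK2])
  have hKX : K2 ≤ X := by linarith only [hq3, hq2, hq1, hX, hε01, hεp]
  obtain ⟨hTge, hTX, hXT, hYlo, hYhi⟩ := sizesB hw hw' hεp hε01 hX1 hT1 hT2
  rcases Nat.eq_zero_or_pos C with hCz | hCpos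
  · -- no data at all
    have hSe : S = ∅ := by
      rw [Finset.eq_empty_iff_forall_notMem]
      intro N hN
      obtain ⟨g1, g2, p, c, y, s, t, -, -, hpt⟩ := hS N hN
      have h1 := hpt.dat.cC
      have h2 := hpt.dat.c0
      rw [hCz] at h1
      exact h2 (abs_nonpos_iff.1 (by simpa using h1))
    rw [hSe]
    simp only [Finset.card_empty, Nat.cast_zero]
    exact Real.rpow_nonneg hX0.le _
  have hCge : (1 : ℝ) ≤ C := by exact_mod_cast hCpos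
  have hY1 : 1 ≤ X / T ^ 2 := le_trans (Real.one_le_rpow hX1.le (by norm_num)) hYlo
  have hY0 : 0 < X / T ^ 2 := by linarith only [hY1, hε01, hεp]
  have hCY : C * (X / T ^ 2) ^ (4 / 3 : ℝ) ≤ X ^ (2 : ℝ) := by
    calc C * (X / T ^ 2) ^ (4 / 3 : ℝ) ≤ X ^ (1 / 10 : ℝ) * (X ^ (33 / 100 : ℝ)) ^ (4 / 3 : ℝ) := by
          apply mul_le_mul _ (Real.rpow_le_rpow hY0.le hYhi (by norm_num))
            (Real.rpow_nonneg hY0.le _) (Real.rpow_nonneg hX0.le _)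
          refine le_trans ?_ hXC
          rw [hC1]
          nlinarith only [hC0]
      _ = X ^ (54 / 100 : ℝ) := by
          rw [← Real.rpow_mul hX0.le, ← Real.rpow_add hX0]; norm_num
      _ ≤ X ^ (2 : ℝ) := Real.rpow_le_rpow_of_exponent_le hX1.le (by norm_num)
  obtain ⟨hR1, hRY⟩ := special_numB hC11 hX1 hXC hYlo
  have hB2 := special_numB2 hX1 hε01 hXK hY0 hYhi
  have hA2 : 2 * X ^ (1 - ε2) ≤ X ^ (1 - ε) := by
    calc 2 * X ^ (1 - ε2) ≤ X ^ (ε2 / 2) * X ^ (1 - ε2) :=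
          mul_le_mul_of_nonneg_right hX2 (Real.rpow_nonneg hX0.le _)
      _ = X ^ (ε2 / 2 + (1 - ε2)) := by rw [← Real.rpow_add hX0]
      _ ≤ X ^ (1 - ε) := Real.rpow_le_rpow_of_exponent_le hX1.le (by linarith only [hε1])
  -- the split
  generalize hPd : (fun N : ℤ => ∃ (g1 g2 : Fin 4 → ℤ) (p : ℕ) (c : ℤ) (y : Fin 4 → ℤ) (s t : ℤ),
    Red g1 g2 ∧ NonSpec θ g1 g2 ∧
    (dot g1 g1 : ℝ) * dot g2 g2 ≤ C * (X / T ^ 2) ^ (4 / 3 : ℝ) ∧
    PtB θ C X T g1 g2 N p c y s t) = P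
  have hP : ∀ N, P N ↔ ∃ (g1 g2 : Fin 4 → ℤ) (p : ℕ) (c : ℤ) (y : Fin 4 → ℤ) (s t : ℤ),
    Red g1 g2 ∧ NonSpec θ g1 g2 ∧
    (dot g1 g1 : ℝ) * dot g2 g2 ≤ C * (X / T ^ 2) ^ (4 / 3 : ℝ) ∧
    PtB θ C X T g1 g2 N p c y s t := by
    intro N
    rw [← hPd]
  clear hPd
  have hA : ((S.filter P).card : ℝ) ≤ X ^ (1 - ε2) := by
    refine (hcov X T (S.filter P) hKX ?_ ?_ ?_)
    · exact (Real.rpow_le_rpow_of_exponent_le hX1.le (by linarith only [hε1, hεp])).trans hT1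
    · exact hT2.trans (Real.rpow_le_rpow_of_exponent_le hX1.le (by linarith only [hε1, hεp]))
    · intro N hN
      rw [Finset.mem_filter, hP] at hN
      obtain ⟨g1, g2, p, c, y, s, t, h1, h2, h3, h4⟩ := hN.2
      obtain ⟨d1, d2, d3⟩ := dot_facts h1
      have e1 : (dot g1 g1 : ℝ) ≤ dot g1 g1 * dot g2 g2 :=
        le_mul_of_one_le_right (by linarith only [d1, hε01, hεp]) d2
      have e2 : (dot g2 g2 : ℝ) ≤ dot g1 g1 * dot g2 g2 :=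
        le_mul_of_one_le_left (by linarith only [d2, hε01, hεp]) d1
      exact ⟨dot g1 g1, dot g2 g2, ⟨g1, g2, p, c, y, s, t, h1, h2, h3, h4, rfl, rfl⟩, d1,
        (e1.trans h3).trans hCY, d2, (e2.trans h3).trans hCY⟩
  have hB : ((S.filter (fun N => ¬ P N)).card : ℝ) ≤
      K1 * (C1 * (X / T ^ 2) ^ (1 / 3 : ℝ)) ^ 2 * (X / T ^ 2) ^ 2 := by
    apply hspec X T _ hTge hX1.le (hTX.trans (le_mul_of_one_le_left hX0.le hCge))
      (hXT.trans (le_mul_of_one_le_left (by positivity) hCge)) hR1 hRY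
    intro N hN
    rw [Finset.mem_filter, hP] at hN
    obtain ⟨g1, g2, p, c, y, s, t, h1, h3, h4⟩ := hS N hN.1
    have hns : ¬ NonSpec θ g1 g2 := fun h => hN.2 ⟨g1, g2, p, c, y, s, t, h1, h, h3, h4⟩
    exact ⟨p, c, y, s • g1 + t • g2, h4.lowN, h4.dat,
      specZ_of hC0 (by linarith only [hε01, hεp]) hC11 hY0 h1 hns h3 s t⟩
  have hfin : (S.card : ℝ) = ((S.filter P).card : ℝ) + ((S.filter (fun N => ¬ P N)).card : ℝ) := by
    exact_mod_cast (Finset.card_filter_add_card_filter_not P).symm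
  rw [hfin]
  linarith only [hB, hA, hA2, hB2]

end Vale.Agent.P018.QB
end

section

/-! # P018, (B): the count near given exponents of the reduced pairs. -/

namespace Vale.Agent.P018.QB

open Polynomial NumberField Vale.Agent.P018.Q

/-- the exponents `m1 > m2` do not occur. -/
theorem locB_order {m1 m2 : ℝ} (h : m2 < m1) :
    ∃ ε : ℝ, 0 < ε ∧ ∀ (X : ℝ) (g1 g2 : Fin 4 → ℤ), 2 ≤ X → Red g1 g2 →
      X ^ (2 * (m1 - ε)) ≤ dot g1 g1 → (dot g2 g2 : ℝ) ≤ X ^ (2 * (m2 + ε)) → False := by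
  refine ⟨(m1 - m2) / 4, by linarith, ?_⟩
  intro X g1 g2 hX hred h1 h2
  have h3 : (dot g1 g1 : ℝ) ≤ dot g2 g2 := by exact_mod_cast hred.2.1
  have h4 : X ^ (2 * (m2 + (m1 - m2) / 4)) < X ^ (2 * (m1 - (m1 - m2) / 4)) :=
    Real.rpow_lt_rpow_of_exponent_lt (by linarith) (by linarith only [h])
  linarith

/-- the exponents with `m1 + m2 > 2/3 (1 - 2w)` do not occur. -/
theorem locB_covol (C : ℕ) {w m1 m2 : ℝ} (h : 2 / 3 * (1 - 2 * w) < m1 + m2) :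
    ∃ ε : ℝ, 0 < ε ∧ ∃ K : ℝ, 0 < K ∧ ∀ (X T : ℝ) (g1 g2 : Fin 4 → ℤ), K ≤ X →
      X ^ (w - ε) ≤ T →
      (dot g1 g1 : ℝ) * dot g2 g2 ≤ C * (X / T ^ 2) ^ (4 / 3 : ℝ) →
      X ^ (2 * (m1 - ε)) ≤ dot g1 g1 → X ^ (2 * (m2 - ε)) ≤ dot g2 g2 → False := by
  set d := m1 + m2 - 2 / 3 * (1 - 2 * w) with hd
  have hd0 : 0 < d := by rw [hd]; linarith only [h]
  refine ⟨d / 10, by linarith only [hd0], ((C : ℝ) + 1) ^ (1 / d), by positivity, ?_⟩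
  intro X T g1 g2 hX hT h0 h1 h2
  have hC1 : (1 : ℝ) ≤ (C : ℝ) + 1 := by
    have := Nat.cast_nonneg (α := ℝ) C
    linarith only [this]
  have hX1 : 1 ≤ X := le_trans (Real.one_le_rpow hC1 (by positivity)) hX
  have hX0 : 0 < X := by linarith only [hX1]
  have hXd : (C : ℝ) + 1 ≤ X ^ d := by
    have h3 : (((C : ℝ) + 1) ^ (1 / d)) ^ d ≤ X ^ d :=
      Real.rpow_le_rpow (by (clear * -; positivity)) hX hd0.le
    rwa [← Real.rpow_mul (by linarith only [hC1]), one_div, inv_mul_cancel₀ hd0.ne', Real.rpow_one] at h3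
  have hpw : 0 < X ^ (w - d / 10) := Real.rpow_pos_of_pos hX0 _
  have hT0 : 0 < T := lt_of_lt_of_le hpw hT
  have e1 : X / T ^ 2 ≤ X ^ (1 - 2 * (w - d / 10)) := by
    rw [div_le_iff₀ (by positivity)]
    have e2 : X ^ (1 - 2 * (w - d / 10)) * (X ^ (w - d / 10)) ^ 2 = X := by
      rw [← Real.rpow_natCast, ← Real.rpow_mul hX0.le, ← Real.rpow_add hX0]
      have e3 : 1 - 2 * (w - d / 10) + (w - d / 10) * ((2 : ℕ) : ℝ) = 1 := by
        push_cast; ring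
      rw [e3, Real.rpow_one]
    calc X = X ^ (1 - 2 * (w - d / 10)) * (X ^ (w - d / 10)) ^ 2 := e2.symm
      _ ≤ X ^ (1 - 2 * (w - d / 10)) * T ^ 2 := by
        apply mul_le_mul_of_nonneg_left _ (Real.rpow_nonneg hX0.le _)
        exact pow_le_pow_left₀ hpw.le hT 2
  have e4 : (X / T ^ 2) ^ (4 / 3 : ℝ) ≤ X ^ ((1 - 2 * (w - d / 10)) * (4 / 3)) := by
    rw [Real.rpow_mul hX0.le]
    exact Real.rpow_le_rpow (by positivity) e1 (by norm_num)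
  have e5 : X ^ (2 * (m1 - d / 10) + 2 * (m2 - d / 10)) ≤
      C * X ^ ((1 - 2 * (w - d / 10)) * (4 / 3)) := by
    rw [Real.rpow_add hX0]
    calc X ^ (2 * (m1 - d / 10)) * X ^ (2 * (m2 - d / 10)) ≤ (dot g1 g1 : ℝ) * dot g2 g2 :=
          mul_le_mul h1 h2 (Real.rpow_nonneg hX0.le _)
            (le_trans (Real.rpow_nonneg hX0.le _) h1)
      _ ≤ C * (X / T ^ 2) ^ (4 / 3 : ℝ) := h0
      _ ≤ _ := mul_le_mul_of_nonneg_left e4 (Nat.cast_nonneg C)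
  have e6 : X ^ (2 * (m1 - d / 10) + 2 * (m2 - d / 10)) =
      X ^ (4 / 3 * d) * X ^ ((1 - 2 * (w - d / 10)) * (4 / 3)) := by
    rw [← Real.rpow_add hX0]
    congr 1
    rw [hd]; ring
  rw [e6] at e5
  have e7 : X ^ (4 / 3 * d) ≤ C :=
    le_of_mul_le_mul_right e5 (Real.rpow_pos_of_pos hX0 _)
  have e8 : X ^ d ≤ X ^ (4 / 3 * d) := Real.rpow_le_rpow_of_exponent_le hX1 (by linarith only [hd0])
  linarith only [e8, e7, hXd]

/-- the count near the exponents `(m1, m2)`, from the count over one pair. -/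
theorem locB_sum {L : Type} [Field L] [NumberField L] (θ : Fin 4 → 𝓞 L) (C : ℕ)
    (w m1 m2 β : ℝ) (hm1 : 0 ≤ m1) (hm2 : 0 ≤ m2) (hβ : 5 * m1 + 3 * m2 + β < 1)
    (hloc : ∀ η : ℝ, 0 < η → ∃ ε : ℝ, 0 < ε ∧ ∃ K : ℝ, 0 < K ∧
      ∀ (X T : ℝ) (g1 g2 : Fin 4 → ℤ),
      K ≤ X → X ^ (w - ε) ≤ T → T ≤ X ^ (w + ε) → Red g1 g2 → NonSpec θ g1 g2 →
      X ^ (2 * (m1 - ε)) ≤ dot g1 g1 → (dot g1 g1 : ℝ) ≤ X ^ (2 * (m1 + ε)) →
      (dot g2 g2 : ℝ) ≤ X ^ (2 * (m2 + ε)) →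
      ∀ S : Finset ℤ, (∀ N ∈ S, ∃ (p : ℕ) (c : ℤ) (y : Fin 4 → ℤ) (s t : ℤ),
        PtB θ C X T g1 g2 N p c y s t) → (S.card : ℝ) ≤ X ^ (β + η)) :
    ∃ ε : ℝ, 0 < ε ∧ ∃ K : ℝ, 0 < K ∧ ∀ (X T : ℝ) (S : Finset ℤ),
      K ≤ X → X ^ (w - ε) ≤ T → T ≤ X ^ (w + ε) →
      (∀ N ∈ S, ∃ (g1 g2 : Fin 4 → ℤ) (p : ℕ) (c : ℤ) (y : Fin 4 → ℤ) (s t : ℤ), Red g1 g2 ∧
        NonSpec θ g1 g2 ∧ PtB θ C X T g1 g2 N p c y s t ∧
        X ^ (2 * (m1 - ε)) ≤ dot g1 g1 ∧ (dot g1 g1 : ℝ) ≤ X ^ (2 * (m1 + ε)) ∧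
        (dot g2 g2 : ℝ) ≤ X ^ (2 * (m2 + ε))) →
      (S.card : ℝ) ≤ X ^ (1 - ε) := by
  classical
  set gap := 1 - (5 * m1 + 3 * m2 + β) with hgap
  have hg0 : 0 < gap := by rw [hgap]; linarith
  obtain ⟨ε1, hε1, K1, hK1, H1⟩ := hloc (gap / 4) (by linarith only [hg0])
  set ε := min ε1 (gap / 44) with hεdef
  have hε0 : 0 < ε := lt_min hε1 (by linarith only [hg0])
  have hεε1 : ε ≤ ε1 := min_le_left _ _
  have hεg : ε ≤ gap / 44 := min_le_right _ _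
  obtain ⟨K2, hK2, H2⟩ := sum_pairs m1 m2 ε hm1 hm2 hε0
  refine ⟨ε, hε0, max 1 (max K1 K2), by positivity, ?_⟩
  intro X T S hKX hT1 hT2 hS
  have hX1 : 1 ≤ X := le_trans (le_max_left _ _) hKX
  have hXK1 : K1 ≤ X := le_trans (le_trans (le_max_left _ _) (le_max_right _ _)) hKX
  have hXK2 : K2 ≤ X := le_trans (le_trans (le_max_right _ _) (le_max_right _ _)) hKX
  have hX0 : 0 < X := by linarith
  have key := H2 X (β + gap / 4) S
    (fun N l => NonSpec θ l.1 l.2 ∧ ∃ (p : ℕ) (c : ℤ) (y : Fin 4 → ℤ) (s t : ℤ),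
      PtB θ C X T l.1 l.2 N p c y s t) hXK2 (by
      intro N hN
      obtain ⟨g1, g2, p, c, y, s, t, hr, hns, hpt, b1, b2, b3⟩ := hS N hN
      exact ⟨(g1, g2), ⟨hns, p, c, y, s, t, hpt⟩, hr, b1, b2, b3⟩) (by
      intro l hr b1 b2 b3 S' hS' hall
      rcases S'.eq_empty_or_nonempty with h | ⟨N0, hN0⟩
      · rw [h, Finset.card_empty, Nat.cast_zero]
        exact Real.rpow_nonneg hX0.le _
      · refine H1 X T l.1 l.2 hXK1 ?_ ?_ hr (hall N0 hN0).1 ?_ ?_ ?_ S'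
          (fun N hN => (hall N hN).2)
        · exact le_trans (Real.rpow_le_rpow_of_exponent_le hX1 (by linarith)) hT1
        · exact le_trans hT2 (Real.rpow_le_rpow_of_exponent_le hX1 (by linarith))
        · exact le_trans (Real.rpow_le_rpow_of_exponent_le hX1 (by linarith only [hεε1])) b1
        · exact le_trans b2 (Real.rpow_le_rpow_of_exponent_le hX1 (by linarith only [hεε1]))
        · exact le_trans b3 (Real.rpow_le_rpow_of_exponent_le hX1 (by linarith only [hεε1])))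
  refine le_trans key (Real.rpow_le_rpow_of_exponent_le hX1 ?_)
  have : 5 * m1 + 3 * m2 + β = 1 - gap := by rw [hgap]; ring
  linarith only [hεg, hε0]

/-- the count near the exponents `(m1, m2)` of the reduced pairs, from the count over one pair. -/
theorem locB_main {L : Type} [Field L] [NumberField L] (θ : Fin 4 → 𝓞 L) (C : ℕ)
    (w m1 m2 : ℝ) (hw : 0.3488 ≤ w) (hw' : w ≤ 0.38) (hm1 : 0 ≤ m1) (hm2 : 0 ≤ m2)
    (hloc : ∀ β : ℝ, m1 ≤ m2 → m1 + m2 ≤ 2 / 3 * (1 - 2 * w) → 0 < β → NumB w m1 β →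
      ∀ η : ℝ, 0 < η → ∃ ε : ℝ, 0 < ε ∧ ∃ K : ℝ, 0 < K ∧
      ∀ (X T : ℝ) (g1 g2 : Fin 4 → ℤ),
      K ≤ X → X ^ (w - ε) ≤ T → T ≤ X ^ (w + ε) → Red g1 g2 → NonSpec θ g1 g2 →
      X ^ (2 * (m1 - ε)) ≤ dot g1 g1 → (dot g1 g1 : ℝ) ≤ X ^ (2 * (m1 + ε)) →
      (dot g2 g2 : ℝ) ≤ X ^ (2 * (m2 + ε)) →
      ∀ S : Finset ℤ, (∀ N ∈ S, ∃ (p : ℕ) (c : ℤ) (y : Fin 4 → ℤ) (s t : ℤ),
        PtB θ C X T g1 g2 N p c y s t) → (S.card : ℝ) ≤ X ^ (β + η)) :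
    ∃ ε : ℝ, 0 < ε ∧ ∃ K : ℝ, 0 < K ∧ ∀ (X T : ℝ) (S : Finset ℤ),
      K ≤ X → X ^ (w - ε) ≤ T → T ≤ X ^ (w + ε) →
      (∀ N ∈ S, ∃ (g1 g2 : Fin 4 → ℤ) (p : ℕ) (c : ℤ) (y : Fin 4 → ℤ) (s t : ℤ), Red g1 g2 ∧
        NonSpec θ g1 g2 ∧
        (dot g1 g1 : ℝ) * dot g2 g2 ≤ C * (X / T ^ 2) ^ (4 / 3 : ℝ) ∧
        PtB θ C X T g1 g2 N p c y s t ∧
        X ^ (2 * (m1 - ε)) ≤ dot g1 g1 ∧ (dot g1 g1 : ℝ) ≤ X ^ (2 * (m1 + ε)) ∧
        X ^ (2 * (m2 - ε)) ≤ dot g2 g2 ∧ (dot g2 g2 : ℝ) ≤ X ^ (2 * (m2 + ε))) →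
      (S.card : ℝ) ≤ X ^ (1 - ε) := by
  rcases lt_or_ge m2 m1 with h | h
  · obtain ⟨ε, hε, H⟩ := locB_order h
    refine ⟨ε, hε, 2, by norm_num, ?_⟩
    intro X T S hX hT1 hT2 hS
    have hX0 : 0 < X := by linarith only [hX]
    rcases S.eq_empty_or_nonempty with hS0 | ⟨N, hN⟩
    · rw [hS0, Finset.card_empty, Nat.cast_zero]
      exact Real.rpow_nonneg hX0.le _
    · obtain ⟨g1, g2, p, c, y, s, t, hr, hns, hcov, hpt, b1, b2, b3, b4⟩ := hS N hN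
      exact (H X g1 g2 hX hr b1 b4).elim
  rcases lt_or_ge (2 / 3 * (1 - 2 * w)) (m1 + m2) with h' | h'
  · obtain ⟨ε, hε, K, hK, H⟩ := locB_covol C h'
    refine ⟨ε, hε, K, hK, ?_⟩
    intro X T S hX hT1 hT2 hS
    have hX0 : 0 < X := by linarith only [hX, hK]
    rcases S.eq_empty_or_nonempty with hS0 | ⟨N, hN⟩
    · rw [hS0, Finset.card_empty, Nat.cast_zero]
      exact Real.rpow_nonneg hX0.le _
    · obtain ⟨g1, g2, p, c, y, s, t, hr, hns, hcov, hpt, b1, b2, b3, b4⟩ := hS N hN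
      exact (H X T g1 g2 hX hT1 hcov b1 b3).elim
  · obtain ⟨β, hβ0, hβ, hnum⟩ := numB w m1 m2 hw hw' hm1 h h'
    obtain ⟨ε, hε, K, hK, H⟩ := locB_sum θ C w m1 m2 β hm1 hm2 hβ
      (fun η hη => hloc β h h' hβ0 hnum η hη)
    refine ⟨ε, hε, K, hK, ?_⟩
    intro X T S hX hT1 hT2 hS
    refine H X T S hX hT1 hT2 fun N hN => ?_
    obtain ⟨g1, g2, p, c, y, s, t, hr, hns, hcov, hpt, b1, b2, b3, b4⟩ := hS N hN
    exact ⟨g1, g2, p, c, y, s, t, hr, hns, hpt, b1, b2, b4⟩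

end Vale.Agent.P018.QB
end

section

/-! # P018, (B): the local count over one non special reduced pair. -/

namespace Vale.Agent.P018.QB

open Polynomial NumberField Vale.Agent.P018.Q

theorem pl_large (c e : ℝ) (he : 0 < e) : ∃ K : ℝ, 1 ≤ K ∧ ∀ X : ℝ, K ≤ X → c < X ^ e := by
  refine ⟨(|c| + 1) ^ (1 / e), Real.one_le_rpow (by linarith [abs_nonneg c]) (by positivity), ?_⟩
  intro X hX
  have h0 : 0 ≤ |c| + 1 := by linarith [abs_nonneg c]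
  have h1 : ((|c| + 1) ^ (1 / e)) ^ e ≤ X ^ e := Real.rpow_le_rpow (by positivity) hX he.le
  rw [← Real.rpow_mul h0, one_div, inv_mul_cancel₀ he.ne', Real.rpow_one] at h1
  linarith [le_abs_self c]

/-- the local count: at most `X^(β+η)` points over one non special reduced pair. -/
theorem pair_localB' {L : Type} [Field L] [NumberField L] (θ : Fin 4 → 𝓞 L) (G : ℤ[X])
    (hG : Root4 θ G) (C : ℕ) (w m1 m2 β : ℝ) (hw : 1 / 4 < w) (hw' : w < 1 / 2) (hm1 : 0 ≤ m1)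
    (hm12 : m1 ≤ m2) (hm : m1 + m2 ≤ 2 / 3 * (1 - 2 * w)) (_hβ : 0 < β) (hnum : NumB w m1 β)
    (η : ℝ) (hη : 0 < η) :
    ∃ ε : ℝ, 0 < ε ∧ ∃ K : ℝ, 0 < K ∧ ∀ (X T : ℝ) (g1 g2 : Fin 4 → ℤ),
      K ≤ X → X ^ (w - ε) ≤ T → T ≤ X ^ (w + ε) → Red g1 g2 → NonSpec θ g1 g2 →
      X ^ (2 * (m1 - ε)) ≤ dot g1 g1 → (dot g1 g1 : ℝ) ≤ X ^ (2 * (m1 + ε)) →
      (dot g2 g2 : ℝ) ≤ X ^ (2 * (m2 + ε)) →
      ∀ S : Finset ℤ, (∀ N ∈ S, ∃ (p : ℕ) (c : ℤ) (y : Fin 4 → ℤ) (s t : ℤ),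
        PtB θ C X T g1 g2 N p c y s t) → (S.card : ℝ) ≤ X ^ (β + η) := by
  obtain ⟨i, m, b, δ, hm2, hb, hδ, hsum, hlt⟩ := hnum
  obtain ⟨K, hK, hcount⟩ := pair_countB θ G hG C i m hm2 (η / 4) (by linarith only [hη])
  rcases Nat.eq_zero_or_pos C with hC0 | hCpos
  · refine ⟨1, one_pos, 1, one_pos, ?_⟩
    intro X T g1 g2 hX _ _ _ _ _ _ _ S hS
    rcases S.eq_empty_or_nonempty with h | ⟨N, hN⟩
    · rw [h, Finset.card_empty, Nat.cast_zero]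
      exact Real.rpow_nonneg (by linarith only [hX, hw', hw]) _
    · obtain ⟨p, c, y, s, t, hP⟩ := hS N hN
      have := hP.lowN
      rw [hC0] at this
      simp at this
      linarith only [this, hX]
  have hC1 : (1 : ℝ) ≤ C := by exact_mod_cast hCpos
  obtain ⟨N0, hN0⟩ : ∃ N0 : ℕ, N0 = 8 * (m - 1) * (m - 1 + i) := ⟨_, rfl⟩
  rw [← hN0] at hcount hsum
  obtain ⟨A, hA⟩ : ∃ A : ℝ, A = 1 - 2 * w - m1 := ⟨_, rfl⟩
  rw [← hA] at hsum hlt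
  have hA0 : 0 < A := by rw [hA]; linarith only [hm, hm12, hw']
  have hA1 : A < 1 / 2 := by rw [hA]; linarith only [hm1, hw]
  obtain ⟨Q, hQ⟩ : ∃ Q : ℝ, Q = (N0 : ℝ) * (4 * i + 2 * m) := ⟨_, rfl⟩
  have hQ0 : 0 ≤ Q := by rw [hQ]; (clear * - hm2; positivity)
  obtain ⟨ε, hε⟩ : ∃ ε : ℝ, ε = min (η / 16) (min (δ / (2 * (Q + 1)))
    (min (w - 1 / 4) (min (1 / 2 - w) (1 / 16)))) := ⟨_, rfl⟩
  have hε0 : 0 < ε := by
    rw [hε]
    refine lt_min (by linarith only [hη]) (lt_min (by positivity) (lt_min (by linarith only [hw])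
      (lt_min (by linarith only [hA0, hA, hm1]) (by norm_num))))
  have e1 : ε ≤ η / 16 := by rw [hε]; exact min_le_left _ _
  have e2 : ε ≤ δ / (2 * (Q + 1)) := by
    rw [hε]; exact (min_le_right _ _).trans (min_le_left _ _)
  have e3 : ε ≤ w - 1 / 4 := by
    rw [hε]; exact (min_le_right _ _).trans ((min_le_right _ _).trans (min_le_left _ _))
  have e4 : ε ≤ 1 / 2 - w := by
    rw [hε]; exact (min_le_right _ _).trans ((min_le_right _ _).trans ((min_le_right _ _).trans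
      (min_le_left _ _)))
  have e5 : ε ≤ 1 / 16 := by
    rw [hε]; exact (min_le_right _ _).trans ((min_le_right _ _).trans ((min_le_right _ _).trans
      (min_le_right _ _)))
  have e2' : Q * ε ≤ δ / 2 := by
    have h1 : Q * ε ≤ (Q + 1) * (δ / (2 * (Q + 1))) :=
      mul_le_mul (by linarith only [e5, hε0]) e2 hε0.le (by linarith only [e5, hε0, hQ0])
    have h2 : (Q + 1) * (δ / (2 * (Q + 1))) = δ / 2 := by
      field_simp
    linarith only [h2, h1]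
  obtain ⟨K1, hK1, H1⟩ := pl_large K b hb
  obtain ⟨K2, hK2, H2⟩ := pl_large C (2 * ε) (by linarith only [hε0])
  obtain ⟨K3, hK3, H3⟩ := pl_large K (δ / 2) (by linarith only [hδ])
  obtain ⟨K4, hK4, H4⟩ := pl_large K (η / 2) (by linarith only [e1, hε0])
  refine ⟨ε, hε0, max K (max K1 (max K2 (max K3 K4))), lt_max_of_lt_left hK, ?_⟩
  intro X T g1 g2 hX hT1 hT2 hred hns hg1 _ hg2 S hS
  have hXK : K ≤ X := (le_max_left _ _).trans hX
  have hX' : max K1 (max K2 (max K3 K4)) ≤ X := (le_max_right _ _).trans hX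
  have hXK1 : K1 ≤ X := (le_max_left _ _).trans hX'
  have hX'' : max K2 (max K3 K4) ≤ X := (le_max_right _ _).trans hX'
  have hXK2 : K2 ≤ X := (le_max_left _ _).trans hX''
  have hX3 : max K3 K4 ≤ X := (le_max_right _ _).trans hX''
  have hXK3 : K3 ≤ X := (le_max_left _ _).trans hX3
  have hXK4 : K4 ≤ X := (le_max_right _ _).trans hX3
  have hX1 : 1 ≤ X := hK1.trans hXK1
  have hX0 : 0 < X := by linarith only [hX1, e5, hε0]
  have hpos : ∀ e : ℝ, 0 < X ^ e := fun e => Real.rpow_pos_of_pos hX0 e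
  have hmono : ∀ {e f : ℝ}, e ≤ f → X ^ e ≤ X ^ f := fun h =>
    Real.rpow_le_rpow_of_exponent_le hX1 h
  have hT0 : 0 < T := lt_of_lt_of_le (hpos _) hT1
  have hT11 : 1 ≤ T := (Real.one_le_rpow hX1 (by linarith only [e5, e3, hε0])).trans hT1
  have hTn : ∀ n : ℕ, X ^ (n * (w - ε)) ≤ T ^ n := by
    intro n
    rw [mul_comm, Real.rpow_mul hX0.le, Real.rpow_natCast]
    exact pow_le_pow_left₀ (hpos _).le hT1 n
  have hTn' : ∀ n : ℕ, T ^ n ≤ X ^ (n * (w + ε)) := by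
    intro n
    rw [mul_comm (n : ℝ), Real.rpow_mul hX0.le, Real.rpow_natCast]
    exact pow_le_pow_left₀ hT0.le hT2 n
  have hXT4 : X ≤ T ^ 4 := by
    have h1 : X ^ (1 : ℝ) ≤ X ^ (((4 : ℕ) : ℝ) * (w - ε)) := hmono (by push_cast; linarith only [e3])
    rw [Real.rpow_one] at h1
    exact h1.trans (hTn 4)
  have hT4C : T ^ 4 ≤ C * T ^ 4 := le_mul_of_one_le_left (by positivity) hC1
  obtain ⟨U, hU⟩ : ∃ U : ℝ, U = X ^ (A + 4 * ε) := ⟨_, rfl⟩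
  have hU0 : 0 < U := by rw [hU]; exact hpos _
  have hU1 : 1 ≤ U := by rw [hU]; exact Real.one_le_rpow hX1 (by linarith only [hε0, hA0])
  have hUX : U ≤ X := by
    rw [hU]
    have h1 : X ^ (A + 4 * ε) ≤ X ^ (1 : ℝ) := hmono (by linarith only [e5, hε0, hA1])
    rwa [Real.rpow_one] at h1
  obtain ⟨ρ, hρ⟩ : ∃ ρ : ℝ, ρ = X ^ (-b) := ⟨_, rfl⟩
  have hρ0 : 0 < ρ := by rw [hρ]; exact hpos _
  have hρi : ρ⁻¹ = X ^ b := by rw [hρ, Real.rpow_neg hX0.le, inv_inv]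
  have hρK : ρ ≤ 1 / K := by
    rw [le_div_iff₀ hK, hρ, Real.rpow_neg hX0.le]
    rw [inv_mul_le_iff₀ (hpos _)]
    linarith only [H1 X hXK1]
  have hT2X : T ^ 2 ≤ C * X := by
    have h1 : X ^ (((2 : ℕ) : ℝ) * (w + ε)) ≤ X ^ (1 : ℝ) := hmono (by push_cast; linarith only [e4])
    rw [Real.rpow_one] at h1
    exact ((hTn' 2).trans h1).trans (le_mul_of_one_le_left hX0.le hC1)
  have hg2T : (dot g2 g2 : ℝ) ≤ T ^ 8 := by
    refine hg2.trans (le_trans ?_ (hTn 8))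
    exact hmono (by push_cast; linarith only [e5, e3, hε0, hm, hm1])
  have hUg : C * (X / T ^ 2) ^ 2 ≤ U ^ 2 * dot g1 g1 := by
    have h1 : X / T ^ 2 ≤ X ^ (1 - 2 * (w - ε)) := by
      rw [div_le_iff₀ (by (clear * - hT0; positivity))]
      calc X = X ^ (1 - 2 * (w - ε)) * X ^ (((2 : ℕ) : ℝ) * (w - ε)) := by
            rw [← Real.rpow_add hX0]
            have : 1 - 2 * (w - ε) + ((2 : ℕ) : ℝ) * (w - ε) = 1 := by push_cast; ring
            rw [this, Real.rpow_one]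
        _ ≤ X ^ (1 - 2 * (w - ε)) * T ^ 2 := mul_le_mul_of_nonneg_left (hTn 2) (hpos _).le
    have h2 : (X / T ^ 2) ^ 2 ≤ X ^ (2 * (1 - 2 * (w - ε))) := by
      rw [mul_comm (2 : ℝ) (1 - 2 * (w - ε)), Real.rpow_mul hX0.le]
      rw [show (2 : ℝ) = ((2 : ℕ) : ℝ) by norm_num, Real.rpow_natCast]
      refine pow_le_pow_left₀ (by (clear * - hX1 hT0; positivity)) ?_ 2
      simpa using h1
    have h3 : U ^ 2 = X ^ (2 * (A + 4 * ε)) := by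
      rw [hU, ← Real.rpow_natCast, ← Real.rpow_mul hX0.le]
      congr 1; push_cast; ring
    calc (C : ℝ) * (X / T ^ 2) ^ 2 ≤ X ^ (2 * ε) * X ^ (2 * (1 - 2 * (w - ε))) :=
          mul_le_mul (H2 X hXK2).le h2 (by (clear * - hX1 hT0; positivity)) (hpos _).le
      _ = X ^ (2 * (A + 4 * ε)) * X ^ (2 * (m1 - ε)) := by
          rw [← Real.rpow_add hX0, ← Real.rpow_add hX0]
          congr 1; rw [hA]; ring
      _ ≤ U ^ 2 * dot g1 g1 := by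
          rw [h3]
          exact mul_le_mul_of_nonneg_left hg1 (hpos _).le
  have hdet : ∀ S : Finset (ℕ × ℕ), S.card = N0 →
        K * (U ^ i * T ^ (2 * m)) ^ N0 * ∏ s ∈ S, (X⁻¹ ^ s.1 * ρ ^ s.2) < 1 := by
    intro S' hS'
    have h1 : ∏ s ∈ S', (X⁻¹ ^ s.1 * ρ ^ s.2) = X ^ (-∑ s ∈ S', ((s.1 : ℝ) + b * s.2)) := by
      rw [← Finset.sum_neg_distrib, Real.rpow_sum_of_pos hX0]
      refine Finset.prod_congr rfl fun s _ => ?_
      rw [hρ, ← Real.rpow_natCast (X ^ (-b)), ← Real.rpow_mul hX0.le, ← Real.rpow_neg_one X,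
        ← Real.rpow_natCast (X ^ (-1 : ℝ)), ← Real.rpow_mul hX0.le, ← Real.rpow_add hX0]
      congr 1; ring
    have h2 : (U ^ i * T ^ (2 * m)) ^ N0 ≤ X ^ ((N0 : ℝ) * (i * A + 2 * m * w) + Q * ε) := by
      have h3 : U ^ i * T ^ (2 * m) ≤ X ^ (i * (A + 4 * ε) + ((2 * m : ℕ) : ℝ) * (w + ε)) := by
        rw [Real.rpow_add hX0]
        refine mul_le_mul (le_of_eq ?_) (hTn' (2 * m)) (by (clear * - hT0; positivity)) (hpos _).le
        rw [hU, mul_comm (i : ℝ), Real.rpow_mul hX0.le, Real.rpow_natCast]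
      have h4 := pow_le_pow_left₀ (by (clear * - hU0 hT0; positivity)) h3 N0
      refine h4.trans (le_of_eq ?_)
      rw [← Real.rpow_natCast, ← Real.rpow_mul hX0.le]
      congr 1; rw [hQ]; push_cast; ring
    have h5 := hsum S' hS'
    rw [h1]
    calc K * (U ^ i * T ^ (2 * m)) ^ N0 * X ^ (-∑ s ∈ S', ((s.1 : ℝ) + b * s.2))
        ≤ K * X ^ ((N0 : ℝ) * (i * A + 2 * m * w) + Q * ε) *
            X ^ (-((N0 : ℝ) * (i * A + 2 * m * w) + δ)) := by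
          refine mul_le_mul (mul_le_mul_of_nonneg_left h2 hK.le) (hmono (by linarith only [h5]))
            (hpos _).le (mul_nonneg hK.le (hpos _).le)
      _ = K * X ^ (Q * ε - δ) := by
          rw [mul_assoc, ← Real.rpow_add hX0]
          congr 2; ring
      _ ≤ K * X ^ (-(δ / 2)) := mul_le_mul_of_nonneg_left (hmono (by linarith only [e2'])) hK.le
      _ < 1 := by
          rw [Real.rpow_neg hX0.le, ← div_eq_mul_inv, div_lt_one (hpos _)]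
          exact H3 X hXK3
  have hmain := hcount X T U ρ hT11 hXK hT2X (hXT4.trans hT4C) hρ0 hρK hU1
    ((hUX.trans hXT4).trans hT4C) g1 g2 hred hns hg2T hUg hdet S hS
  refine hmain.trans ?_
  have h6 : T ^ (27 / 169 + η / 4) ≤ X ^ ((w + ε) * (27 / 169 + η / 4)) := by
    rw [Real.rpow_mul hX0.le]
    exact Real.rpow_le_rpow hT0.le hT2 (by positivity)
  have h7 : U ^ (131 / 338 : ℝ) = X ^ ((A + 4 * ε) * (131 / 338)) := by
    rw [hU, ← Real.rpow_mul hX0.le]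
  calc K * ρ⁻¹ * (T ^ (27 / 169 + η / 4) * U ^ (131 / 338 : ℝ))
      ≤ X ^ (η / 2) * X ^ b *
          (X ^ ((w + ε) * (27 / 169 + η / 4)) * X ^ ((A + 4 * ε) * (131 / 338))) := by
        rw [hρi, h7]
        refine mul_le_mul (mul_le_mul_of_nonneg_right (H4 X hXK4).le (hpos _).le)
          (mul_le_mul_of_nonneg_right h6 (hpos _).le)
          (mul_nonneg (Real.rpow_nonneg hT0.le _) (hpos _).le)
          (mul_nonneg (hpos _).le (hpos _).le)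
    _ = X ^ (η / 2 + b + ((w + ε) * (27 / 169 + η / 4) + (A + 4 * ε) * (131 / 338))) := by
        rw [← Real.rpow_add hX0, ← Real.rpow_add hX0, ← Real.rpow_add hX0]
    _ ≤ X ^ (β + η) := by
        refine hmono ?_
        have h8 : (w + ε) * (η / 4) ≤ 1 * (η / 4) :=
          mul_le_mul_of_nonneg_right (by linarith only [e5, e4, hε0]) (by linarith only [e1, hε0])
        have h9 : (w + ε) * (27 / 169 + η / 4) = 27 / 169 * w + 27 / 169 * ε +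
          (w + ε) * (η / 4) := by ring
        linarith only [h8, e1, hε0, hlt]

end Vale.Agent.P018.QB
end

section

/-! # P018, (B): summation over the reduced pairs, compactness. -/

namespace Vale.Agent.P018.QB

open Polynomial NumberField Vale.Agent.P018.Q

/-- the local count: at most `X^(β+η)` points over one non special reduced pair. -/
theorem pair_localB {L : Type} [Field L] [NumberField L] (θ : Fin 4 → 𝓞 L) (G : ℤ[X])
    (hG : Root4 θ G) (C : ℕ) (w m1 m2 β : ℝ) (hw : 1 / 4 < w) (hw' : w < 1 / 2) (hm1 : 0 ≤ m1)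
    (hm12 : m1 ≤ m2) (hm : m1 + m2 ≤ 2 / 3 * (1 - 2 * w)) (hβ : 0 < β) (hnum : NumB w m1 β)
    (η : ℝ) (hη : 0 < η) :
    ∃ ε : ℝ, 0 < ε ∧ ∃ K : ℝ, 0 < K ∧ ∀ (X T : ℝ) (g1 g2 : Fin 4 → ℤ),
      K ≤ X → X ^ (w - ε) ≤ T → T ≤ X ^ (w + ε) → Red g1 g2 → NonSpec θ g1 g2 →
      X ^ (2 * (m1 - ε)) ≤ dot g1 g1 → (dot g1 g1 : ℝ) ≤ X ^ (2 * (m1 + ε)) →
      (dot g2 g2 : ℝ) ≤ X ^ (2 * (m2 + ε)) →
      ∀ S : Finset ℤ, (∀ N ∈ S, ∃ (p : ℕ) (c : ℤ) (y : Fin 4 → ℤ) (s t : ℤ),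
        PtB θ C X T g1 g2 N p c y s t) → (S.card : ℝ) ≤ X ^ (β + η) :=
  pair_localB' θ G hG C w m1 m2 β hw hw' hm1 hm12 hm hβ hnum η hη

/-- the count near the exponents `(m1, m2)` of the reduced pairs, non special part. -/
theorem local_pairsB {L : Type} [Field L] [NumberField L] (θ : Fin 4 → 𝓞 L) (G : ℤ[X])
    (hG : Root4 θ G) (C : ℕ) (w m1 m2 : ℝ) (hw : 0.3488 ≤ w) (hw' : w ≤ 0.38) (hm1 : 0 ≤ m1)
    (hm2 : 0 ≤ m2) :
    ∃ ε : ℝ, 0 < ε ∧ ∃ K : ℝ, 0 < K ∧ ∀ (X T : ℝ) (S : Finset ℤ),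
      K ≤ X → X ^ (w - ε) ≤ T → T ≤ X ^ (w + ε) →
      (∀ N ∈ S, ∃ (g1 g2 : Fin 4 → ℤ) (p : ℕ) (c : ℤ) (y : Fin 4 → ℤ) (s t : ℤ), Red g1 g2 ∧
        NonSpec θ g1 g2 ∧
        (dot g1 g1 : ℝ) * dot g2 g2 ≤ C * (X / T ^ 2) ^ (4 / 3 : ℝ) ∧
        PtB θ C X T g1 g2 N p c y s t ∧
        X ^ (2 * (m1 - ε)) ≤ dot g1 g1 ∧ (dot g1 g1 : ℝ) ≤ X ^ (2 * (m1 + ε)) ∧
        X ^ (2 * (m2 - ε)) ≤ dot g2 g2 ∧ (dot g2 g2 : ℝ) ≤ X ^ (2 * (m2 + ε))) →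
      (S.card : ℝ) ≤ X ^ (1 - ε) := by
  refine locB_main θ C w m1 m2 hw hw' hm1 hm2 fun β h1 h2 hβ hnum η hη => ?_
  exact pair_localB θ G hG C w m1 m2 β (by linarith only [hw]) (by linarith only [hw']) hm1 h1 h2 hβ hnum η hη

/-- compactness in the exponents of the reduced pairs; special pairs by `special_count`. -/
theorem all_pairsB {L : Type} [Field L] [NumberField L] (θ : Fin 4 → 𝓞 L) (G : ℤ[X])
    (hG : Root4 θ G) (C : ℕ) (w : ℝ) (hw : 0.3488 ≤ w) (hw' : w ≤ 0.38) :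
    ∃ ε : ℝ, 0 < ε ∧ ∃ K : ℝ, 0 < K ∧ ∀ (X T : ℝ) (S : Finset ℤ),
      K ≤ X → X ^ (w - ε) ≤ T → T ≤ X ^ (w + ε) →
      (∀ N ∈ S, ∃ (g1 g2 : Fin 4 → ℤ) (p : ℕ) (c : ℤ) (y : Fin 4 → ℤ) (s t : ℤ), Red g1 g2 ∧
        (dot g1 g1 : ℝ) * dot g2 g2 ≤ C * (X / T ^ 2) ^ (4 / 3 : ℝ) ∧
        PtB θ C X T g1 g2 N p c y s t) →
      (S.card : ℝ) ≤ X ^ (1 - ε) := by
  exact all_pairsB_of θ C w hw hw' (special_count θ G hG C)
    fun m1 m2 h1 h2 => local_pairsB θ G hG C w m1 m2 hw hw' h1 h2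

end Vale.Agent.P018.QB
end

section

namespace Vale.Agent.P018.Q

open Polynomial NumberField

/-- Proof: `w = a/4`, `T = P^(1/4)`, `exists_dat`, `pairs_le` (Q/Data.lean); dyadic decomposition
`X' < n ≤ 2X'` (`X' ≥ X^(1-η)`; for these `log P / log X'` stays near `a`), so that
`X' ≤ C |N|` (`near_of_class`); `exists_rank2` (Q/Lattice.lean) for `z`, `|z_j| ≤ C X'/T²`;
`all_pairsB`. -/
theorem famB (f : ℤ[X]) (hirr : Irreducible (f.map (Int.castRingHom ℚ))) (hd : f.natDegree = 4)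
    (a : ℝ) (h1 : 1.3955 ≤ a) (h2 : a ≤ 1.51) : Near f a := by
  obtain ⟨L, _, _, θ, G, a0, C1, ha0, hGm, hGd, hGi, hθi, hθ, hdat⟩ := exists_dat f hirr hd
  obtain ⟨C2, hC2, hrank⟩ := exists_rank2
  have hG : QB.Root4 θ G := ⟨hGm, hGd, hGi, hθi, hθ⟩
  obtain ⟨C, hC⟩ : ∃ C : ℕ, C = C1 + 2 + ⌈C2 * (4 * (C1 : ℝ) ^ 2 + 1)⌉₊ := ⟨_, rfl⟩
  have hCr : C2 * (4 * (C1 : ℝ) ^ 2 + 1) ≤ C := by
    have e1 := Nat.le_ceil (C2 * (4 * (C1 : ℝ) ^ 2 + 1))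
    have e2 : (⌈C2 * (4 * (C1 : ℝ) ^ 2 + 1)⌉₊ : ℝ) ≤ C := by
      rw [hC]
      exact_mod_cast Nat.le_add_left _ _
    linarith only [e2, e1]
  have hC2r : (2 : ℝ) ≤ C := by
    rw [hC]
    push_cast
    have := Nat.cast_nonneg (α := ℝ) ⌈C2 * (4 * (C1 : ℝ) ^ 2 + 1)⌉₊
    have := Nat.cast_nonneg (α := ℝ) C1
    linarith
  obtain ⟨ε, hε, K, hK, hall⟩ := QB.all_pairsB θ G hG C (a / 4) (by linarith only [h1]) (by linarith only [h2])
  refine near_of_class f hirr hd a (by linarith only [h1]) θ a0 C1 ha0 hdat ε hε K ?_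
  intro X T S hKX hX1 hT1 _ hlo hhi hS
  refine hall X T S hKX hlo hhi fun N hN => ?_
  obtain ⟨p, c, y, z, hXN, hD⟩ := hS N hN
  have hz := fam_z_ne hθi hD
  obtain ⟨l1, l2, s, t, hred, hzst, hprod, hs, ht⟩ := hrank z hz
  have hXT : 0 < X / T ^ 2 := by positivity
  have hdot : (dot z z : ℝ) ≤ 4 * (C1 : ℝ) ^ 2 * (X / T ^ 2) ^ 2 := by
    have e1 := fam_dot_le z (C1 * X / T ^ 2) hD.hz
    refine e1.trans (le_of_eq ?_)
    ring
  have hdot0 : (0 : ℝ) ≤ dot z z := by exact_mod_cast dot_nonneg z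
  have hbd : C2 * (dot z z : ℝ) ≤ C * (X / T ^ 2) ^ 2 := by
    calc C2 * (dot z z : ℝ) ≤ C2 * (4 * (C1 : ℝ) ^ 2 * (X / T ^ 2) ^ 2) :=
          mul_le_mul_of_nonneg_left hdot (by linarith only [hC2])
      _ ≤ (C2 * (4 * (C1 : ℝ) ^ 2 + 1)) * (X / T ^ 2) ^ 2 := by
          have : 0 ≤ C2 * (X / T ^ 2) ^ 2 := by (clear * - hC2 hX1 hT1; positivity)
          linarith only [this]
      _ ≤ _ := mul_le_mul_of_nonneg_right hCr (by positivity)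
  refine ⟨l1, l2, p, c, y, s, t, hred, ?_, ?_, ?_, ?_, ?_⟩
  · refine hprod.trans ?_
    have e1 : (dot z z : ℝ) ^ (2 / 3 : ℝ) ≤
        ((4 * (C1 : ℝ) ^ 2 + 1) * (X / T ^ 2) ^ 2) ^ (2 / 3 : ℝ) := by
      refine Real.rpow_le_rpow hdot0 ?_ (by norm_num)
      have : 0 ≤ (X / T ^ 2) ^ 2 := by positivity
      linarith only [this, hdot]
    have e2 : ((4 * (C1 : ℝ) ^ 2 + 1) * (X / T ^ 2) ^ 2) ^ (2 / 3 : ℝ) =
        (4 * (C1 : ℝ) ^ 2 + 1) ^ (2 / 3 : ℝ) * (X / T ^ 2) ^ (4 / 3 : ℝ) := by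
      rw [Real.mul_rpow (by (clear * -; positivity)) (by (clear * - hX1 hT1; positivity)), ← Real.rpow_natCast (X / T ^ 2) 2,
        ← Real.rpow_mul hXT.le]
      norm_num
    have e3 : (4 * (C1 : ℝ) ^ 2 + 1) ^ (2 / 3 : ℝ) ≤ 4 * (C1 : ℝ) ^ 2 + 1 := by
      have h0 : (1 : ℝ) ≤ 4 * (C1 : ℝ) ^ 2 + 1 := by
        have : 0 ≤ (C1 : ℝ) ^ 2 := by (clear * -; positivity)
        linarith only [this]
      calc (4 * (C1 : ℝ) ^ 2 + 1) ^ (2 / 3 : ℝ) ≤ (4 * (C1 : ℝ) ^ 2 + 1) ^ (1 : ℝ) :=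
            Real.rpow_le_rpow_of_exponent_le h0 (by norm_num)
        _ = _ := Real.rpow_one _
    calc C2 * (dot z z : ℝ) ^ (2 / 3 : ℝ)
        ≤ C2 * ((4 * (C1 : ℝ) ^ 2 + 1) * (X / T ^ 2) ^ (4 / 3 : ℝ)) := by
          refine mul_le_mul_of_nonneg_left ?_ (by linarith only [hC2])
          rw [e2] at e1
          exact e1.trans (mul_le_mul_of_nonneg_right e3 (by (clear * - hX1 hT1; positivity)))
      _ = (C2 * (4 * (C1 : ℝ) ^ 2 + 1)) * (X / T ^ 2) ^ (4 / 3 : ℝ) := by ring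
      _ ≤ _ := mul_le_mul_of_nonneg_right hCr (by positivity)
  · rw [← hzst]
    exact fam_mono hD (by rw [hC]; omega) (by linarith only [hX1]) le_rfl (by linarith only [hT1])
  · exact hXN.trans (mul_le_mul_of_nonneg_right hC2r (abs_nonneg _))
  · exact hs.trans hbd
  · exact ht.trans hbd

end Vale.Agent.P018.Q
end

section

namespace Vale.Agent.P018.Q

open Polynomial Filter Topology Asymptotics Vale.Agent.P018.K

theorem near_all (f : ℤ[X]) (hirr : Irreducible (f.map (Int.castRingHom ℚ)))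
    (hd : f.natDegree = 4) (a : ℝ) (h1 : 1 ≤ a) (h2 : a ≤ 2) : Near f a := by
  rcases le_total a 1.3955 with h | h
  · exact famA f hirr hd a h1 h
  rcases le_total a 1.51 with h' | h'
  · exact famB f hirr hd a h h'
  · exact famG f hirr hd a (by linarith only [h']) h2

/-- compactness, as in `K.tail_of_adm`. -/
theorem tail_quartic (f : ℤ[X]) (hirr : Irreducible (f.map (Int.castRingHom ℚ)))
    (hd : f.natDegree = 4) :
    Tendsto (fun X : ℕ => (tail f 2 X : ℝ) / X) atTop (𝓝 0) := by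
  -- compactness
  have hcomp : FinP f 2 (Set.Icc 1 2) := by
    refine isCompact_Icc.induction_on ?_ ?_ ?_ ?_
    · exact ⟨1, 1, one_pos, one_pos, 0, fun X P _ _ h => absurd h (Set.notMem_empty _)⟩
    · intro s t hst ht
      obtain ⟨η, K, hη, hK, X0, h⟩ := ht
      exact ⟨η, K, hη, hK, X0, fun X P h1 h2 h3 => h X P h1 h2 (hst h3)⟩
    · intro s t hs ht
      exact fin_union f 2 hs ht
    · intro a ha
      obtain ⟨ε, hε, h⟩ := near_all f hirr hd a ha.1 ha.2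
      exact ⟨_, mem_nhdsWithin_of_mem_nhds (Ioo_mem_nhds (by linarith only [hε]) (by linarith)), h⟩
  obtain ⟨ε, hε, hend⟩ := near_all f hirr hd 2 (by norm_num) le_rfl
  obtain ⟨η, K, hη, hK, X1, hX1⟩ := fin_union f 2 hcomp hend
  refine tail_of_pairs f hirr 2 le_rfl (by omega) ?_
  intro A hA
  refine ⟨η, K, hη, hK, max (max X1 2) (⌈Real.exp (|Real.log A| / (2 * ε))⌉₊ + 1), ?_⟩
  intro X P hX hXP hPA
  rw [hd] at hPA
  have h1 : X1 ≤ X := le_trans (le_trans (le_max_left _ _) (le_max_left _ _)) hX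
  have h2 : 2 ≤ X := le_trans (le_trans (le_max_right _ _) (le_max_left _ _)) hX
  have h3 : ⌈Real.exp (|Real.log A| / (2 * ε))⌉₊ + 1 ≤ X := le_trans (le_max_right _ _) hX
  apply hX1 X P h1 hXP
  have hXr : (1 : ℝ) < X := by exact_mod_cast (show 1 < X by omega)
  have hXP' : (X : ℝ) ≤ P := by exact_mod_cast hXP
  have hPr : (0 : ℝ) < P := by linarith only [hXP', hXr]
  have hl : 0 < Real.log X := Real.log_pos hXr
  have hlP : Real.log X ≤ Real.log P := Real.log_le_log (by linarith only [hXr]) hXP'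
  have h4 : Real.exp (|Real.log A| / (2 * ε)) < X := by
    have h5 := Nat.le_ceil (Real.exp (|Real.log A| / (2 * ε)))
    have h6 : ((⌈Real.exp (|Real.log A| / (2 * ε))⌉₊ + 1 : ℕ) : ℝ) ≤ X := by exact_mod_cast h3
    push_cast at h6
    linarith only [h6, h5]
  have h7 : |Real.log A| / (2 * ε) < Real.log X := (Real.lt_log_iff_exp_lt (by linarith only [hXr])).2 h4
  have h8 : |Real.log A| < 2 * ε * Real.log X := by
    rw [div_lt_iff₀ (by positivity)] at h7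
    linarith only [h7]
  have h9 : 2 * Real.log P ≤ Real.log A + 4 * Real.log X := by
    have h10 := Real.log_le_log (by (clear * - hPr; positivity)) hPA
    rw [Real.log_pow, Real.log_mul hA.ne' (by positivity), Real.log_pow] at h10
    exact_mod_cast h10
  have hge : 1 ≤ Real.log P / Real.log X := by
    rw [le_div_iff₀ hl, one_mul]
    exact hlP
  by_cases hle : Real.log P / Real.log X ≤ 2
  · exact Or.inl ⟨hge, hle⟩
  · right
    push Not at hle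
    refine ⟨by linarith only [hle, hε], ?_⟩
    rw [div_lt_iff₀ hl]
    have h11 : Real.log A < 2 * ε * Real.log X := lt_of_le_of_lt (le_abs_self _) h8
    have h13 : 2 * ((2 + ε) * Real.log X) = 4 * Real.log X + 2 * ε * Real.log X := by ring
    linarith only [h11, h9]

theorem main_quartic (f : ℤ[X]) (hirr : Irreducible (f.map (Int.castRingHom ℚ)))
    (hd : f.natDegree = 4) (hloc : ∀ p : ℕ, p.Prime → rho f (p ^ 2) < p ^ 2) :
    0 < density f 2 ∧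
      (fun X : ℕ => (countPF f 2 X : ℝ) - density f 2 * X) =o[atTop] (fun X : ℕ => (X : ℝ)) :=
  sieve_main f 2 le_rfl hirr hloc (tail_quartic f hirr hd)

end Vale.Agent.P018.Q
end

section

/-! # P018: all ranges together. -/

namespace Vale.Agent.P018.Q

open Polynomial Filter Topology Asymptotics

theorem main_all (f : ℤ[X]) (k : ℕ) (hk : 2 ≤ k)
    (hirr : Irreducible (f.map (Int.castRingHom ℚ)))
    (hloc : ∀ p : ℕ, p.Prime → rho f (p ^ k) < p ^ k)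
    (hr : f.natDegree ≤ 4 ∨ f.natDegree < 2 * k ∨ 2 * f.natDegree + 12 ≤ 7 * k ∨
      (f.natDegree : ℝ) / 4 + Real.log f.natDegree ^ 2 ≤ k) :
    0 < density f k ∧
    (fun X : ℕ => (countPF f k X : ℝ) - density f k * X) =o[atTop] (fun X : ℕ => (X : ℝ)) := by
  rcases hr with h | h
  · rcases lt_or_ge f.natDegree (2 * k) with h1 | h1
    · exact K3.main_stair f k hk hirr hloc (Or.inl h1)
    · obtain rfl : k = 2 := by omega
      exact main_quartic f hirr (by omega) hloc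
  · exact K3.main_stair f k hk hirr hloc h

end Vale.Agent.P018.Q
end
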